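import Mathlib
import Vale.Agent.P184.Defs
import Vale.Agent.P184.TDefs

set_option linter.all false

namespace AFast8ce184x6a
@[reducible] def a0.{u1, u2} {x1 : Type u1} {x2 : Type u2} [x3 : TopologicalSpace x1] [x4 : NormedRing x2] : Semiring (BoundedContinuousFunction x1 x2) := inferInstance
@[reducible] def a1.{u1, u2} {x1 : Type u1} {x2 : Type u2} [x3 : TopologicalSpace x1] [x4 : NormedRing x2] : AddCommMonoid (BoundedContinuousFunction x1 x2) := inferInstance
@[reducible] noncomputable def a2.{u1, u2} {x1 : Type u1} {x2 : Type u2} [x3 : TopologicalSpace x1] [x4 : NormedRing x2] [x5 : NormedAlgebra ℂ x2] : Module ℂ (BoundedContinuousFunction x1 x2) := inferInstance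
theorem a3 : ContinuousAdd ℂ := inferInstance
@[reducible] noncomputable def a4.{u1} {x1 : Type u1} [x2 : NormedRing x1] [x3 : NormedAlgebra ℂ x1] : Norm (x1 →L[ℂ] ℂ) := inferInstance
theorem a5 : IsSemitopologicalSemiring ℂ := inferInstance
theorem a6 : IsSemitopologicalRing ℂ := inferInstance
@[reducible] noncomputable def a7.{u1} {x1 : Type u1} [x2 : Group x1] {x3 : x1} [x4 : TopologicalSpace x1] : Module ℂ (BoundedContinuousFunction ↥(Subgroup.centralizer {x3}) ℂ) := inferInstance
theorem a8 : IsTopologicalRing ℂ := inferInstance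
theorem a9 : Algebra.IsIntegral ℝ ℂ := inferInstance
@[reducible] noncomputable def a10.{u1} {x1 : Type u1} [x2 : Group x1] {x3 : x1} [x4 : TopologicalSpace x1] : AddCommMonoid (BoundedContinuousFunction ↥(Subgroup.centralizer {x3}) ℂ) := inferInstance
end AFast8ce184x6a
attribute [local instance] AFast8ce184x6a.a0 AFast8ce184x6a.a1 AFast8ce184x6a.a2 AFast8ce184x6a.a3
  AFast8ce184x6a.a4 AFast8ce184x6a.a5 AFast8ce184x6a.a6 AFast8ce184x6a.a7 AFast8ce184x6a.a8
  AFast8ce184x6a.a9 AFast8ce184x6a.a10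
namespace AFast8ce184x6b
theorem a0 : Module.Free ℝ ℂ := inferInstance
theorem a1 : Module.Flat ℝ ℂ := inferInstance
theorem a2 : Module.FaithfullyFlat ℝ ℂ := inferInstance
theorem a3.{u1} {x1 : Type u1} [x2 : NormedRing x1] [x3 : NormedAlgebra ℂ x1] : SemilinearMapClass (x1 →L[ℂ] ℂ) (RingHom.id ℂ) x1 ℂ := inferInstance
@[reducible] noncomputable def a4 : Module ℝ ℂ := inferInstance
theorem a5 : FaithfulSMul ℝ ℂ := inferInstance
theorem a6.{u1} {x1 : Type u1} [x2 : NormedRing x1] [x3 : NormedAlgebra ℂ x1] : AddMonoidHomClass (x1 →L[ℂ] ℂ) x1 ℂ := inferInstance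
theorem a7.{u1} {x1 : Type u1} [x2 : NormedRing x1] [x3 : NormedAlgebra ℂ x1] : DistribMulActionSemiHomClass (x1 →L[ℂ] ℂ) (⇑(RingHom.id ℂ)) x1 ℂ := inferInstance
end AFast8ce184x6b
attribute [local instance] AFast8ce184x6b.a0 AFast8ce184x6b.a1 AFast8ce184x6b.a2 AFast8ce184x6b.a3
  AFast8ce184x6b.a4 AFast8ce184x6b.a5 AFast8ce184x6b.a6 AFast8ce184x6b.a7
section

namespace Vale.Agent.P184

/-- Some finite dimensional representation over `K` maps `x` to a matrix none of whose positive
powers is unipotent. -/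
def LinDetected {G : Type*} [Group G] (x : G) (K : Type*) [Field K] : Prop :=
  ∃ (n : ℕ) (ρ : G →* Matrix (Fin n) (Fin n) K), ∀ m : ℕ, 0 < m → ¬ IsNilpotent (ρ x ^ m - 1)

/-- `G` is a linear group over the field `K`. -/
def LinearOver (G : Type*) [Group G] (K : Type*) [Field K] : Prop :=
  ∃ (n : ℕ) (ρ : G →* Matrix (Fin n) (Fin n) K), Function.Injective ρ

/-- Lifting of a finite part of the multiplication table of `G` along `f : H → G`. -/
def LiftsTo {G H : Type*} [Group G] [Group H] (S : Finset G) (f : H →* G) (s : G → H) : Prop :=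
  (∀ x ∈ S, f (s x) = x) ∧ ∀ x ∈ S, ∀ y ∈ S, x * y ∈ S → s x * s y = s (x * y)

/-- The Bruhat-Tits (CN) inequality: any two points `p, q` have a midpoint `m` satisfying
the comparison inequality with Euclidean space. Every CAT(0) space has this property. -/
def HasCNMidpoints (X : Type*) [MetricSpace X] : Prop :=
  ∀ p q : X, ∃ m : X, ∀ z : X,
    dist z m ^ 2 ≤ (dist z p ^ 2 + dist z q ^ 2) / 2 - dist p q ^ 2 / 4

/-- A group is amenable: there is a left-invariant mean on bounded real functions. -/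
def IsAmenable (H : Type*) [Group H] : Prop :=
  ∃ m : (H → ℝ) → ℝ,
    (∀ f g : H → ℝ, (∃ K, ∀ h, |f h| ≤ K) → (∃ K, ∀ h, |g h| ≤ K) → m (f + g) = m f + m g) ∧
    (∀ f : H → ℝ, (∃ K, ∀ h, |f h| ≤ K) → (∀ h, 0 ≤ f h) → 0 ≤ m f) ∧
    (∀ c : ℝ, m (fun _ => c) = c) ∧
    ∀ (f : H → ℝ) (k : H), (∃ K, ∀ h, |f h| ≤ K) → m (fun h => f (k * h)) = m f

end Vale.Agent.P184
end

section

section

noncomputable section
open scoped ENNReal Topology

namespace Vale.Agent.P184

/-- `ℓ¹(G; E)` as a Banach space -/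
def L1 (G : Type*) (E : Type*) [NormedRing E] : Type _ := lp (fun _ : G => E) 1

namespace L1

variable {G : Type*} {E : Type*} [NormedRing E]

instance : NormedAddCommGroup (L1 G E) :=
  inferInstanceAs (NormedAddCommGroup (lp (fun _ : G => E) 1))

instance [NormedAlgebra ℂ E] : NormedSpace ℂ (L1 G E) :=
  inferInstanceAs (NormedSpace ℂ (lp (fun _ : G => E) 1))

instance [CompleteSpace E] : CompleteSpace (L1 G E) :=
  inferInstanceAs (CompleteSpace (lp (fun _ : G => E) 1))

/-- coordinates -/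
def co (v : L1 G E) (k : G) : E := v.1 k

theorem ext {v w : L1 G E} (h : ∀ k, v.co k = w.co k) : v = w :=
  lp.ext (funext h)

theorem co_add (v w : L1 G E) (k : G) : (v + w).co k = v.co k + w.co k := rfl

theorem co_smul [NormedAlgebra ℂ E] (c : ℂ) (v : L1 G E) (k : G) :
    (c • v).co k = c • v.co k := rfl

theorem summable_norm (v : L1 G E) : Summable fun k => ‖v.co k‖ := by
  have h := v.2.summable (by norm_num)
  simpa only [co, ENNReal.toReal_one, Real.rpow_one] using h

theorem norm_eq (v : L1 G E) : ‖v‖ = ∑' k, ‖v.co k‖ := by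
  refine (lp.norm_eq_tsum_rpow (by (clear * -; norm_num)) (v : lp (fun _ : G => E) 1)).trans ?_
  simp only [ENNReal.toReal_one, Real.rpow_one, ne_eq, one_ne_zero, not_false_eq_true, div_self, co]

/-- constructor -/
def mk (f : G → E) (hf : Summable fun k => ‖f k‖) : L1 G E :=
  (⟨f, memℓp_gen (by simpa using hf)⟩ : lp (fun _ : G => E) 1)

theorem co_mk (f : G → E) (hf : Summable fun k => ‖f k‖) (k : G) : (mk f hf).co k = f k := rfl

end L1

/-- Data of a group acting on a Banach algebra `E` together with functionals on the fibres that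
assemble to a trace on the crossed product. -/
structure CrossedData (G : Type*) [Group G] (E : Type*) [NormedRing E] [NormedAlgebra ℂ E] where
  act : G → E →L[ℂ] E
  act_one : ∀ g, act g 1 = 1
  act_id : ∀ a, act 1 a = a
  act_mul : ∀ g a b, act g (a * b) = act g a * act g b
  act_comp : ∀ g h a, act (g * h) a = act g (act h a)
  act_norm : ∀ g a, ‖act g a‖ ≤ ‖a‖
  fn : G → E →L[ℂ] ℂ
  bd : ℝ
  fn_norm : ∀ g a, ‖fn g a‖ ≤ bd * ‖a‖
  fn_comm : ∀ g h a b, fn (g * h) (a * act g b) = fn (h * g) (b * act h a)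

namespace CrossedData

variable {G : Type*} [Group G] {E : Type*} [NormedRing E] [NormedAlgebra ℂ E]
  (A : CrossedData G E)

theorem summable_shift (v : L1 G E) (g : G) :
    Summable fun k => ‖v.co (g⁻¹ * k)‖ :=
  ((Equiv.mulLeft g⁻¹).summable_iff (f := fun k => ‖v.co k‖)).2 v.summable_norm

theorem tsum_shift (v : L1 G E) (g : G) :
    ∑' k, ‖v.co (g⁻¹ * k)‖ = ‖v‖ := by
  rw [L1.norm_eq]
  exact (Equiv.mulLeft g⁻¹).tsum_eq (f := fun k => ‖v.co k‖)

theorem phi_bound (g : G) (m : E) (v : L1 G E) (k : G) :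
    ‖m * A.act g (v.co (g⁻¹ * k))‖ ≤ ‖m‖ * ‖v.co (g⁻¹ * k)‖ :=
  (norm_mul_le _ _).trans (mul_le_mul_of_nonneg_left (A.act_norm _ _) (norm_nonneg _))

theorem phi_summable (g : G) (m : E) (v : L1 G E) :
    Summable fun k => ‖m * A.act g (v.co (g⁻¹ * k))‖ :=
  Summable.of_nonneg_of_le (fun _ => norm_nonneg _) (A.phi_bound g m v)
    ((summable_shift v g).mul_left _)

/-- the operator `m u_g` on `ℓ¹(G; E)` -/
def phiFun (g : G) (m : E) (v : L1 G E) : L1 G E :=
  L1.mk (fun k => m * A.act g (v.co (g⁻¹ * k))) (A.phi_summable g m v)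

theorem phiFun_co (g : G) (m : E) (v : L1 G E) (k : G) :
    (A.phiFun g m v).co k = m * A.act g (v.co (g⁻¹ * k)) := rfl

/-- the operator `m u_g` on `ℓ¹(G; E)` -/
def phi (g : G) (m : E) : L1 G E →L[ℂ] L1 G E :=
  LinearMap.mkContinuous
    { toFun := A.phiFun g m
      map_add' := fun v w => L1.ext fun k => by
        simp [phiFun_co, L1.co_add, mul_add]
      map_smul' := fun c v => L1.ext fun k => by
        simp [phiFun_co, L1.co_smul] } ‖m‖ (fun v => by
      show ‖A.phiFun g m v‖ ≤ _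
      rw [L1.norm_eq, ← tsum_shift v g, ← tsum_mul_left]
      exact Summable.tsum_le_tsum (A.phi_bound g m v) (A.phi_summable g m v)
        ((summable_shift v g).mul_left _))

theorem phi_co (g : G) (m : E) (v : L1 G E) (k : G) :
    (A.phi g m v).co k = m * A.act g (v.co (g⁻¹ * k)) := rfl

theorem phi_norm (g : G) (m : E) : ‖A.phi g m‖ ≤ ‖m‖ :=
  LinearMap.mkContinuous_norm_le _ (norm_nonneg _) _

theorem op_ext {a b : L1 G E →L[ℂ] L1 G E} (h : ∀ v k, (a v).co k = (b v).co k) : a = b :=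
  ContinuousLinearMap.ext fun v => L1.ext fun k => h v k

theorem mul_app (a b : L1 G E →L[ℂ] L1 G E) (v : L1 G E) : (a * b) v = a (b v) := rfl

theorem phi_mul (g h : G) (m n : E) :
    A.phi g m * A.phi h n = A.phi (g * h) (m * A.act g n) := by
  refine op_ext fun v k => ?_
  rw [mul_app, phi_co, phi_co, phi_co, A.act_mul, A.act_comp, mul_assoc, mul_inv_rev, mul_assoc]

/-- `phi g` as a linear map in the coefficient -/
def phiL (g : G) : E →L[ℂ] (L1 G E →L[ℂ] L1 G E) :=
  LinearMap.mkContinuous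
    { toFun := fun m => A.phi g m
      map_add' := fun m n => op_ext fun v k => by
        rw [add_apply, L1.co_add, phi_co, phi_co, phi_co, add_mul]
      map_smul' := fun c m => op_ext fun v k => by
        rw [RingHom.id_apply, smul_apply, L1.co_smul, phi_co, phi_co,
          smul_mul_assoc] } 1 (fun m => by
      simpa using A.phi_norm g m)

theorem phiL_apply (g : G) (m : E) : A.phiL g m = A.phi g m := rfl

theorem fn_summable (v : L1 G E) : Summable fun k => A.fn k (v.co k) :=
  Summable.of_norm_bounded (v.summable_norm.mul_left A.bd) (fun k => A.fn_norm k (v.co k))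

/-- the functional on `ℓ¹(G; E)` -/
def fnl : L1 G E →L[ℂ] ℂ :=
  LinearMap.mkContinuous
    { toFun := fun v => ∑' k, A.fn k (v.co k)
      map_add' := fun v w => by
        rw [← (A.fn_summable v).tsum_add (A.fn_summable w)]
        simp [L1.co_add]
      map_smul' := fun c v => by
        rw [RingHom.id_apply, smul_eq_mul, ← tsum_mul_left]
        simp [L1.co_smul] } A.bd (fun v => by
      show ‖∑' k, A.fn k (v.co k)‖ ≤ _
      rw [L1.norm_eq, ← tsum_mul_left]
      exact tsum_of_norm_bounded (v.summable_norm.mul_left A.bd).hasSum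
        (fun k => A.fn_norm k (v.co k)))

theorem fnl_apply (v : L1 G E) : A.fnl v = ∑' k, A.fn k (v.co k) := rfl

/-- the vector `δ₁` -/
def del : L1 G E := by
  classical exact (lp.single 1 (1 : G) (1 : E) : lp (fun _ : G => E) 1)

theorem del_one : (del : L1 G E).co 1 = 1 := by
  classical
  unfold del L1.co
  exact lp.single_apply_self (E := fun _ : G => E) 1 (1 : G) (1 : E)

theorem del_ne {k : G} (hk : k ≠ 1) : (del : L1 G E).co k = 0 := by
  classical
  unfold del L1.co
  exact lp.single_apply_ne (E := fun _ : G => E) 1 (1 : G) (1 : E) hk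

/-- the trace functional on operators -/
def tr : (L1 G E →L[ℂ] L1 G E) →L[ℂ] ℂ :=
  A.fnl.comp (ContinuousLinearMap.apply ℂ (L1 G E) (del : L1 G E))

theorem tr_phi (g : G) (m : E) : A.tr (A.phi g m) = A.fn g m := by
  simp only [tr, ContinuousLinearMap.comp_apply, ContinuousLinearMap.apply_apply, fnl_apply]
  rw [tsum_eq_single g]
  · rw [phi_co, inv_mul_cancel, del_one, A.act_one, mul_one]
  · intro k hk
    have : g⁻¹ * k ≠ 1 := fun h => hk (by
      rw [inv_mul_eq_one] at h; exact h.symm)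
    rw [phi_co, del_ne this, map_zero, mul_zero, map_zero]

/-- the span of the elementary operators -/
def spanPhi : Submodule ℂ (L1 G E →L[ℂ] L1 G E) :=
  Submodule.span ℂ (Set.range fun p : G × E => A.phi p.1 p.2)

/-- the closed span of the elementary operators -/
def clos : Submodule ℂ (L1 G E →L[ℂ] L1 G E) :=
  (A.spanPhi).topologicalClosure

theorem phi_mem_clos (g : G) (m : E) : A.phi g m ∈ A.clos :=
  (A.spanPhi).le_topologicalClosure (Submodule.subset_span ⟨(g, m), rfl⟩)

theorem clos_closed : IsClosed (A.clos : Set (L1 G E →L[ℂ] L1 G E)) :=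
  (A.spanPhi).isClosed_topologicalClosure

/-- induction principle for the closed span -/
theorem clos_induction {P : (L1 G E →L[ℂ] L1 G E) → Prop}
    (hc : IsClosed {a | P a}) (h0 : P 0) (hp : ∀ g m, P (A.phi g m))
    (ha : ∀ a b, P a → P b → P (a + b)) (hs : ∀ (c : ℂ) a, P a → P (c • a))
    {a : L1 G E →L[ℂ] L1 G E} (h : a ∈ A.clos) : P a := by
  have h1 : (A.spanPhi : Set _) ⊆ {a | P a} := by
    intro b hb
    refine Submodule.span_induction (p := fun x _ => P x) ?_ h0 (fun x y _ _ => ha x y)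
      (fun c x _ => hs c x) hb
    rintro _ ⟨⟨g, m⟩, rfl⟩
    exact hp g m
  exact closure_minimal h1 hc h

theorem mul_mem_clos {a b : L1 G E →L[ℂ] L1 G E}
    (ha : a ∈ A.clos) (hb : b ∈ A.clos) : a * b ∈ A.clos := by
  refine A.clos_induction (P := fun a => a * b ∈ A.clos) ?_ ?_ ?_ ?_ ?_ ha
  · exact A.clos_closed.preimage (continuous_mul_const b)
  · rw [zero_mul]; exact A.clos.zero_mem
  · intro g m
    refine A.clos_induction (P := fun b => A.phi g m * b ∈ A.clos) ?_ ?_ ?_ ?_ ?_ hb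
    · exact A.clos_closed.preimage (continuous_const_mul _)
    · rw [mul_zero]; exact A.clos.zero_mem
    · intro h n
      rw [phi_mul]; exact A.phi_mem_clos _ _
    · intro x y hx hy
      rw [mul_add]; exact A.clos.add_mem hx hy
    · intro c x hx
      rw [mul_smul_comm]; exact A.clos.smul_mem c hx
  · intro x y hx hy
    rw [add_mul]; exact A.clos.add_mem hx hy
  · intro c x hx
    rw [smul_mul_assoc]; exact A.clos.smul_mem c hx

theorem tr_comm {a b : L1 G E →L[ℂ] L1 G E}
    (ha : a ∈ A.clos) (hb : b ∈ A.clos) : A.tr (a * b) = A.tr (b * a) := by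
  refine A.clos_induction (P := fun a => A.tr (a * b) = A.tr (b * a)) ?_ ?_ ?_ ?_ ?_ ha
  · exact isClosed_eq (A.tr.continuous.comp (continuous_mul_const b))
      (A.tr.continuous.comp (continuous_const_mul b))
  · rw [zero_mul, mul_zero]
  · intro g m
    refine A.clos_induction
      (P := fun b => A.tr (A.phi g m * b) = A.tr (b * A.phi g m)) ?_ ?_ ?_ ?_ ?_ hb
    · exact isClosed_eq (A.tr.continuous.comp (continuous_const_mul _))
        (A.tr.continuous.comp (continuous_mul_const _))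
    · rw [zero_mul, mul_zero]
    · intro h n
      rw [phi_mul, phi_mul, A.tr_phi, A.tr_phi, A.fn_comm]
    · intro x y hx hy
      rw [mul_add, add_mul, map_add, map_add, hx, hy]
    · intro c x hx
      rw [mul_smul_comm, smul_mul_assoc, map_smul, map_smul, hx]
  · intro x y hx hy
    rw [mul_add, add_mul, map_add, map_add, hx, hy]
  · intro c x hx
    rw [mul_smul_comm, smul_mul_assoc, map_smul, map_smul, hx]

theorem one_mem_clos : (1 : L1 G E →L[ℂ] L1 G E) ∈ A.clos := by
  have h : A.phi 1 1 = 1 := by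
    refine op_ext fun v k => ?_
    rw [phi_co, A.act_id, inv_one, one_mul, one_mul]; rfl
  rw [← h]; exact A.phi_mem_clos 1 1

theorem pow_mem_clos {a : L1 G E →L[ℂ] L1 G E} (ha : a ∈ A.clos) (n : ℕ) :
    a ^ n ∈ A.clos := by
  induction n with
  | zero => rw [pow_zero]; exact A.one_mem_clos
  | succ n ih => rw [pow_succ]; exact A.mul_mem_clos ih ha

end CrossedData

/-! ### Traces of close idempotents -/

section Idem

variable {R : Type*} [NormedRing R] [NormedAlgebra ℂ R] {S : Submodule ℂ R} {T : R →L[ℂ] ℂ}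

theorem trace_pow_step
    (hmul : ∀ {a b : R}, a ∈ S → b ∈ S → a * b ∈ S)
    (hT : ∀ {a b : R}, a ∈ S → b ∈ S → T (a * b) = T (b * a)) {p q a : R}
    (hp : p * p = p) (hq : q * q = q) (hpS : p ∈ S) (hqS : q ∈ S) (haS : a ∈ S)
    (hap : a * p = p * a) (haq : a * q = q * a) :
    T (a * ((p - q) ^ 2 * (p - q))) = T (a * (p - q)) := by
  have e1 : a * ((p - q) ^ 2 * (p - q)) = a * (p - q) - (p * (a * q * p) - q * (a * p * q)) := by
    have hap' : ∀ x, p * (a * x) = a * (p * x) := fun x => by rw [← mul_assoc, ← hap, mul_assoc]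
    have haq' : ∀ x, q * (a * x) = a * (q * x) := fun x => by rw [← mul_assoc, ← haq, mul_assoc]
    simp only [pow_two, mul_sub, sub_mul, hp, hq, mul_assoc, hap', haq']
    abel
  have e2 : T (p * (a * q * p)) = T (q * (a * p * q)) := by
    have m1 : a * q * p ∈ S := hmul (hmul haS hqS) hpS
    have m2 : a * p * q ∈ S := hmul (hmul haS hpS) hqS
    rw [hT hpS m1, hT hqS m2, mul_assoc, hp, mul_assoc (a * p), hq,
      hT (hmul haS hqS) hpS, ← mul_assoc, hap]
  rw [e1, map_sub, map_sub, e2, sub_self, sub_zero]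

theorem trace_pow
    (hone : (1 : R) ∈ S)
    (hmul : ∀ {a b : R}, a ∈ S → b ∈ S → a * b ∈ S)
    (hT : ∀ {a b : R}, a ∈ S → b ∈ S → T (a * b) = T (b * a)) {p q : R}
    (hp : p * p = p) (hq : q * q = q) (hpS : p ∈ S) (hqS : q ∈ S) (n : ℕ) :
    T (((p - q) ^ 2) ^ n * (p - q)) = T (p - q) := by
  have hcp : (p - q) ^ 2 * p = p * (p - q) ^ 2 := by
    have hp' : ∀ x, p * (p * x) = p * x := fun x => by rw [← mul_assoc, hp]
    simp only [pow_two, mul_sub, sub_mul, mul_assoc, hp, hq, hp']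
    abel
  have hcq : (p - q) ^ 2 * q = q * (p - q) ^ 2 := by
    have hq' : ∀ x, q * (q * x) = q * x := fun x => by rw [← mul_assoc, hq]
    simp only [pow_two, mul_sub, sub_mul, mul_assoc, hp, hq, hq']
    abel
  have hsq : (p - q) ^ 2 ∈ S := by
    rw [pow_two]; exact hmul (S.sub_mem hpS hqS) (S.sub_mem hpS hqS)
  induction n with
  | zero => simp only [pow_zero, one_mul, map_sub]
  | succ n ih =>
    have hS : ((p - q) ^ 2) ^ n ∈ S := by
      clear ih
      induction n with
      | zero => rw [pow_zero]; exact hone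
      | succ n ih => rw [pow_succ]; exact hmul ih hsq
    rw [pow_succ, mul_assoc, trace_pow_step hmul hT hp hq hpS hqS hS, ih]
    · exact (Commute.pow_left hcp n).eq
    · exact (Commute.pow_left hcq n).eq

theorem trace_eq_of_close
    (hone : (1 : R) ∈ S)
    (hmul : ∀ {a b : R}, a ∈ S → b ∈ S → a * b ∈ S)
    (hT : ∀ {a b : R}, a ∈ S → b ∈ S → T (a * b) = T (b * a)) {p q : R}
    (hp : p * p = p) (hq : q * q = q) (hpS : p ∈ S) (hqS : q ∈ S) (hpq : ‖p - q‖ < 1) :
    T p = T q := by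
  have h1 : ∀ n : ℕ, ‖T (p - q)‖ ≤ ‖T‖ * (‖p - q‖ ^ 2) ^ n * ‖p - q‖ := by
    intro n
    rw [← trace_pow hone hmul hT hp hq hpS hqS n]
    refine (T.le_opNorm _).trans ?_
    rw [mul_assoc]
    refine mul_le_mul_of_nonneg_left ?_ (norm_nonneg _)
    rw [← pow_mul, ← pow_succ, ← pow_mul, ← pow_succ]
    exact norm_pow_le' _ (Nat.succ_pos _)
  have h2 : Filter.Tendsto (fun n : ℕ => ‖T‖ * (‖p - q‖ ^ 2) ^ n * ‖p - q‖) Filter.atTop
      (nhds (‖T‖ * 0 * ‖p - q‖)) := by
    refine (Filter.Tendsto.const_mul _ ?_).mul_const _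
    exact tendsto_pow_atTop_nhds_zero_of_lt_one (by (clear * -; positivity))
      (pow_lt_one₀ (norm_nonneg _) hpq two_ne_zero)
  have h3 : ‖T (p - q)‖ ≤ ‖T‖ * 0 * ‖p - q‖ := ge_of_tendsto' h2 h1
  rw [mul_zero, zero_mul] at h3
  have h4 := norm_le_zero_iff.1 h3
  rw [map_sub] at h4
  exact sub_eq_zero.1 h4

theorem trace_path
    (hone : (1 : R) ∈ S)
    (hmul : ∀ {a b : R}, a ∈ S → b ∈ S → a * b ∈ S)
    (hT : ∀ {a b : R}, a ∈ S → b ∈ S → T (a * b) = T (b * a)) {p : ℝ → R}
    (hc : Continuous p) (hp : ∀ t, p t * p t = p t) (hpS : ∀ t, p t ∈ S) (s t : ℝ) :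
    T (p s) = T (p t) := by
  have h : IsLocallyConstant fun t => T (p t) := by
    rw [IsLocallyConstant.iff_eventually_eq]
    intro x
    have h1 : ∀ᶠ y in nhds x, dist (p y) (p x) < 1 :=
      (hc.tendsto x).eventually (Metric.ball_mem_nhds (p x) one_pos)
    filter_upwards [h1] with y hy
    rw [dist_eq_norm] at hy
    exact trace_eq_of_close hone hmul hT (hp y) (hp x) (hpS y) (hpS x) hy
  exact h.apply_eq_of_preconnectedSpace s t

theorem tsum_conv {G : Type*} [Group G] {R : Type*} [NormedRing R] [CompleteSpace R]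
    (f : G → R) (hf : Summable fun g => ‖f g‖) :
    (∑' g, f g) * (∑' g, f g) = ∑' k, ∑' h, f h * f (h⁻¹ * k) := by
  have h1 := tsum_mul_tsum_of_summable_norm hf hf
  have h2 := summable_mul_of_summable_norm hf hf
  let φ : G × G ≃ G × G :=
    { toFun := fun z => (z.2, z.2⁻¹ * z.1)
      invFun := fun z => (z.1 * z.2, z.1)
      left_inv := fun z => by simp only [mul_inv_cancel_left, Prod.mk.eta]
      right_inv := fun z => by simp only [inv_mul_cancel_left, Prod.mk.eta] }
  rw [h1, ← φ.tsum_eq]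
  exact (φ.summable_iff.2 h2).tsum_prod

end Idem

/-! ### The deformation -/

namespace CrossedData

variable {G : Type*} [Group G] {E : Type*} [NormedRing E] [NormedAlgebra ℂ E] [CompleteSpace E]
  (A : CrossedData G E)

theorem deformation (w : ℝ → G → E) (hwc : ∀ g, Continuous fun t => w t g)
    (hwn : ∀ t g b, ‖w t g * b‖ ≤ ‖b‖) (hwm : ∀ t g h, w t (g * h) = w t g * A.act g (w t h))
    (hwz : ∀ t g b, w t g * b = b * w t g)
    (a : G → E) (hai : ∀ g h, A.act g (a h) = a h) (has : Summable fun g => ‖a g‖)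
    (haa : ∀ k, ∑' h, a h * a (h⁻¹ * k) = a k) (s t : ℝ) :
    ∑' g, A.fn g (w s g * a g) = ∑' g, A.fn g (w t g * a g) := by
  -- the path of operators
  set p : ℝ → (L1 G E →L[ℂ] L1 G E) := fun t => ∑' g, A.phi g (w t g * a g) with hpdef
  have hb : ∀ t g, ‖A.phi g (w t g * a g)‖ ≤ ‖a g‖ := fun t g =>
    (A.phi_norm g _).trans (hwn t g _)
  have hsn : ∀ t, Summable fun g => ‖A.phi g (w t g * a g)‖ := fun t =>
    Summable.of_nonneg_of_le (fun _ => norm_nonneg _) (hb t) has
  have hsum : ∀ t, Summable fun g => A.phi g (w t g * a g) := fun t => (hsn t).of_norm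
  have hcont : Continuous p := by
    refine continuous_tsum (fun g => ?_) has (fun g t => hb t g)
    exact (A.phiL g).continuous.comp ((hwc g).mul continuous_const)
  have hmem : ∀ t, p t ∈ A.clos := by
    intro t
    refine A.clos_closed.mem_of_tendsto (hsum t).hasSum (Filter.Eventually.of_forall fun F => ?_)
    exact A.clos.sum_mem fun g _ => A.phi_mem_clos _ _
  have htr : ∀ t, A.tr (p t) = ∑' g, A.fn g (w t g * a g) := by
    intro t
    rw [hpdef]
    simp only
    rw [A.tr.map_tsum (hsum t)]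
    exact tsum_congr fun g => A.tr_phi g _
  have hidem : ∀ t, p t * p t = p t := by
    intro t
    have h1 : p t * p t = ∑' k, ∑' h, A.phi h (w t h * a h) *
        A.phi (h⁻¹ * k) (w t (h⁻¹ * k) * a (h⁻¹ * k)) :=
      tsum_conv (fun g => A.phi g (w t g * a g)) (hsn t)
    rw [h1]
    refine tsum_congr fun k => ?_
    have h3 : ∀ h : G, A.phi h (w t h * a h) * A.phi (h⁻¹ * k) (w t (h⁻¹ * k) * a (h⁻¹ * k)) =
        A.phiL k (w t k * (a h * a (h⁻¹ * k))) := by
      intro h
      have hk : h * (h⁻¹ * k) = k := mul_inv_cancel_left h k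
      rw [A.phi_mul, A.act_mul, hai, hk, A.phiL_apply]
      congr 1
      have hz : ∀ b, A.act h (w t (h⁻¹ * k)) * b = b * A.act h (w t (h⁻¹ * k)) := by
        intro b
        have h5 : b = A.act h (A.act h⁻¹ b) := by
          rw [← A.act_comp, mul_inv_cancel, A.act_id]
        rw [h5, ← A.act_mul, ← A.act_mul, hwz]
      have h6 : w t k = w t h * A.act h (w t (h⁻¹ * k)) := by
        rw [← hwm, hk]
      rw [h6, mul_assoc, mul_assoc, ← mul_assoc (a h), ← hz (a h), mul_assoc]
    have hsa : Summable fun h => a h * a (h⁻¹ * k) := by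
      refine Summable.of_norm_bounded (has.mul_right (∑' g, ‖a g‖)) fun h => ?_
      refine (norm_mul_le _ _).trans (mul_le_mul_of_nonneg_left ?_ (norm_nonneg _))
      exact has.le_tsum _ fun _ _ => norm_nonneg _
    rw [tsum_congr h3, ← (A.phiL k).map_tsum (hsa.mul_left _), hsa.tsum_mul_left, haa,
      A.phiL_apply]
  have key := trace_path (T := A.tr) A.one_mem_clos A.mul_mem_clos A.tr_comm hcont hidem hmem s t
  rw [htr, htr] at key
  exact key

end CrossedData

end Vale.Agent.P184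
end
end
end
namespace AFast8ce184x487a
@[reducible] noncomputable def a0.{u1, u2} {x1 : Type u1} {x2 : Type u2} [x3 : NormedRing x2] [x4 : NormedAlgebra ℂ x2] : MulAction ℂ (Vale.Agent.P184.L1 x1 x2) := inferInstance
@[reducible] noncomputable def a1.{u1, u2} {x1 : Type u1} {x2 : Type u2} [x3 : NormedRing x2] : AddCommMonoid (Vale.Agent.P184.L1 x1 x2) := inferInstance
@[reducible] noncomputable def a2.{u1, u2} {x1 : Type u1} {x2 : Type u2} [x3 : NormedRing x2] : Zero (Vale.Agent.P184.L1 x1 x2) := inferInstance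
@[reducible] noncomputable def a3.{u1, u2} {x1 : Type u1} {x2 : Type u2} [x3 : NormedRing x2] : AddMonoid (Vale.Agent.P184.L1 x1 x2) := inferInstance
@[reducible] noncomputable def a4.{u1, u2} {x1 : Type u1} {x2 : Type u2} [x3 : NormedRing x2] : AddCommGroup (Vale.Agent.P184.L1 x1 x2) := inferInstance
@[reducible] noncomputable def a5.{u1, u2} {x1 : Type u1} {x2 : Type u2} [x3 : NormedRing x2] : AddZero (Vale.Agent.P184.L1 x1 x2) := inferInstance
@[reducible] noncomputable def a6.{u1, u2} {x1 : Type u1} {x2 : Type u2} [x3 : NormedRing x2] : AddZeroClass (Vale.Agent.P184.L1 x1 x2) := inferInstance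
end AFast8ce184x487a
attribute [local instance] AFast8ce184x487a.a0 AFast8ce184x487a.a1 AFast8ce184x487a.a2
  AFast8ce184x487a.a3 AFast8ce184x487a.a4 AFast8ce184x487a.a5 AFast8ce184x487a.a6
namespace AFast8ce184x487b
@[reducible] noncomputable def a0.{u1, u2} {x1 : Type u1} {x2 : Type u2} [x3 : NormedRing x2] [x4 : NormedAlgebra ℂ x2] : SMul ℂ (Vale.Agent.P184.L1 x1 x2) := inferInstance
end AFast8ce184x487b
attribute [local instance] AFast8ce184x487b.a0

section

section

namespace Vale.Agent.P184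

open Filter Topology

section Newton

variable {R : Type*} [NormedRing R]

/-- Newton step for idempotents. -/
def newton (x : R) : R := 3 * (x * x) - 2 * (x * x * x)

/-- iterates -/
def newtonSeq (x : R) : ℕ → R
  | 0 => x
  | n + 1 => newton (newtonSeq x n)

lemma newton_sub (x : R) : newton x - x = -((2 * x - 1) * (x * x - x)) := by
  unfold newton
  noncomm_ring

lemma newton_defect (x : R) :
    newton x * newton x - newton x =
      (x * x - x) * (x * x - x) * (4 * (x * x - x) - 3) := by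
  unfold newton
  noncomm_ring

variable [NormOneClass R]

lemma norm_two_le : ‖(2 : R)‖ ≤ 2 := by
  have : (2 : R) = 1 + 1 := by norm_num
  rw [this]
  refine (norm_add_le _ _).trans ?_
  rw [norm_one]; norm_num

lemma norm_three_le : ‖(3 : R)‖ ≤ 3 := by
  have : (3 : R) = 2 + 1 := by norm_num
  rw [this]
  refine (norm_add_le _ _).trans ?_
  rw [norm_one]
  linarith [norm_two_le (R := R)]

lemma norm_four_le : ‖(4 : R)‖ ≤ 4 := by
  have : (4 : R) = 3 + 1 := by norm_num
  rw [this]
  refine (norm_add_le _ _).trans ?_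
  rw [norm_one]
  linarith [norm_three_le (R := R)]

lemma newton_defect_le (x : R) (h : ‖x * x - x‖ ≤ 1 / 16) :
    ‖newton x * newton x - newton x‖ ≤ 1 / 4 * ‖x * x - x‖ := by
  rw [newton_defect]
  set y := x * x - x
  have h0 := norm_nonneg y
  calc ‖y * y * (4 * y - 3)‖ ≤ ‖y * y‖ * ‖4 * y - 3‖ := norm_mul_le _ _
    _ ≤ (‖y‖ * ‖y‖) * (4 * ‖y‖ + 3) := by
        refine mul_le_mul (norm_mul_le _ _) ?_ (norm_nonneg _) (by positivity)
        refine (norm_sub_le _ _).trans ?_
        refine add_le_add ?_ norm_three_le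
        refine (norm_mul_le _ _).trans ?_
        exact mul_le_mul_of_nonneg_right norm_four_le h0
    _ ≤ 1 / 4 * ‖y‖ := by (clear * - h h0; nlinarith)

lemma newton_step_le (x : R) : ‖newton x - x‖ ≤ (2 * ‖x‖ + 1) * ‖x * x - x‖ := by
  rw [newton_sub, norm_neg]
  refine (norm_mul_le _ _).trans ?_
  refine mul_le_mul_of_nonneg_right ?_ (norm_nonneg _)
  refine (norm_sub_le _ _).trans ?_
  rw [norm_one]
  have := norm_mul_le (2 : R) x
  have h2 : ‖(2 : R)‖ * ‖x‖ ≤ 2 * ‖x‖ := mul_le_mul_of_nonneg_right norm_two_le (norm_nonneg _)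
  linarith only [this, h2]

lemma newtonSeq_defect (x : R) (h : ‖x * x - x‖ ≤ 1 / 16) (n : ℕ) :
    ‖newtonSeq x n * newtonSeq x n - newtonSeq x n‖ ≤ (1 / 4) ^ n * ‖x * x - x‖ := by
  induction n with
  | zero => simp only [newtonSeq, one_div, pow_zero, one_mul, Std.le_refl]
  | succ n ih =>
    have h1 : ‖newtonSeq x n * newtonSeq x n - newtonSeq x n‖ ≤ 1 / 16 := by
      refine ih.trans ?_
      have : (1 / 4 : ℝ) ^ n ≤ 1 := pow_le_one₀ (by (clear * -; norm_num)) (by norm_num)
      nlinarith [norm_nonneg (x * x - x)]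
    refine (newton_defect_le _ h1).trans ?_
    rw [pow_succ]
    linarith only [ih]

/-- uniform bound on the iterates -/
lemma newtonSeq_bound (x : R) (h : ‖x * x - x‖ ≤ 1 / 16) (n : ℕ) :
    2 * ‖newtonSeq x n‖ + 1 ≤ (2 * ‖x‖ + 1) * (2 - (1 / 4) ^ n) := by
  induction n with
  | zero => simp only [newtonSeq, one_div, pow_zero]; norm_num
  | succ n ih =>
    have h1 := newton_step_le (newtonSeq x n)
    have h2 := newtonSeq_defect x h n
    have h3 : ‖newtonSeq x (n + 1)‖ ≤ ‖newtonSeq x n‖ + ‖newton (newtonSeq x n) - newtonSeq x n‖ := by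
      have : newtonSeq x (n + 1) = newtonSeq x n + (newton (newtonSeq x n) - newtonSeq x n) := by
        simp [newtonSeq]
      rw [this]
      exact norm_add_le _ _
    set B := 2 * ‖newtonSeq x n‖ + 1
    set d := ‖newtonSeq x n * newtonSeq x n - newtonSeq x n‖
    set q := (1 / 4 : ℝ) ^ n with hq
    have hq0 : 0 < q := by positivity
    have hq1 : q ≤ 1 := pow_le_one₀ (by norm_num) (by norm_num)
    have hB0 : 0 ≤ B := by (clear * -; positivity)
    have hd : d ≤ q / 16 := by
      refine h2.trans ?_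
      (by_contra nlg; linarith only [nlg, mul_nonneg (sub_nonneg.2 h) (le_of_lt (sub_pos.2 hq0)), mul_nonneg (le_of_lt (sub_pos.2 (not_le.1 nlg))) (sub_nonneg.2 hq1), mul_pos (sub_pos.2 (not_le.1 nlg)) (sub_pos.2 hq0)])
    have hB : B ≤ (2 * ‖x‖ + 1) * (2 - q) := ih
    have hx0 : 0 ≤ 2 * ‖x‖ + 1 := by (clear * -; positivity)
    rw [pow_succ, ← hq]
    have h4 : 2 * ‖newtonSeq x (n + 1)‖ + 1 ≤ B + 2 * (B * d) := by
      have : ‖newton (newtonSeq x n) - newtonSeq x n‖ ≤ B * d := h1
      have hBdef : B = 2 * ‖newtonSeq x n‖ + 1 := rfl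
      linarith only [this, h3]
    have h5 : B * d ≤ ((2 * ‖x‖ + 1) * (2 - q)) * (q / 16) :=
      mul_le_mul hB hd (norm_nonneg _) (by linarith only [hB, hB0])
    have h6 : (2 - q) + (2 - q) * q / 8 ≤ 2 - q * (1 / 4) := by (by_contra nlg; linarith only [mul_nonneg (le_of_lt (sub_pos.2 hq0)) (sub_nonneg.2 hq1), mul_pos (sub_pos.2 hq0) (sub_pos.2 hq0), mul_nonneg (le_of_lt (sub_pos.2 (not_le.1 nlg))) (sub_nonneg.2 hq1), mul_pos (sub_pos.2 (not_le.1 nlg)) (sub_pos.2 hq0)])
    have h7 := mul_le_mul_of_nonneg_left h6 hx0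
    linarith only [h7, h5, h4, hB]

lemma newtonSeq_step (x : R) (h : ‖x * x - x‖ ≤ 1 / 16) (n : ℕ) :
    ‖newtonSeq x (n + 1) - newtonSeq x n‖ ≤
      2 * (2 * ‖x‖ + 1) * ‖x * x - x‖ * (1 / 4) ^ n := by
  have h1 := newton_step_le (newtonSeq x n)
  have h2 := newtonSeq_defect x h n
  have h3 := newtonSeq_bound x h n
  have hq0 : (0 : ℝ) < (1 / 4) ^ n := by positivity
  change ‖newton (newtonSeq x n) - newtonSeq x n‖ ≤ _
  refine h1.trans ?_
  calc (2 * ‖newtonSeq x n‖ + 1) * ‖newtonSeq x n * newtonSeq x n - newtonSeq x n‖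
      ≤ ((2 * ‖x‖ + 1) * 2) * ((1 / 4) ^ n * ‖x * x - x‖) := by
        refine mul_le_mul ?_ h2 (norm_nonneg _) (by positivity)
        have hx0 : 0 ≤ 2 * ‖x‖ + 1 := by positivity
        linarith only [mul_nonneg (le_of_lt (sub_pos.2 hq0)) (sub_nonneg.2 hx0), mul_nonneg (mul_self_nonneg (1 : ℝ)) (sub_nonneg.2 h3)]
    _ = _ := by ring

/-- Near an almost idempotent element of a closed subring there is an idempotent. -/
theorem exists_idempotent_near [CompleteSpace R] {S : Set R} (hS : IsClosed S)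
    (hmul : ∀ a ∈ S, ∀ b ∈ S, a * b ∈ S) (hadd : ∀ a ∈ S, ∀ b ∈ S, a + b ∈ S)
    (hneg : ∀ a ∈ S, -a ∈ S) (x : R) (hx : x ∈ S) (h : ‖x * x - x‖ ≤ 1 / 16) :
    ∃ f ∈ S, f * f = f ∧ ‖f - x‖ ≤ 3 * (2 * ‖x‖ + 1) * ‖x * x - x‖ := by
  have hmem : ∀ n, newtonSeq x n ∈ S := by
    intro n
    induction n with
    | zero => exact hx
    | succ n ih =>
      have h2 := hmul _ ih _ ih
      have h3 := hmul _ h2 _ ih
      have : newtonSeq x (n + 1) = (newtonSeq x n * newtonSeq x n +
          newtonSeq x n * newtonSeq x n + newtonSeq x n * newtonSeq x n) +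
          (-(newtonSeq x n * newtonSeq x n * newtonSeq x n) +
          -(newtonSeq x n * newtonSeq x n * newtonSeq x n)) := by
        change newton (newtonSeq x n) = _
        unfold newton
        noncomm_ring
      rw [this]
      exact hadd _ (hadd _ (hadd _ h2 _ h2) _ h2) _ (hadd _ (hneg _ h3) _ (hneg _ h3))
  set C := 2 * (2 * ‖x‖ + 1) * ‖x * x - x‖ with hC
  have hdist : ∀ n, dist (newtonSeq x n) (newtonSeq x (n + 1)) ≤ C * (1 / 4) ^ n := by
    intro n
    rw [dist_comm, dist_eq_norm]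
    exact newtonSeq_step x h n
  have hcau : CauchySeq (newtonSeq x) :=
    cauchySeq_of_le_geometric (1 / 4) C (by (clear * -; norm_num)) hdist
  obtain ⟨f, hf⟩ := cauchySeq_tendsto_of_complete hcau
  refine ⟨f, hS.mem_of_tendsto hf (Eventually.of_forall hmem), ?_, ?_⟩
  · have h1 : Tendsto (fun n => newtonSeq x n * newtonSeq x n - newtonSeq x n) atTop
        (𝓝 (f * f - f)) := (hf.mul hf).sub hf
    have h2 : Tendsto (fun n => newtonSeq x n * newtonSeq x n - newtonSeq x n) atTop (𝓝 0) := by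
      apply squeeze_zero_norm (newtonSeq_defect x h)
      have : Tendsto (fun n : ℕ => (1 / 4 : ℝ) ^ n * ‖x * x - x‖) atTop
          (𝓝 (0 * ‖x * x - x‖)) :=
        (tendsto_pow_atTop_nhds_zero_of_lt_one (by norm_num) (by norm_num)).mul_const _
      simpa only [one_div, inv_pow, zero_mul] using this
    exact sub_eq_zero.mp (tendsto_nhds_unique h1 h2)
  · have h1 := dist_le_of_le_geometric_of_tendsto₀ (1 / 4) C (by norm_num) hdist hf
    rw [dist_comm, dist_eq_norm] at h1
    refine h1.trans ?_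
    have : (0 : ℝ) ≤ (2 * ‖x‖ + 1) * ‖x * x - x‖ := by (clear * -; (clear * -; positivity))
    rw [hC]
    have h34 : (1 - 1 / 4 : ℝ) = 3 / 4 := by norm_num
    rw [h34, div_le_iff₀ (by norm_num)]
    change _ ≤ 3 * (2 * ‖x‖ + 1) * ‖x * x - x‖ * (3 / 4)
    linarith only [this]

end Newton

end Vale.Agent.P184
end
end

section

section

/-!
# Clifford matrices with a diagonal symmetry
-/

noncomputable section
open scoped Matrix Kronecker

namespace Vale.Agent.P184

/-- Clifford matrices for `ι → ℂ`, with grading `Γ` and a unitary `Λ` implementing the diagonal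
matrix `ζ` on vectors; the supertrace of `Λ` is nonzero. -/
def CliffordFor (ι : Type) [Fintype ι] : Prop :=
  ∀ ζ : ι → ℂ, (∀ j, ‖ζ j‖ = 1 ∧ ζ j ≠ 1) →
  ∃ (κ : Type) (_ : Fintype κ) (_ : DecidableEq κ) (c : (ι → ℂ) → Matrix κ κ ℂ)
    (Γ Λ : Matrix κ κ ℂ),
    (∀ v w, c (v - w) = c v - c w) ∧ (∀ v, (c v)ᴴ = c v) ∧
    (∀ v, c v * c v = ((∑ j, ‖v j‖ ^ 2 : ℝ) : ℂ) • 1) ∧
    Γ * Γ = 1 ∧ (∀ v, Γ * c v = - (c v * Γ)) ∧ Λᴴ * Λ = 1 ∧ Λ * Λᴴ = 1 ∧
    Λ * Γ = Γ * Λ ∧ Γᴴ = Γ ∧
    (∀ v, Λ * c v = c (fun j => ζ j * v j) * Λ) ∧ (Γ * Λ).trace ≠ 0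

/-- off-diagonal matrix -/
def offd (w : ℂ) : Matrix (Fin 2) (Fin 2) ℂ := !![0, w; star w, 0]
/-- grading -/
def sz : Matrix (Fin 2) (Fin 2) ℂ := !![1, 0; 0, -1]
/-- diagonal unitary -/
def dz (z : ℂ) : Matrix (Fin 2) (Fin 2) ℂ := !![z, 0; 0, 1]

theorem offd_sub (v w : ℂ) : offd (v - w) = offd v - offd w := by
  unfold offd; ext i j; fin_cases i <;> fin_cases j <;> simp

theorem offd_star (w : ℂ) : (offd w)ᴴ = offd w := by
  unfold offd; ext i j; fin_cases i <;> fin_cases j <;> simp [Matrix.conjTranspose_apply]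

theorem offd_sq (w : ℂ) : offd w * offd w = ((‖w‖ ^ 2 : ℝ) : ℂ) • 1 := by
  have h : w * star w = ((‖w‖ ^ 2 : ℝ) : ℂ) := by
    rw [Complex.star_def, Complex.mul_conj, Complex.normSq_eq_norm_sq]
  have h' : star w * w = ((‖w‖ ^ 2 : ℝ) : ℂ) := by rw [mul_comm]; exact h
  unfold offd; ext i j
  fin_cases i <;> fin_cases j <;> simp [Matrix.mul_apply, Fin.sum_univ_two, Complex.mul_conj,
    Complex.normSq_eq_norm_sq, mul_comm]

theorem sz_sq : sz * sz = 1 := by
  unfold sz; ext i j; fin_cases i <;> fin_cases j <;> simp [Matrix.mul_apply, Fin.sum_univ_two]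

theorem sz_star : szᴴ = sz := by
  unfold sz; ext i j; fin_cases i <;> fin_cases j <;> simp [Matrix.conjTranspose_apply]

theorem sz_offd (w : ℂ) : sz * offd w = - (offd w * sz) := by
  unfold sz offd; ext i j
  fin_cases i <;> fin_cases j <;> simp [Matrix.mul_apply, Fin.sum_univ_two]

theorem dz_sz (z : ℂ) : dz z * sz = sz * dz z := by
  unfold sz dz; ext i j
  fin_cases i <;> fin_cases j <;> simp [Matrix.mul_apply, Fin.sum_univ_two]

theorem dz_offd {z : ℂ} (hz : ‖z‖ = 1) (w : ℂ) : dz z * offd w = offd (z * w) * dz z := by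
  have h : star z * z = 1 := by
    rw [Complex.star_def, mul_comm, Complex.mul_conj, Complex.normSq_eq_norm_sq, hz]; norm_num
  unfold dz offd; ext i j
  fin_cases i <;> fin_cases j <;> simp [Matrix.mul_apply, Fin.sum_univ_two]
  rw [Complex.star_def] at h
  linear_combination (-(starRingEnd ℂ w)) * h

theorem dz_unitary {z : ℂ} (hz : ‖z‖ = 1) : (dz z)ᴴ * dz z = 1 := by
  have h : star z * z = 1 := by
    rw [Complex.star_def, mul_comm, Complex.mul_conj, Complex.normSq_eq_norm_sq, hz]; norm_num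
  unfold dz; ext i j
  fin_cases i <;> fin_cases j <;>
    simp [Matrix.mul_apply, Fin.sum_univ_two, Matrix.conjTranspose_apply]
  exact h

theorem dz_unitary' {z : ℂ} (hz : ‖z‖ = 1) : dz z * (dz z)ᴴ = 1 :=
  mul_eq_one_comm.1 (dz_unitary hz)

theorem sz_dz_trace (z : ℂ) : (sz * dz z).trace = z - 1 := by
  unfold sz dz
  simp only [Matrix.trace, Matrix.cons_mul, Nat.succ_eq_add_one, Nat.reduceAdd, Matrix.vecMul_cons, Matrix.head_cons, one_smul, Matrix.tail_cons, zero_smul, Matrix.empty_vecMul, add_zero, neg_smul, Matrix.neg_cons, neg_zero, Matrix.neg_empty, zero_add, Matrix.empty_mul, Equiv.symm_apply_apply, Matrix.diag_apply, Matrix.of_apply, Matrix.cons_val', Matrix.cons_val_fin_one, Fin.sum_univ_two, Fin.isValue, Matrix.cons_val_zero, Matrix.cons_val_one, sub_eq_add_neg]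

theorem cliffordFor_option (ι : Type) [Fintype ι] (ih : CliffordFor ι) :
    CliffordFor (Option ι) := by
  intro ζ hζ
  obtain ⟨κ, _, _, c, Γ, Λ, h1, h2, h3, h4, h5, h6, h7, h8, h9, h10, h11⟩ :=
    ih (fun j => ζ (some j)) (fun j => hζ (some j))
  have hz := (hζ none).1
  refine ⟨κ × Fin 2, inferInstance, inferInstance,
    fun v => c (fun j => v (some j)) ⊗ₖ sz + (1 : Matrix κ κ ℂ) ⊗ₖ offd (v none),
    Γ ⊗ₖ sz, Λ ⊗ₖ dz (ζ none), ?_, ?_, ?_, ?_, ?_, ?_, ?_, ?_, ?_, ?_, ?_⟩
  · intro v w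
    have e : (fun j => (v - w) (some j)) = (fun j => v (some j)) - fun j => w (some j) := rfl
    beta_reduce
    rw [e, h1, Pi.sub_apply, offd_sub]
    ext ⟨i, a⟩ ⟨j, b⟩
    simp only [Matrix.add_apply, Matrix.kroneckerMap_apply, Matrix.sub_apply]
    ring
  · intro v
    rw [Matrix.conjTranspose_add, Matrix.conjTranspose_kronecker, Matrix.conjTranspose_kronecker,
      h2, sz_star, offd_star, Matrix.conjTranspose_one]
  · intro v
    rw [add_mul, mul_add, mul_add, ← Matrix.mul_kronecker_mul, ← Matrix.mul_kronecker_mul,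
      ← Matrix.mul_kronecker_mul, ← Matrix.mul_kronecker_mul, h3, sz_sq, offd_sq, mul_one,
      one_mul, one_mul, sz_offd]
    ext ⟨i, a⟩ ⟨j, b⟩
    simp only [Matrix.add_apply, Matrix.kroneckerMap_apply, Matrix.smul_apply, Matrix.neg_apply,
      Fintype.sum_option, smul_eq_mul, Matrix.one_apply, Prod.mk.injEq]
    by_cases h : i = j <;> by_cases h' : a = b <;> simp [h, h'] <;> ring
  · rw [← Matrix.mul_kronecker_mul, h4, sz_sq, Matrix.one_kronecker_one]
  · intro v
    rw [mul_add, add_mul, ← Matrix.mul_kronecker_mul, ← Matrix.mul_kronecker_mul,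
      ← Matrix.mul_kronecker_mul, ← Matrix.mul_kronecker_mul, h5, sz_offd, mul_one, one_mul]
    ext ⟨i, a⟩ ⟨j, b⟩
    simp only [Matrix.add_apply, Matrix.kroneckerMap_apply, Matrix.neg_apply]
    ring
  · rw [Matrix.conjTranspose_kronecker, ← Matrix.mul_kronecker_mul, h6, dz_unitary hz,
      Matrix.one_kronecker_one]
  · rw [Matrix.conjTranspose_kronecker, ← Matrix.mul_kronecker_mul, h7, dz_unitary' hz,
      Matrix.one_kronecker_one]
  · rw [← Matrix.mul_kronecker_mul, ← Matrix.mul_kronecker_mul, h8, dz_sz]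
  · rw [Matrix.conjTranspose_kronecker, h9, sz_star]
  · intro v
    rw [mul_add, add_mul, ← Matrix.mul_kronecker_mul, ← Matrix.mul_kronecker_mul,
      ← Matrix.mul_kronecker_mul, ← Matrix.mul_kronecker_mul, h10, dz_offd hz, mul_one, one_mul,
      dz_sz]
  · rw [← Matrix.mul_kronecker_mul, Matrix.trace_kronecker, sz_dz_trace]
    exact mul_ne_zero h11 (sub_ne_zero.2 (hζ none).2)

theorem cliffordFor_empty : CliffordFor PEmpty := by
  intro ζ _
  refine ⟨Unit, inferInstance, inferInstance, fun _ => 0, 1, 1, ?_, ?_, ?_, ?_, ?_, ?_, ?_, ?_,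
    ?_, ?_, ?_⟩ <;> simp

theorem cliffordFor_equiv (α β : Type) [Fintype β] (e : α ≃ β)
    (h : @CliffordFor α (Fintype.ofEquiv β e.symm)) : CliffordFor β := by
  intro ζ hζ
  let _ : Fintype α := Fintype.ofEquiv β e.symm
  obtain ⟨κ, i1, i2, c, Γ, Λ, h1, h2, h3, h4, h5, h6, h7, h8, h9, h10, h11⟩ :=
    h (fun j => ζ (e j)) (fun j => hζ (e j))
  refine ⟨κ, i1, i2, fun v => c (fun j => v (e j)), Γ, Λ, fun v w => h1 _ _, fun v => h2 _,
    fun v => ?_, h4, fun v => h5 _, h6, h7, h8, h9, fun v => h10 _, h11⟩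
  rw [h3, e.sum_comp (fun j => ‖v j‖ ^ 2)]

theorem cliffordFor (ι : Type) [Fintype ι] : CliffordFor ι :=
  Fintype.induction_empty_option (P := fun ι _ => CliffordFor ι) cliffordFor_equiv
    cliffordFor_empty (fun ι _ ih => cliffordFor_option ι ih) ι

end Vale.Agent.P184
end
end
end

section

section

noncomputable section
open scoped Topology BoundedContinuousFunction

namespace Vale.Agent.P184

section Cocycle

variable {G : Type*} [Group G] [TopologicalSpace G] [DiscreteTopology G]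
  {D : Type*} [NormedRing D] [NormedAlgebra ℂ D]

/-- conjugation by `g⁻¹` -/
def cj (g : G) : C(G, G) := ⟨fun y => g⁻¹ * y * g, continuous_of_discreteTopology⟩

theorem cj_apply (g y : G) : cj g y = g⁻¹ * y * g := rfl

open Classical in
/-- the crossed product data for a conjugacy class -/
def conjData (x : G) (tr : D →L[ℂ] ℂ) (htr : ∀ a b, tr (a * b) = tr (b * a)) :
    CrossedData G (G →ᵇ D) where
  act g := BoundedContinuousFunction.compContinuousCLM D ℂ (cj g)
  act_one g := by ext y; simp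
  act_id a := by ext y; simp [cj]
  act_mul g a b := by ext y; simp
  act_comp g h a := by ext y; simp [cj, mul_assoc]
  act_norm g a := by
    rw [BoundedContinuousFunction.norm_le (norm_nonneg _)]
    intro y
    exact a.norm_coe_le_norm _
  fn g := if IsConj x g then tr.comp (BoundedContinuousFunction.evalCLM ℂ g) else 0
  bd := ‖tr‖
  fn_norm g a := by
    by_cases h : IsConj x g
    · simp only [h, if_true, ContinuousLinearMap.comp_apply, BoundedContinuousFunction.evalCLM_apply]
      exact (tr.le_opNorm _).trans (mul_le_mul_of_nonneg_left (a.norm_coe_le_norm _) (norm_nonneg _))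
    · simp only [h, if_false, zero_apply, norm_zero]
      positivity
  fn_comm g h a b := by
    have hc : IsConj x (g * h) ↔ IsConj x (h * g) := by
      have h1 : IsConj (g * h) (h * g) := isConj_iff.2 ⟨h, by group⟩
      exact ⟨fun h2 => h2.trans h1, fun h2 => h2.trans h1.symm⟩
    by_cases h1 : IsConj x (g * h)
    · have h2 := hc.1 h1
      rw [if_pos h1, if_pos h2]
      show tr (a (g * h) * b (cj g (g * h))) = tr (b (h * g) * a (cj h (h * g)))
      have e1 : cj g (g * h) = h * g := by simp [cj_apply]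
      have e2 : cj h (h * g) = g * h := by simp [cj_apply]
      rw [e1, e2, htr]
    · have h2 : ¬ IsConj x (h * g) := fun h => h1 (hc.2 h)
      rw [if_neg h1, if_neg h2]; rfl

theorem conjData_act (x : G) (tr : D →L[ℂ] ℂ) (htr : ∀ a b, tr (a * b) = tr (b * a)) (g : G)
    (a : G →ᵇ D) (y : G) : (conjData x tr htr).act g a y = a (g⁻¹ * y * g) := rfl

theorem conjData_fn_pos (x : G) (tr : D →L[ℂ] ℂ) (htr : ∀ a b, tr (a * b) = tr (b * a)) {g : G}
    (hg : IsConj x g) (a : G →ᵇ D) : (conjData x tr htr).fn g a = tr (a g) := by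
  unfold conjData
  simp only [if_pos hg]
  rfl

theorem conjData_fn_neg (x : G) (tr : D →L[ℂ] ℂ) (htr : ∀ a b, tr (a * b) = tr (b * a)) {g : G}
    (hg : ¬ IsConj x g) (a : G →ᵇ D) : (conjData x tr htr).fn g a = 0 := by
  unfold conjData
  simp only [if_neg hg]
  rfl

/-- bounded unimodular multiplier -/
def wmul (D : Type*) [NormedRing D] [NormedAlgebra ℂ D] (d : G → ℝ) : G →ᵇ D :=
  BoundedContinuousFunction.ofNormedAddCommGroupDiscrete
    (fun y => Complex.exp (Complex.I * (d y : ℝ)) • (1 : D)) ‖(1 : D)‖ (fun y => by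
      rw [norm_smul, mul_comm Complex.I, Complex.norm_exp_ofReal_mul_I, one_mul])

theorem wmul_apply (d : G → ℝ) (y : G) :
    wmul D d y = Complex.exp (Complex.I * (d y : ℝ)) • (1 : D) := rfl

theorem exp_lip (a b : ℝ) :
    ‖Complex.exp (Complex.I * (a : ℝ)) - Complex.exp (Complex.I * (b : ℝ))‖ ≤ |a - b| := by
  have h : Complex.exp (Complex.I * (a : ℝ)) =
      Complex.exp (Complex.I * (b : ℝ)) * Complex.exp (Complex.I * ((a - b : ℝ) : ℂ)) := by
    rw [← Complex.exp_add]; congr 1; push_cast; ring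
  have h2 : ‖Complex.exp (Complex.I * (b : ℝ))‖ = 1 := by
    rw [mul_comm Complex.I, Complex.norm_exp_ofReal_mul_I]
  have h3 : Complex.exp (Complex.I * (a : ℝ)) - Complex.exp (Complex.I * (b : ℝ)) =
      Complex.exp (Complex.I * (b : ℝ)) * (Complex.exp (Complex.I * ((a - b : ℝ) : ℂ)) - 1) := by
    rw [h]; ring
  rw [h3, norm_mul, h2, one_mul]
  exact Real.norm_exp_I_mul_ofReal_sub_one_le

theorem wmul_cont (d : G → ℝ) (M : ℝ) (hM : ∀ y, |d y| ≤ M) :
    Continuous fun t : ℝ => wmul D (fun y => t * d y) := by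
  have hM0 : 0 ≤ M := (abs_nonneg _).trans (hM 1)
  refine LipschitzWith.continuous (K := (M * ‖(1 : D)‖).toNNReal) ?_
  refine LipschitzWith.of_dist_le_mul fun s t => ?_
  rw [dist_eq_norm, BoundedContinuousFunction.norm_le (by positivity)]
  intro y
  rw [BoundedContinuousFunction.sub_apply, wmul_apply, wmul_apply, ← sub_smul, norm_smul]
  have h1 := exp_lip (s * d y) (t * d y)
  have h2 : |s * d y - t * d y| ≤ M * dist s t := by
    rw [← sub_mul, abs_mul, mul_comm, Real.dist_eq]
    exact mul_le_mul_of_nonneg_right (hM y) (abs_nonneg _)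
  rw [Real.coe_toNNReal _ (by positivity)]
  calc _ ≤ (M * dist s t) * ‖(1 : D)‖ := mul_le_mul_of_nonneg_right (h1.trans h2) (norm_nonneg _)
    _ = _ := by ring

/-- constant functions as a continuous linear map -/
def constL (G D : Type*) [Group G] [TopologicalSpace G] [NormedRing D] [NormedAlgebra ℂ D] :
    D →L[ℂ] (G →ᵇ D) :=
  LinearMap.mkContinuous
    { toFun := fun a => BoundedContinuousFunction.const G a
      map_add' := fun a b => by ext; rfl
      map_smul' := fun a b => by ext; rfl } 1 (fun a => by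
        rw [one_mul]; exact BoundedContinuousFunction.norm_const_le a)

theorem constL_apply (a : D) (y : G) : constL G D a y = a := rfl

theorem constL_mul (a b : D) : constL G D (a * b) = constL G D a * constL G D b := by
  ext; rfl

end Cocycle

/-- Vanishing of the trace at a class carrying a bounded cocycle. -/
theorem vanish_of_cocycle {G : Type*} [Group G] {D : Type*} [NormedRing D] [NormedAlgebra ℂ D]
    [CompleteSpace D] (tr : D →L[ℂ] ℂ) (htr : ∀ a b, tr (a * b) = tr (b * a)) (x : G)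
    (c : G → G → ℝ)
    (hc : ∀ g h y, IsConj x y → c (g * h) y = c g (h * y * h⁻¹) + c h y)
    (hb : ∀ g, ∃ M, ∀ y, IsConj x y → |c g y| ≤ M) (hx : c x x ≠ 0)
    (e : G → D) (hs : Summable fun g => ‖e g‖) (he : ∀ k, ∑' h, e h * e (h⁻¹ * k) = e k) :
    ∑' g : {g // IsConj x g}, tr (e g) = 0 := by
  classical
  let _ : TopologicalSpace G := ⊥
  have _ : DiscreteTopology G := ⟨rfl⟩
  have hconj : ∀ g y : G, IsConj x (g⁻¹ * y * g) ↔ IsConj x y := by
    intro g y
    have h1 : IsConj (g⁻¹ * y * g) y := isConj_iff.2 ⟨g, by group⟩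
    exact ⟨fun h => h.trans h1, fun h => h.trans h1.symm⟩
  -- the cocycle seen from the target
  set d : G → G → ℝ := fun g y => if IsConj x y then c g (g⁻¹ * y * g) else 0 with hd
  have hdm : ∀ g h y, d (g * h) y = d g y + d h (g⁻¹ * y * g) := by
    intro g h y
    by_cases hy : IsConj x y
    · have hy1 : IsConj x (g⁻¹ * y * g) := (hconj g y).2 hy
      have hy2 : IsConj x (h⁻¹ * (g⁻¹ * y * g) * h) := (hconj h _).2 hy1
      simp only [hd, hy, hy1, if_true]
      rw [show (g * h)⁻¹ * y * (g * h) = h⁻¹ * (g⁻¹ * y * g) * h by group, hc g h _ hy2]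
      congr 2
      group
    · have hy1 : ¬ IsConj x (g⁻¹ * y * g) := fun h => hy ((hconj g y).1 h)
      simp only [hd, if_neg hy, if_neg hy1, add_zero]
  have hdb : ∀ g, ∃ M, ∀ y, |d g y| ≤ M := by
    intro g
    obtain ⟨M, hM⟩ := hb g
    refine ⟨max M 0, fun y => ?_⟩
    by_cases hy : IsConj x y
    · simp only [hd, hy, if_true]
      exact (hM _ ((hconj g y).2 hy)).trans (le_max_left _ _)
    · simp only [hd, if_neg hy, abs_zero]
      exact le_max_right _ _
  have hdx : ∀ y, IsConj x y → d y y = c x x := by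
    intro y hy
    obtain ⟨k, rfl⟩ := isConj_iff.1 hy
    have h1 := hc k x x (IsConj.refl x)
    have h2 := hc (k * x * k⁻¹) k x (IsConj.refl x)
    have h3 : k * x * k⁻¹ * k = k * x := by group
    rw [h3, h1] at h2
    have h4 : x * x * x⁻¹ = x := by group
    rw [h4] at h2
    have h5 : (k * x * k⁻¹)⁻¹ * (k * x * k⁻¹) * (k * x * k⁻¹) = k * x * k⁻¹ := by group
    simp only [hd, hy, if_true, h5]
    linarith only [h2]
  let A := conjData x tr htr
  let w : ℝ → G → (G →ᵇ D) := fun t g => wmul D (fun y => t * d g y)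
  let a : G → (G →ᵇ D) := fun g => constL G D (e g)
  have key := A.deformation w ?_ ?_ ?_ ?_ a ?_ ?_ ?_ 0 (Real.pi / c x x)
  · have hval : ∀ t, ∑' g, A.fn g (w t g * a g) =
        Complex.exp (Complex.I * ((t * c x x : ℝ) : ℂ)) * ∑' g : {g // IsConj x g}, tr (e g) := by
      intro t
      have h1 : ∀ g, A.fn g (w t g * a g) = Complex.exp (Complex.I * ((t * c x x : ℝ) : ℂ)) *
          ({g | IsConj x g} : Set G).indicator (fun g => tr (e g)) g := by
        intro g
        by_cases hg : IsConj x g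
        · rw [conjData_fn_pos x tr htr hg, Set.indicator_of_mem (by exact hg)]
          show tr ((Complex.exp (Complex.I * ((t * d g g : ℝ) : ℂ)) • (1 : D)) * e g) = _
          rw [hdx g hg, smul_mul_assoc, one_mul, map_smul, smul_eq_mul]
        · rw [conjData_fn_neg x tr htr hg, Set.indicator_of_notMem (by exact hg), mul_zero]
      rw [tsum_congr h1, tsum_mul_left]
      congr 1
      exact (tsum_subtype {g | IsConj x g} (fun g => tr (e g))).symm
    rw [hval, hval] at key
    rw [div_mul_cancel₀ _ hx, zero_mul, Complex.ofReal_zero, mul_zero, Complex.exp_zero, one_mul,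
      mul_comm Complex.I, Complex.exp_pi_mul_I] at key
    have h2 : (2 : ℂ) * ∑' g : {g // IsConj x g}, tr (e g) = 0 := by
      linear_combination key
    exact (mul_eq_zero.1 h2).resolve_left two_ne_zero
  · intro g
    obtain ⟨M, hM⟩ := hdb g
    exact wmul_cont (d g) M hM
  · intro t g b
    rw [BoundedContinuousFunction.norm_le (norm_nonneg _)]
    intro y
    rw [BoundedContinuousFunction.mul_apply]
    show ‖(Complex.exp (Complex.I * ((t * d g y : ℝ) : ℂ)) • (1 : D)) * b y‖ ≤ _
    rw [smul_mul_assoc, one_mul, norm_smul, mul_comm Complex.I, Complex.norm_exp_ofReal_mul_I,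
      one_mul]
    exact b.norm_coe_le_norm y
  · intro t g h
    ext y
    rw [BoundedContinuousFunction.mul_apply, conjData_act]
    show Complex.exp (Complex.I * ((t * d (g * h) y : ℝ) : ℂ)) • (1 : D) =
      (Complex.exp (Complex.I * ((t * d g y : ℝ) : ℂ)) • (1 : D)) *
      (Complex.exp (Complex.I * ((t * d h (g⁻¹ * y * g) : ℝ) : ℂ)) • (1 : D))
    rw [smul_mul_smul_comm, one_mul, ← Complex.exp_add, hdm]
    congr 2
    push_cast; ring
  · intro t g b
    ext y
    rw [BoundedContinuousFunction.mul_apply, BoundedContinuousFunction.mul_apply]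
    show (Complex.exp _ • (1 : D)) * b y = b y * (Complex.exp _ • (1 : D))
    rw [smul_mul_assoc, one_mul, mul_smul_comm, mul_one]
  · intro g h
    ext y; rfl
  · refine Summable.of_nonneg_of_le (fun _ => norm_nonneg _) (fun g => ?_) hs
    exact BoundedContinuousFunction.norm_const_le (e g)
  · intro k
    have hsa : Summable fun h => e h * e (h⁻¹ * k) := by
      refine Summable.of_norm_bounded (hs.mul_right (∑' g, ‖e g‖)) fun h => ?_
      refine (norm_mul_le _ _).trans (mul_le_mul_of_nonneg_left ?_ (norm_nonneg _))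
      exact hs.le_tsum _ fun _ _ => norm_nonneg _
    show ∑' h, constL G D (e h) * constL G D (e (h⁻¹ * k)) = constL G D (e k)
    simp only [← constL_mul]
    rw [← (constL G D).map_tsum hsa, he]

/-! ### From a homomorphism on the centralizer to a bounded cocycle -/

section McShane

variable {G : Type*} [Group G] (x : G) (L φ : G → ℝ)

/-- McShane type extension of `φ` from the centralizer of `x` -/
def mcs (y : G) : ℝ := ⨅ z : {z : G // Commute z x}, (φ z + L (y * (z : G)⁻¹))

variable {x L φ}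

theorem phi_inv (hφ : ∀ g h, Commute g x → Commute h x → φ (g * h) = φ g + φ h) {z : G}
    (hz : Commute z x) : φ z⁻¹ = - φ z := by
  have h1 : φ (1 : G) = 0 := by
    have := hφ 1 1 (Commute.one_left x) (Commute.one_left x)
    rw [one_mul] at this; linarith
  have h2 := hφ z z⁻¹ hz hz.inv_left
  rw [mul_inv_cancel, h1] at h2
  (clear * - h2; linarith)

theorem mcs_bdd (hL : ∀ g h, L (g * h) ≤ L g + L h)
    (hφ : ∀ g h, Commute g x → Commute h x → φ (g * h) = φ g + φ h)
    (hφL : ∀ g, Commute g x → φ g ≤ L g) (y : G) :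
    BddBelow (Set.range fun z : {z : G // Commute z x} => (φ z + L (y * (z : G)⁻¹))) := by
  refine ⟨- L y⁻¹, ?_⟩
  rintro _ ⟨⟨z, hz⟩, rfl⟩
  have h1 := hL y⁻¹ (y * z⁻¹)
  rw [inv_mul_cancel_left] at h1
  have h2 := hφL z⁻¹ hz.inv_left
  rw [phi_inv hφ hz] at h2
  show - L y⁻¹ ≤ φ z + L (y * z⁻¹)
  linarith

theorem mcs_right (hL : ∀ g h, L (g * h) ≤ L g + L h)
    (hφ : ∀ g h, Commute g x → Commute h x → φ (g * h) = φ g + φ h)
    (hφL : ∀ g, Commute g x → φ g ≤ L g)
    (y : G) {h : G} (hh : Commute h x) : mcs x L φ (y * h) = mcs x L φ y + φ h := by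
  have e1 : mcs x L φ (y * h) =
      ⨅ z : {z : G // Commute z x}, ((φ z + L (y * (z : G)⁻¹)) + φ h) := by
    unfold mcs
    let ψ : {z : G // Commute z x} ≃ {z : G // Commute z x} :=
      { toFun := fun z => ⟨z * h, z.2.mul_left hh⟩
        invFun := fun z => ⟨z * h⁻¹, z.2.mul_left hh.inv_left⟩
        left_inv := fun z => by ext; simp only [mul_inv_cancel_right]
        right_inv := fun z => by ext; simp only [inv_mul_cancel_right] }
    rw [← ψ.iInf_comp]
    refine iInf_congr fun z => ?_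
    show φ (z * h) + L (y * h * (z * h : G)⁻¹) = _
    rw [hφ _ _ z.2 hh, mul_inv_rev, mul_assoc, mul_inv_cancel_left]
    ring
  rw [e1, mcs]
  have : Nonempty {z : G // Commute z x} := ⟨⟨1, Commute.one_left x⟩⟩
  exact (ciInf_add (mcs_bdd hL hφ hφL y) (φ h)).symm

theorem mcs_left (hL : ∀ g h, L (g * h) ≤ L g + L h)
    (hφ : ∀ g h, Commute g x → Commute h x → φ (g * h) = φ g + φ h)
    (hφL : ∀ g, Commute g x → φ g ≤ L g) (k y : G) :
    mcs x L φ (k * y) ≤ L k + mcs x L φ y := by
  have : Nonempty {z : G // Commute z x} := ⟨⟨1, Commute.one_left x⟩⟩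
  have h1 : L k + mcs x L φ y =
      ⨅ z : {z : G // Commute z x}, (L k + (φ z + L (y * (z : G)⁻¹))) :=
    add_ciInf (mcs_bdd hL hφ hφL y) (L k)
  rw [h1]
  refine ciInf_mono (mcs_bdd hL hφ hφL (k * y)) fun z => ?_
  have h2 := hL k (y * (z : G)⁻¹)
  rw [← mul_assoc] at h2
  linarith

end McShane

/-- The master theorem with coefficients in a Banach algebra with a bounded trace. -/
theorem master_coeff {G : Type*} [Group G] {D : Type*} [NormedRing D] [NormedAlgebra ℂ D]
    [CompleteSpace D] (tr : D →L[ℂ] ℂ) (htr : ∀ a b, tr (a * b) = tr (b * a)) (x : G)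
    (L φ : G → ℝ) (hL : ∀ g h, L (g * h) ≤ L g + L h)
    (hφ : ∀ g h, Commute g x → Commute h x → φ (g * h) = φ g + φ h)
    (hφL : ∀ g, Commute g x → φ g ≤ L g) (hx : φ x ≠ 0)
    (e : G → D) (hs : Summable fun g => ‖e g‖) (he : ∀ k, ∑' h, e h * e (h⁻¹ * k) = e k) :
    ∑' g : {g // IsConj x g}, tr (e g) = 0 := by
  classical
  have hsel : ∀ y : G, ∃ s : G, IsConj x y → s * x * s⁻¹ = y := by
    intro y
    by_cases hy : IsConj x y
    · obtain ⟨s, hs⟩ := isConj_iff.1 hy
      exact ⟨s, fun _ => hs⟩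
    · exact ⟨1, fun h => absurd h hy⟩
  choose s hs1 using hsel
  let F := mcs x L φ
  have hFr : ∀ y {h : G}, Commute h x → F (y * h) = F y + φ h :=
    fun y h hh => mcs_right hL hφ hφL y hh
  have hFl : ∀ k y, F (k * y) ≤ L k + F y := fun k y => mcs_left hL hφ hφL k y
  refine vanish_of_cocycle tr htr x (fun g y => F (g * s y) - F (s y)) ?_ ?_ ?_ e hs he
  · intro g h y hy
    have hy' : IsConj x (h * y * h⁻¹) := hy.trans (isConj_iff.2 ⟨h, rfl⟩)
    have h1 := hs1 y hy
    have h2 := hs1 _ hy'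
    set z := (h * s y)⁻¹ * s (h * y * h⁻¹) with hz
    have h3 : s (h * y * h⁻¹) = h * s y * z := by rw [hz]; group
    have hzx : Commute z x := by
      rw [h3] at h2
      have h4 : h * s y * (z * x * z⁻¹) * (s y)⁻¹ * h⁻¹ = h * (s y * x * (s y)⁻¹) * h⁻¹ := by
        calc _ = h * s y * z * x * (h * s y * z)⁻¹ := by group
          _ = h * y * h⁻¹ := h2
          _ = _ := by rw [h1]
      have h5 : z * x * z⁻¹ = x := by
        have h6 : (h * s y) * (z * x * z⁻¹) * (h * s y)⁻¹ = (h * s y) * x * (h * s y)⁻¹ := by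
          calc _ = h * s y * (z * x * z⁻¹) * (s y)⁻¹ * h⁻¹ := by group
            _ = h * (s y * x * (s y)⁻¹) * h⁻¹ := h4
            _ = _ := by group
        exact (mul_left_cancel (mul_right_cancel h6))
      show z * x = x * z
      calc z * x = z * x * z⁻¹ * z := by group
        _ = x * z := by rw [h5]
    simp only [h3]
    rw [show g * (h * s y * z) = (g * h * s y) * z by group, hFr _ hzx, hFr _ hzx]
    ring
  · intro g
    refine ⟨max (L g) (L g⁻¹), fun y _ => ?_⟩
    rw [abs_le]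
    have h1 := hFl g (s y)
    have h2 := hFl g⁻¹ (g * s y)
    rw [inv_mul_cancel_left] at h2
    constructor
    · have := le_max_right (L g) (L g⁻¹); show _ ≤ F (g * s y) - F (s y); linarith only [h2, this]
    · have := le_max_left (L g) (L g⁻¹); show F (g * s y) - F (s y) ≤ _; linarith
  · have h1 := hs1 x (IsConj.refl x)
    have h2 : x * s x = s x * x := by
      calc x * s x = (s x * x * (s x)⁻¹) * s x := by rw [h1]
        _ = s x * x := by group
    show F (x * s x) - F (s x) ≠ 0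
    rw [h2, hFr _ (Commute.refl x)]
    simpa using hx

/-! ### Matrices -/

section Mat

attribute [local instance] Matrix.linftyOpNormedRing Matrix.linftyOpNormedAlgebra

theorem entry_tsum {ι : Type*} {q : ℕ} {f : ι → Matrix (Fin q) (Fin q) ℂ} (hf : Summable f)
    (i j : Fin q) : (∑' k, f k) i j = ∑' k, f k i j := by
  have h := (LinearMap.toContinuousLinearMap (Matrix.entryLinearMap ℂ ℂ i j)).map_tsum hf
  exact h

theorem mat_norm_le {q : ℕ} (a : Matrix (Fin q) (Fin q) ℂ) : ‖a‖ ≤ ∑ i, ∑ j, ‖a i j‖ := by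
  rw [Matrix.linfty_opNorm_def]
  have : (Finset.univ.sup fun i => ∑ j, ‖a i j‖₊) ≤ ∑ i, ∑ j, ‖a i j‖₊ := by
    refine Finset.sup_le fun i hi => ?_
    exact Finset.single_le_sum (f := fun i => ∑ j, ‖a i j‖₊) (fun _ _ => by positivity) hi
  have h2 := NNReal.coe_le_coe.2 this
  push_cast at h2
  exact h2

/-- Master theorem: if the centralizer of `x` has a real character which is non-zero at `x` and
dominated by a subadditive function on the whole group, then the Hattori-Stallings coefficient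
at the class of `x` vanishes for all idempotent matrices over `ℓ¹(G)`. -/
theorem master {G : Type*} [Group G] (x : G) (L φ : G → ℝ)
    (hL : ∀ g h, L (g * h) ≤ L g + L h)
    (hφ : ∀ g h, Commute g x → Commute h x → φ (g * h) = φ g + φ h)
    (hφL : ∀ g, Commute g x → φ g ≤ L g) (hx : φ x ≠ 0)
    {q : ℕ} (e : Matrix (Fin q) (Fin q) (G → ℂ)) (he : IsIdem e) :
    tau (ConjClasses.mk x) e = 0 := by
  let E : G → Matrix (Fin q) (Fin q) ℂ := fun g => Matrix.of fun i j => e i j g
  let tr : Matrix (Fin q) (Fin q) ℂ →L[ℂ] ℂ :=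
    LinearMap.toContinuousLinearMap (Matrix.traceLinearMap (Fin q) ℂ ℂ)
  have hEs : Summable fun g => ‖E g‖ := by
    refine Summable.of_nonneg_of_le (fun _ => norm_nonneg _) (fun g => mat_norm_le (E g)) ?_
    exact summable_sum fun i _ => summable_sum fun j _ => he.1 i j
  have hEi : ∀ k, ∑' h, E h * E (h⁻¹ * k) = E k := by
    intro k
    have hsa : Summable fun h => E h * E (h⁻¹ * k) := by
      refine Summable.of_norm_bounded (hEs.mul_right (∑' g, ‖E g‖)) fun h => ?_
      refine (norm_mul_le _ _).trans (mul_le_mul_of_nonneg_left ?_ (norm_nonneg _))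
      exact hEs.le_tsum _ fun _ _ => norm_nonneg _
    ext i j
    rw [entry_tsum hsa]
    have h1 : ∀ h, (E h * E (h⁻¹ * k)) i j = ∑ l, e i l h * e l j (h⁻¹ * k) := by
      intro h
      rw [Matrix.mul_apply]; rfl
    rw [tsum_congr h1, Summable.tsum_finsetSum]
    · exact he.2 i j k
    · intro l _
      refine Summable.of_norm_bounded ((he.1 i l).mul_right (∑' g, ‖e l j g‖)) fun h => ?_
      rw [norm_mul]
      refine mul_le_mul_of_nonneg_left ?_ (norm_nonneg _)
      exact (he.1 l j).le_tsum _ fun _ _ => norm_nonneg _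
  have key := master_coeff tr (fun a b => Matrix.trace_mul_comm a b) x L φ hL hφ hφL hx E hEs hEi
  have hset : (ConjClasses.mk x).carrier = {g | IsConj x g} := by
    ext g
    rw [ConjClasses.mem_carrier_iff_mk_eq, ConjClasses.mk_eq_mk_iff_isConj]
    exact ⟨fun h => h.symm, fun h => IsConj.symm h⟩
  unfold tau
  rw [hset]
  exact key

end Mat

end Vale.Agent.P184
end
end
end

section

section

noncomputable section
open scoped Topology

namespace Vale.Agent.P184

namespace L1

variable {G : Type*} {E : Type*} [NormedRing E] [NormedAlgebra ℂ E]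

/-- coordinates as a continuous linear map -/
def coL (k : G) : L1 G E →L[ℂ] E :=
  LinearMap.mkContinuous
    { toFun := fun v => v.co k
      map_add' := fun v w => co_add v w k
      map_smul' := fun c v => co_smul c v k } 1 (fun v => by
      rw [one_mul, norm_eq]
      exact (summable_norm v).le_tsum k fun _ _ => norm_nonneg _)

theorem coL_apply (k : G) (v : L1 G E) : coL k v = v.co k := rfl

end L1

section Triv

variable {G : Type*} [Group G] {D : Type*} [NormedRing D] [NormedAlgebra ℂ D]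

open Classical in
/-- trivial action, trace supported on a conjugation invariant set -/
def trivData (tr : D →L[ℂ] ℂ) (htr : ∀ a b, tr (a * b) = tr (b * a)) (P : G → Prop)
    (hP : ∀ g h, P (g * h) → P (h * g)) : CrossedData G D where
  act _ := ContinuousLinearMap.id ℂ D
  act_one _ := rfl
  act_id _ := rfl
  act_mul _ _ _ := rfl
  act_comp _ _ _ := rfl
  act_norm _ _ := le_rfl
  fn g := if P g then tr else 0
  bd := ‖tr‖
  fn_norm g a := by
    by_cases h : P g
    · simp only [h, if_true]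
      exact tr.le_opNorm _
    · simp only [h, if_false, zero_apply, norm_zero]
      positivity
  fn_comm g h a b := by
    by_cases h1 : P (g * h)
    · have h2 := hP g h h1
      rw [if_pos h1, if_pos h2]
      exact htr _ _
    · have h2 : ¬ P (h * g) := fun h3 => h1 (hP h g h3)
      rw [if_neg h1, if_neg h2]; rfl

variable (tr : D →L[ℂ] ℂ) (htr : ∀ a b, tr (a * b) = tr (b * a)) (P : G → Prop)
    (hP : ∀ g h, P (g * h) → P (h * g))

theorem trivData_act (g : G) (a : D) : (trivData tr htr P hP).act g a = a := rfl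

theorem trivData_fn_pos {g : G} (hg : P g) (a : D) :
    (trivData tr htr P hP).fn g a = tr a := by
  unfold trivData
  simp only [if_pos hg]

theorem trivData_fn_neg {g : G} (hg : ¬ P g) (a : D) :
    (trivData tr htr P hP).fn g a = 0 := by
  unfold trivData
  simp only [if_neg hg]
  rfl

end Triv

/-! ### Functoriality of the crossed product in the group -/

section Funct

variable {G H : Type*} [Group G] [Group H] {D : Type*} [NormedRing D] [NormedAlgebra ℂ D]
  [CompleteSpace D] (A : CrossedData G D) (B : CrossedData H D) (f : H →* G)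

/-- the pushforward as an operator -/
def theta : L1 H D →L[ℂ] (L1 G D →L[ℂ] L1 G D) :=
  have hs : ∀ v : L1 H D, Summable fun h => ‖A.phi (f h) (v.co h)‖ := fun v =>
    Summable.of_nonneg_of_le (fun _ => norm_nonneg _) (fun h => A.phi_norm (f h) (v.co h))
      v.summable_norm
  LinearMap.mkContinuous
    { toFun := fun v => ∑' h, A.phi (f h) (v.co h)
      map_add' := fun v w => by
        rw [← (hs v).of_norm.tsum_add (hs w).of_norm]
        refine tsum_congr fun h => ?_
        rw [L1.co_add]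
        exact (A.phiL (f h)).map_add _ _
      map_smul' := fun c v => by
        rw [RingHom.id_apply, ← tsum_const_smul'']
        refine tsum_congr fun h => ?_
        rw [L1.co_smul]
        exact (A.phiL (f h)).map_smul _ _ } 1 (fun v => by
      rw [one_mul, L1.norm_eq]
      refine (norm_tsum_le_tsum_norm (hs v)).trans ?_
      exact (hs v).tsum_le_tsum (fun h => A.phi_norm (f h) (v.co h)) v.summable_norm)

theorem theta_apply (v : L1 H D) : theta A f v = ∑' h, A.phi (f h) (v.co h) := rfl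

theorem theta_summable (v : L1 H D) : Summable fun h => A.phi (f h) (v.co h) :=
  (Summable.of_nonneg_of_le (fun _ => norm_nonneg _) (fun h => A.phi_norm (f h) (v.co h))
      v.summable_norm).of_norm

theorem theta_norm (v : L1 H D) : ‖theta A f v‖ ≤ ‖v‖ := by
  have hs : Summable fun h => ‖A.phi (f h) (v.co h)‖ :=
    Summable.of_nonneg_of_le (fun _ => norm_nonneg _) (fun h => A.phi_norm (f h) (v.co h))
      v.summable_norm
  rw [theta_apply, L1.norm_eq]
  refine (norm_tsum_le_tsum_norm hs).trans ?_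
  exact hs.tsum_le_tsum (fun h => A.phi_norm (f h) (v.co h)) v.summable_norm

/-- the homomorphism of operator algebras -/
def Psi : (L1 H D →L[ℂ] L1 H D) →L[ℂ] (L1 G D →L[ℂ] L1 G D) :=
  (theta A f).comp (ContinuousLinearMap.apply ℂ (L1 H D) (CrossedData.del : L1 H D))

theorem Psi_apply (a : L1 H D →L[ℂ] L1 H D) : Psi A f a = theta A f (a CrossedData.del) := rfl

theorem Psi_phi (h : H) (m : D) : Psi A f (B.phi h m) = A.phi (f h) m := by
  rw [Psi_apply, theta_apply, tsum_eq_single h]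
  · rw [B.phi_co, inv_mul_cancel, CrossedData.del_one, B.act_one, mul_one]
  · intro k hk
    have : h⁻¹ * k ≠ 1 := fun h' => hk (by
      rw [inv_mul_eq_one] at h'; exact h'.symm)
    rw [B.phi_co, CrossedData.del_ne this, map_zero, mul_zero]
    exact (A.phiL (f k)).map_zero

theorem Psi_mem {a : L1 H D →L[ℂ] L1 H D} (ha : a ∈ B.clos) : Psi A f a ∈ A.clos := by
  refine B.clos_induction (P := fun a => Psi A f a ∈ A.clos) ?_ ?_ ?_ ?_ ?_ ha
  · exact A.clos_closed.preimage (Psi A f).continuous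
  · rw [map_zero]; exact A.clos.zero_mem
  · intro g m
    rw [Psi_phi]; exact A.phi_mem_clos _ _
  · intro a b ha hb
    rw [map_add]; exact A.clos.add_mem ha hb
  · intro c a ha
    rw [map_smul]; exact A.clos.smul_mem c ha

theorem Psi_mul (hact : ∀ h m, B.act h m = A.act (f h) m) {a b : L1 H D →L[ℂ] L1 H D}
    (ha : a ∈ B.clos) (hb : b ∈ B.clos) : Psi A f (a * b) = Psi A f a * Psi A f b := by
  refine B.clos_induction (P := fun a => Psi A f (a * b) = Psi A f a * Psi A f b)
    ?_ ?_ ?_ ?_ ?_ ha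
  · exact isClosed_eq ((Psi A f).continuous.comp (continuous_mul_const b))
      ((continuous_mul_const _).comp (Psi A f).continuous)
  · rw [zero_mul, map_zero, zero_mul]
  · intro g m
    refine B.clos_induction
      (P := fun b => Psi A f (B.phi g m * b) = Psi A f (B.phi g m) * Psi A f b)
      ?_ ?_ ?_ ?_ ?_ hb
    · exact isClosed_eq ((Psi A f).continuous.comp (continuous_const_mul _))
        ((continuous_const_mul _).comp (Psi A f).continuous)
    · rw [mul_zero, map_zero, mul_zero]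
    · intro h n
      rw [B.phi_mul, Psi_phi, Psi_phi, Psi_phi, A.phi_mul, map_mul, hact]
    · intro x y hx hy
      rw [mul_add, map_add, map_add, mul_add, hx, hy]
    · intro c x hx
      rw [mul_smul_comm, map_smul, map_smul, mul_smul_comm, hx]
  · intro x y hx hy
    rw [add_mul, map_add, map_add, add_mul, hx, hy]
  · intro c x hx
    rw [smul_mul_assoc, map_smul, map_smul, smul_mul_assoc, hx]

theorem Psi_norm [NormOneClass D] (a : L1 H D →L[ℂ] L1 H D) : ‖Psi A f a‖ ≤ ‖a‖ := by
  rw [Psi_apply]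
  refine (theta_norm A f _).trans ((a.le_opNorm _).trans ?_)
  have : ‖(CrossedData.del : L1 H D)‖ = 1 := by
    rw [L1.norm_eq, tsum_eq_single (1 : H)]
    · rw [CrossedData.del_one, norm_one]
    · intro k hk
      rw [CrossedData.del_ne hk, norm_zero]
  rw [this, mul_one]

theorem Psi_id {a : L1 H D →L[ℂ] L1 H D} (ha : a ∈ B.clos) : Psi B (MonoidHom.id H) a = a := by
  refine B.clos_induction (P := fun a => Psi B (MonoidHom.id H) a = a) ?_ ?_ ?_ ?_ ?_ ha
  · exact isClosed_eq (Psi B (MonoidHom.id H)).continuous continuous_id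
  · rw [map_zero]
  · intro g m
    rw [Psi_phi]; rfl
  · intro a b ha hb
    rw [map_add, ha, hb]
  · intro c a ha
    rw [map_smul, ha]

theorem tr_theta (v : L1 H D) : A.tr (theta A f v) = ∑' h, A.fn (f h) (v.co h) := by
  rw [theta_apply, A.tr.map_tsum (theta_summable A f v)]
  exact tsum_congr fun h => A.tr_phi _ _

end Funct

section Mat

attribute [local instance] Matrix.linftyOpNormedRing Matrix.linftyOpNormedAlgebra

theorem norm_entry_le {q : ℕ} (a : Matrix (Fin q) (Fin q) ℂ) (i j : Fin q) : ‖a i j‖ ≤ ‖a‖ := by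
  rw [Matrix.linfty_opNorm_def]
  have h1 : ‖a i j‖₊ ≤ ∑ j, ‖a i j‖₊ :=
    Finset.single_le_sum (f := fun j => ‖a i j‖₊) (fun _ _ => by positivity) (Finset.mem_univ j)
  have h2 : ∑ j, ‖a i j‖₊ ≤ Finset.univ.sup fun i => ∑ j, ‖a i j‖₊ :=
    Finset.le_sup (f := fun i => ∑ j, ‖a i j‖₊) (Finset.mem_univ i)
  exact_mod_cast h1.trans h2

/-- matrix valued function associated with a matrix of functions -/
def toFn {G : Type*} {q : ℕ} (e : Matrix (Fin q) (Fin q) (G → ℂ)) (g : G) :
    Matrix (Fin q) (Fin q) ℂ := Matrix.of fun i j => e i j g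

theorem toFn_summable {G : Type*} [Group G] {q : ℕ} {e : Matrix (Fin q) (Fin q) (G → ℂ)}
    (he : IsIdem e) : Summable fun g => ‖toFn e g‖ := by
  refine Summable.of_nonneg_of_le (fun _ => norm_nonneg _) (fun g => mat_norm_le (toFn e g)) ?_
  exact summable_sum fun i _ => summable_sum fun j _ => he.1 i j

theorem conv_summable {G : Type*} [Group G] {q : ℕ} {E : G → Matrix (Fin q) (Fin q) ℂ}
    (hEs : Summable fun g => ‖E g‖) (k : G) : Summable fun h => E h * E (h⁻¹ * k) := by
  refine Summable.of_norm_bounded (hEs.mul_right (∑' g, ‖E g‖)) fun h => ?_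
  refine (norm_mul_le _ _).trans (mul_le_mul_of_nonneg_left ?_ (norm_nonneg _))
  exact hEs.le_tsum _ fun _ _ => norm_nonneg _

theorem toFn_conv {G : Type*} [Group G] {q : ℕ} {e : Matrix (Fin q) (Fin q) (G → ℂ)}
    (he : IsIdem e) (k : G) : ∑' h, toFn e h * toFn e (h⁻¹ * k) = toFn e k := by
  ext i j
  rw [entry_tsum (conv_summable (toFn_summable he) k)]
  have h1 : ∀ h, (toFn e h * toFn e (h⁻¹ * k)) i j = ∑ l, e i l h * e l j (h⁻¹ * k) := by
    intro h
    rw [Matrix.mul_apply]; rfl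
  rw [tsum_congr h1, Summable.tsum_finsetSum]
  · exact he.2 i j k
  · intro l _
    refine Summable.of_norm_bounded ((he.1 i l).mul_right (∑' g, ‖e l j g‖)) fun h => ?_
    rw [norm_mul]
    refine mul_le_mul_of_nonneg_left ?_ (norm_nonneg _)
    exact (he.1 l j).le_tsum _ fun _ _ => norm_nonneg _

theorem isIdem_of_conv {G : Type*} [Group G] {q : ℕ} {E : G → Matrix (Fin q) (Fin q) ℂ}
    (hEs : Summable fun g => ‖E g‖) (hE : ∀ k, ∑' h, E h * E (h⁻¹ * k) = E k) :
    IsIdem (Matrix.of fun i j => fun g => E g i j) := by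
  have hs : ∀ i j, Summable fun g => ‖E g i j‖ := fun i j =>
    Summable.of_nonneg_of_le (fun _ => norm_nonneg _) (fun g => norm_entry_le (E g) i j) hEs
  refine ⟨hs, fun i j k => ?_⟩
  have h2 : (∑' h, E h * E (h⁻¹ * k)) i j = E k i j := by rw [hE k]
  rw [entry_tsum (conv_summable hEs k)] at h2
  have h1 : ∀ h, (E h * E (h⁻¹ * k)) i j = ∑ l, E h i l * E (h⁻¹ * k) l j := by
    intro h
    rw [Matrix.mul_apply]
  rw [tsum_congr h1, Summable.tsum_finsetSum] at h2
  · exact h2
  · intro l _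
    refine Summable.of_norm_bounded ((hs i l).mul_right (∑' g, ‖E g l j‖)) fun h => ?_
    rw [norm_mul]
    refine mul_le_mul_of_nonneg_left ?_ (norm_nonneg _)
    exact (hs l j).le_tsum _ fun _ _ => norm_nonneg _

/-- the matrix trace -/
def mtr (q : ℕ) : Matrix (Fin q) (Fin q) ℂ →L[ℂ] ℂ :=
  LinearMap.toContinuousLinearMap (Matrix.traceLinearMap (Fin q) ℂ ℂ)

theorem mtr_comm (q : ℕ) (a b : Matrix (Fin q) (Fin q) ℂ) : mtr q (a * b) = mtr q (b * a) :=
  Matrix.trace_mul_comm a b

theorem mtr_apply {q : ℕ} (a : Matrix (Fin q) (Fin q) ℂ) : mtr q a = ∑ i, a i i := rfl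

end Mat

end Vale.Agent.P184
end
end
end

section

section

noncomputable section
open scoped Topology

namespace Vale.Agent.P184

universe u v

section General

variable {G : Type*} [Group G] {D : Type*} [NormedRing D] [NormedAlgebra ℂ D] [CompleteSpace D]

theorem theta_co (A : CrossedData G D) (hA : ∀ g a, A.act g a = a) (v w : L1 G D) (z : G) :
    (theta A (MonoidHom.id G) v w).co z = ∑' x, v.co x * w.co (x⁻¹ * z) := by
  have h1 : theta A (MonoidHom.id G) v w = ∑' x, A.phi x (v.co x) w := by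
    rw [theta_apply]
    exact (ContinuousLinearMap.apply ℂ (L1 G D) w).map_tsum (theta_summable A (MonoidHom.id G) v)
  have h2 : Summable fun x => A.phi x (v.co x) w :=
    (theta_summable A (MonoidHom.id G) v).map (ContinuousLinearMap.apply ℂ (L1 G D) w)
      (ContinuousLinearMap.apply ℂ (L1 G D) w).continuous
  rw [h1]
  change L1.coL z _ = _
  rw [(L1.coL z).map_tsum h2]
  refine tsum_congr fun x => ?_
  change (A.phi x (v.co x) w).co z = _
  rw [A.phi_co, hA]

theorem theta_del (A : CrossedData G D) (hA : ∀ g a, A.act g a = a) (v : L1 G D) :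
    theta A (MonoidHom.id G) v CrossedData.del = v := by
  refine L1.ext fun z => ?_
  rw [theta_co A hA, tsum_eq_single z]
  · rw [inv_mul_cancel, CrossedData.del_one, mul_one]
  · intro x hx
    have : x⁻¹ * z ≠ 1 := fun h => hx (by rw [inv_mul_eq_one] at h; exact h)
    rw [CrossedData.del_ne this, mul_zero]

theorem theta_mem {H : Type*} [Group H] (A : CrossedData G D) (f : H →* G) (v : L1 H D) :
    theta A f v ∈ A.clos := by
  refine A.clos_closed.mem_of_tendsto (theta_summable A f v).hasSum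
    (Filter.Eventually.of_forall fun F => ?_)
  exact A.clos.sum_mem fun g _ => A.phi_mem_clos _ _

theorem theta_idem (A : CrossedData G D) (hA : ∀ g a, A.act g a = a) (v : L1 G D)
    (hv : ∀ z, ∑' x, v.co x * v.co (x⁻¹ * z) = v.co z) :
    theta A (MonoidHom.id G) v * theta A (MonoidHom.id G) v = theta A (MonoidHom.id G) v := by
  set p := theta A (MonoidHom.id G) v with hp
  have hpm : p ∈ A.clos := theta_mem A _ v
  have h1 : p v = v := L1.ext fun z => by rw [hp, theta_co A hA, hv]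
  have h2 : (p * p) CrossedData.del = v := by
    change p (p CrossedData.del) = v
    rw [hp, theta_del A hA, ← hp, h1]
  have h3 := Psi_id A (A.mul_mem_clos hpm hpm)
  rw [Psi_apply, h2] at h3
  exact h3.symm

omit [NormedAlgebra ℂ D] [CompleteSpace D] in
theorem sum_norm_le {ι : Type*} (w : L1 ι D) (S : Finset ι) : ∑ z ∈ S, ‖w.co z‖ ≤ ‖w‖ := by
  rw [L1.norm_eq]
  exact w.summable_norm.sum_le_tsum S fun _ _ => norm_nonneg _

end General

section Mat

attribute [local instance] Matrix.linftyOpNormedRing Matrix.linftyOpNormedAlgebra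

/-- Every idempotent matrix over `ℓ¹(G)` comes, up to a perturbation not changing the trace, from
any group `H` mapping to `G` over which a large finite part of the multiplication table of `G`
can be lifted. -/
theorem transfer {G : Type u} [Group G] {q : ℕ} (e : Matrix (Fin q) (Fin q) (G → ℂ))
    (he : IsIdem e) : ∃ S : Finset G, ∀ (H : Type v) [Group H] (f : H →* G) (s : G → H),
      (∀ x ∈ S, f (s x) = x) → (∀ x ∈ S, ∀ y ∈ S, x * y ∈ S → s x * s y = s (x * y)) →
      ∃ b : Matrix (Fin q) (Fin q) (H → ℂ), IsIdem b ∧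
        ∀ C : ConjClasses G, tau C e = ∑' h : {h : H // ConjClasses.mk (f h) = C}, ∑ i, b i i h := by
  classical
  rcases Nat.eq_zero_or_pos q with hq | hq
  · subst hq
    refine ⟨∅, fun H _ f s _ _ => ⟨Matrix.of fun i => i.elim0, ⟨fun i => i.elim0, fun i => i.elim0⟩,
      fun C => ?_⟩⟩
    simp only [tau, Finset.univ_eq_empty, Finset.sum_empty, tsum_zero, Matrix.of_apply]
  have hne : Nonempty (Fin q) := ⟨⟨0, hq⟩⟩
  set E := toFn e with hE
  have hEs : Summable fun g => ‖E g‖ := toFn_summable he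
  have hEc : ∀ k, ∑' h, E h * E (h⁻¹ * k) = E k := toFn_conv he
  set N := ∑' g, ‖E g‖ with hN
  have hN0 : 0 ≤ N := tsum_nonneg fun _ => norm_nonneg _
  set ε : ℝ := 1 / (16 * (2 * N + 1) ^ 2) with hε
  have hε0 : 0 < ε := by (clear * -; positivity)
  have hε1 : (2 * N + 1) ^ 2 * ε = 1 / 16 := by
    rw [hε]; (clear * - hN0; field_simp)
  have hN1 : 1 ≤ (2 * N + 1) ^ 2 := by (by_contra nlg; linarith only [nlg, mul_nonneg (sub_nonneg.2 hN0) (sub_nonneg.2 hN0), mul_nonneg (le_of_lt (sub_pos.2 (not_le.1 nlg))) (sub_nonneg.2 hN0), mul_pos (sub_pos.2 (not_le.1 nlg)) (sub_pos.2 (not_le.1 nlg)), mul_nonneg (sq_nonneg (2 * N + 1 : ℝ)) (sub_nonneg.2 hN0), mul_nonneg (sq_nonneg (2 * N + 1 : ℝ)) (le_of_lt (sub_pos.2 (not_le.1 nlg)))])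
  have hε2 : ε ≤ 1 / 16 := by (by_contra nlg; linarith only [nlg, mul_nonneg (le_of_lt (sub_pos.2 hε0)) (sub_nonneg.2 hN1), mul_eq_zero_of_left (sub_eq_zero.2 hε1) (ε - (0)), mul_eq_zero_of_left (sub_eq_zero.2 hε1) (ε - (1 / 16))])
  have hε3 : (2 * N + 1) * ε ≤ 1 / 16 := by nlinarith only [hε1, hN0]
  obtain ⟨S0, hS0⟩ : ∃ S0 : Finset G, N - ε < ∑ g ∈ S0, ‖E g‖ := by
    have h1 := hEs.hasSum.eventually (lt_mem_nhds (show N - ε < ∑' g, ‖E g‖ by linarith only [hε0]))
    obtain ⟨S0, hS0⟩ := Filter.eventually_atTop.mp h1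
    exact ⟨S0, hS0 S0 le_rfl⟩
  set aF : G → Matrix (Fin q) (Fin q) ℂ := fun g => if g ∈ S0 then E g else 0 with haF
  have haFs : Summable fun g => ‖aF g‖ := by
    refine Summable.of_nonneg_of_le (fun _ => norm_nonneg _) (fun g => ?_) hEs
    simp only [haF]
    split_ifs
    · exact le_rfl
    · rw [norm_zero]; exact norm_nonneg _
  set ve : L1 G (Matrix (Fin q) (Fin q) ℂ) := L1.mk E hEs with hve
  set va : L1 G (Matrix (Fin q) (Fin q) ℂ) := L1.mk aF haFs with hva
  have hdiff : ‖va - ve‖ < ε := by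
    rw [L1.norm_eq]
    have h1 : ∀ g, ‖(va - ve).co g‖ = ‖E g‖ - ‖aF g‖ := by
      intro g
      have : (va - ve).co g = aF g - E g := rfl
      rw [this]
      simp only [haF]
      split_ifs
      · simp only [sub_self, norm_zero]
      · simp
    simp only [h1]
    rw [hEs.tsum_sub haFs, tsum_eq_sum (s := S0) (f := fun g => ‖aF g‖)]
    · have h2 : ∑ g ∈ S0, ‖aF g‖ = ∑ g ∈ S0, ‖E g‖ :=
        Finset.sum_congr rfl fun g hg => by simp only [haF, hg, ↓reduceIte]
      rw [h2]; linarith only [hS0]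
    · intro g hg
      simp only [haF, hg, ↓reduceIte, norm_zero]
  have hve_norm : ‖ve‖ = N := by rw [L1.norm_eq]; rfl
  have hva_norm : ‖va‖ ≤ N := by
    rw [L1.norm_eq]
    refine haFs.tsum_le_tsum (fun g => ?_) hEs
    change ‖aF g‖ ≤ ‖E g‖
    simp only [haF]
    split_ifs
    · exact le_rfl
    · rw [norm_zero]; exact norm_nonneg _
  -- the defect of the truncation
  let A0 : CrossedData G (Matrix (Fin q) (Fin q) ℂ) :=
    trivData (mtr q) (mtr_comm q) (fun _ => False) (fun _ _ h => h)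
  have hA0 : ∀ g a, A0.act g a = a := fun g a => rfl
  set opa := theta A0 (MonoidHom.id G) va with hopa
  set ope := theta A0 (MonoidHom.id G) ve with hope
  have hope_ve : ope ve = ve := L1.ext fun z => by
    rw [hope, theta_co A0 hA0]
    exact hEc z
  have hdefect : ‖opa va - va‖ ≤ (2 * N + 1) * ε := by
    have h1 : opa va - va = (opa - ope) va + ope (va - ve) - (va - ve) := by
      rw [map_sub, hope_ve, sub_apply]
      abel
    have h2 : ‖(opa - ope) va‖ ≤ ε * N := by
      have h3 : opa - ope = theta A0 (MonoidHom.id G) (va - ve) := by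
        rw [hopa, hope, map_sub]
      refine ((opa - ope).le_opNorm va).trans ?_
      refine mul_le_mul ?_ hva_norm (norm_nonneg _) hε0.le
      rw [h3]
      exact (theta_norm A0 _ _).trans hdiff.le
    have h4 : ‖ope (va - ve)‖ ≤ N * ε := by
      refine (ope.le_opNorm _).trans ?_
      refine mul_le_mul ?_ hdiff.le (norm_nonneg _) hN0
      rw [← hve_norm]
      exact theta_norm A0 _ _
    rw [h1]
    refine (norm_sub_le _ _).trans ?_
    have h5 := norm_add_le ((opa - ope) va) (ope (va - ve))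
    linarith only [h5, h4, h2, hdiff]
  set dz : G → Matrix (Fin q) (Fin q) ℂ := fun z =>
    (∑ x ∈ S0, E x * aF (x⁻¹ * z)) - aF z with hdz
  have hdz_co : ∀ z, (opa va - va).co z = dz z := by
    intro z
    have h1 : (opa va - va).co z = (opa va).co z - va.co z := rfl
    rw [h1, hopa, theta_co A0 hA0, tsum_eq_sum (s := S0)]
    · simp only [hdz]
      congr 1
      refine Finset.sum_congr rfl fun x hx => ?_
      change aF x * aF (x⁻¹ * z) = _
      simp only [haF, hx, ↓reduceIte, mul_ite, mul_zero]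
    · intro x hx
      change aF x * aF (x⁻¹ * z) = 0
      simp only [haF, hx, ↓reduceIte, mul_ite, zero_mul, mul_zero, ite_self]
  -- the finite set
  let S : Finset G := S0 ∪ (S0 ×ˢ S0).image (fun p => p.1 * p.2)
  refine ⟨S, fun H _ f s hfs hsm => ?_⟩
  have hS0S : ∀ x ∈ S0, x ∈ S := fun x hx => Finset.mem_union_left _ hx
  have hSS : ∀ x ∈ S0, ∀ y ∈ S0, x * y ∈ S := fun x hx y hy =>
    Finset.mem_union_right _ (Finset.mem_image.mpr ⟨(x, y), Finset.mem_product.mpr ⟨hx, hy⟩, rfl⟩)
  let B : CrossedData H (Matrix (Fin q) (Fin q) ℂ) :=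
    trivData (mtr q) (mtr_comm q) (fun _ => False) (fun _ _ h => h)
  have hB : ∀ g a, B.act g a = a := fun g a => rfl
  set pt := ∑ x ∈ S0, B.phi (s x) (E x) with hpt
  have hpt_mem : pt ∈ B.clos := B.clos.sum_mem fun x _ => B.phi_mem_clos _ _
  have hpt_norm : ‖pt‖ ≤ N := by
    refine (norm_sum_le _ _).trans ?_
    refine (Finset.sum_le_sum fun x _ => B.phi_norm (s x) (E x)).trans ?_
    exact hEs.sum_le_tsum S0 fun _ _ => norm_nonneg _
  have hpt_def : pt * pt - pt = ∑ z ∈ S, B.phi (s z) (dz z) := by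
    have h1 : pt * pt = ∑ z ∈ S, B.phi (s z) (∑ x ∈ S0, E x * aF (x⁻¹ * z)) := by
      have h2 : ∀ z, B.phi (s z) (∑ x ∈ S0, E x * aF (x⁻¹ * z)) =
          ∑ x ∈ S0, B.phi (s z) (E x * aF (x⁻¹ * z)) := fun z => by
        have := map_sum (B.phiL (s z)) (fun x => E x * aF (x⁻¹ * z)) S0
        exact this
      simp only [h2]
      rw [Finset.sum_comm, hpt, Finset.sum_mul]
      refine Finset.sum_congr rfl fun x hx => ?_
      rw [Finset.mul_sum]
      have h3 : ∑ y ∈ S0, B.phi (s x) (E x) * B.phi (s y) (E y) =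
          ∑ y ∈ S0, B.phi (s (x * y)) (E x * aF (x⁻¹ * (x * y))) := by
        refine Finset.sum_congr rfl fun y hy => ?_
        rw [B.phi_mul, hB, hsm x (hS0S x hx) y (hS0S y hy) (hSS x hx y hy), inv_mul_cancel_left]
        simp [haF, hy]
      rw [h3]
      have h4 : ∑ y ∈ S0, B.phi (s (x * y)) (E x * aF (x⁻¹ * (x * y))) =
          ∑ z ∈ S0.image (fun y => x * y), B.phi (s z) (E x * aF (x⁻¹ * z)) := by
        rw [Finset.sum_image]
        intro y _ y' _ h
        exact mul_left_cancel h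
      rw [h4]
      refine Finset.sum_subset ?_ ?_
      · intro z hz
        obtain ⟨y, hy, rfl⟩ := Finset.mem_image.mp hz
        exact hSS x hx y hy
      · intro z _ hz
        have h5 : x⁻¹ * z ∉ S0 := fun h => hz (Finset.mem_image.mpr ⟨x⁻¹ * z, h, by group⟩)
        have h6 : aF (x⁻¹ * z) = 0 := by simp only [haF, h5, ↓reduceIte]
        rw [h6, mul_zero]
        exact (B.phiL (s z)).map_zero
    have h7 : pt = ∑ z ∈ S, B.phi (s z) (aF z) := by
      rw [hpt]
      have h8 : ∑ x ∈ S0, B.phi (s x) (E x) = ∑ x ∈ S0, B.phi (s x) (aF x) :=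
        Finset.sum_congr rfl fun x hx => by simp [haF, hx]
      rw [h8]
      refine Finset.sum_subset (fun x hx => hS0S x hx) ?_
      intro z _ hz
      have h6 : aF z = 0 := by simp [haF, hz]
      rw [h6]
      exact (B.phiL (s z)).map_zero
    rw [h1]
    conv_lhs => rw [h7]
    rw [← Finset.sum_sub_distrib]
    refine Finset.sum_congr rfl fun z _ => ?_
    exact ((B.phiL (s z)).map_sub _ _).symm
  have hpt_small : ‖pt * pt - pt‖ ≤ (2 * N + 1) * ε := by
    rw [hpt_def]
    refine (norm_sum_le _ _).trans ?_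
    refine (Finset.sum_le_sum fun z _ => B.phi_norm (s z) (dz z)).trans ?_
    refine le_trans ?_ hdefect
    have := sum_norm_le (opa va - va) S
    simpa only [hdz_co] using this
  have hnt : Nontrivial (L1 H (Matrix (Fin q) (Fin q) ℂ)) := by
    refine ⟨⟨CrossedData.del, 0, fun h => ?_⟩⟩
    have h1 : (CrossedData.del : L1 H (Matrix (Fin q) (Fin q) ℂ)).co 1 = 0 := by rw [h]; rfl
    rw [CrossedData.del_one] at h1
    exact one_ne_zero h1
  obtain ⟨ft, hft_mem, hft_idem, hft_near⟩ := exists_idempotent_near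
    (R := L1 H (Matrix (Fin q) (Fin q) ℂ) →L[ℂ] L1 H (Matrix (Fin q) (Fin q) ℂ))
    (S := (B.clos : Set _)) B.clos_closed
    (fun a ha b hb => B.mul_mem_clos ha hb) (fun a ha b hb => B.clos.add_mem ha hb)
    (fun a ha => B.clos.neg_mem ha) pt hpt_mem (hpt_small.trans hε3)
  have hft_near' : ‖ft - pt‖ ≤ 3 / 16 := by
    refine hft_near.trans ?_
    have h1 : 0 ≤ ‖pt‖ := norm_nonneg _
    have h2 : 0 ≤ ‖pt * pt - pt‖ := norm_nonneg _
    calc 3 * (2 * ‖pt‖ + 1) * ‖pt * pt - pt‖
        ≤ 3 * (2 * N + 1) * ((2 * N + 1) * ε) := by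
          refine mul_le_mul ?_ hpt_small h2 (by (clear * -; (clear * -; positivity)))
          linarith only [hpt_norm]
      _ = 3 * ((2 * N + 1) ^ 2 * ε) := by ring
      _ = 3 / 16 := by rw [hε1]; norm_num
  set vb := ft CrossedData.del with hvb
  refine ⟨Matrix.of fun i j => fun h => vb.co h i j, ?_, ?_⟩
  · refine isIdem_of_conv vb.summable_norm fun k => ?_
    refine (theta_co B hB vb vb k).symm.trans ?_
    have h1 : theta B (MonoidHom.id H) vb = ft := by
      rw [hvb, ← Psi_apply]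
      exact Psi_id B hft_mem
    rw [h1, hvb]
    change ((ft * ft) CrossedData.del).co k = _
    rw [hft_idem]
  · intro C
    have hP : ∀ g h : G, ConjClasses.mk (g * h) = C → ConjClasses.mk (h * g) = C := by
      intro g h hgh
      rw [← hgh, ConjClasses.mk_eq_mk_iff_isConj]
      exact isConj_iff.2 ⟨g, by group⟩
    let A : CrossedData G (Matrix (Fin q) (Fin q) ℂ) :=
      trivData (mtr q) (mtr_comm q) (fun g => ConjClasses.mk g = C) hP
    have hA : ∀ g a, A.act g a = a := fun g a => rfl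
    have hclose : ‖Psi A f ft - theta A (MonoidHom.id G) ve‖ < 1 := by
      have h1 : Psi A f pt = theta A (MonoidHom.id G) va := by
        rw [hpt, map_sum, theta_apply, tsum_eq_sum (s := S0)]
        · refine Finset.sum_congr rfl fun x hx => ?_
          rw [Psi_phi, hfs x (hS0S x hx)]
          change A.phi x (E x) = A.phi x (aF x)
          simp [haF, hx]
        · intro x hx
          change A.phi x (aF x) = 0
          have h6 : aF x = 0 := by simp [haF, hx]
          rw [h6]
          exact (A.phiL x).map_zero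
      have h2 : Psi A f ft - theta A (MonoidHom.id G) ve =
          Psi A f (ft - pt) + theta A (MonoidHom.id G) (va - ve) := by
        rw [map_sub, map_sub, h1]
        abel
      rw [h2]
      refine (norm_add_le _ _).trans_lt ?_
      have h3 := (Psi_norm A f (ft - pt)).trans hft_near'
      have h4 := (theta_norm A (MonoidHom.id G) (va - ve)).trans hdiff.le
      linarith only [h4, h3, hε2]
    have hidem1 : Psi A f ft * Psi A f ft = Psi A f ft := by
      rw [← Psi_mul A B f (fun _ _ => rfl) hft_mem hft_mem, hft_idem]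
    have hidem2 := theta_idem A hA ve hEc
    have key := trace_eq_of_close (T := A.tr) A.one_mem_clos A.mul_mem_clos A.tr_comm hidem1 hidem2
      (Psi_mem A B f hft_mem) (theta_mem A _ ve) hclose
    rw [Psi_apply, tr_theta, tr_theta] at key
    have h1 : ∑' h, A.fn ((MonoidHom.id G) h) (ve.co h) = tau C e := by
      unfold tau
      have hset : C.carrier = {g | ConjClasses.mk g = C} := by
        ext g
        exact ConjClasses.mem_carrier_iff_mk_eq
      rw [hset, tsum_subtype {g | ConjClasses.mk g = C} (fun g => ∑ i, e i i g)]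
      refine tsum_congr fun g => ?_
      by_cases hg : ConjClasses.mk g = C
      · rw [Set.indicator_of_mem (by exact hg)]
        exact trivData_fn_pos (mtr q) (mtr_comm q) (fun g => ConjClasses.mk g = C) hP
          (g := g) hg _
      · rw [Set.indicator_of_notMem (by exact hg)]
        exact trivData_fn_neg (mtr q) (mtr_comm q) (fun g => ConjClasses.mk g = C) hP
          (g := g) hg _
    have h2 : ∑' h, A.fn (f h) (vb.co h) =
        ∑' h : {h : H // ConjClasses.mk (f h) = C}, ∑ i, vb.co h i i := by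
      have := tsum_subtype {h : H | ConjClasses.mk (f h) = C} (fun h => ∑ i, vb.co h i i)
      refine Eq.trans ?_ this.symm
      refine tsum_congr fun g => ?_
      by_cases hg : ConjClasses.mk (f g) = C
      · rw [Set.indicator_of_mem (by exact hg)]
        exact trivData_fn_pos (mtr q) (mtr_comm q) (fun g => ConjClasses.mk g = C) hP
          (g := f g) hg _
      · rw [Set.indicator_of_notMem (by exact hg)]
        exact trivData_fn_neg (mtr q) (mtr_comm q) (fun g => ConjClasses.mk g = C) hP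
          (g := f g) hg _
    rw [← h1, ← key, h2]
    rfl

end Mat

end Vale.Agent.P184
end
end
end

section

section

open Filter Topology

namespace Vale.Agent.P184

section

variable {X : Type*} [MetricSpace X]

/-- quadrilateral inequality -/
theorem HasCNMidpoints.quad (h : HasCNMidpoints X) (a b c d : X) :
    dist a c ^ 2 + dist b d ^ 2 ≤ dist a b ^ 2 + dist b c ^ 2 + dist c d ^ 2 + dist d a ^ 2 := by
  obtain ⟨m, hm⟩ := h a c
  have h1 := hm b
  have h2 := hm d
  have h3 : dist b d ≤ dist b m + dist d m := dist_triangle_right b d m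
  have h4 : dist b d ^ 2 ≤ 2 * dist b m ^ 2 + 2 * dist d m ^ 2 := by
    have h5 : dist b d ^ 2 ≤ (dist b m + dist d m) ^ 2 := by
      gcongr
    linarith only [sq_nonneg (dist b m - dist d m), h5]
  rw [dist_comm b a, dist_comm d c] at *
  linarith only [h4, h2, h1]

/-- quasi-linearization (Berg-Nikolaev) -/
noncomputable def qip (a b c d : X) : ℝ :=
  (dist a d ^ 2 + dist b c ^ 2 - dist a c ^ 2 - dist b d ^ 2) / 2

theorem qip_add_left (a b e c d : X) : qip a b c d + qip b e c d = qip a e c d := by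
  unfold qip; ring

theorem qip_add_right (a b c d e : X) : qip a b c d + qip a b d e = qip a b c e := by
  unfold qip; ring

theorem HasCNMidpoints.abs_qip_le (h : HasCNMidpoints X) (a b c d : X) :
    |qip a b c d| ≤ (dist a b ^ 2 + dist c d ^ 2) / 2 := by
  have h1 := h.quad a b c d
  have h2 := h.quad a b d c
  rw [abs_le]
  unfold qip
  rw [dist_comm d a] at h1
  rw [dist_comm d c, dist_comm c a] at h2
  constructor <;> linarith

end

theorem charged_of_cat {G : Type*} [Group G] {X : Type*} [MetricSpace X]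
    [MulAction G X] (hiso : ∀ (g : G) (p q : X), dist (g • p) (g • q) = dist p q)
    (hX : HasCNMidpoints X) (x : G) (p : X) (ε : ℝ) (hε : 0 < ε)
    (hdrift : ∀ n : ℕ, ε * n ≤ dist p (x ^ n • p)) : Charged x := by
  -- displacement along powers
  set D : ℕ → ℝ := fun n => dist p (x ^ n • p) with hD
  have hD0 : D 0 = 0 := by simp [hD]
  have hDn : ∀ n, D n ≤ n * D 1 := by
    intro n
    induction n with
    | zero => simp [hD0]
    | succ n ih =>
      have h1 : D (n + 1) ≤ D n + D 1 := by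
        have h2 := dist_triangle p (x ^ n • p) (x ^ (n + 1) • p)
        have h3 : dist (x ^ n • p) (x ^ (n + 1) • p) = D 1 := by
          rw [pow_succ, mul_smul, hiso, hD]; simp
        rw [h3] at h2
        exact h2
      push_cast
      linarith only [ih, h1]
  have hD1 : 0 ≤ D 1 := dist_nonneg
  let A : G → ℕ → ℝ := fun z m => qip p (z • p) p (x ^ m • p)
  have hA : ∀ z m, A z m = (D m ^ 2 + dist p (z • p) ^ 2 - dist (z • p) (x ^ m • p) ^ 2) / 2 := by
    intro z m
    simp only [A, qip, hD, dist_self, dist_comm (z • p) p]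
    ring
  have hAabs : ∀ z m, |A z m| ≤ dist p (z • p) * (m * D 1) + dist p (z • p) ^ 2 := by
    intro z m
    rw [hA]
    set a := dist p (z • p)
    set b := dist (z • p) (x ^ m • p)
    have ha : 0 ≤ a := dist_nonneg
    have hb : 0 ≤ b := dist_nonneg
    have hDm : 0 ≤ D m := dist_nonneg
    have h1 : D m ≤ a + b := dist_triangle p (z • p) (x ^ m • p)
    have h2 : b ≤ a + D m := by
      have := dist_triangle (z • p) p (x ^ m • p)
      rwa [dist_comm (z • p) p] at this
    have h3 := hDn m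
    rw [abs_le]
    constructor
    · linarith only [mul_nonneg (sub_nonneg.2 h2) (sub_nonneg.2 h3), mul_nonneg (sub_nonneg.2 h2) (sub_nonneg.2 h2), mul_nonneg (sub_nonneg.2 h1) (sub_nonneg.2 h3), mul_nonneg (sub_nonneg.2 h1) (sub_nonneg.2 h2), mul_nonneg (sub_nonneg.2 h1) (sub_nonneg.2 h1), mul_nonneg (sub_nonneg.2 hDm) (sub_nonneg.2 h2)]
    · linarith only [mul_nonneg (sub_nonneg.2 h2) (sub_nonneg.2 h3), mul_nonneg (sub_nonneg.2 h2) (sub_nonneg.2 h2), mul_nonneg (sub_nonneg.2 h1) (sub_nonneg.2 h3), mul_nonneg (sub_nonneg.2 h1) (sub_nonneg.2 h1), mul_nonneg (sub_nonneg.2 hDm) (sub_nonneg.2 h1)]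
  let Φ : G → ℕ → ℝ := fun z M => (2 / (M : ℝ) ^ 2) * ∑ m ∈ Finset.range M, A z (m + 1)
  have hΦle : ∀ z M, 0 < M →
      |Φ z M| ≤ dist p (z • p) * D 1 * (1 + 1 / M) + 2 * dist p (z • p) ^ 2 / M := by
    intro z M hM
    have hM' : (0 : ℝ) < M := by exact_mod_cast hM
    have h1 : |∑ m ∈ Finset.range M, A z (m + 1)| ≤
        ∑ m ∈ Finset.range M, (dist p (z • p) * (((m + 1 : ℕ) : ℝ) * D 1) + dist p (z • p) ^ 2) :=
      (Finset.abs_sum_le_sum_abs _ _).trans (Finset.sum_le_sum fun m _ => hAabs z (m + 1))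
    have h2 : ∑ m ∈ Finset.range M, (dist p (z • p) * (((m + 1 : ℕ) : ℝ) * D 1) +
        dist p (z • p) ^ 2) =
        dist p (z • p) * D 1 * (M * (M + 1) / 2) + M * dist p (z • p) ^ 2 := by
      rw [Finset.sum_add_distrib, Finset.sum_const, Finset.card_range, nsmul_eq_mul]
      congr 1
      have h3 : ∀ N : ℕ, ∑ m ∈ Finset.range N, (dist p (z • p) * (((m + 1 : ℕ) : ℝ) * D 1)) =
          dist p (z • p) * D 1 * (N * (N + 1) / 2) := by
        intro N
        induction N with
        | zero => simp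
        | succ N ih => rw [Finset.sum_range_succ, ih]; push_cast; ring
      exact h3 M
    rw [h2] at h1
    show |(2 / (M : ℝ) ^ 2) * ∑ m ∈ Finset.range M, A z (m + 1)| ≤ _
    rw [abs_mul, abs_of_pos (by (clear * - hM; positivity) : (0 : ℝ) < 2 / (M : ℝ) ^ 2)]
    calc (2 / (M : ℝ) ^ 2) * |∑ m ∈ Finset.range M, A z (m + 1)|
        ≤ (2 / (M : ℝ) ^ 2) * (dist p (z • p) * D 1 * (M * (M + 1) / 2) +
          M * dist p (z • p) ^ 2) := by gcongr
      _ = _ := by (clear * - hM; field_simp)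
  -- the ultralimit
  let U : Ultrafilter ℕ := hyperfilter ℕ
  have hU : (U : Filter ℕ) ≤ atTop := by
    rw [← Nat.cofinite_eq_atTop]; exact hyperfilter_le_cofinite
  have hlim : ∀ z, ∃ a, Tendsto (Φ z) U (𝓝 a) := by
    intro z
    have hK : ∀ᶠ M in (U : Filter ℕ), Φ z M ∈ Set.Icc (-(dist p (z • p) * D 1 * 2 +
        2 * dist p (z • p) ^ 2)) (dist p (z • p) * D 1 * 2 + 2 * dist p (z • p) ^ 2) := by
      refine hU ?_
      filter_upwards [eventually_gt_atTop 0] with M hM
      have hM' : (1 : ℝ) ≤ M := by exact_mod_cast hM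
      have h1 := hΦle z M hM
      have h2 : 1 / (M : ℝ) ≤ 1 := by rw [div_le_one (by linarith only [hM'])]; exact hM'
      have h3 : dist p (z • p) * D 1 * (1 + 1 / M) ≤ dist p (z • p) * D 1 * 2 := by
        have : 0 ≤ dist p (z • p) * D 1 := mul_nonneg dist_nonneg hD1
        linarith only [mul_nonneg (sub_nonneg.2 h2) (sub_nonneg.2 this)]
      have h4 : 2 * dist p (z • p) ^ 2 / M ≤ 2 * dist p (z • p) ^ 2 :=
        div_le_self (by (clear * -; positivity)) hM'
      exact abs_le.1 (by (clear * - h1 h3 h4; linarith))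
    obtain ⟨a, _, ha⟩ := isCompact_Icc.ultrafilter_le_nhds (U.map (Φ z)) (by
      rw [le_principal_iff]; exact hK)
    exact ⟨a, ha⟩
  choose φ hφ using hlim
  have hinv : Tendsto (fun M : ℕ => 1 / (M : ℝ)) U (𝓝 0) :=
    tendsto_one_div_atTop_nhds_zero_nat.mono_left hU
  have hpos : ∀ᶠ M in (U : Filter ℕ), 0 < M := hU (eventually_gt_atTop 0)
  refine ⟨fun z => D 1 * dist p (z • p), φ, ?_, ?_, ?_, ?_⟩
  · intro y z
    have h1 := dist_triangle p (y • p) ((y * z) • p)
    have h2 : dist (y • p) ((y * z) • p) = dist p (z • p) := by rw [mul_smul, hiso]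
    rw [h2] at h1
    show D 1 * dist p ((y * z) • p) ≤ D 1 * dist p (y • p) + D 1 * dist p (z • p)
    rw [← mul_add]
    exact mul_le_mul_of_nonneg_left h1 hD1
  · intro z w hz hw
    set K : ℝ := (dist p (w • p) ^ 2 + dist p (z⁻¹ • p) ^ 2) with hKdef
    have hK0 : 0 ≤ K := by (clear * -; (clear * -; positivity))
    have hcomm : ∀ m : ℕ, z⁻¹ * x ^ m = x ^ m * z⁻¹ := fun m => (hz.inv_left.pow_right m).eq
    have hstep : ∀ m, |A (z * w) m - A z m - A w m| ≤ K := by
      intro m
      have e1 : A (z * w) m = A z m + qip (z • p) ((z * w) • p) p (x ^ m • p) :=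
        (qip_add_left _ _ _ _ _).symm
      have e2 : qip (z • p) ((z * w) • p) p (x ^ m • p) =
          qip p (w • p) (z⁻¹ • p) (x ^ m • z⁻¹ • p) := by
        have t1 : ∀ u v : X, dist (z • u) v = dist u (z⁻¹ • v) := by
          intro u v
          rw [← hiso z⁻¹ (z • u) v, inv_smul_smul]
        unfold qip
        rw [mul_smul, t1, t1, t1, t1, smul_smul z⁻¹ (x ^ m) p, hcomm, mul_smul]
      have e3 : qip p (w • p) (z⁻¹ • p) (x ^ m • z⁻¹ • p) =
          qip p (w • p) (z⁻¹ • p) p + A w m + qip p (w • p) (x ^ m • p) (x ^ m • z⁻¹ • p) := by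
        rw [qip_add_right, qip_add_right]
      have b1 := hX.abs_qip_le p (w • p) (z⁻¹ • p) p
      have b2 := hX.abs_qip_le p (w • p) (x ^ m • p) (x ^ m • z⁻¹ • p)
      rw [hiso] at b2
      rw [dist_comm (z⁻¹ • p) p] at b1
      rw [e1, e2, e3]
      have e4 : A z m + (qip p (w • p) (z⁻¹ • p) p + A w m +
          qip p (w • p) (x ^ m • p) (x ^ m • z⁻¹ • p)) - A z m - A w m =
          qip p (w • p) (z⁻¹ • p) p + qip p (w • p) (x ^ m • p) (x ^ m • z⁻¹ • p) := by ring
      rw [e4]
      refine (abs_add_le _ _).trans ?_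
      rw [hKdef]; linarith only [b2, b1]
    have hsum : ∀ M : ℕ, 0 < M → |Φ (z * w) M - (Φ z M + Φ w M)| ≤ 2 * K * (1 / M) := by
      intro M hM
      have hM' : (0 : ℝ) < M := by exact_mod_cast hM
      have h1 : Φ (z * w) M - (Φ z M + Φ w M) = (2 / (M : ℝ) ^ 2) *
          ∑ m ∈ Finset.range M, (A (z * w) (m + 1) - A z (m + 1) - A w (m + 1)) := by
        simp only [Finset.sum_sub_distrib, Φ]; ring
      rw [h1, abs_mul, abs_of_pos (by (clear * - hM; positivity) : (0 : ℝ) < 2 / (M : ℝ) ^ 2)]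
      have h2 : |∑ m ∈ Finset.range M, (A (z * w) (m + 1) - A z (m + 1) - A w (m + 1))| ≤
          M * K := by
        refine (Finset.abs_sum_le_sum_abs _ _).trans ?_
        refine (Finset.sum_le_sum fun m _ => hstep (m + 1)).trans ?_
        rw [Finset.sum_const, Finset.card_range, nsmul_eq_mul]
      calc (2 / (M : ℝ) ^ 2) * |∑ m ∈ Finset.range M, (A (z * w) (m + 1) - A z (m + 1) -
            A w (m + 1))| ≤ (2 / (M : ℝ) ^ 2) * (M * K) := by gcongr
        _ = 2 * K * (1 / M) := by (clear * - hM; field_simp)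
    have hlim0 : Tendsto (fun M => Φ (z * w) M - (Φ z M + Φ w M)) U (𝓝 0) := by
      refine squeeze_zero_norm' ?_ (by simpa only [one_div, mul_zero] using hinv.const_mul (2 * K))
      filter_upwards [hpos] with M hM
      rw [Real.norm_eq_abs, ← one_div]
      exact hsum M hM
    have hlim1 : Tendsto (fun M => Φ (z * w) M - (Φ z M + Φ w M)) U
        (𝓝 (φ (z * w) - (φ z + φ w))) := (hφ (z * w)).sub ((hφ z).add (hφ w))
    have := tendsto_nhds_unique hlim1 hlim0
    linarith only [this]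
  · intro z _
    have h1 : Tendsto (fun M : ℕ => dist p (z • p) * D 1 * (1 + 1 / (M : ℝ)) +
        2 * dist p (z • p) ^ 2 * (1 / (M : ℝ))) U
        (𝓝 (dist p (z • p) * D 1 * (1 + 0) + 2 * dist p (z • p) ^ 2 * 0)) :=
      ((hinv.const_add 1).const_mul _).add (hinv.const_mul _)
    have h2 : φ z ≤ dist p (z • p) * D 1 * (1 + 0) + 2 * dist p (z • p) ^ 2 * 0 := by
      refine le_of_tendsto_of_tendsto (hφ z) h1 ?_
      filter_upwards [hpos] with M hM
      have h3 := (le_abs_self _).trans (hΦle z M hM)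
      rw [mul_one_div]
      exact h3
    show φ z ≤ D 1 * dist p (z • p)
    linarith only [h2]
  · have h1 : ∀ M : ℕ, 0 < M → ε ^ 2 ≤ Φ x M := by
      intro M hM
      have hM' : (0 : ℝ) < M := by exact_mod_cast hM
      have hAx : ∀ m : ℕ, A x (m + 1) = (D (m + 1) ^ 2 - D m ^ 2 + D 1 ^ 2) / 2 := by
        intro m
        rw [hA]
        have e1 : dist (x • p) (x ^ (m + 1) • p) = D m := by
          rw [pow_succ', mul_smul, hiso]
        have e2 : dist p (x • p) = D 1 := by simp [hD]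
        rw [e1, e2]; ring
      have h2 : ∀ N : ℕ, ∑ m ∈ Finset.range N, A x (m + 1) = (D N ^ 2 + N * D 1 ^ 2) / 2 := by
        intro N
        induction N with
        | zero => simp [hD0]
        | succ N ih => rw [Finset.sum_range_succ, ih, hAx]; push_cast; ring
      have h3 : Φ x M = (D M ^ 2 + M * D 1 ^ 2) / M ^ 2 := by
        simp only [Φ]
        rw [h2]; ring
      rw [h3, le_div_iff₀ (by (clear * - hM; positivity))]
      have h4 := hdrift M
      have h5 : (ε * M) ^ 2 ≤ D M ^ 2 := by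
        have : 0 ≤ ε * M := by (clear * - hε hM; positivity)
        exact pow_le_pow_left₀ this h4 2
      linarith only [mul_nonneg hM'.le (sq_nonneg (D 1)), h5]
    have h2 : ε ^ 2 ≤ φ x := by
      refine ge_of_tendsto (hφ x) ?_
      filter_upwards [hpos] with M hM
      exact h1 M hM
    have : 0 < ε ^ 2 := by positivity
    linarith only [h2, this]

end Vale.Agent.P184
end
end

section

section

namespace Vale.Agent.P184

section McShaneCyclic

variable {G : Type*} [Group G] (x : G) (L : G → ℝ) (lam : ℝ)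

/-- McShane extension from the cyclic group generated by `x` -/
noncomputable def mcc (y : G) : ℝ := ⨅ n : ℤ, (n * lam + L (y * (x ^ n)⁻¹))

variable {x L lam}

theorem mcc_bdd (hL : ∀ g h, L (g * h) ≤ L g + L h) (hlam : ∀ n : ℤ, n * lam ≤ L (x ^ n)) (y : G) :
    BddBelow (Set.range fun n : ℤ => (n * lam + L (y * (x ^ n)⁻¹))) := by
  refine ⟨- L y⁻¹, ?_⟩
  rintro _ ⟨n, rfl⟩
  have h1 := hL y⁻¹ (y * (x ^ n)⁻¹)
  rw [inv_mul_cancel_left] at h1
  have h2 := hlam (-n)
  rw [zpow_neg] at h2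
  push_cast at h2
  show - L y⁻¹ ≤ n * lam + L (y * (x ^ n)⁻¹)
  linarith

theorem mcc_right (hL : ∀ g h, L (g * h) ≤ L g + L h) (hlam : ∀ n : ℤ, n * lam ≤ L (x ^ n))
    (y : G) : mcc x L lam (y * x) = mcc x L lam y + lam := by
  have e1 : mcc x L lam (y * x) = ⨅ n : ℤ, ((n * lam + L (y * (x ^ n)⁻¹)) + lam) := by
    unfold mcc
    rw [← (Equiv.addRight (1 : ℤ)).iInf_comp]
    refine iInf_congr fun n => ?_
    show ((n + 1 : ℤ) : ℝ) * lam + L (y * x * (x ^ (n + 1))⁻¹) = _
    rw [zpow_add_one, mul_inv_rev, mul_assoc, ← mul_assoc x, mul_inv_cancel, one_mul]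
    push_cast; ring
  rw [e1, mcc]
  exact (ciInf_add (mcc_bdd hL hlam y) lam).symm

theorem mcc_left (hL : ∀ g h, L (g * h) ≤ L g + L h) (hlam : ∀ n : ℤ, n * lam ≤ L (x ^ n))
    (k y : G) : mcc x L lam (k * y) ≤ L k + mcc x L lam y := by
  have h1 : L k + mcc x L lam y = ⨅ n : ℤ, (L k + (n * lam + L (y * (x ^ n)⁻¹))) :=
    add_ciInf (mcc_bdd hL hlam y) (L k)
  rw [h1]
  refine ciInf_mono (mcc_bdd hL hlam (k * y)) fun n => ?_
  have h2 := hL k (y * (x ^ n)⁻¹)
  rw [← mul_assoc] at h2
  linarith only [h2]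

end McShaneCyclic

/-- An element with amenable centralizer and positive stable length is charged. -/
theorem charged_of_amenable {G : Type*} [Group G] (x : G)
    (hH : IsAmenable (Subgroup.centralizer ({x} : Set G))) (L : G → ℝ)
    (hL : ∀ g h, L (g * h) ≤ L g + L h) (lam : ℝ) (hlam0 : 0 < lam)
    (hlam : ∀ n : ℤ, n * lam ≤ L (x ^ n)) : Charged x := by
  classical
  obtain ⟨m, madd, mpos, mconst, minv⟩ := hH
  have hcen : ∀ z, Commute z x ↔ z ∈ Subgroup.centralizer ({x} : Set G) := by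
    intro z
    rw [Subgroup.mem_centralizer_singleton_iff]
    exact ⟨fun h => h.eq, fun h => h⟩
  have mmono : ∀ f g : Subgroup.centralizer ({x} : Set G) → ℝ, (∃ K, ∀ h, |f h| ≤ K) →
      (∃ K, ∀ h, |g h| ≤ K) → (∀ h, f h ≤ g h) → m f ≤ m g := by
    rintro f g ⟨K, hK⟩ ⟨K', hK'⟩ hfg
    have hb : ∃ K, ∀ h, |(g - f) h| ≤ K := ⟨K' + K, fun h => by
      rw [Pi.sub_apply]
      exact (abs_sub _ _).trans (add_le_add (hK' h) (hK h))⟩
    have h1 := madd f (g - f) ⟨K, hK⟩ hb
    have h2 := mpos (g - f) hb (fun h => sub_nonneg.2 (hfg h))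
    rw [add_sub_cancel] at h1
    linarith only [h1, h2]
  let F : G → ℝ := mcc x L lam
  have hFr : ∀ y, F (y * x) = F y + lam := mcc_right hL hlam
  have hFl : ∀ k y, F (k * y) ≤ L k + F y := mcc_left hL hlam
  have hFl' : ∀ k y, F (k * y) - F y ≤ L k := fun k y => by have := hFl k y; linarith only [this]
  have hFl'' : ∀ k y, -L k⁻¹ ≤ F (k * y) - F y := fun k y => by
    have := hFl k⁻¹ (k * y)
    rw [inv_mul_cancel_left] at this
    linarith only [this]
  have hbd : ∀ k, ∃ K, ∀ h : Subgroup.centralizer ({x} : Set G),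
      |F (k * (h : G)) - F (h : G)| ≤ K := fun k =>
    ⟨max (L k) (L k⁻¹), fun h => abs_le.2
      ⟨by have := hFl'' k h; have := le_max_right (L k) (L k⁻¹); (clear hlam0 m madd mpos mconst minv hcen mmono hFr hFl'; linarith),
       by have := hFl' k h; have := le_max_left (L k) (L k⁻¹); linarith⟩⟩
  let φ : G → ℝ := fun k => m fun h => F (k * (h : G)) - F (h : G)
  refine ⟨L, φ, hL, ?_, ?_, ?_⟩
  · intro z w hz hw
    have hw' := (hcen w).1 hw
    have h1 := minv (fun h => F (z * (h : G)) - F (h : G)) ⟨w, hw'⟩ (hbd z)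
    have h2 : ∃ K, ∀ h : Subgroup.centralizer ({x} : Set G),
        |F (z * (((⟨w, hw'⟩ : Subgroup.centralizer ({x} : Set G)) * h : Subgroup.centralizer ({x} : Set G)) : G)) -
          F (((⟨w, hw'⟩ : Subgroup.centralizer ({x} : Set G)) * h : Subgroup.centralizer ({x} : Set G)) : G)| ≤ K := by
      obtain ⟨K, hK⟩ := hbd z
      exact ⟨K, fun h => hK _⟩
    have h3 := madd (fun h => F (z * (((⟨w, hw'⟩ : Subgroup.centralizer ({x} : Set G)) * h :
        Subgroup.centralizer ({x} : Set G)) : G)) -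
          F (((⟨w, hw'⟩ : Subgroup.centralizer ({x} : Set G)) * h :
          Subgroup.centralizer ({x} : Set G)) : G))
      (fun h => F (w * (h : G)) - F (h : G)) h2 (hbd w)
    show m (fun h : Subgroup.centralizer ({x} : Set G) => F (z * w * (h : G)) - F (h : G)) = _
    rw [show (fun h : Subgroup.centralizer ({x} : Set G) => F (z * w * (h : G)) - F (h : G)) =
      ((fun h => F (z * (((⟨w, hw'⟩ : Subgroup.centralizer ({x} : Set G)) * h :
        Subgroup.centralizer ({x} : Set G)) : G)) -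
          F (((⟨w, hw'⟩ : Subgroup.centralizer ({x} : Set G)) * h :
          Subgroup.centralizer ({x} : Set G)) : G)) +
          fun h : Subgroup.centralizer ({x} : Set G) => F (w * (h : G)) - F (h : G)) from by
      funext h
      simp only [mul_assoc, Subgroup.coe_mul, Pi.add_apply]
      ring]
    rw [h3, h1]
  · intro z _
    have h1 := mmono (fun h => F (z * (h : G)) - F (h : G)) (fun _ => L z) (hbd z)
      ⟨|L z|, fun _ => le_rfl⟩ (fun h => hFl' z h)
    rw [mconst] at h1
    exact h1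
  · have h1 : (fun h : Subgroup.centralizer ({x} : Set G) => F (x * (h : G)) - F (h : G)) =
        fun _ => lam := by
      funext h
      have h2 : (h : G) * x = x * h := (hcen h).2 h.2
      rw [← h2, hFr]; ring
    show m (fun h => F (x * (h : G)) - F (h : G)) ≠ 0
    rw [h1, mconst]
    exact hlam0.ne'

end Vale.Agent.P184
end
end

section

section

/-!
# Right invariant means on bounded complex functions
-/

noncomputable section
open scoped Topology BoundedContinuousFunction

namespace Vale.Agent.P184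

/-- right translation -/
def rtr {C : Type*} [Group C] [TopologicalSpace C] [DiscreteTopology C] (d : C) : C(C, C) :=
  ⟨fun c => c * d, continuous_of_discreteTopology⟩

theorem exists_rmean {C : Type*} [Group C] [TopologicalSpace C] [DiscreteTopology C]
    (h : IsAmenable C) : ∃ M : (C →ᵇ ℂ) →L[ℂ] ℂ, (∀ a : ℂ, M (.const C a) = a) ∧
      ∀ (F : C →ᵇ ℂ) (d : C), M (F.compContinuous (rtr d)) = M F := by
  obtain ⟨m, madd, mpos, mconst, minv⟩ := h
  have mzero : m 0 = 0 := mconst 0
  have mneg : ∀ f : C → ℝ, (∃ K, ∀ h, |f h| ≤ K) → m (-f) = - m f := by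
    rintro f ⟨K, hK⟩
    have h1 := madd f (-f) ⟨K, hK⟩ ⟨K, fun h => by rw [Pi.neg_apply, abs_neg]; exact hK h⟩
    rw [add_neg_cancel, mzero] at h1
    linarith only [h1]
  have mmono : ∀ f g : C → ℝ, (∃ K, ∀ h, |f h| ≤ K) → (∃ K, ∀ h, |g h| ≤ K) →
      (∀ h, f h ≤ g h) → m f ≤ m g := by
    rintro f g ⟨K, hK⟩ ⟨K', hK'⟩ hfg
    have hb : ∃ K, ∀ h, |(g - f) h| ≤ K := ⟨K' + K, fun h => by
      rw [Pi.sub_apply]
      exact (abs_sub _ _).trans (add_le_add (hK' h) (hK h))⟩
    have h1 := madd f (g - f) ⟨K, hK⟩ hb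
    have h2 := mpos (g - f) hb (fun h => sub_nonneg.2 (hfg h))
    rw [add_sub_cancel] at h1
    linarith
  have mabs : ∀ (f : C → ℝ) (K : ℝ), (∀ h, |f h| ≤ K) → |m f| ≤ K := by
    intro f K hK
    rw [abs_le]
    constructor
    · have h1 := mmono (fun _ => -K) f ⟨|(-K)|, fun _ => le_rfl⟩ ⟨K, hK⟩
        (fun h => (abs_le.1 (hK h)).1)
      rwa [mconst] at h1
    · have h1 := mmono f (fun _ => K) ⟨K, hK⟩ ⟨|K|, fun _ => le_rfl⟩
        (fun h => (abs_le.1 (hK h)).2)
      rwa [mconst] at h1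
  -- homogeneity
  have mnat : ∀ (n : ℕ) (f : C → ℝ), (∃ K, ∀ h, |f h| ≤ K) → m ((n : ℝ) • f) = n * m f := by
    rintro n f ⟨K, hK⟩
    induction n with
    | zero => simp [mzero]
    | succ n ih =>
      have h1 := madd ((n : ℝ) • f) f ⟨n * K, fun h => by
        rw [Pi.smul_apply, smul_eq_mul, abs_mul, Nat.abs_cast]
        exact mul_le_mul_of_nonneg_left (hK h) (Nat.cast_nonneg n)⟩ ⟨K, hK⟩
      rw [show ((n + 1 : ℕ) : ℝ) • f = (n : ℝ) • f + f by push_cast; rw [add_smul, one_smul],
        h1, ih]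
      push_cast; ring
  have msmul : ∀ (r : ℝ) (f : C → ℝ), (∃ K, ∀ h, |f h| ≤ K) → m (r • f) = r * m f := by
    rintro r f ⟨K, hK⟩
    have hK0 : 0 ≤ K := (abs_nonneg _).trans (hK 1)
    have hb : ∀ r : ℝ, ∃ K, ∀ h, |(r • f) h| ≤ K := fun r => ⟨|r| * K, fun h => by
      rw [Pi.smul_apply, smul_eq_mul, abs_mul]
      exact mul_le_mul_of_nonneg_left (hK h) (abs_nonneg r)⟩
    have maddr : ∀ r s : ℝ, m ((r + s) • f) = m (r • f) + m (s • f) := fun r s => by
      rw [add_smul]; exact madd _ _ (hb r) (hb s)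
    let φ : ℝ →+ ℝ := AddMonoidHom.mk' (fun r => m (r • f)) maddr
    have hcont : Continuous φ := by
      refine AddMonoidHomClass.continuous_of_bound φ K fun r => ?_
      show |m (r • f)| ≤ K * |r|
      refine mabs _ _ fun h => ?_
      rw [Pi.smul_apply, smul_eq_mul, abs_mul, mul_comm]
      exact mul_le_mul_of_nonneg_right (hK h) (abs_nonneg r)
    have h1 := (φ.toRealLinearMap hcont).map_smul r 1
    have h2 : φ r = r * φ 1 := by simpa only [smul_eq_mul, mul_one, AddMonoidHom.coe_toRealLinearMap] using h1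
    have h3 : φ 1 = m f := by show m ((1 : ℝ) • f) = m f; rw [one_smul]
    rw [h3] at h2
    exact h2
  have hbre : ∀ F : C →ᵇ ℂ, ∀ h : C, |(F h⁻¹).re| ≤ ‖F‖ := fun F h =>
    (Complex.abs_re_le_norm _).trans (F.norm_coe_le_norm _)
  have hbim : ∀ F : C →ᵇ ℂ, ∀ h : C, |(F h⁻¹).im| ≤ ‖F‖ := fun F h =>
    (Complex.abs_im_le_norm _).trans (F.norm_coe_le_norm _)
  refine ⟨LinearMap.mkContinuous
    { toFun := fun F => (m fun h => (F h⁻¹).re : ℂ) + (m fun h => (F h⁻¹).im : ℂ) * Complex.I
      map_add' := fun F F' => ?_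
      map_smul' := fun a F => ?_ } 2 fun F => ?_, ?_, ?_⟩
  · have h1 := madd (fun h => (F h⁻¹).re) (fun h => (F' h⁻¹).re) ⟨_, hbre F⟩ ⟨_, hbre F'⟩
    have h2 := madd (fun h => (F h⁻¹).im) (fun h => (F' h⁻¹).im) ⟨_, hbim F⟩ ⟨_, hbim F'⟩
    have e1 : (fun h => ((F + F') h⁻¹).re) = (fun h => (F h⁻¹).re) + fun h => (F' h⁻¹).re := by
      funext h; simp only [BoundedContinuousFunction.coe_add, Pi.add_apply, Complex.add_re]
    have e2 : (fun h => ((F + F') h⁻¹).im) = (fun h => (F h⁻¹).im) + fun h => (F' h⁻¹).im := by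
      funext h; simp only [BoundedContinuousFunction.coe_add, Pi.add_apply, Complex.add_im]
    rw [e1, e2, h1, h2]
    push_cast; ring
  · have e1 : (fun h => ((a • F) h⁻¹).re) =
        (a.re • fun h => (F h⁻¹).re) + ((-a.im) • fun h => (F h⁻¹).im) := by
      funext h; simp only [BoundedContinuousFunction.coe_smul, smul_eq_mul, Complex.mul_re, sub_eq_add_neg, neg_smul, Pi.add_apply, Pi.smul_apply, Pi.neg_apply]
    have e2 : (fun h => ((a • F) h⁻¹).im) =
        (a.re • fun h => (F h⁻¹).im) + (a.im • fun h => (F h⁻¹).re) := by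
      funext h; simp only [BoundedContinuousFunction.coe_smul, smul_eq_mul, Complex.mul_im, Pi.add_apply, Pi.smul_apply]
    have hb : ∀ (r : ℝ) (φ : C → ℝ), (∀ h, |φ h| ≤ ‖F‖) → ∃ K, ∀ h, |(r • φ) h| ≤ K :=
      fun r φ hφ => ⟨|r| * ‖F‖, fun h => by
        rw [Pi.smul_apply, smul_eq_mul, abs_mul]
        exact mul_le_mul_of_nonneg_left (hφ h) (abs_nonneg r)⟩
    rw [e1, e2, madd _ _ (hb _ _ (hbre F)) (hb _ _ (hbim F)),
      madd _ _ (hb _ _ (hbim F)) (hb _ _ (hbre F)), msmul _ _ ⟨_, hbre F⟩, msmul _ _ ⟨_, hbim F⟩,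
      msmul _ _ ⟨_, hbim F⟩, msmul _ _ ⟨_, hbre F⟩, RingHom.id_apply, smul_eq_mul]
    apply Complex.ext <;> simp <;> ring
  · show ‖(m fun h => (F h⁻¹).re : ℂ) + (m fun h => (F h⁻¹).im : ℂ) * Complex.I‖ ≤ 2 * ‖F‖
    refine (norm_add_le _ _).trans ?_
    rw [norm_mul, Complex.norm_I, mul_one, Complex.norm_real, Complex.norm_real, two_mul]
    exact add_le_add (mabs _ _ (hbre F)) (mabs _ _ (hbim F))
  · intro a
    show (m fun _ => a.re : ℂ) + (m fun _ => a.im : ℂ) * Complex.I = a
    rw [mconst, mconst, Complex.re_add_im]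
  · intro F d
    show (m fun h => (F (h⁻¹ * d)).re : ℂ) + (m fun h => (F (h⁻¹ * d)).im : ℂ) * Complex.I =
      (m fun h => (F h⁻¹).re : ℂ) + (m fun h => (F h⁻¹).im : ℂ) * Complex.I
    have h1 := minv (fun h => (F h⁻¹).re) d⁻¹ ⟨_, hbre F⟩
    have h2 := minv (fun h => (F h⁻¹).im) d⁻¹ ⟨_, hbim F⟩
    have e : ∀ h : C, h⁻¹ * d = (d⁻¹ * h)⁻¹ := fun h => by group
    simp only [e, h1, h2]

end Vale.Agent.P184
end
end
end

section

section

/-!
# The trace on the crossed product with equivariant coefficients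
-/

noncomputable section
open scoped Topology BoundedContinuousFunction

namespace Vale.Agent.P184

namespace CrossedData

variable {G : Type*} [Group G] {E : Type*} [NormedRing E] [NormedAlgebra ℂ E] [CompleteSpace E]
  (A : CrossedData G E)

theorem trace_twist (α β : G → E) (hα : Summable fun g => ‖A.phi g (α g)‖)
    (hβ : Summable fun g => ‖A.phi g (β g)‖)
    (hαi : (∑' g, A.phi g (α g)) * (∑' g, A.phi g (α g)) = ∑' g, A.phi g (α g))
    (hβi : (∑' g, A.phi g (β g)) * (∑' g, A.phi g (β g)) = ∑' g, A.phi g (β g))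
    (hαm : (∑' g, A.phi g (α g)) ∈ A.clos) (hβm : (∑' g, A.phi g (β g)) ∈ A.clos)
    (c : E) (hcc : c * c = 1) (w : G → ℝ)
    (hw : ∀ g, ‖c * α g * A.act g c - β g‖ ≤ w g) (hws : Summable w) (hw1 : ∑' g, w g < 1) :
    A.tr (∑' g, A.phi g (α g)) = A.tr (∑' g, A.phi g (β g)) := by
  have hCm : A.phi 1 c ∈ A.clos := A.phi_mem_clos _ _
  have hCC : A.phi 1 c * A.phi 1 c = 1 := by
    rw [A.phi_mul, A.act_id, one_mul, hcc]
    refine CrossedData.op_ext fun v k => ?_
    rw [A.phi_co, A.act_id, inv_one, one_mul, one_mul]; rfl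
  have hterm : ∀ g, A.phi 1 c * A.phi g (α g) * A.phi 1 c = A.phi g (c * α g * A.act g c) :=
    fun g => by rw [A.phi_mul, A.phi_mul, A.act_id, one_mul, mul_one]
  generalize hp : (∑' g, A.phi g (α g)) = p at *
  generalize hn : (∑' g, A.phi g (β g)) = n at *
  generalize hC : A.phi 1 c = C at *
  have hq : (C * p * C) * (C * p * C) = C * p * C := by
    calc (C * p * C) * (C * p * C) = C * (p * (C * C) * p) * C := by simp only [mul_assoc]
      _ = C * p * C := by rw [hCC, mul_one, hαi]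
  have hqm : C * p * C ∈ A.clos := A.mul_mem_clos (A.mul_mem_clos hCm hαm) hCm
  have hqt : A.tr (C * p * C) = A.tr p := by
    rw [A.tr_comm (A.mul_mem_clos hCm hαm) hCm, ← mul_assoc, hCC, one_mul]
  have hsum : HasSum (fun g => A.phi g (c * α g * A.act g c)) (C * p * C) := by
    have h1 : HasSum (fun g => A.phi g (α g)) p := by rw [← hp]; exact hα.of_norm.hasSum
    have h2 := (h1.mul_left C).mul_right C
    exact h2.congr_fun fun g => (hterm g).symm
  have hsum' : HasSum (fun g => A.phi g (β g)) n := by rw [← hn]; exact hβ.of_norm.hasSum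
  have hd := hsum.sub hsum'
  have hlt : ‖C * p * C - n‖ < 1 := by
    rw [← hd.tsum_eq]
    refine lt_of_le_of_lt (tsum_of_norm_bounded hws.hasSum fun g => ?_) hw1
    have h3 : A.phi g (c * α g * A.act g c) - A.phi g (β g) =
        A.phi g (c * α g * A.act g c - β g) := by
      rw [← A.phiL_apply, ← A.phiL_apply, ← A.phiL_apply, map_sub]
    rw [h3]
    exact (A.phi_norm g _).trans (hw g)
  have key := trace_eq_of_close (T := A.tr) A.one_mem_clos A.mul_mem_clos A.tr_comm hq hβi hqm hβm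
    hlt
  rwa [hqt] at key

end CrossedData

section Core

variable {K : Type*} [Group K] [TopologicalSpace K] [DiscreteTopology K]
  {B : Type*} [NormedRing B] [NormedAlgebra ℂ B]

/-- bounded functions on `K` equivariant for `y` -/
def eqv (y : K) (Λ : B) : Subalgebra ℂ (K →ᵇ B) where
  carrier := {F | ∀ k, F (y * k) * Λ = Λ * F k}
  mul_mem' := by
    intro a b ha hb k
    rw [BoundedContinuousFunction.mul_apply, BoundedContinuousFunction.mul_apply, mul_assoc, hb k,
      ← mul_assoc, ha k, mul_assoc]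
  add_mem' := by
    intro a b ha hb k
    rw [BoundedContinuousFunction.add_apply, BoundedContinuousFunction.add_apply, add_mul, mul_add,
      ha k, hb k]
  algebraMap_mem' := by
    intro r k
    show (algebraMap ℂ B r) * Λ = Λ * (algebraMap ℂ B r)
    exact Algebra.commutes r Λ

theorem mem_eqv {y : K} {Λ : B} {F : K →ᵇ B} : F ∈ eqv y Λ ↔ ∀ k, F (y * k) * Λ = Λ * F k :=
  Iff.rfl

theorem eqv_closed (y : K) (Λ : B) : IsClosed (eqv y Λ : Set (K →ᵇ B)) := by
  have : (eqv y Λ : Set (K →ᵇ B)) = ⋂ k, {F | F (y * k) * Λ = Λ * F k} := by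
    ext F; simp only [SetLike.mem_coe, mem_eqv, Set.mem_iInter, Set.mem_ofPred_eq]
  rw [this]
  refine isClosed_iInter fun k => ?_
  refine isClosed_eq ?_ ?_
  · exact ((BoundedContinuousFunction.evalCLM ℂ (y * k)).continuous).mul continuous_const
  · exact continuous_const.mul ((BoundedContinuousFunction.evalCLM ℂ k).continuous)

instance eqv_complete [CompleteSpace B] (y : K) (Λ : B) : CompleteSpace (eqv y Λ) :=
  (eqv_closed y Λ).completeSpace_coe

/-- the action of `G` by right translations -/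
def eqvAct (y : K) (Λ : B) (k : K) : eqv y Λ →L[ℂ] eqv y Λ :=
  LinearMap.mkContinuous
    { toFun := fun F => ⟨F.1.compContinuous (rtr k), fun p => by
        show F.1 (y * p * k) * Λ = Λ * F.1 (p * k)
        rw [mul_assoc]; exact F.2 _⟩
      map_add' := fun F F' => rfl
      map_smul' := fun a F => rfl } 1 (fun F => by
      rw [one_mul]
      refine (BoundedContinuousFunction.norm_le (norm_nonneg _)).2 fun p => ?_
      exact F.1.norm_coe_le_norm _)

theorem eqvAct_apply (y : K) (Λ : B) (k : K) (F : eqv y Λ) (p : K) :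
    (eqvAct y Λ k F).1 p = F.1 (p * k) := rfl

/-- the function on the centralizer whose mean is the local trace -/
def bfn (y : K) (Λ : B) (tr : B →L[ℂ] ℂ) (k : K) (F : eqv y Λ) :
    (Subgroup.centralizer ({y} : Set K)) →ᵇ ℂ :=
  BoundedContinuousFunction.ofNormedAddCommGroupDiscrete
    (fun c => tr (F.1 ((c : K) * k) * Λ)) (‖tr‖ * (‖F‖ * ‖Λ‖)) (fun c => by
      refine (tr.le_opNorm _).trans (mul_le_mul_of_nonneg_left ?_ (norm_nonneg _))
      exact (norm_mul_le _ _).trans
        (mul_le_mul_of_nonneg_right (F.1.norm_coe_le_norm _) (norm_nonneg _)))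

theorem bfn_apply (y : K) (Λ : B) (tr : B →L[ℂ] ℂ) (k : K) (F : eqv y Λ)
    (c : Subgroup.centralizer ({y} : Set K)) :
    bfn y Λ tr k F c = tr (F.1 ((c : K) * k) * Λ) := rfl

theorem bfn_norm (y : K) (Λ : B) (tr : B →L[ℂ] ℂ) (k : K) (F : eqv y Λ) :
    ‖bfn y Λ tr k F‖ ≤ ‖tr‖ * ‖Λ‖ * ‖F‖ := by
  refine (BoundedContinuousFunction.norm_le (mul_nonneg (mul_nonneg (norm_nonneg _)
    (norm_nonneg _)) (norm_nonneg _))).2 fun c => ?_
  rw [bfn_apply]
  refine (tr.le_opNorm _).trans ?_
  rw [mul_assoc, mul_comm ‖Λ‖]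
  refine mul_le_mul_of_nonneg_left ?_ (norm_nonneg _)
  exact (norm_mul_le _ _).trans
    (mul_le_mul_of_nonneg_right (F.1.norm_coe_le_norm _) (norm_nonneg _))

/-- the local trace -/
def bfnL (y : K) (Λ : B) (tr : B →L[ℂ] ℂ)
    (M : ((Subgroup.centralizer ({y} : Set K)) →ᵇ ℂ) →L[ℂ] ℂ) (k : K) : eqv y Λ →L[ℂ] ℂ :=
  LinearMap.mkContinuous
    { toFun := fun F => M (bfn y Λ tr k F)
      map_add' := fun F F' => by
        rw [← map_add]
        congr 1
        ext c
        rw [BoundedContinuousFunction.add_apply, bfn_apply, bfn_apply, bfn_apply, ← map_add,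
          ← add_mul]
        rfl
      map_smul' := fun a F => by
        rw [RingHom.id_apply, ← map_smul]
        congr 1
        ext c
        rw [BoundedContinuousFunction.smul_apply, bfn_apply, bfn_apply, ← map_smul,
          ← smul_mul_assoc]
        rfl } (‖M‖ * (‖tr‖ * ‖Λ‖)) (fun F => by
      refine (M.le_opNorm _).trans ?_
      rw [mul_assoc]
      exact mul_le_mul_of_nonneg_left (bfn_norm y Λ tr k F) (norm_nonneg _))

theorem bfnL_apply (y : K) (Λ : B) (tr : B →L[ℂ] ℂ)
    (M : ((Subgroup.centralizer ({y} : Set K)) →ᵇ ℂ) →L[ℂ] ℂ) (k : K) (F : eqv y Λ) :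
    bfnL y Λ tr M k F = M (bfn y Λ tr k F) := rfl

open Classical in
/-- The crossed product data: coefficients are bounded functions on `K` equivariant for `f x`. -/
def slowData {G : Type*} [Group G] (f : G →* K) (x : G) (Λ : B) (tr : B →L[ℂ] ℂ)
    (htr : ∀ a b, tr (a * b) = tr (b * a))
    (M : ((Subgroup.centralizer ({f x} : Set K)) →ᵇ ℂ) →L[ℂ] ℂ)
    (hM : ∀ F d, M (F.compContinuous (rtr d)) = M F) (s : G → G)
    (hs : ∀ g, IsConj x g → s g * x * (s g)⁻¹ = g) :
    CrossedData G (eqv (f x) Λ) where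
  act g := eqvAct (f x) Λ (f g)
  act_one g := by apply Subtype.ext; ext p; rfl
  act_id a := by
    apply Subtype.ext; ext p
    rw [eqvAct_apply, map_one, mul_one]
  act_mul g a b := by apply Subtype.ext; ext p; rfl
  act_comp g h a := by
    apply Subtype.ext; ext p
    show a.1 (p * f (g * h)) = a.1 (p * f g * f h)
    rw [map_mul f, mul_assoc]
  act_norm g a := by
    refine (BoundedContinuousFunction.norm_le (norm_nonneg _)).2 fun p => ?_
    exact a.1.norm_coe_le_norm _
  fn g := if IsConj x g then bfnL (f x) Λ tr M (f (s g)⁻¹) else 0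
  bd := ‖M‖ * (‖tr‖ * ‖Λ‖)
  fn_norm g a := by
    by_cases h : IsConj x g
    · simp only [h, if_true]
      rw [bfnL_apply]
      refine (M.le_opNorm _).trans ?_
      rw [mul_assoc]
      exact mul_le_mul_of_nonneg_left (bfn_norm _ Λ tr _ a) (norm_nonneg _)
    · simp only [h, if_false, ContinuousLinearMap.zero_apply, norm_zero]
      (clear * -; positivity)
  fn_comm g h a b := by
    have hc : IsConj x (g * h) ↔ IsConj x (h * g) := by
      have h1 : IsConj (g * h) (h * g) := isConj_iff.2 ⟨h, by group⟩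
      exact ⟨fun h2 => h2.trans h1, fun h2 => h2.trans h1.symm⟩
    by_cases h1 : IsConj x (g * h)
    · have h2 := hc.1 h1
      rw [if_pos h1, if_pos h2, bfnL_apply, bfnL_apply]
      set t := (s (g * h))⁻¹ with ht
      set t' := (s (h * g))⁻¹ with ht'
      have e1 : t⁻¹ * x * t = g * h := by rw [ht, inv_inv]; exact hs _ h1
      have e2 : t'⁻¹ * x * t' = h * g := by rw [ht', inv_inv]; exact hs _ h2
      set d := t' * g⁻¹ * t⁻¹ with hd
      have e3 : d * x = x * d := by
        have e4 : x * t' = t' * (h * g) := by rw [← e2]; group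
        have e5 : x * t = t * (g * h) := by rw [← e1]; group
        have e6 : t⁻¹ * x = g * h * t⁻¹ := by
          rw [← e1]; group
        calc d * x = t' * g⁻¹ * (t⁻¹ * x) := by rw [hd]; group
          _ = t' * (h * g) * g⁻¹ * t⁻¹ := by rw [e6]; group
          _ = x * d := by rw [← e4, hd]; group
      have hdK : f d ∈ Subgroup.centralizer ({f x} : Set K) := by
        rw [Subgroup.mem_centralizer_singleton_iff, ← map_mul, ← map_mul, e3]
      have e7 : (bfn (f x) Λ tr (f t * f g) (b * eqvAct (f x) Λ (f h) a)).compContinuous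
          (rtr ⟨f d, hdK⟩) = bfn (f x) Λ tr (f t') (b * eqvAct (f x) Λ (f h) a) := by
        ext c
        show bfn (f x) Λ tr (f t * f g) (b * eqvAct (f x) Λ (f h) a) (c * ⟨f d, hdK⟩) = _
        rw [bfn_apply, bfn_apply, Subgroup.coe_mul]
        have e8 : (c : K) * f d * (f t * f g) = c * f t' := by
          rw [mul_assoc, ← map_mul, ← map_mul, hd]
          congr 2
          group
        show tr ((b * eqvAct (f x) Λ (f h) a).1 ((c : K) * f d * (f t * f g)) * Λ) = _
        rw [e8]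
      rw [← e7, hM]
      congr 1
      ext c
      rw [bfn_apply, bfn_apply]
      show tr (a.1 ((c : K) * f t) * b.1 ((c : K) * f t * f g) * Λ) =
        tr (b.1 ((c : K) * (f t * f g)) * a.1 ((c : K) * (f t * f g) * f h) * Λ)
      have hcy : (c : K) * f x = f x * c := (Subgroup.mem_centralizer_singleton_iff.1 c.2)
      have e9 : (c : K) * (f t * f g) * f h = f x * (c * f t) := by
        have e5 : x * t = t * (g * h) := by rw [← e1]; group
        calc (c : K) * (f t * f g) * f h = c * f (t * (g * h)) := by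
              rw [map_mul, map_mul]; group
          _ = c * (f x * f t) := by rw [← e5, map_mul]
          _ = f x * (c * f t) := by rw [← mul_assoc, hcy, mul_assoc]
      rw [e9, mul_assoc (b.1 _), a.2, ← mul_assoc (c : K), ← mul_assoc (b.1 _), htr (b.1 _ * Λ),
        mul_assoc, mul_assoc]
    · have h2 : ¬ IsConj x (h * g) := fun h => h1 (hc.2 h)
      rw [if_neg h1, if_neg h2]; rfl

/-- constant functions as a linear map -/
def constE (y : K) (Λ : B) (b : B) (hb : b * Λ = Λ * b) : eqv y Λ :=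
  ⟨BoundedContinuousFunction.const K b, fun _ => hb⟩

theorem constE_apply (y : K) (Λ : B) (b : B) (hb : b * Λ = Λ * b) (k : K) :
    (constE y Λ b hb).1 k = b := rfl

theorem constE_norm (y : K) (Λ : B) (b : B) (hb : b * Λ = Λ * b) : ‖constE y Λ b hb‖ ≤ ‖b‖ :=
  BoundedContinuousFunction.norm_const_le b

section Idem

variable [CompleteSpace B] {G : Type*} [Group G] (f : G →* K) (x : G) (Λ : B) (tr : B →L[ℂ] ℂ)
    (htr : ∀ a b, tr (a * b) = tr (b * a))
    (M : ((Subgroup.centralizer ({f x} : Set K)) →ᵇ ℂ) →L[ℂ] ℂ)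
    (hM1 : ∀ a : ℂ, M (.const _ a) = a)
    (hM : ∀ F d, M (F.compContinuous (rtr d)) = M F) (s : G → G)
    (hs : ∀ g, IsConj x g → s g * x * (s g)⁻¹ = g)

theorem const_summable (b : G → B) (hb : ∀ g, b g * Λ = Λ * b g)
    (hbs : Summable fun g => ‖b g‖) :
    Summable fun g => ‖(slowData f x Λ tr htr M hM s hs).phi g (constE (f x) Λ (b g) (hb g))‖ :=
  Summable.of_nonneg_of_le (fun _ => norm_nonneg _)
    (fun g => ((slowData f x Λ tr htr M hM s hs).phi_norm g _).trans (constE_norm _ Λ _ _)) hbs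

include hM1 in
theorem const_trace (b : G → B) (hb : ∀ g, b g * Λ = Λ * b g)
    (hbs : Summable fun g => ‖b g‖) :
    (slowData f x Λ tr htr M hM s hs).tr
      (∑' g, (slowData f x Λ tr htr M hM s hs).phi g (constE (f x) Λ (b g) (hb g))) =
    ∑' g : {g // IsConj x g}, tr (b g * Λ) := by
  classical
  rw [ContinuousLinearMap.map_tsum _ (const_summable f x Λ tr htr M hM s hs b hb hbs).of_norm]
  have h1 : ∀ g, (slowData f x Λ tr htr M hM s hs).tr
      ((slowData f x Λ tr htr M hM s hs).phi g (constE (f x) Λ (b g) (hb g))) =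
      ({g | IsConj x g} : Set G).indicator (fun g => tr (b g * Λ)) g := by
    intro g
    rw [CrossedData.tr_phi]
    by_cases hg : IsConj x g
    · rw [Set.indicator_of_mem (by exact hg)]
      show (if IsConj x g then bfnL (f x) Λ tr M (f (s g)⁻¹) else 0) _ = _
      rw [if_pos hg, bfnL_apply, ← hM1 (tr (b g * Λ))]
      rfl
    · rw [Set.indicator_of_notMem (by exact hg)]
      show (if IsConj x g then bfnL (f x) Λ tr M (f (s g)⁻¹) else 0) _ = _
      rw [if_neg hg]; rfl
  rw [tsum_congr h1]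
  exact (tsum_subtype {g | IsConj x g} (fun g => tr (b g * Λ))).symm

theorem const_mem (b : G → B) (hb : ∀ g, b g * Λ = Λ * b g)
    (hbs : Summable fun g => ‖b g‖) :
    (∑' g, (slowData f x Λ tr htr M hM s hs).phi g (constE (f x) Λ (b g) (hb g))) ∈
      (slowData f x Λ tr htr M hM s hs).clos := by
  refine (slowData f x Λ tr htr M hM s hs).clos_closed.mem_of_tendsto
    (const_summable f x Λ tr htr M hM s hs b hb hbs).of_norm.hasSum
    (Filter.Eventually.of_forall fun F => ?_)
  exact Submodule.sum_mem _ fun g _ => (slowData f x Λ tr htr M hM s hs).phi_mem_clos _ _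

theorem const_idem (b : G → B) (hb : ∀ g, b g * Λ = Λ * b g)
    (hbs : Summable fun g => ‖b g‖) (hbb : ∀ k, ∑' h, b h * b (h⁻¹ * k) = b k) :
    (∑' g, (slowData f x Λ tr htr M hM s hs).phi g (constE (f x) Λ (b g) (hb g))) *
    (∑' g, (slowData f x Λ tr htr M hM s hs).phi g (constE (f x) Λ (b g) (hb g))) =
    ∑' g, (slowData f x Λ tr htr M hM s hs).phi g (constE (f x) Λ (b g) (hb g)) := by
  set A := slowData f x Λ tr htr M hM s hs with hA
  rw [tsum_conv (fun g => A.phi g (constE (f x) Λ (b g) (hb g)))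
    (const_summable f x Λ tr htr M hM s hs b hb hbs)]
  refine tsum_congr fun k => ?_
  have hsa : Summable fun h => b h * b (h⁻¹ * k) := by
    refine Summable.of_norm_bounded (hbs.mul_right (∑' g, ‖b g‖)) fun h => ?_
    refine (norm_mul_le _ _).trans (mul_le_mul_of_nonneg_left ?_ (norm_nonneg _))
    exact hbs.le_tsum _ fun _ _ => norm_nonneg _
  have hcomm : ∀ h, b h * b (h⁻¹ * k) * Λ = Λ * (b h * b (h⁻¹ * k)) := fun h => by
    rw [mul_assoc, hb, ← mul_assoc, hb, mul_assoc]
  have h3 : ∀ h : G, A.phi h (constE (f x) Λ (b h) (hb h)) *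
      A.phi (h⁻¹ * k) (constE (f x) Λ (b (h⁻¹ * k)) (hb (h⁻¹ * k))) =
      A.phiL k (constE (f x) Λ (b h * b (h⁻¹ * k)) (hcomm h)) := by
    intro h
    rw [A.phi_mul, A.phiL_apply, mul_inv_cancel_left]
    congr 1
  have hsE : Summable fun h => constE (f x) Λ (b h * b (h⁻¹ * k)) (hcomm h) := by
    refine Summable.of_norm_bounded (hbs.mul_right (∑' g, ‖b g‖)) fun h => ?_
    refine (constE_norm _ Λ _ _).trans ((norm_mul_le _ _).trans
      (mul_le_mul_of_nonneg_left ?_ (norm_nonneg _)))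
    exact hbs.le_tsum _ fun _ _ => norm_nonneg _
  rw [tsum_congr h3, ← (A.phiL k).map_tsum hsE, A.phiL_apply]
  congr 1
  apply Subtype.ext
  ext p
  have h4 : (∑' h, constE (f x) Λ (b h * b (h⁻¹ * k)) (hcomm h)).1 p =
      ∑' h, b h * b (h⁻¹ * k) := by
    let ev : eqv (f x) Λ →L[ℂ] B := LinearMap.mkContinuous
      { toFun := fun F => F.1 p
        map_add' := fun F F' => rfl
        map_smul' := fun a F => rfl } 1 (fun F => by
          rw [one_mul]; exact F.1.norm_coe_le_norm _)
    exact ev.map_tsum hsE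
  rw [h4, hbb, constE_apply]

end Idem

/-- The abstract core: two idempotents exchanged by a slowly varying symmetry have the same
localized trace. -/
theorem core_eq [CompleteSpace B] {G : Type*} [Group G] (f : G →* K) (x : G)
    (hK : IsAmenable (Subgroup.centralizer ({f x} : Set K))) (tr : B →L[ℂ] ℂ)
    (htr : ∀ a b, tr (a * b) = tr (b * a)) (Λ P N : B) (c : K → B) (bc : ℝ)
    (hcb : ∀ k, ‖c k‖ ≤ bc) (hcc : ∀ k, c k * c k = 1)
    (hcΛ : ∀ k, c (f x * k) * Λ = Λ * c k) (hPP : P * P = P) (hNN : N * N = N)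
    (hcP : ∀ k, c k * P = N * c k) (hPΛ : P * Λ = Λ * P) (hNΛ : N * Λ = Λ * N)
    (a : G → B) (has : Summable fun g => ‖a g‖) (haa : ∀ k, ∑' h, a h * a (h⁻¹ * k) = a k)
    (haΛ : ∀ g, a g * Λ = Λ * a g) (haP : ∀ g, a g * P = P * a g)
    (haN : ∀ g, a g * N = N * a g) (hac : ∀ g k, a g * c k = c k * a g)
    (w : G → ℝ) (hw : ∀ g k, ‖N * (c k * c (k * f g)) - N‖ ≤ w g)
    (hws : Summable fun g => ‖a g‖ * w g) (hw1 : ∑' g, ‖a g‖ * w g < 1) :
    ∑' g : {g // IsConj x g}, tr (a g * P * Λ) = ∑' g : {g // IsConj x g}, tr (a g * N * Λ) := by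
  classical
  obtain ⟨M, hM1, hM⟩ := exists_rmean hK
  have hsel : ∀ g : G, ∃ s : G, IsConj x g → s * x * s⁻¹ = g := by
    intro g
    by_cases hg : IsConj x g
    · obtain ⟨s, hs⟩ := isConj_iff.1 hg
      exact ⟨s, fun _ => hs⟩
    · exact ⟨1, fun h => absurd h hg⟩
  choose s hs using hsel
  have hbP : ∀ g, a g * P * Λ = Λ * (a g * P) := fun g => by
    rw [mul_assoc, hPΛ, ← mul_assoc, haΛ, mul_assoc]
  have hbN : ∀ g, a g * N * Λ = Λ * (a g * N) := fun g => by
    rw [mul_assoc, hNΛ, ← mul_assoc, haΛ, mul_assoc]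
  have hsP : Summable fun g => ‖a g * P‖ :=
    Summable.of_nonneg_of_le (fun _ => norm_nonneg _) (fun g => norm_mul_le _ _)
      (has.mul_right ‖P‖)
  have hsN : Summable fun g => ‖a g * N‖ :=
    Summable.of_nonneg_of_le (fun _ => norm_nonneg _) (fun g => norm_mul_le _ _)
      (has.mul_right ‖N‖)
  have hsa : ∀ k, Summable fun h => a h * a (h⁻¹ * k) := fun k => by
    refine Summable.of_norm_bounded (has.mul_right (∑' g, ‖a g‖)) fun h => ?_
    refine (norm_mul_le _ _).trans (mul_le_mul_of_nonneg_left ?_ (norm_nonneg _))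
    exact has.le_tsum _ fun _ _ => norm_nonneg _
  have hconv : ∀ Q : B, Q * Q = Q → (∀ g, a g * Q = Q * a g) →
      ∀ k, ∑' h, a h * Q * (a (h⁻¹ * k) * Q) = a k * Q := by
    intro Q hQ haQ k
    rw [← haa k, ← (hsa k).tsum_mul_right]
    refine tsum_congr fun h => ?_
    rw [mul_assoc, ← mul_assoc Q, ← haQ, mul_assoc (a (h⁻¹ * k)), hQ, mul_assoc]
  have hPi := const_idem f x Λ tr htr M hM s hs (fun g => a g * P) hbP hsP (hconv P hPP haP)
  have hNi := const_idem f x Λ tr htr M hM s hs (fun g => a g * N) hbN hsN (hconv N hNN haN)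
  have hPm := const_mem f x Λ tr htr M hM s hs (fun g => a g * P) hbP hsP
  have hNm := const_mem f x Λ tr htr M hM s hs (fun g => a g * N) hbN hsN
  have hPt := const_trace f x Λ tr htr M hM1 hM s hs (fun g => a g * P) hbP hsP
  have hNt := const_trace f x Λ tr htr M hM1 hM s hs (fun g => a g * N) hbN hsN
  have hPsum := const_summable f x Λ tr htr M hM s hs (fun g => a g * P) hbP hsP
  have hNsum := const_summable f x Λ tr htr M hM s hs (fun g => a g * N) hbN hsN
  let cb : K →ᵇ B := BoundedContinuousFunction.ofNormedAddCommGroupDiscrete c bc hcb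
  let cE : eqv (f x) Λ := ⟨cb, hcΛ⟩
  have hcE : cE * cE = 1 := by
    apply Subtype.ext; ext k
    exact hcc k
  have key := (slowData f x Λ tr htr M hM s hs).trace_twist _ _ hPsum hNsum hPi hNi hPm hNm cE hcE
    (fun g => ‖a g‖ * w g) (fun g => ?_) hws hw1
  · rw [hPt, hNt] at key
    exact key
  · have hw0 : 0 ≤ w g := (norm_nonneg _).trans (hw g 1)
    refine (BoundedContinuousFunction.norm_le (mul_nonneg (norm_nonneg _) hw0)).2 fun k => ?_
    show ‖c k * (a g * P) * c (k * f g) - a g * N‖ ≤ ‖a g‖ * w g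
    have e : c k * (a g * P) * c (k * f g) - a g * N =
        a g * (N * (c k * c (k * f g)) - N) := by
      rw [mul_sub, ← mul_assoc (c k), ← hac, mul_assoc (a g), hcP, mul_assoc (a g), mul_assoc N]
    rw [e]
    exact (norm_mul_le _ _).trans (mul_le_mul_of_nonneg_left (hw g k) (norm_nonneg _))

end Core

end Vale.Agent.P184
end
end
end
namespace AFast8ce184x2823b
@[reducible] noncomputable def a0.{u1, u2} {x1 : Type u1} {x2 : Type u2} [x3 : TopologicalSpace x1] [x4 : NormedRing x2] [x5 : NormedAlgebra ℂ x2] [x6 : Group x1] {x7 : x1} {x8 : x2} : SeminormedAddCommGroup ↥(Vale.Agent.P184.eqv x7 x8) := inferInstance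
@[reducible] noncomputable def a1.{u1, u2} {x1 : Type u1} {x2 : Type u2} [x3 : TopologicalSpace x1] [x4 : NormedRing x2] [x5 : NormedAlgebra ℂ x2] [x6 : Group x1] {x7 : x1} {x8 : x2} : NonUnitalSeminormedRing ↥(Vale.Agent.P184.eqv x7 x8) := inferInstance
@[reducible] noncomputable def a2.{u1, u2, u3} {x1 : Type u1} {x2 : Type u2} [x3 : TopologicalSpace x1] [x4 : NormedRing x2] [x5 : NormedAlgebra ℂ x2] [x6 : Group x1] {x7 : Type u3} [x8 : Group x7] {x9 : x7 →* x1} {x10 : x7} {x11 : x2} : NonUnitalSeminormedRing ↥(Vale.Agent.P184.eqv (x9 x10) x11) := inferInstance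
@[reducible] noncomputable def a3.{u1, u2} {x1 : Type u1} {x2 : Type u2} [x3 : TopologicalSpace x1] [x4 : NormedRing x2] [x5 : NormedAlgebra ℂ x2] [x6 : Group x1] {x7 : x1} {x8 : x2} : NonUnitalNormedRing ↥(Vale.Agent.P184.eqv x7 x8) := inferInstance
@[reducible] noncomputable def a4.{u1, u2, u3} {x1 : Type u1} {x2 : Type u2} {x3 : Type u3} [x4 : TopologicalSpace x2] [x5 : NormedRing x3] [x6 : NormedAlgebra ℂ x3] [x7 : Group x2] [x8 : Group x1] {x9 : x1 →* x2} {x10 : x1} {x11 : x3} : SMul ℂ (Vale.Agent.P184.L1 x1 ↥(Vale.Agent.P184.eqv (x9 x10) x11)) := inferInstance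
@[reducible] noncomputable def a5.{u1, u2, u3} {x1 : Type u1} {x2 : Type u2} [x3 : TopologicalSpace x1] [x4 : NormedRing x2] [x5 : NormedAlgebra ℂ x2] [x6 : Group x1] {x7 : Type u3} [x8 : Group x7] {x9 : x7 →* x1} {x10 : x7} {x11 : x2} : NonUnitalNormedRing ↥(Vale.Agent.P184.eqv (x9 x10) x11) := inferInstance
@[reducible] noncomputable def a6.{u1, u2, u3} {x1 : Type u1} {x2 : Type u2} [x3 : TopologicalSpace x1] [x4 : NormedRing x2] [x5 : NormedAlgebra ℂ x2] [x6 : Group x1] {x7 : Type u3} [x8 : Group x7] {x9 : x7 →* x1} {x10 : x7} {x11 : x2} : SeminormedAddCommGroup ↥(Vale.Agent.P184.eqv (x9 x10) x11) := inferInstance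
@[reducible] noncomputable def a7.{u1, u2} {x1 : Type u1} {x2 : Type u2} [x3 : TopologicalSpace x1] [x4 : NormedRing x2] [x5 : NormedAlgebra ℂ x2] [x6 : Group x1] {x7 : x1} {x8 : x2} : AddCommMagma ↥(Vale.Agent.P184.eqv x7 x8) := inferInstance
@[reducible] noncomputable def a8.{u1, u2} {x1 : Type u1} {x2 : Type u2} [x3 : TopologicalSpace x1] [x4 : NormedRing x2] [x5 : NormedAlgebra ℂ x2] [x6 : Group x1] {x7 : x1} {x8 : x2} : AddCommSemigroup ↥(Vale.Agent.P184.eqv x7 x8) := inferInstance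
@[reducible] noncomputable def a9.{u1, u2, u3} {x1 : Type u1} {x2 : Type u2} [x3 : TopologicalSpace x1] [x4 : NormedRing x2] [x5 : NormedAlgebra ℂ x2] [x6 : Group x1] {x7 : Type u3} [x8 : Group x7] {x9 : x7 →* x1} {x10 : x7} {x11 : x2} : NormedSpace ℂ ↥(Vale.Agent.P184.eqv (x9 x10) x11) := inferInstance
@[reducible] noncomputable def a10.{u1, u2, u3} {x1 : Type u1} {x2 : Type u2} {x3 : Type u3} [x4 : TopologicalSpace x2] [x5 : NormedRing x3] [x6 : NormedAlgebra ℂ x3] [x7 : Group x2] [x8 : Group x1] {x9 : x1 →* x2} {x10 : x1} {x11 : x3} : MulAction ℂ (Vale.Agent.P184.L1 x1 ↥(Vale.Agent.P184.eqv (x9 x10) x11)) := inferInstance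
end AFast8ce184x2823b
attribute [local instance] AFast8ce184x2823b.a0 AFast8ce184x2823b.a1 AFast8ce184x2823b.a2
  AFast8ce184x2823b.a3 AFast8ce184x2823b.a4 AFast8ce184x2823b.a5 AFast8ce184x2823b.a6
  AFast8ce184x2823b.a7 AFast8ce184x2823b.a8 AFast8ce184x2823b.a9 AFast8ce184x2823b.a10

section

/-!
# Definitions for the statements about exact groups
-/

namespace Vale.Agent.P184

/-- Property A of Yu for the discrete group `G` (equivalently, exactness): there are finitely
supported probability measures `a p` on `G`, of uniformly bounded supports, varying slowly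
with `p`. -/
def PropertyA (G : Type*) [Group G] : Prop :=
  ∀ (S : Finset G) (ε : ℝ), 0 < ε → ∃ (E : Finset G) (a : G → G → ℝ),
    (∀ p q, 0 ≤ a p q) ∧ (∀ p q, a p q ≠ 0 → p⁻¹ * q ∈ E) ∧ (∀ p, ∑ t ∈ E, a p (p * t) = 1) ∧
    ∀ s ∈ S, ∀ p, ∑' q, |a (p * s) q - a p q| ≤ ε

/-- `G` has property A and the centralizer of `x` is amenable. -/
def AmenCentr {G : Type*} [Group G] (x : G) : Prop :=
  PropertyA G ∧ IsAmenable (Subgroup.centralizer ({x} : Set G))

/-- Every element of infinite order is locally tame or satisfies `AmenCentr`, and all but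
finitely many classes of elements of finite order satisfy `AmenCentr`. -/
def Nice (G : Type*) [Group G] : Prop :=
  (∀ x : G, ¬ IsOfFinOrder x → LocallyTame x ∨ AmenCentr x) ∧
    {C : ConjClasses G | ∃ x, ConjClasses.mk x = C ∧ IsOfFinOrder x ∧ ¬ AmenCentr x}.Finite

end Vale.Agent.P184
end

section

end

section

/-!
# The trace on the crossed product with coefficients equivariant for a normal subgroup of the
centralizer
-/

noncomputable section
open scoped Topology BoundedContinuousFunction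

namespace Vale.Agent.P184

section CoreD

variable {G : Type*} [Group G] [TopologicalSpace G] [DiscreteTopology G]
  {B : Type*} [NormedRing B] [NormedAlgebra ℂ B]

/-- bounded functions on `G` equivariant for the elements of `D` -/
def eqvD (D : Set G) (Λ : G → B) : Subalgebra ℂ (G →ᵇ B) where
  carrier := {F | ∀ d ∈ D, ∀ k, F (d * k) * Λ d = Λ d * F k}
  mul_mem' := by
    intro a b ha hb d hd k
    rw [BoundedContinuousFunction.mul_apply, BoundedContinuousFunction.mul_apply, mul_assoc,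
      hb d hd k, ← mul_assoc, ha d hd k, mul_assoc]
  add_mem' := by
    intro a b ha hb d hd k
    rw [BoundedContinuousFunction.add_apply, BoundedContinuousFunction.add_apply, add_mul, mul_add,
      ha d hd k, hb d hd k]
  algebraMap_mem' := by
    intro r d _ k
    show (algebraMap ℂ B r) * Λ d = Λ d * (algebraMap ℂ B r)
    exact Algebra.commutes r (Λ d)

theorem eqvD_closed (D : Set G) (Λ : G → B) : IsClosed (eqvD D Λ : Set (G →ᵇ B)) := by
  have : (eqvD D Λ : Set (G →ᵇ B)) = ⋂ d ∈ D, ⋂ k, {F | F (d * k) * Λ d = Λ d * F k} := by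
    ext F; simp only [eqvD, Subalgebra.coe_mk, Subsemiring.coe_set_mk, Submonoid.coe_set_mk, Subsemigroup.coe_set_mk, Set.mem_ofPred_eq, Set.mem_iInter]
  rw [this]
  refine isClosed_biInter fun d _ => isClosed_iInter fun k => ?_
  refine isClosed_eq ?_ ?_
  · exact ((BoundedContinuousFunction.evalCLM ℂ (d * k)).continuous).mul continuous_const
  · exact continuous_const.mul ((BoundedContinuousFunction.evalCLM ℂ k).continuous)

instance eqvD_complete [CompleteSpace B] (D : Set G) (Λ : G → B) : CompleteSpace (eqvD D Λ) :=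
  (eqvD_closed D Λ).completeSpace_coe

/-- the action of `G` by right translations -/
def eqvDAct (D : Set G) (Λ : G → B) (k : G) : eqvD D Λ →L[ℂ] eqvD D Λ :=
  LinearMap.mkContinuous
    { toFun := fun F => ⟨F.1.compContinuous (rtr k), fun d hd p => by
        show F.1 (d * p * k) * Λ d = Λ d * F.1 (p * k)
        rw [mul_assoc]; exact F.2 d hd _⟩
      map_add' := fun F F' => rfl
      map_smul' := fun a F => rfl } 1 (fun F => by
      rw [one_mul]
      refine (BoundedContinuousFunction.norm_le (norm_nonneg _)).2 fun p => ?_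
      exact F.1.norm_coe_le_norm _)

theorem eqvDAct_apply (D : Set G) (Λ : G → B) (k : G) (F : eqvD D Λ) (p : G) :
    (eqvDAct D Λ k F).1 p = F.1 (p * k) := rfl

variable (D : Set G) (Λ : G → B) (x : G) (tr : B →L[ℂ] ℂ)

/-- the function on the centralizer whose mean is the local trace -/
def bfD (k : G) (F : eqvD D Λ) : (Subgroup.centralizer ({x} : Set G)) →ᵇ ℂ :=
  BoundedContinuousFunction.ofNormedAddCommGroupDiscrete
    (fun c => tr (F.1 ((c : G) * k) * Λ x)) (‖tr‖ * (‖F‖ * ‖Λ x‖)) (fun c => by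
      refine (tr.le_opNorm _).trans (mul_le_mul_of_nonneg_left ?_ (norm_nonneg _))
      exact (norm_mul_le _ _).trans
        (mul_le_mul_of_nonneg_right (F.1.norm_coe_le_norm _) (norm_nonneg _)))

theorem bfD_apply (k : G) (F : eqvD D Λ) (c : Subgroup.centralizer ({x} : Set G)) :
    bfD D Λ x tr k F c = tr (F.1 ((c : G) * k) * Λ x) := rfl

theorem bfD_norm (k : G) (F : eqvD D Λ) :
    ‖bfD D Λ x tr k F‖ ≤ ‖tr‖ * ‖Λ x‖ * ‖F‖ := by
  refine (BoundedContinuousFunction.norm_le (mul_nonneg (mul_nonneg (norm_nonneg _)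
    (norm_nonneg _)) (norm_nonneg _))).2 fun c => ?_
  rw [bfD_apply]
  refine (tr.le_opNorm _).trans ?_
  rw [mul_assoc, mul_comm ‖Λ x‖]
  refine mul_le_mul_of_nonneg_left ?_ (norm_nonneg _)
  exact (norm_mul_le _ _).trans
    (mul_le_mul_of_nonneg_right (F.1.norm_coe_le_norm _) (norm_nonneg _))

/-- the local trace -/
def bfDL (M : ((Subgroup.centralizer ({x} : Set G)) →ᵇ ℂ) →L[ℂ] ℂ) (k : G) :
    eqvD D Λ →L[ℂ] ℂ :=
  LinearMap.mkContinuous
    { toFun := fun F => M (bfD D Λ x tr k F)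
      map_add' := fun F F' => by
        rw [← map_add]
        congr 1
        ext c
        rw [BoundedContinuousFunction.add_apply, bfD_apply, bfD_apply, bfD_apply, ← map_add,
          ← add_mul]
        rfl
      map_smul' := fun a F => by
        rw [RingHom.id_apply, ← map_smul]
        congr 1
        ext c
        rw [BoundedContinuousFunction.smul_apply, bfD_apply, bfD_apply, ← map_smul,
          ← smul_mul_assoc]
        rfl } (‖M‖ * (‖tr‖ * ‖Λ x‖)) (fun F => by
      refine (M.le_opNorm _).trans ?_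
      rw [mul_assoc]
      exact mul_le_mul_of_nonneg_left (bfD_norm D Λ x tr k F) (norm_nonneg _))

theorem bfDL_apply (M : ((Subgroup.centralizer ({x} : Set G)) →ᵇ ℂ) →L[ℂ] ℂ) (k : G)
    (F : eqvD D Λ) : bfDL D Λ x tr M k F = M (bfD D Λ x tr k F) := rfl

/-- The function of the local trace is invariant under `D`. -/
theorem bfD_inv (htr : ∀ a b, tr (a * b) = tr (b * a))
    (hΛ : ∀ d ∈ D, ∃ b, Λ d * b = 1 ∧ b * Λ d = 1)
    (hΛx : ∀ d ∈ D, Λ d * Λ x = Λ x * Λ d) (k : G) (F : eqvD D Λ)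
    (d c : Subgroup.centralizer ({x} : Set G)) (hd : (d : G) ∈ D) :
    bfD D Λ x tr k F (d * c) = bfD D Λ x tr k F c := by
  obtain ⟨b, hb, hb'⟩ := hΛ d hd
  rw [bfD_apply, bfD_apply, Subgroup.coe_mul, mul_assoc (d : G)]
  have h1 := F.2 d hd ((c : G) * k)
  calc tr (F.1 (d * (c * k)) * Λ x) = tr (F.1 (d * (c * k)) * Λ d * b * Λ x) := by
        rw [mul_assoc (F.1 _), hb, mul_one]
    _ = tr (Λ d * (F.1 (c * k) * (b * Λ x))) := by rw [h1]; simp only [mul_assoc]
    _ = tr (F.1 (c * k) * (b * Λ x) * Λ d) := htr _ _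
    _ = tr (F.1 (c * k) * (b * (Λ x * Λ d))) := by simp only [mul_assoc]
    _ = tr (F.1 (c * k) * Λ x) := by rw [← hΛx d hd, ← mul_assoc b, hb', one_mul]

open Classical in
/-- The crossed product data: coefficients are bounded functions on `G` equivariant for `D`. -/
def slowDataD (htr : ∀ a b, tr (a * b) = tr (b * a)) (hxD : x ∈ D)
    (hΛ : ∀ d ∈ D, ∃ b, Λ d * b = 1 ∧ b * Λ d = 1)
    (hΛx : ∀ d ∈ D, Λ d * Λ x = Λ x * Λ d)
    (M : ((Subgroup.centralizer ({x} : Set G)) →ᵇ ℂ) →L[ℂ] ℂ)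
    (hM : ∀ F, (∀ d c : Subgroup.centralizer ({x} : Set G), (d : G) ∈ D → F (d * c) = F c) →
      ∀ d, M (F.compContinuous (rtr d)) = M F) (s : G → G)
    (hs : ∀ g, IsConj x g → s g * x * (s g)⁻¹ = g) :
    CrossedData G (eqvD D Λ) where
  act g := eqvDAct D Λ g
  act_one g := by apply Subtype.ext; ext p; rfl
  act_id a := by
    apply Subtype.ext; ext p
    rw [eqvDAct_apply, mul_one]
  act_mul g a b := by apply Subtype.ext; ext p; rfl
  act_comp g h a := by
    apply Subtype.ext; ext p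
    show a.1 (p * (g * h)) = a.1 (p * g * h)
    rw [mul_assoc]
  act_norm g a := by
    refine (BoundedContinuousFunction.norm_le (norm_nonneg _)).2 fun p => ?_
    exact a.1.norm_coe_le_norm _
  fn g := if IsConj x g then bfDL D Λ x tr M (s g)⁻¹ else 0
  bd := ‖M‖ * (‖tr‖ * ‖Λ x‖)
  fn_norm g a := by
    by_cases h : IsConj x g
    · simp only [h, if_true]
      rw [bfDL_apply]
      refine (M.le_opNorm _).trans ?_
      rw [mul_assoc]
      exact mul_le_mul_of_nonneg_left (bfD_norm _ _ _ _ _ a) (norm_nonneg _)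
    · simp only [h, if_false, ContinuousLinearMap.zero_apply, norm_zero]
      positivity
  fn_comm g h a b := by
    have hc : IsConj x (g * h) ↔ IsConj x (h * g) := by
      have h1 : IsConj (g * h) (h * g) := isConj_iff.2 ⟨h, by group⟩
      exact ⟨fun h2 => h2.trans h1, fun h2 => h2.trans h1.symm⟩
    by_cases h1 : IsConj x (g * h)
    · have h2 := hc.1 h1
      rw [if_pos h1, if_pos h2, bfDL_apply, bfDL_apply]
      set t := (s (g * h))⁻¹ with ht
      set t' := (s (h * g))⁻¹ with ht'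
      have e1 : t⁻¹ * x * t = g * h := by rw [ht, inv_inv]; exact hs _ h1
      have e2 : t'⁻¹ * x * t' = h * g := by rw [ht', inv_inv]; exact hs _ h2
      set d := t' * g⁻¹ * t⁻¹ with hd
      have e3 : d * x = x * d := by
        have e4 : x * t' = t' * (h * g) := by rw [← e2]; group
        have e6 : t⁻¹ * x = g * h * t⁻¹ := by
          rw [← e1]; group
        calc d * x = t' * g⁻¹ * (t⁻¹ * x) := by rw [hd]; group
          _ = t' * (h * g) * g⁻¹ * t⁻¹ := by rw [e6]; group
          _ = x * d := by rw [← e4, hd]; group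
      have hdK : d ∈ Subgroup.centralizer ({x} : Set G) := by
        rw [Subgroup.mem_centralizer_singleton_iff, e3]
      have e7 : (bfD D Λ x tr (t * g) (b * eqvDAct D Λ h a)).compContinuous
          (rtr ⟨d, hdK⟩) = bfD D Λ x tr t' (b * eqvDAct D Λ h a) := by
        ext c
        show bfD D Λ x tr (t * g) (b * eqvDAct D Λ h a) (c * ⟨d, hdK⟩) = _
        rw [bfD_apply, bfD_apply, Subgroup.coe_mul]
        have e8 : (c : G) * d * (t * g) = c * t' := by
          rw [mul_assoc, hd]
          congr 1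
          group
        show tr ((b * eqvDAct D Λ h a).1 ((c : G) * d * (t * g)) * Λ x) = _
        rw [e8]
      rw [← e7, hM _ fun d c hd => bfD_inv D Λ x tr htr hΛ hΛx _ _ d c hd]
      congr 1
      ext c
      rw [bfD_apply, bfD_apply]
      show tr (a.1 ((c : G) * t) * b.1 ((c : G) * t * g) * Λ x) =
        tr (b.1 ((c : G) * (t * g)) * a.1 ((c : G) * (t * g) * h) * Λ x)
      have hcy : (c : G) * x = x * c := (Subgroup.mem_centralizer_singleton_iff.1 c.2)
      have e9 : (c : G) * (t * g) * h = x * (c * t) := by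
        have e5 : x * t = t * (g * h) := by rw [← e1]; group
        calc (c : G) * (t * g) * h = c * (t * (g * h)) := by group
          _ = c * (x * t) := by rw [← e5]
          _ = x * (c * t) := by rw [← mul_assoc, hcy, mul_assoc]
      rw [e9, mul_assoc (b.1 _), a.2 x hxD, ← mul_assoc (c : G), ← mul_assoc (b.1 _),
        htr (b.1 _ * Λ x), mul_assoc, mul_assoc]
    · have h2 : ¬ IsConj x (h * g) := fun h => h1 (hc.2 h)
      rw [if_neg h1, if_neg h2]; rfl

/-- constant functions -/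
def constD (b : B) (hb : ∀ d ∈ D, b * Λ d = Λ d * b) : eqvD D Λ :=
  ⟨BoundedContinuousFunction.const G b, fun d hd _ => hb d hd⟩

theorem constD_apply (b : B) (hb : ∀ d ∈ D, b * Λ d = Λ d * b) (k : G) :
    (constD D Λ b hb).1 k = b := rfl

theorem constD_norm (b : B) (hb : ∀ d ∈ D, b * Λ d = Λ d * b) : ‖constD D Λ b hb‖ ≤ ‖b‖ :=
  BoundedContinuousFunction.norm_const_le b

section Idem

variable [CompleteSpace B] (htr : ∀ a b, tr (a * b) = tr (b * a)) (hxD : x ∈ D)
    (hΛ : ∀ d ∈ D, ∃ b, Λ d * b = 1 ∧ b * Λ d = 1)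
    (hΛx : ∀ d ∈ D, Λ d * Λ x = Λ x * Λ d)
    (M : ((Subgroup.centralizer ({x} : Set G)) →ᵇ ℂ) →L[ℂ] ℂ)
    (hM1 : ∀ a : ℂ, M (.const _ a) = a)
    (hM : ∀ F, (∀ d c : Subgroup.centralizer ({x} : Set G), (d : G) ∈ D → F (d * c) = F c) →
      ∀ d, M (F.compContinuous (rtr d)) = M F) (s : G → G)
    (hs : ∀ g, IsConj x g → s g * x * (s g)⁻¹ = g)

theorem constD_summable (b : G → B) (hb : ∀ g, ∀ d ∈ D, b g * Λ d = Λ d * b g)
    (hbs : Summable fun g => ‖b g‖) :
    Summable fun g => ‖(slowDataD D Λ x tr htr hxD hΛ hΛx M hM s hs).phi g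
      (constD D Λ (b g) (hb g))‖ :=
  Summable.of_nonneg_of_le (fun _ => norm_nonneg _)
    (fun g => ((slowDataD D Λ x tr htr hxD hΛ hΛx M hM s hs).phi_norm g _).trans
      (constD_norm D Λ _ _)) hbs

include hM1 in
theorem constD_trace (b : G → B) (hb : ∀ g, ∀ d ∈ D, b g * Λ d = Λ d * b g)
    (hbs : Summable fun g => ‖b g‖) :
    (slowDataD D Λ x tr htr hxD hΛ hΛx M hM s hs).tr
      (∑' g, (slowDataD D Λ x tr htr hxD hΛ hΛx M hM s hs).phi g (constD D Λ (b g) (hb g))) =
    ∑' g : {g // IsConj x g}, tr (b g * Λ x) := by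
  classical
  rw [ContinuousLinearMap.map_tsum _
    (constD_summable D Λ x tr htr hxD hΛ hΛx M hM s hs b hb hbs).of_norm]
  have h1 : ∀ g, (slowDataD D Λ x tr htr hxD hΛ hΛx M hM s hs).tr
      ((slowDataD D Λ x tr htr hxD hΛ hΛx M hM s hs).phi g (constD D Λ (b g) (hb g))) =
      ({g | IsConj x g} : Set G).indicator (fun g => tr (b g * Λ x)) g := by
    intro g
    rw [CrossedData.tr_phi]
    by_cases hg : IsConj x g
    · rw [Set.indicator_of_mem (by exact hg)]
      show (if IsConj x g then bfDL D Λ x tr M (s g)⁻¹ else 0) _ = _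
      rw [if_pos hg, bfDL_apply, ← hM1 (tr (b g * Λ x))]
      rfl
    · rw [Set.indicator_of_notMem (by exact hg)]
      show (if IsConj x g then bfDL D Λ x tr M (s g)⁻¹ else 0) _ = _
      rw [if_neg hg]; rfl
  rw [tsum_congr h1]
  exact (tsum_subtype {g | IsConj x g} (fun g => tr (b g * Λ x))).symm

theorem constD_mem (b : G → B) (hb : ∀ g, ∀ d ∈ D, b g * Λ d = Λ d * b g)
    (hbs : Summable fun g => ‖b g‖) :
    (∑' g, (slowDataD D Λ x tr htr hxD hΛ hΛx M hM s hs).phi g (constD D Λ (b g) (hb g))) ∈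
      (slowDataD D Λ x tr htr hxD hΛ hΛx M hM s hs).clos := by
  refine (slowDataD D Λ x tr htr hxD hΛ hΛx M hM s hs).clos_closed.mem_of_tendsto
    (constD_summable D Λ x tr htr hxD hΛ hΛx M hM s hs b hb hbs).of_norm.hasSum
    (Filter.Eventually.of_forall fun F => ?_)
  exact Submodule.sum_mem _ fun g _ =>
    (slowDataD D Λ x tr htr hxD hΛ hΛx M hM s hs).phi_mem_clos _ _

theorem constD_idem (b : G → B) (hb : ∀ g, ∀ d ∈ D, b g * Λ d = Λ d * b g)
    (hbs : Summable fun g => ‖b g‖) (hbb : ∀ k, ∑' h, b h * b (h⁻¹ * k) = b k) :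
    (∑' g, (slowDataD D Λ x tr htr hxD hΛ hΛx M hM s hs).phi g (constD D Λ (b g) (hb g))) *
    (∑' g, (slowDataD D Λ x tr htr hxD hΛ hΛx M hM s hs).phi g (constD D Λ (b g) (hb g))) =
    ∑' g, (slowDataD D Λ x tr htr hxD hΛ hΛx M hM s hs).phi g (constD D Λ (b g) (hb g)) := by
  set A := slowDataD D Λ x tr htr hxD hΛ hΛx M hM s hs with hA
  rw [tsum_conv (fun g => A.phi g (constD D Λ (b g) (hb g)))
    (constD_summable D Λ x tr htr hxD hΛ hΛx M hM s hs b hb hbs)]
  refine tsum_congr fun k => ?_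
  have hsa : Summable fun h => b h * b (h⁻¹ * k) := by
    refine Summable.of_norm_bounded (hbs.mul_right (∑' g, ‖b g‖)) fun h => ?_
    refine (norm_mul_le _ _).trans (mul_le_mul_of_nonneg_left ?_ (norm_nonneg _))
    exact hbs.le_tsum _ fun _ _ => norm_nonneg _
  have hcomm : ∀ h, ∀ d ∈ D, b h * b (h⁻¹ * k) * Λ d = Λ d * (b h * b (h⁻¹ * k)) :=
    fun h d hd => by
      rw [mul_assoc, hb _ d hd, ← mul_assoc, hb _ d hd, mul_assoc]
  have h3 : ∀ h : G, A.phi h (constD D Λ (b h) (hb h)) *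
      A.phi (h⁻¹ * k) (constD D Λ (b (h⁻¹ * k)) (hb (h⁻¹ * k))) =
      A.phiL k (constD D Λ (b h * b (h⁻¹ * k)) (hcomm h)) := by
    intro h
    rw [A.phi_mul, A.phiL_apply, mul_inv_cancel_left]
    congr 1
  have hsE : Summable fun h => constD D Λ (b h * b (h⁻¹ * k)) (hcomm h) := by
    refine Summable.of_norm_bounded (hbs.mul_right (∑' g, ‖b g‖)) fun h => ?_
    refine (constD_norm D Λ _ _).trans ((norm_mul_le _ _).trans
      (mul_le_mul_of_nonneg_left ?_ (norm_nonneg _)))
    exact hbs.le_tsum _ fun _ _ => norm_nonneg _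
  rw [tsum_congr h3, ← (A.phiL k).map_tsum hsE, A.phiL_apply]
  congr 1
  apply Subtype.ext
  ext p
  have h4 : (∑' h, constD D Λ (b h * b (h⁻¹ * k)) (hcomm h)).1 p =
      ∑' h, b h * b (h⁻¹ * k) := by
    let ev : eqvD D Λ →L[ℂ] B := LinearMap.mkContinuous
      { toFun := fun F => F.1 p
        map_add' := fun F F' => rfl
        map_smul' := fun a F => rfl } 1 (fun F => by
          rw [one_mul]; exact F.1.norm_coe_le_norm _)
    exact ev.map_tsum hsE
  rw [h4, hbb, constD_apply]

end Idem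

/-- The abstract core: two idempotents exchanged by a slowly varying symmetry have the same
localized trace. -/
theorem coreD_eq [CompleteSpace B] (htr : ∀ a b, tr (a * b) = tr (b * a)) (hxD : x ∈ D)
    (hΛ : ∀ d ∈ D, ∃ b, Λ d * b = 1 ∧ b * Λ d = 1)
    (hΛx : ∀ d ∈ D, Λ d * Λ x = Λ x * Λ d)
    (M : ((Subgroup.centralizer ({x} : Set G)) →ᵇ ℂ) →L[ℂ] ℂ)
    (hM1 : ∀ a : ℂ, M (.const _ a) = a)
    (hM : ∀ F, (∀ d c : Subgroup.centralizer ({x} : Set G), (d : G) ∈ D → F (d * c) = F c) →
      ∀ d, M (F.compContinuous (rtr d)) = M F)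
    (P N : B) (c : G → B) (bc : ℝ)
    (hcb : ∀ k, ‖c k‖ ≤ bc) (hcc : ∀ k, c k * c k = 1)
    (hcΛ : ∀ d ∈ D, ∀ k, c (d * k) * Λ d = Λ d * c k) (hPP : P * P = P) (hNN : N * N = N)
    (hcP : ∀ k, c k * P = N * c k) (hPΛ : ∀ d ∈ D, P * Λ d = Λ d * P)
    (hNΛ : ∀ d ∈ D, N * Λ d = Λ d * N)
    (a : G → B) (has : Summable fun g => ‖a g‖) (haa : ∀ k, ∑' h, a h * a (h⁻¹ * k) = a k)
    (haΛ : ∀ g, ∀ d ∈ D, a g * Λ d = Λ d * a g) (haP : ∀ g, a g * P = P * a g)
    (haN : ∀ g, a g * N = N * a g) (hac : ∀ g k, a g * c k = c k * a g)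
    (w : G → ℝ) (hw : ∀ g k, ‖N * (c k * c (k * g)) - N‖ ≤ w g)
    (hws : Summable fun g => ‖a g‖ * w g) (hw1 : ∑' g, ‖a g‖ * w g < 1) :
    ∑' g : {g // IsConj x g}, tr (a g * P * Λ x) =
      ∑' g : {g // IsConj x g}, tr (a g * N * Λ x) := by
  classical
  have hsel : ∀ g : G, ∃ s : G, IsConj x g → s * x * s⁻¹ = g := by
    intro g
    by_cases hg : IsConj x g
    · obtain ⟨s, hs⟩ := isConj_iff.1 hg
      exact ⟨s, fun _ => hs⟩
    · exact ⟨1, fun h => absurd h hg⟩
  choose s hs using hsel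
  have hbP : ∀ g, ∀ d ∈ D, a g * P * Λ d = Λ d * (a g * P) := fun g d hd => by
    rw [mul_assoc, hPΛ d hd, ← mul_assoc, haΛ g d hd, mul_assoc]
  have hbN : ∀ g, ∀ d ∈ D, a g * N * Λ d = Λ d * (a g * N) := fun g d hd => by
    rw [mul_assoc, hNΛ d hd, ← mul_assoc, haΛ g d hd, mul_assoc]
  have hsP : Summable fun g => ‖a g * P‖ :=
    Summable.of_nonneg_of_le (fun _ => norm_nonneg _) (fun g => norm_mul_le _ _)
      (has.mul_right ‖P‖)
  have hsN : Summable fun g => ‖a g * N‖ :=
    Summable.of_nonneg_of_le (fun _ => norm_nonneg _) (fun g => norm_mul_le _ _)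
      (has.mul_right ‖N‖)
  have hsa : ∀ k, Summable fun h => a h * a (h⁻¹ * k) := fun k => by
    refine Summable.of_norm_bounded (has.mul_right (∑' g, ‖a g‖)) fun h => ?_
    refine (norm_mul_le _ _).trans (mul_le_mul_of_nonneg_left ?_ (norm_nonneg _))
    exact has.le_tsum _ fun _ _ => norm_nonneg _
  have hconv : ∀ Q : B, Q * Q = Q → (∀ g, a g * Q = Q * a g) →
      ∀ k, ∑' h, a h * Q * (a (h⁻¹ * k) * Q) = a k * Q := by
    intro Q hQ haQ k
    rw [← haa k, ← (hsa k).tsum_mul_right]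
    refine tsum_congr fun h => ?_
    rw [mul_assoc, ← mul_assoc Q, ← haQ, mul_assoc (a (h⁻¹ * k)), hQ, mul_assoc]
  have hPi := constD_idem D Λ x tr htr hxD hΛ hΛx M hM s hs (fun g => a g * P) hbP hsP
    (hconv P hPP haP)
  have hNi := constD_idem D Λ x tr htr hxD hΛ hΛx M hM s hs (fun g => a g * N) hbN hsN
    (hconv N hNN haN)
  have hPm := constD_mem D Λ x tr htr hxD hΛ hΛx M hM s hs (fun g => a g * P) hbP hsP
  have hNm := constD_mem D Λ x tr htr hxD hΛ hΛx M hM s hs (fun g => a g * N) hbN hsN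
  have hPt := constD_trace D Λ x tr htr hxD hΛ hΛx M hM1 hM s hs (fun g => a g * P) hbP hsP
  have hNt := constD_trace D Λ x tr htr hxD hΛ hΛx M hM1 hM s hs (fun g => a g * N) hbN hsN
  have hPsum := constD_summable D Λ x tr htr hxD hΛ hΛx M hM s hs (fun g => a g * P) hbP hsP
  have hNsum := constD_summable D Λ x tr htr hxD hΛ hΛx M hM s hs (fun g => a g * N) hbN hsN
  let cb : G →ᵇ B := BoundedContinuousFunction.ofNormedAddCommGroupDiscrete c bc hcb
  let cE : eqvD D Λ := ⟨cb, hcΛ⟩
  have hcE : cE * cE = 1 := by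
    apply Subtype.ext; ext k
    exact hcc k
  have key := (slowDataD D Λ x tr htr hxD hΛ hΛx M hM s hs).trace_twist _ _ hPsum hNsum hPi hNi
    hPm hNm cE hcE (fun g => ‖a g‖ * w g) (fun g => ?_) hws hw1
  · rw [hPt, hNt] at key
    exact key
  · have hw0 : 0 ≤ w g := (norm_nonneg _).trans (hw g 1)
    refine (BoundedContinuousFunction.norm_le (mul_nonneg (norm_nonneg _) hw0)).2 fun k => ?_
    show ‖c k * (a g * P) * c (k * g) - a g * N‖ ≤ ‖a g‖ * w g
    have e : c k * (a g * P) * c (k * g) - a g * N =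
        a g * (N * (c k * c (k * g)) - N) := by
      rw [mul_sub, ← mul_assoc (c k), ← hac, mul_assoc (a g), hcP, mul_assoc (a g), mul_assoc N]
    rw [e]
    exact (norm_mul_le _ _).trans (mul_le_mul_of_nonneg_left (hw g k) (norm_nonneg _))

end CoreD

/-- A mean on the functions on a group that are invariant under a normal subgroup with amenable
quotient. -/
theorem exists_rmeanD {C : Type*} [Group C] [TopologicalSpace C] [DiscreteTopology C]
    (D : Subgroup C) [D.Normal] (h : IsAmenable (C ⧸ D)) :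
    ∃ M : (C →ᵇ ℂ) →L[ℂ] ℂ, (∀ a : ℂ, M (.const C a) = a) ∧
      ∀ F : C →ᵇ ℂ, (∀ d c : C, d ∈ D → F (d * c) = F c) →
        ∀ d : C, M (F.compContinuous (rtr d)) = M F := by
  let _ : TopologicalSpace (C ⧸ D) := ⊥
  have : DiscreteTopology (C ⧸ D) := ⟨rfl⟩
  obtain ⟨M, hM1, hM⟩ := exists_rmean h
  let o : C(C ⧸ D, C) := ⟨fun q => q.out, continuous_of_discreteTopology⟩
  refine ⟨LinearMap.mkContinuous
    { toFun := fun F => M (F.compContinuous o)
      map_add' := fun F F' => by rw [← map_add]; rfl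
      map_smul' := fun a F => by rw [RingHom.id_apply, ← map_smul]; rfl } ‖M‖ (fun F => ?_),
    fun a => ?_, fun F hF d => ?_⟩
  · refine (M.le_opNorm _).trans (mul_le_mul_of_nonneg_left ?_ (norm_nonneg _))
    exact (BoundedContinuousFunction.norm_le (norm_nonneg _)).2 fun p => F.norm_coe_le_norm _
  · exact hM1 a
  · show M ((F.compContinuous (rtr d)).compContinuous o) = M (F.compContinuous o)
    rw [← hM (F.compContinuous o) (d : C ⧸ D)]
    congr 1
    ext q
    show F (q.out * d) = F ((q * (d : C ⧸ D)).out)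
    have h1 : (((q * (d : C ⧸ D)).out : C) : C ⧸ D) = ((q.out * d : C) : C ⧸ D) := by
      rw [QuotientGroup.out_eq', QuotientGroup.mk_mul, QuotientGroup.out_eq']
    have h2 : (q.out * d : C)⁻¹ * (q * (d : C ⧸ D)).out ∈ D := QuotientGroup.eq.1 h1.symm
    have h3 : (q * (d : C ⧸ D)).out * (q.out * d : C)⁻¹ ∈ D := by
      have h4 := ‹D.Normal›.conj_mem _ h2 (q.out * d)
      have h5 : q.out * d * ((q.out * d)⁻¹ * (q * (d : C ⧸ D)).out) * (q.out * d)⁻¹ =
        (q * (d : C ⧸ D)).out * (q.out * d : C)⁻¹ := by group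
      rwa [h5] at h4
    have h6 := hF _ (q.out * d) h3
    rw [inv_mul_cancel_right] at h6
    exact h6.symm

end Vale.Agent.P184
end
end
namespace AFast8ce184x3291b
@[reducible] noncomputable def a0.{u1, u2} {x1 : Type u1} {x2 : Type u2} [x3 : TopologicalSpace x1] [x4 : NormedRing x2] [x5 : NormedAlgebra ℂ x2] [x6 : Group x1] {x7 : Set x1} {x8 : x1 → x2} : NonUnitalSeminormedRing ↥(Vale.Agent.P184.eqvD x7 x8) := inferInstance
@[reducible] noncomputable def a1.{u1, u2} {x1 : Type u1} {x2 : Type u2} [x3 : TopologicalSpace x1] [x4 : NormedRing x2] [x5 : NormedAlgebra ℂ x2] [x6 : Group x1] {x7 : Set x1} {x8 : x1 → x2} : SeminormedAddCommGroup ↥(Vale.Agent.P184.eqvD x7 x8) := inferInstance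
@[reducible] noncomputable def a2.{u1, u2} {x1 : Type u1} {x2 : Type u2} [x3 : TopologicalSpace x1] [x4 : NormedRing x2] [x5 : NormedAlgebra ℂ x2] [x6 : Group x1] {x7 : Set x1} {x8 : x1 → x2} : NonUnitalNormedRing ↥(Vale.Agent.P184.eqvD x7 x8) := inferInstance
@[reducible] noncomputable def a3.{u1, u2} {x1 : Type u1} {x2 : Type u2} [x3 : TopologicalSpace x1] [x4 : NormedRing x2] [x5 : NormedAlgebra ℂ x2] [x6 : Group x1] {x7 : Set x1} {x8 : x1 → x2} : SeminormedAddGroup ↥(Vale.Agent.P184.eqvD x7 x8) := inferInstance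
@[reducible] noncomputable def a4.{u1, u2} {x1 : Type u1} {x2 : Type u2} [x3 : TopologicalSpace x1] [x4 : NormedRing x2] [x5 : NormedAlgebra ℂ x2] [x6 : Group x1] {x7 : Set x1} {x8 : x1 → x2} : AddZero ↥(Subalgebra.toSubmodule (Vale.Agent.P184.eqvD x7 x8)) := inferInstance
@[reducible] noncomputable def a5.{u1, u2} {x1 : Type u1} {x2 : Type u2} [x3 : TopologicalSpace x1] [x4 : NormedRing x2] [x5 : NormedAlgebra ℂ x2] [x6 : Group x1] {x7 : Set x1} {x8 : x1 → x2} : AddZeroClass ↥(Subalgebra.toSubmodule (Vale.Agent.P184.eqvD x7 x8)) := inferInstance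
@[reducible] noncomputable def a6.{u1, u2} {x1 : Type u1} {x2 : Type u2} [x3 : TopologicalSpace x1] [x4 : NormedRing x2] [x5 : NormedAlgebra ℂ x2] [x6 : Group x1] {x7 : Set x1} {x8 : x1 → x2} : AddMonoid ↥(Subalgebra.toSubmodule (Vale.Agent.P184.eqvD x7 x8)) := inferInstance
@[reducible] noncomputable def a7.{u1, u2} {x1 : Type u1} {x2 : Type u2} [x3 : TopologicalSpace x1] [x4 : NormedRing x2] [x5 : NormedAlgebra ℂ x2] [x6 : Group x1] {x7 : Set x1} {x8 : x1 → x2} : SMul ℂ (Vale.Agent.P184.L1 x1 ↥(Vale.Agent.P184.eqvD x7 x8)) := inferInstance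
@[reducible] noncomputable def a8.{u1, u2} {x1 : Type u1} {x2 : Type u2} [x3 : TopologicalSpace x1] [x4 : NormedRing x2] [x5 : NormedAlgebra ℂ x2] [x6 : Group x1] {x7 : Set x1} {x8 : x1 → x2} : NormedSpace ℂ ↥(Vale.Agent.P184.eqvD x7 x8) := inferInstance
@[reducible] noncomputable def a9.{u1, u2} {x1 : Type u1} {x2 : Type u2} [x3 : TopologicalSpace x1] [x4 : NormedRing x2] [x5 : NormedAlgebra ℂ x2] [x6 : Group x1] {x7 : Set x1} {x8 : x1 → x2} : AddCommMagma ↥(Vale.Agent.P184.eqvD x7 x8) := inferInstance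
@[reducible] noncomputable def a10.{u1, u2} {x1 : Type u1} {x2 : Type u2} [x3 : TopologicalSpace x1] [x4 : NormedRing x2] [x5 : NormedAlgebra ℂ x2] [x6 : Group x1] {x7 : Set x1} {x8 : x1 → x2} : AddCommSemigroup ↥(Vale.Agent.P184.eqvD x7 x8) := inferInstance
@[reducible] noncomputable def a11.{u1, u2} {x1 : Type u1} {x2 : Type u2} [x3 : TopologicalSpace x1] [x4 : NormedRing x2] [x5 : NormedAlgebra ℂ x2] [x6 : Group x1] {x7 : Set x1} {x8 : x1 → x2} : MulAction ℂ (Vale.Agent.P184.L1 x1 ↥(Vale.Agent.P184.eqvD x7 x8)) := inferInstance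
@[reducible] noncomputable def a12.{u1, u2} {x1 : Type u1} {x2 : Type u2} [x3 : TopologicalSpace x1] [x4 : NormedRing x2] [x5 : NormedAlgebra ℂ x2] [x6 : Group x1] {x7 : Set x1} {x8 : x1 → x2} : DistribSMul ℂ ↥(Vale.Agent.P184.eqvD x7 x8) := inferInstance
@[reducible] noncomputable def a13.{u1, u2} {x1 : Type u1} {x2 : Type u2} [x3 : TopologicalSpace x1] [x4 : NormedRing x2] [x5 : NormedAlgebra ℂ x2] [x6 : Group x1] {x7 : Set x1} {x8 : x1 → x2} : SMulZeroClass ℂ ↥(Vale.Agent.P184.eqvD x7 x8) := inferInstance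
end AFast8ce184x3291b
attribute [local instance] AFast8ce184x3291b.a0 AFast8ce184x3291b.a1 AFast8ce184x3291b.a2
  AFast8ce184x3291b.a3 AFast8ce184x3291b.a4 AFast8ce184x3291b.a5 AFast8ce184x3291b.a6
  AFast8ce184x3291b.a7 AFast8ce184x3291b.a8 AFast8ce184x3291b.a9 AFast8ce184x3291b.a10
  AFast8ce184x3291b.a11 AFast8ce184x3291b.a12 AFast8ce184x3291b.a13

section

/-!
# Clifford matrices with all diagonal symmetries
-/

noncomputable section
open scoped Matrix Kronecker

namespace Vale.Agent.P184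

/-- Clifford matrices for `ι → ℂ`, with grading `Γ` and commuting unitaries `Λ ζ` implementing
the diagonal matrices `ζ` on vectors. -/
def CliffordAll (ι : Type) [Fintype ι] : Prop :=
  ∃ (κ : Type) (_ : Fintype κ) (_ : DecidableEq κ) (c : (ι → ℂ) → Matrix κ κ ℂ)
    (Γ : Matrix κ κ ℂ) (Λ : (ι → ℂ) → Matrix κ κ ℂ),
    (∀ v w, c (v - w) = c v - c w) ∧ (∀ v, (c v)ᴴ = c v) ∧
    (∀ v, c v * c v = ((∑ j, ‖v j‖ ^ 2 : ℝ) : ℂ) • 1) ∧
    Γ * Γ = 1 ∧ (∀ v, Γ * c v = - (c v * Γ)) ∧ Γᴴ = Γ ∧
    (∀ ζ, (∀ j, ‖ζ j‖ = 1) → (Λ ζ)ᴴ * Λ ζ = 1) ∧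
    (∀ ζ, (∀ j, ‖ζ j‖ = 1) → ∀ v, Λ ζ * c v = c (fun j => ζ j * v j) * Λ ζ) ∧
    (∀ ζ, Λ ζ * Γ = Γ * Λ ζ) ∧ (∀ ζ ζ', Λ ζ * Λ ζ' = Λ ζ' * Λ ζ) ∧
    ∀ ζ, (∀ j, ζ j ≠ 1) → (Γ * Λ ζ).trace ≠ 0

theorem dz_comm (z z' : ℂ) : dz z * dz z' = dz z' * dz z := by
  unfold dz; ext i j
  fin_cases i <;> fin_cases j <;> simp [Matrix.mul_apply, Fin.sum_univ_two, mul_comm]

theorem cliffordAll_option (ι : Type) [Fintype ι] (ih : CliffordAll ι) :
    CliffordAll (Option ι) := by
  obtain ⟨κ, _, _, c, Γ, Λ, h1, h2, h3, h4, h5, h9, h6, h10, h8, h7, h11⟩ := ih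
  refine ⟨κ × Fin 2, inferInstance, inferInstance,
    fun v => c (fun j => v (some j)) ⊗ₖ sz + (1 : Matrix κ κ ℂ) ⊗ₖ offd (v none),
    Γ ⊗ₖ sz, fun ζ => Λ (fun j => ζ (some j)) ⊗ₖ dz (ζ none), ?_, ?_, ?_, ?_, ?_, ?_, ?_, ?_, ?_,
    ?_, ?_⟩
  · intro v w
    have e : (fun j => (v - w) (some j)) = (fun j => v (some j)) - fun j => w (some j) := rfl
    beta_reduce
    rw [e, h1, Pi.sub_apply, offd_sub]
    ext ⟨i, a⟩ ⟨j, b⟩
    simp only [Matrix.sub_apply, Matrix.add_apply, Matrix.kroneckerMap_apply]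
    ring
  · intro v
    rw [Matrix.conjTranspose_add, Matrix.conjTranspose_kronecker, Matrix.conjTranspose_kronecker,
      h2, sz_star, offd_star, Matrix.conjTranspose_one]
  · intro v
    rw [add_mul, mul_add, mul_add, ← Matrix.mul_kronecker_mul, ← Matrix.mul_kronecker_mul,
      ← Matrix.mul_kronecker_mul, ← Matrix.mul_kronecker_mul, h3, sz_sq, offd_sq, mul_one,
      one_mul, one_mul, sz_offd]
    ext ⟨i, a⟩ ⟨j, b⟩
    simp only [Matrix.add_apply, Matrix.kroneckerMap_apply, Matrix.smul_apply, Matrix.neg_apply,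
      Fintype.sum_option, smul_eq_mul, Matrix.one_apply, Prod.mk.injEq]
    by_cases h : i = j <;> by_cases h' : a = b <;> simp [h, h'] <;> ring
  · rw [← Matrix.mul_kronecker_mul, h4, sz_sq, Matrix.one_kronecker_one]
  · intro v
    rw [mul_add, add_mul, ← Matrix.mul_kronecker_mul, ← Matrix.mul_kronecker_mul,
      ← Matrix.mul_kronecker_mul, ← Matrix.mul_kronecker_mul, h5, sz_offd, mul_one, one_mul]
    ext ⟨i, a⟩ ⟨j, b⟩
    simp only [Matrix.add_apply, Matrix.kroneckerMap_apply, Matrix.neg_apply]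
    ring
  · rw [Matrix.conjTranspose_kronecker, h9, sz_star]
  · intro ζ hζ
    rw [Matrix.conjTranspose_kronecker, ← Matrix.mul_kronecker_mul, h6 _ fun j => hζ (some j),
      dz_unitary (hζ none), Matrix.one_kronecker_one]
  · intro ζ hζ v
    rw [mul_add, add_mul, ← Matrix.mul_kronecker_mul, ← Matrix.mul_kronecker_mul,
      ← Matrix.mul_kronecker_mul, ← Matrix.mul_kronecker_mul, h10 _ fun j => hζ (some j),
      dz_offd (hζ none), mul_one, one_mul, dz_sz]
  · intro ζ
    rw [← Matrix.mul_kronecker_mul, ← Matrix.mul_kronecker_mul, h8, dz_sz]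
  · intro ζ ζ'
    rw [← Matrix.mul_kronecker_mul, ← Matrix.mul_kronecker_mul, h7, dz_comm]
  · intro ζ hζ
    rw [← Matrix.mul_kronecker_mul, Matrix.trace_kronecker, sz_dz_trace]
    exact mul_ne_zero (h11 _ fun j => hζ (some j)) (sub_ne_zero.2 (hζ none))

theorem cliffordAll_empty : CliffordAll PEmpty := by
  refine ⟨Unit, inferInstance, inferInstance, fun _ => 0, 1, fun _ => 1, ?_, ?_, ?_, ?_, ?_, ?_,
    ?_, ?_, ?_, ?_, ?_⟩ <;> simp

theorem cliffordAll_equiv (α β : Type) [Fintype β] (e : α ≃ β)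
    (h : @CliffordAll α (Fintype.ofEquiv β e.symm)) : CliffordAll β := by
  let _ : Fintype α := Fintype.ofEquiv β e.symm
  obtain ⟨κ, i1, i2, c, Γ, Λ, h1, h2, h3, h4, h5, h9, h6, h10, h8, h7, h11⟩ := h
  refine ⟨κ, i1, i2, fun v => c (fun j => v (e j)), Γ, fun ζ => Λ fun j => ζ (e j),
    fun v w => h1 _ _, fun v => h2 _, fun v => ?_, h4, fun v => h5 _, h9,
    fun ζ hζ => h6 _ fun j => hζ _, fun ζ hζ v => h10 _ (fun j => hζ _) _, fun ζ => h8 _,
    fun ζ ζ' => h7 _ _, fun ζ hζ => h11 _ fun j => hζ _⟩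
  rw [h3, e.sum_comp (fun j => ‖v j‖ ^ 2)]

theorem cliffordAll (ι : Type) [Fintype ι] : CliffordAll ι :=
  Fintype.induction_empty_option (P := fun ι _ => CliffordAll ι) cliffordAll_equiv
    cliffordAll_empty (fun ι _ ih => cliffordAll_option ι ih) ι

end Vale.Agent.P184
end
end
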