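import Mathlib
import Vale.Agent.P184.Defs

set_option linter.all false

section

/-!
# Definitions for the combined statement
-/

namespace Vale.Agent.P184.V

variable {G : Type*} [Group G]

/-- `e` is an idempotent matrix over the convolution algebra `ℓ¹(G)`. -/
def IsIdem {q : ℕ} (e : Matrix (Fin q) (Fin q) (G → ℂ)) : Prop :=
  (∀ i j, Summable fun g => ‖e i j g‖) ∧
    ∀ i j g, ∑ k, ∑' h, e i k h * e k j (h⁻¹ * g) = e i j g

/-- The coefficient of the Hattori-Stallings trace of `e` at the conjugacy class `C`. -/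
noncomputable def tau {q : ℕ} (C : ConjClasses G) (e : Matrix (Fin q) (Fin q) (G → ℂ)) : ℂ :=
  ∑' g : C.carrier, ∑ i, e i i g

variable (G) in
/-- The `ℓ¹`-Bass conjecture for the group `G`. -/
def L1Bass : Prop :=
  ∀ (q : ℕ) (e : Matrix (Fin q) (Fin q) (G → ℂ)), IsIdem e → ∃ F : Finset (ConjClasses G),
    (∀ C ∈ F, ∀ g ∈ C.carrier, IsOfFinOrder g) ∧ ∀ C ∉ F, tau C e = 0

/-- The traces of all idempotent matrices over `ℓ¹(G)` vanish at the class of `x`. -/
def VanishesAt (x : G) : Prop :=
  ∀ (q : ℕ) (e : Matrix (Fin q) (Fin q) (G → ℂ)), IsIdem e → tau (ConjClasses.mk x) e = 0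

/-- `L` is a length function on `G`. -/
def IsLen (L : G → ℝ) : Prop :=
  L 1 = 0 ∧ (∀ g, L g⁻¹ = L g) ∧ ∀ g h, L (g * h) ≤ L g + L h

/-- The homogeneous coboundary. -/
def cobd {G : Type*} {n : ℕ} (F : (Fin n → G) → ℝ) (p : Fin (n + 1) → G) : ℝ :=
  ∑ j : Fin (n + 1), (-1) ^ (j : ℕ) * F fun i => p (j.succAbove i)

/-- The `n`-th cup power of the coboundary of the `1`-cochain `α`, evaluated at
`a 0, …, a (2 * n)`. -/
def cupd {G : Type*} (α : G → G → ℝ) (n : ℕ) (a : ℕ → G) : ℝ :=
  ∏ k ∈ Finset.range n, (α (a (2 * k)) (a (2 * k + 1)) + α (a (2 * k + 1)) (a (2 * k + 2)) -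
    α (a (2 * k)) (a (2 * k + 2)))

/-- A power of the real Euler class of the central extension of `C_G(x)/⟨x⟩` by `⟨x⟩` vanishes
for cochains satisfying the growth condition `gr`: `α` is a connection, `β` is a cochain on
`G/⟨x⟩` invariant under the centralizer, and after alternation the coboundary of `β` is the
`n`-th cup power of the curvature of `α`. -/
def NilEuler (x : G) (gr : ∀ n : ℕ, ((Fin n → G) → ℝ) → Prop) : Prop :=
  ∃ (α : G → G → ℝ) (n k : ℕ) (β : (Fin k → G) → ℝ), k = 2 * n ∧ 0 < n ∧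
    (∀ h, Commute h x → ∀ p q, α (h * p) (h * q) = α p q) ∧
    (∀ p q, α p (x * q) = α p q + 1) ∧
    (∀ h, Commute h x → ∀ (m : Fin k → ℤ) p, β (fun i => h * x ^ m i * p i) = β p) ∧
    gr 2 (fun p => α (p 0) (p 1)) ∧ gr k β ∧
    ∀ p : Fin (k + 1) → G, ∑ σ : Equiv.Perm (Fin (k + 1)), ((Equiv.Perm.sign σ : ℤ) : ℝ) *
      (cupd α n (fun j => p (σ (Fin.ofNat _ j))) - cobd β (fun i => p (σ i))) = 0

/-- `x` is tame in `G`: for some length function `L`, the Euler class is nilpotent with
subexponential growth in the quantities `L (p i⁻¹ * p j)` and `L (p i⁻¹ * x * p i)`. -/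
def TameAt (x : G) : Prop :=
  ∃ L : G → ℝ, IsLen L ∧ NilEuler x fun n F => ∀ ε : ℝ, 0 < ε → ∃ C : ℝ,
    ∀ p : Fin n → G, |F p| ≤
      C * Real.exp (ε * ((∑ i, ∑ j, L ((p i)⁻¹ * p j)) + ∑ i, L ((p i)⁻¹ * x * p i)))

/-- For some length function `L` of `G`, the class of `x` has a polynomial conjugacy bound and
the Euler class is nilpotent with polynomial growth on the centralizer. -/
def PolyNilpotent (x : G) : Prop :=
  ∃ L : G → ℝ, IsLen L ∧ (∃ (C : ℝ) (d : ℕ), ∀ p, ∃ h, Commute h x ∧
      L (h⁻¹ * p) ≤ C * (1 + L (p⁻¹ * x * p)) ^ d) ∧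
    NilEuler x fun n F => ∃ (C : ℝ) (d : ℕ), ∀ p : Fin n → G, (∀ i, Commute (p i) x) →
      |F p| ≤ C * (1 + ∑ i, ∑ j, L ((p i)⁻¹ * p j)) ^ d

/-- `f` is bounded on `C` and invariant under left translation by `D`. -/
def BddInv (C D : Subgroup G) (f : G → ℝ) : Prop :=
  (∃ K, ∀ c ∈ C, |f c| ≤ K) ∧ ∀ d ∈ D, ∀ c ∈ C, f (d * c) = f c

/-- There is a `C`-invariant mean on the bounded functions on `D \ C`, for subgroups `D ≤ C`
of `G`; for `D = 1` this is the amenability of `C`. -/
def CoAmenable (C D : Subgroup G) : Prop :=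
  ∃ m : (G → ℝ) → ℝ,
    (∀ f g, BddInv C D f → BddInv C D g → m (fun c => f c + g c) = m f + m g) ∧
    (∀ f, BddInv C D f → (∀ c ∈ C, 0 ≤ f c) → 0 ≤ m f) ∧ (∀ r : ℝ, m (fun _ => r) = r) ∧
    ∀ f, BddInv C D f → ∀ k ∈ C, m (fun c => f (c * k)) = m f

/-- The centralizer of `x`. -/
def Cen (x : G) : Subgroup G := Subgroup.centralizer {x}

variable (G) in
/-- Property A of Yu for the discrete group `G` (equivalently, exactness). -/
def PropertyA : Prop :=
  ∀ (S : Finset G) (ε : ℝ), 0 < ε → ∃ (E : Finset G) (a : G → G → ℝ),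
    (∀ p q, 0 ≤ a p q) ∧ (∀ p q, a p q ≠ 0 → p⁻¹ * q ∈ E) ∧ (∀ p, ∑ t ∈ E, a p (p * t) = 1) ∧
    ∀ s ∈ S, ∀ p, ∑' q, |a (p * s) q - a p q| ≤ ε

/-- `G` has property A and the centralizer of `x` is amenable. -/
def AmenCentr (x : G) : Prop :=
  PropertyA G ∧ CoAmenable (Cen x) ⊥

/-- There are a normal subgroup `D` of the centralizer of `x` containing `x` and with amenable
quotient, and a map `u` from `G` to the unit sphere of a finite dimensional space, equivariant
for `D` acting by diagonal unitary matrices, that of `x` without eigenvalue `1`, which varies by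
at most `√δ` under right translation by the elements of `S`. -/
def SlowAt (x : G) (S : Finset G) (δ : ℝ) : Prop :=
  ∃ (D : Subgroup G) (n : ℕ) (ζ u : G → Fin n → ℂ),
    x ∈ D ∧ D ≤ Cen x ∧ (∀ c ∈ Cen x, ∀ d ∈ D, c * d * c⁻¹ ∈ D) ∧ CoAmenable (Cen x) D ∧
    (∀ d j, ‖ζ d j‖ = 1) ∧ (∀ j, ζ x j ≠ 1) ∧ (∀ d ∈ D, ∀ p j, u (d * p) j = ζ d j * u p j) ∧
    (∀ p, ∑ j, ‖u p j‖ ^ 2 = 1) ∧ ∀ s ∈ S, ∀ p, ∑ j, ‖u (p * s) j - u p j‖ ^ 2 ≤ δ

/-- `x` is tame in all finitely generated subgroups containing it, or there are arbitrarily slow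
maps as in `SlowAt`. -/
def Mild (x : G) : Prop :=
  (∀ (S : Finset G) (h : x ∈ Subgroup.closure (S : Set G)),
    TameAt (⟨x, h⟩ : Subgroup.closure (S : Set G))) ∨
  ∀ (S : Finset G) (δ : ℝ), 0 < δ → SlowAt x S δ

variable (G) in
/-- The elements of infinite order are mild. -/
def MildInf : Prop := ∀ x : G, ¬ IsOfFinOrder x → Mild x

variable (G) in
/-- The elements of infinite order are mild, and for all `S` and `δ` those of finite order outside
finitely many conjugacy classes satisfy `SlowAt`. -/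
def Nice : Prop :=
  MildInf G ∧ ∀ (S : Finset G) (δ : ℝ), 0 < δ → ∃ B : Finset G, ∀ x, IsOfFinOrder x →
    SlowAt x S δ ∨ ∃ b ∈ B, IsConj b x

variable (G) in
/-- `G` is amenable, or its elements of infinite order are mild or satisfy `AmenCentr`, and those
of finite order outside finitely many conjugacy classes satisfy `AmenCentr`. -/
def AlmostAmen : Prop :=
  CoAmenable (⊤ : Subgroup G) ⊥ ∨ (∀ x : G, ¬ IsOfFinOrder x → Mild x ∨ AmenCentr x) ∧
    ∃ B : Finset G, ∀ x, IsOfFinOrder x → AmenCentr x ∨ ∃ b ∈ B, IsConj b x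

/-- `p` and `q` are joined by a walk of length `n` in the graph with edge relation `R`. -/
def Joined {G : Type*} (R : G → G → Prop) (n : ℕ) (p q : G) : Prop :=
  ∃ w : ℕ → G, w 0 = p ∧ w n = q ∧ ∀ i < n, R (w i) (w (i + 1))

/-- Edges of the Cayley graph of `G` with respect to the letters of `X` and of all the `H k`.
For `o = some l`, the edges labelled by letters of `H l` between elements of `H l` are left
out. -/
def Adj {ι : Type*} (X : Set G) (H : ι → Subgroup G) (o : Option ι) (p q : G) : Prop :=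
  p⁻¹ * q ∈ X ∨ q⁻¹ * p ∈ X ∨ ∃ k, p⁻¹ * q ∈ H k ∧ ¬ (o = some k ∧ p ∈ H k)

/-- `G` is hyperbolic relative to the finite family `H`: for some finite set `X`, the Cayley
graph with respect to `X` and all the `H k` is connected and hyperbolic (`d` is its metric), and
only finitely many elements of `H k` are joined to `1` by walks of given length using no edge
of the complete graph on `H k`. -/
def IsRelHyp {ι : Type*} (H : ι → Subgroup G) : Prop :=
  Finite ι ∧ ∃ (X : Set G) (d : G → G → ℕ) (δ : ℕ), X.Finite ∧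
    (∀ p q, IsLeast {n | Joined (Adj X H none) n p q} (d p q)) ∧
    (∀ a b c e, d a b + d c e ≤ max (d a c + d b e) (d a e + d b c) + δ) ∧
    ∀ k n, {h | h ∈ H k ∧ Joined (Adj X H (some k)) n 1 h}.Finite

/-- The action of `G` on `X` is proper, cocompact and isometric, and `X` satisfies the
Bruhat-Tits (CN) inequality, as `CAT(0)` spaces do. -/
def Cat0Action (G X : Type*) [Group G] [MetricSpace X] [MulAction G X] : Prop :=
  Nonempty X ∧ (∀ (g : G) (a b : X), dist (g • a) (g • b) = dist a b) ∧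
    (∀ p q : X, ∃ m, ∀ z, dist z m ^ 2 ≤ (dist z p ^ 2 + dist z q ^ 2) / 2 - dist p q ^ 2 / 4) ∧
    (∀ a : X, ∃ r > 0, {g : G | dist a (g • a) < r}.Finite) ∧
    ∃ B : Set X, IsCompact B ∧ ∀ a : X, ∃ g : G, g • a ∈ B

/-- Some finite dimensional representation over `K` maps `x` to a matrix none of whose positive
powers is unipotent. -/
def LinDetected (x : G) (K : Type*) [Field K] : Prop :=
  ∃ (n : ℕ) (ρ : G →* Matrix (Fin n) (Fin n) K), ∀ m : ℕ, 0 < m → ¬ IsNilpotent (ρ x ^ m - 1)

/-- `y` is the image of `x` under a homomorphism. -/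
def Image {K : Type*} [Group K] (x : G) (y : K) : Prop := ∃ f : G →* K, f x = y

end Vale.Agent.P184.V
end

section

/-!
# Definitions for the combined statement
-/

namespace Vale.Agent.P184.U

/-- `L` is a length function on `G`. -/
def IsLen {G : Type*} [Group G] (L : G → ℝ) : Prop :=
  L 1 = 0 ∧ (∀ g, L g⁻¹ = L g) ∧ ∀ g h, L (g * h) ≤ L g + L h

/-- The homogeneous coboundary. -/
def cobd {G : Type*} {n : ℕ} (F : (Fin n → G) → ℝ) (p : Fin (n + 1) → G) : ℝ :=
  ∑ j : Fin (n + 1), (-1) ^ (j : ℕ) * F fun i => p (j.succAbove i)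

/-- The `n`-th cup power of the coboundary of the `1`-cochain `α`, evaluated at
`a 0, …, a (2 * n)`. -/
def cupd {G : Type*} (α : G → G → ℝ) (n : ℕ) (a : ℕ → G) : ℝ :=
  ∏ k ∈ Finset.range n, (α (a (2 * k)) (a (2 * k + 1)) + α (a (2 * k + 1)) (a (2 * k + 2)) -
    α (a (2 * k)) (a (2 * k + 2)))

/-- A power of the real Euler class of the central extension of `C_G(x)/⟨x⟩` by `⟨x⟩` vanishes
for cochains satisfying the growth condition `gr`: `α` is a connection, and after alternation
the coboundary of `β` is the `n`-th cup power of the curvature of `α`. -/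
def NilEuler {G : Type*} [Group G] (x : G) (gr : ∀ n : ℕ, ((Fin n → G) → ℝ) → Prop) : Prop :=
  ∃ (α : G → G → ℝ) (n : ℕ) (β : (Fin (2 * n) → G) → ℝ), 0 < n ∧
    (∀ h, Commute h x → ∀ p q, α (h * p) (h * q) = α p q) ∧
    (∀ p q, α p (x * q) = α p q + 1) ∧
    (∀ h, Commute h x → ∀ p, β (fun i => h * p i) = β p) ∧
    (∀ (k : Fin (2 * n) → ℤ) p, β (fun i => x ^ k i * p i) = β p) ∧
    gr 2 (fun p => α (p 0) (p 1)) ∧ gr (2 * n) β ∧
    ∀ p : Fin (2 * n + 1) → G, ∑ σ : Equiv.Perm (Fin (2 * n + 1)),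
      ((Equiv.Perm.sign σ : ℤ) : ℝ) *
        (cupd α n (fun j => p (σ (Fin.ofNat _ j))) - cobd β (fun i => p (σ i))) = 0

/-- `x` is tame in `G`: for some length function `L`, the Euler class is nilpotent with
subexponential growth in the quantities `L (p i⁻¹ * p j)` and `L (p i⁻¹ * x * p i)`. -/
def TameAt {G : Type*} [Group G] (x : G) : Prop :=
  ∃ L : G → ℝ, IsLen L ∧ NilEuler x fun n F => ∀ ε : ℝ, 0 < ε → ∃ C : ℝ,
    ∀ p : Fin n → G, |F p| ≤
      C * Real.exp (ε * ((∑ i, ∑ j, L ((p i)⁻¹ * p j)) + ∑ i, L ((p i)⁻¹ * x * p i)))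

/-- `x` is tame in every finitely generated subgroup containing it. -/
def LocallyTame {G : Type*} [Group G] (x : G) : Prop :=
  ∀ (S : Finset G) (h : x ∈ Subgroup.closure (S : Set G)),
    TameAt (⟨x, h⟩ : Subgroup.closure (S : Set G))

/-- For some length function `L` of `G`, the class of `x` has a polynomial conjugacy bound and
the Euler class is nilpotent on the centralizer with polynomial growth. -/
def PolyNilpotent {G : Type*} [Group G] (x : G) : Prop :=
  ∃ L : G → ℝ, IsLen L ∧ (∃ (C : ℝ) (d : ℕ), ∀ p, ∃ h, Commute h x ∧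
      L (h⁻¹ * p) ≤ C * (1 + L (p⁻¹ * x * p)) ^ d) ∧
    ∃ z : Subgroup.centralizer {x}, (z : G) = x ∧ NilEuler z fun n F => ∃ (C : ℝ) (d : ℕ),
      ∀ p : Fin n → Subgroup.centralizer {x}, |F p| ≤ C * (1 + ∑ i, ∑ j, L ((p i)⁻¹ * p j)) ^ d

/-- Some power of `x` lies in a subgroup `K` of finite index and has nontrivial image under a
homomorphism from `K` to upper unitriangular real matrices. -/
def VirtUnipotent {G : Type*} [Group G] (x : G) : Prop :=
  ∃ (K : Subgroup G) (m n : ℕ) (ρ : K →* Matrix (Fin n) (Fin n) ℝ) (h : x ^ m ∈ K),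
    K.FiniteIndex ∧ (∀ g i j, j ≤ i → ρ g i j = (1 : Matrix (Fin n) (Fin n) ℝ) i j) ∧
      ρ ⟨x ^ m, h⟩ ≠ 1

/-- A group is amenable: there is a left-invariant mean on bounded real functions. -/
def IsAmenable (H : Type*) [Group H] : Prop :=
  ∃ m : (H → ℝ) → ℝ,
    (∀ f g : H → ℝ, (∃ K, ∀ h, |f h| ≤ K) → (∃ K, ∀ h, |g h| ≤ K) → m (f + g) = m f + m g) ∧
    (∀ f : H → ℝ, (∃ K, ∀ h, |f h| ≤ K) → (∀ h, 0 ≤ f h) → 0 ≤ m f) ∧
    (∀ c : ℝ, m (fun _ => c) = c) ∧
    ∀ (f : H → ℝ) (k : H), (∃ K, ∀ h, |f h| ≤ K) → m (fun h => f (k * h)) = m f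

/-- Property A of Yu for the discrete group `G` (equivalently, exactness). -/
def PropertyA (G : Type*) [Group G] : Prop :=
  ∀ (S : Finset G) (ε : ℝ), 0 < ε → ∃ (E : Finset G) (a : G → G → ℝ),
    (∀ p q, 0 ≤ a p q) ∧ (∀ p q, a p q ≠ 0 → p⁻¹ * q ∈ E) ∧ (∀ p, ∑ t ∈ E, a p (p * t) = 1) ∧
    ∀ s ∈ S, ∀ p, ∑' q, |a (p * s) q - a p q| ≤ ε

/-- `G` has property A and the centralizer of `x` is amenable. -/
def AmenCentr {G : Type*} [Group G] (x : G) : Prop :=
  PropertyA G ∧ IsAmenable (Subgroup.centralizer ({x} : Set G))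

/-- Every element of infinite order is locally tame or satisfies `AmenCentr`, and all but
finitely many classes of elements of finite order satisfy `AmenCentr`. -/
def Nice (G : Type*) [Group G] : Prop :=
  (∀ x : G, ¬ IsOfFinOrder x → LocallyTame x ∨ AmenCentr x) ∧
    {C : ConjClasses G | ∃ x, ConjClasses.mk x = C ∧ IsOfFinOrder x ∧ ¬ AmenCentr x}.Finite

/-- `p` and `q` are joined by a walk of length `n` in the graph with edge relation `R`. -/
def Joined {G : Type*} (R : G → G → Prop) (n : ℕ) (p q : G) : Prop :=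
  ∃ w : ℕ → G, w 0 = p ∧ w n = q ∧ ∀ i < n, R (w i) (w (i + 1))

/-- Edges of the Cayley graph of `G` with respect to the letters of `X` and of all the `H k`.
For `o = some l`, the edges labelled by letters of `H l` between elements of `H l` are left
out. -/
def Adj {G : Type*} [Group G] {ι : Type*} (X : Set G) (H : ι → Subgroup G) (o : Option ι)
    (p q : G) : Prop :=
  p⁻¹ * q ∈ X ∨ q⁻¹ * p ∈ X ∨ ∃ k, p⁻¹ * q ∈ H k ∧ ¬ (o = some k ∧ p ∈ H k)

/-- `G` is hyperbolic relative to the finite family `H`: for some finite set `X`, the Cayley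
graph with respect to `X` and all the `H k` is connected and hyperbolic (`d` is its metric), and
only finitely many elements of `H k` are joined to `1` by walks of given length using no edge
of the complete graph on `H k`. -/
def IsRelHyp {G : Type*} [Group G] {ι : Type*} (H : ι → Subgroup G) : Prop :=
  Finite ι ∧ ∃ (X : Set G) (d : G → G → ℕ) (δ : ℕ), X.Finite ∧
    (∀ p q, IsLeast {n | Joined (Adj X H none) n p q} (d p q)) ∧
    (∀ a b c e, d a b + d c e ≤ max (d a c + d b e) (d a e + d b c) + δ) ∧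
    ∀ k n, {h | h ∈ H k ∧ Joined (Adj X H (some k)) n 1 h}.Finite

end Vale.Agent.P184.U
end

section

section

/-!
# Relatively hyperbolic groups: the relative Cayley graph and projections
-/

namespace Vale.Agent.P184

/-- `p` and `q` are joined by a walk of length `n` in the graph with edge relation `R`. -/
def Walk {α : Type*} (R : α → α → Prop) : ℕ → α → α → Prop
  | 0, p, q => p = q
  | n + 1, p, q => ∃ r, R p r ∧ Walk R n r q

section graph

variable {α : Type*} {R : α → α → Prop}

theorem Walk.trans {m n : ℕ} : ∀ {p q r : α}, Walk R m p q → Walk R n q r →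
    Walk R (m + n) p r := by
  induction m with
  | zero =>
    intro p q r h h'
    have h0 : p = q := h
    rw [h0, Nat.zero_add]
    exact h'
  | succ m ih =>
    intro p q r h h'
    obtain ⟨s, hs, hw⟩ := h
    have : m + 1 + n = (m + n) + 1 := by omega
    rw [this]
    exact ⟨s, hs, ih hw h'⟩

theorem Walk.single {p q : α} (h : R p q) : Walk R 1 p q := ⟨q, h, rfl⟩

theorem Walk.snoc {n : ℕ} {p q r : α} (h : Walk R n p q) (h' : R q r) : Walk R (n + 1) p r :=
  h.trans (Walk.single h')

theorem Walk.symm (hR : ∀ p q, R p q → R q p) {n : ℕ} : ∀ {p q : α}, Walk R n p q →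
    Walk R n q p := by
  induction n with
  | zero => intro p q h; exact (show p = q from h).symm
  | succ n ih =>
    intro p q h
    obtain ⟨r, hr, hw⟩ := h
    exact (ih hw).snoc (hR _ _ hr)

theorem Walk.map {β : Type*} {S : β → β → Prop} (f : α → β) (hf : ∀ p q, R p q → S (f p) (f q))
    {n : ℕ} : ∀ {p q : α}, Walk R n p q → Walk S n (f p) (f q) := by
  induction n with
  | zero => intro p q h; exact congrArg f (show p = q from h)
  | succ n ih =>
    intro p q h
    obtain ⟨r, hr, hw⟩ := h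
    exact ⟨f r, hf _ _ hr, ih hw⟩

/-- The walk as a function. -/
theorem Walk.exists_fun {n : ℕ} : ∀ {p q : α}, Walk R n p q →
    ∃ v : ℕ → α, v 0 = p ∧ v n = q ∧ ∀ i < n, R (v i) (v (i + 1)) := by
  induction n with
  | zero => intro p q h; exact ⟨fun _ => p, rfl, h, by simp⟩
  | succ n ih =>
    intro p q h
    obtain ⟨r, hr, hw⟩ := h
    obtain ⟨v, hv0, hvn, hv⟩ := ih hw
    refine ⟨fun i => Nat.casesOn i p v, rfl, hvn, ?_⟩
    intro i hi
    cases i with
    | zero => simpa [hv0] using hr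
    | succ i => exact hv i (by omega)

theorem walk_of_fun {v : ℕ → α} {a b : ℕ} (hab : a ≤ b) (h : ∀ i, a ≤ i → i < b →
    R (v i) (v (i + 1))) : Walk R (b - a) (v a) (v b) := by
  induction b, hab using Nat.le_induction with
  | base => rw [Nat.sub_self]; exact rfl
  | succ b hab ih =>
    have := (ih fun i h1 h2 => h i h1 (by omega)).snoc (h b hab (by omega))
    rwa [show b - a + 1 = b + 1 - a by omega] at this

end graph

section defs

variable {G : Type*} [Group G] {ι : Type*}

/-- Edges of the Cayley graph of `G` with respect to the letters of `X` and of all the `H l`. -/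
def Edge (X : Set G) (H : ι → Subgroup G) (p q : G) : Prop :=
  p⁻¹ * q ∈ X ∨ q⁻¹ * p ∈ X ∨ ∃ k, p⁻¹ * q ∈ H k

/-- Edges of the same graph, except those labelled by letters of `H l` and joining two
elements of `H l`. -/
def OEdge (X : Set G) (H : ι → Subgroup G) (l : ι) (p q : G) : Prop :=
  p⁻¹ * q ∈ X ∨ q⁻¹ * p ∈ X ∨ ∃ k, p⁻¹ * q ∈ H k ∧ ¬ (k = l ∧ p ∈ H l)

/-- The distance in the Cayley graph with respect to `X` and all the `H l`. -/
noncomputable def rdist (X : Set G) (H : ι → Subgroup G) (p q : G) : ℕ :=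
  sInf {n | Walk (Edge X H) n p q}

/-- `G` is hyperbolic relative to the finite family of subgroups `H`: the Cayley graph of `G`
with respect to the union of a finite set `X` and all the `H l` is connected and hyperbolic (the
four point condition), and for every `l` and `n` only finitely many elements of `H l` can be
reached from `1` by walks of length `n` that use no edge labelled by `H l` inside `H l`. -/
def RelHyperbolic (H : ι → Subgroup G) : Prop :=
  Finite ι ∧ ∃ X : Set G, X.Finite ∧ (∀ p q, ∃ n, Walk (Edge X H) n p q) ∧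
    (∃ δ : ℕ, ∀ a b c e : G, rdist X H a b + rdist X H c e ≤
      max (rdist X H a c + rdist X H b e) (rdist X H a e + rdist X H b c) + δ) ∧
    ∀ l n, {h | h ∈ H l ∧ Walk (OEdge X H l) n 1 h}.Finite

end defs

section basic

variable {G : Type*} [Group G] {ι : Type*} {X : Set G} {H : ι → Subgroup G}

theorem Edge.symm {p q : G} (h : Edge X H p q) : Edge X H q p := by
  rcases h with h | h | ⟨k, h⟩
  · exact Or.inr (Or.inl h)
  · exact Or.inl h
  · refine Or.inr (Or.inr ⟨k, ?_⟩)
    have := (H k).inv_mem h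
    simpa only [mul_inv_rev, inv_inv] using this

theorem Edge.smul (g : G) {p q : G} (h : Edge X H p q) : Edge X H (g * p) (g * q) := by
  unfold Edge at *
  simpa only [mul_inv_rev, mul_assoc, inv_mul_cancel_left] using h

theorem OEdge.symm {l : ι} {p q : G} (h : OEdge X H l p q) : OEdge X H l q p := by
  rcases h with h | h | ⟨k, h, h'⟩
  · exact Or.inr (Or.inl h)
  · exact Or.inl h
  · refine Or.inr (Or.inr ⟨k, ?_, ?_⟩)
    · have := (H k).inv_mem h
      simpa only [mul_inv_rev, inv_inv] using this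
    · rintro ⟨rfl, hq⟩
      apply h'
      refine ⟨rfl, ?_⟩
      have := (H k).mul_mem hq ((H k).inv_mem h)
      simpa using this

theorem OEdge.smul {l : ι} {g : G} (hg : g ∈ H l) {p q : G} (h : OEdge X H l p q) :
    OEdge X H l (g * p) (g * q) := by
  rcases h with h | h | ⟨k, h, h'⟩
  · left; simpa only [mul_inv_rev, mul_assoc, inv_mul_cancel_left] using h
  · right; left; simpa only [mul_inv_rev, mul_assoc, inv_mul_cancel_left] using h
  · right; right
    refine ⟨k, by simpa only [mul_inv_rev, mul_assoc, inv_mul_cancel_left] using h, ?_⟩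
    rintro ⟨rfl, hp⟩
    exact h' ⟨rfl, ((H k).mul_mem_cancel_left hg).1 hp⟩

theorem OEdge.edge {l : ι} {p q : G} (h : OEdge X H l p q) : Edge X H p q := by
  rcases h with h | h | ⟨k, h, _⟩
  · exact Or.inl h
  · exact Or.inr (Or.inl h)
  · exact Or.inr (Or.inr ⟨k, h⟩)

theorem Edge.oedge {l : ι} {p q : G} (h : Edge X H p q) (h' : ¬ (p ∈ H l ∧ q ∈ H l)) :
    OEdge X H l p q := by
  rcases h with h | h | ⟨k, h⟩
  · exact Or.inl h
  · exact Or.inr (Or.inl h)
  · refine Or.inr (Or.inr ⟨k, h, ?_⟩)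
    rintro ⟨rfl, hp⟩
    refine h' ⟨hp, ?_⟩
    have := (H k).mul_mem hp h
    simpa only [mul_inv_cancel_left] using this

/-- The data of a relatively hyperbolic structure with explicit constants. -/
structure RH (X : Set G) (H : ι → Subgroup G) (δ : ℕ) : Prop where
  fin : X.Finite
  conn : ∀ p q, ∃ n, Walk (Edge X H) n p q
  hyp : ∀ a b c e : G, rdist X H a b + rdist X H c e ≤
      max (rdist X H a c + rdist X H b e) (rdist X H a e + rdist X H b c) + δ
  lf : ∀ l n, {h | h ∈ H l ∧ Walk (OEdge X H l) n 1 h}.Finite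

theorem rdist_le {n : ℕ} {p q : G} (h : Walk (Edge X H) n p q) : rdist X H p q ≤ n :=
  Nat.sInf_le h

theorem rdist_self (p : G) : rdist X H p p = 0 := by
  have : rdist X H p p ≤ 0 := rdist_le (show Walk (Edge X H) 0 p p from rfl)
  omega

theorem rdist_symm (p q : G) : rdist X H p q = rdist X H q p := by
  unfold rdist
  congr 1
  ext n
  exact ⟨fun h => Walk.symm (fun _ _ => Edge.symm) h, fun h => Walk.symm (fun _ _ => Edge.symm) h⟩

theorem rdist_smul (g p q : G) : rdist X H (g * p) (g * q) = rdist X H p q := by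
  unfold rdist
  congr 1
  ext n
  constructor
  · intro h
    have := Walk.map (S := Edge X H) (fun x => g⁻¹ * x) (fun _ _ => Edge.smul g⁻¹) h
    simpa using this
  · intro h
    exact Walk.map (S := Edge X H) (fun x => g * x) (fun _ _ => Edge.smul g) h

theorem rdist_edge {p q : G} (h : Edge X H p q) : rdist X H p q ≤ 1 := rdist_le (Walk.single h)

namespace RH

variable {δ : ℕ} (S : RH X H δ)
include S

theorem walk (p q : G) : Walk (Edge X H) (rdist X H p q) p q :=
  Nat.sInf_mem (S.conn p q)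

theorem tri (p q r : G) : rdist X H p r ≤ rdist X H p q + rdist X H q r :=
  rdist_le ((S.walk p q).trans (S.walk q r))

theorem eq_of_zero {p q : G} (h : rdist X H p q = 0) : p = q := by
  have := S.walk p q
  rw [h] at this
  exact this

theorem geo (p q : G) : ∃ v : ℕ → G, v 0 = p ∧ v (rdist X H p q) = q ∧
    (∀ i < rdist X H p q, Edge X H (v i) (v (i + 1))) ∧
    ∀ i j, i ≤ j → j ≤ rdist X H p q → rdist X H (v i) (v j) = j - i := by
  obtain ⟨v, h0, hn, hv⟩ := (S.walk p q).exists_fun
  refine ⟨v, h0, hn, hv, ?_⟩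
  have key : ∀ i j, i ≤ j → j ≤ rdist X H p q → rdist X H (v i) (v j) ≤ j - i :=
    fun i j hij hj => rdist_le (walk_of_fun hij fun k _ hk => hv k (by omega))
  intro i j hij hj
  refine le_antisymm (key i j hij hj) ?_
  have h1 := key 0 i (by omega) (by omega)
  have h2 := key j (rdist X H p q) hj le_rfl
  rw [h0] at h1
  rw [hn] at h2
  have h3 := S.tri p (v i) q
  have h4 := S.tri (v i) (v j) q
  omega

end RH

/-- Joined by a walk of length at most `n` outside the edges of `H l`. -/
def Lnk (X : Set G) (H : ι → Subgroup G) (l : ι) (n : ℕ) (p q : G) : Prop :=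
  ∃ k ≤ n, Walk (OEdge X H l) k p q

theorem Lnk.refl {l : ι} (n : ℕ) (p : G) : Lnk X H l n p p := ⟨0, Nat.zero_le _, rfl⟩

theorem Lnk.symm {l : ι} {n : ℕ} {p q : G} (h : Lnk X H l n p q) : Lnk X H l n q p := by
  obtain ⟨k, hk, h⟩ := h
  exact ⟨k, hk, Walk.symm (fun _ _ => OEdge.symm) h⟩

theorem Lnk.trans {l : ι} {m n : ℕ} {p q r : G} (h : Lnk X H l m p q) (h' : Lnk X H l n q r) :
    Lnk X H l (m + n) p r := by
  obtain ⟨k, hk, h⟩ := h
  obtain ⟨k', hk', h'⟩ := h'
  exact ⟨k + k', by omega, h.trans h'⟩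

theorem Lnk.mono {l : ι} {m n : ℕ} {p q : G} (h : Lnk X H l m p q) (hmn : m ≤ n) :
    Lnk X H l n p q := by
  obtain ⟨k, hk, h⟩ := h
  exact ⟨k, by omega, h⟩

theorem Lnk.smul {l : ι} {n : ℕ} {g : G} (hg : g ∈ H l) {p q : G} (h : Lnk X H l n p q) :
    Lnk X H l n (g * p) (g * q) := by
  obtain ⟨k, hk, h⟩ := h
  exact ⟨k, hk, Walk.map (fun x => g * x) (fun _ _ => OEdge.smul hg) h⟩

theorem Lnk.inv_mul {l : ι} {n : ℕ} {p q : G} (hp : p ∈ H l) (h : Lnk X H l n p q) :
    Lnk X H l n 1 (p⁻¹ * q) := by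
  have := h.smul ((H l).inv_mem hp)
  simpa only [inv_mul_cancel] using this

/-- A nearest point of `H l`. -/
noncomputable def npt (X : Set G) (H : ι → Subgroup G) (l : ι) (r : G) : G :=
  Function.argminOn (fun h => rdist X H r h) (H l : Set G) ⟨1, (H l).one_mem⟩

theorem npt_mem (l : ι) (r : G) : npt X H l r ∈ H l :=
  Function.argminOn_mem (fun h => rdist X H r h) (H l : Set G) ⟨1, (H l).one_mem⟩

theorem npt_le (l : ι) (r : G) {h : G} (hh : h ∈ H l) :
    rdist X H r (npt X H l r) ≤ rdist X H r h :=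
  Function.argminOn_le (fun h => rdist X H r h) (H l : Set G) hh

/-- The representative of a right coset. -/
noncomputable def crep (H : ι → Subgroup G) (l : ι) (p : G) : G :=
  Quotient.out (Quotient.mk (QuotientGroup.rightRel (H l)) p)

theorem crep_mem (l : ι) (p : G) : p * (crep H l p)⁻¹ ∈ H l := by
  have h := Quotient.mk_out (s := QuotientGroup.rightRel (H l)) p
  exact QuotientGroup.rightRel_apply.1 h

theorem crep_smul {l : ι} {h : G} (hh : h ∈ H l) (p : G) : crep H l (h * p) = crep H l p := by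
  unfold crep
  congr 1
  apply Quotient.sound
  apply QuotientGroup.rightRel_apply.2
  simpa using hh

/-- The equivariant nearest point projection to `H l`. -/
noncomputable def proj (X : Set G) (H : ι → Subgroup G) (l : ι) (p : G) : G :=
  p * (crep H l p)⁻¹ * npt X H l (crep H l p)

theorem proj_mem (l : ι) (p : G) : proj X H l p ∈ H l :=
  (H l).mul_mem (crep_mem l p) (npt_mem l _)

theorem proj_le (l : ι) (p : G) {h : G} (hh : h ∈ H l) :
    rdist X H p (proj X H l p) ≤ rdist X H p h := by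
  have e1 : rdist X H p (proj X H l p) = rdist X H (crep H l p) (npt X H l (crep H l p)) := by
    have := rdist_smul (X := X) (H := H) (p * (crep H l p)⁻¹) (crep H l p)
      (npt X H l (crep H l p))
    rw [← this]
    congr 1
    group
  have e2 : rdist X H p h = rdist X H (crep H l p) ((p * (crep H l p)⁻¹)⁻¹ * h) := by
    have := rdist_smul (X := X) (H := H) (p * (crep H l p)⁻¹) (crep H l p)
      ((p * (crep H l p)⁻¹)⁻¹ * h)
    rw [← this]
    congr 1 <;> group
  rw [e1, e2]
  exact npt_le l _ ((H l).mul_mem ((H l).inv_mem (crep_mem l p)) hh)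

theorem proj_smul {l : ι} {h : G} (hh : h ∈ H l) (p : G) :
    proj X H l (h * p) = h * proj X H l p := by
  unfold proj
  rw [crep_smul hh]
  group

namespace RH

variable {δ : ℕ} (S : RH X H δ)
include S

theorem proj_self {l : ι} {p : G} (hp : p ∈ H l) : proj X H l p = p := by
  have h := proj_le (X := X) (H := H) l p hp
  rw [rdist_self] at h
  exact (S.eq_of_zero (by omega)).symm

theorem finite_lnk {l : ι} (n : ℕ) : {h | h ∈ H l ∧ Lnk X H l n 1 h}.Finite := by
  have : {h | h ∈ H l ∧ Lnk X H l n 1 h} =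
      ⋃ k ∈ Set.Iic n, {h | h ∈ H l ∧ Walk (OEdge X H l) k 1 h} := by
    ext h
    simp only [Set.mem_setOf_eq, Set.mem_iUnion, Set.mem_Iic]
    constructor
    · rintro ⟨hh, k, hk, hw⟩
      exact ⟨k, hk, hh, hw⟩
    · rintro ⟨k, hk, hh, hw⟩
      exact ⟨hh, k, hk, hw⟩
  rw [this]
  exact (Set.finite_Iic n).biUnion fun k _ => S.lf l k

/-- A geodesic to a point at the same distance as `H l` meets no edge of `H l`. -/
theorem lnk_geo {l : ι} {p q : G} (h : ∀ w, rdist X H p w < rdist X H p q → w ∉ H l) :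
    Lnk X H l (rdist X H p q) p q := by
  obtain ⟨v, h0, hn, hv, hd⟩ := S.geo p q
  refine ⟨rdist X H p q, le_rfl, ?_⟩
  have hw : Walk (OEdge X H l) (rdist X H p q - 0) (v 0) (v (rdist X H p q)) := by
    apply walk_of_fun (Nat.zero_le _)
    intro i _ hi
    apply (hv i hi).oedge
    rintro ⟨hi1, -⟩
    refine h (v i) ?_ hi1
    have := hd 0 i (Nat.zero_le _) hi.le
    rw [h0] at this
    omega
  rw [h0, hn, Nat.sub_zero] at hw
  exact hw

/-- Short geodesics far from `H l`. -/
theorem lnk_far {l : ι} {p q : G} (h : ∀ w ∈ H l, rdist X H p q < rdist X H p w) :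
    Lnk X H l (rdist X H p q) p q :=
  S.lnk_geo fun w hw hm => absurd (h w hm) (by omega)

/-- The contraction property of the projection to `H l`. -/
theorem contract {l : ι} {p q : G}
    (h : rdist X H p q + 2 * (2 * δ + 3) ≤
      rdist X H (proj X H l p) p + rdist X H (proj X H l p) q) :
    Lnk X H l (6 * δ + 5) (proj X H l p) (proj X H l q) := by
  set a := proj X H l p with ha
  set b := proj X H l q with hb
  have hab : rdist X H a b ≤ 1 := by
    apply rdist_edge
    refine Or.inr (Or.inr ⟨l, ?_⟩)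
    exact (H l).mul_mem ((H l).inv_mem (proj_mem l p)) (proj_mem l q)
  -- geodesics
  obtain ⟨v, v0, vn, hv, vd⟩ := S.geo a p
  obtain ⟨w, w0, wn, hw, wd⟩ := S.geo b q
  have hpa : ∀ y ∈ H l, rdist X H a p ≤ rdist X H p y := by
    intro y hy
    rw [rdist_symm a p]
    exact proj_le l p hy
  have hqb : ∀ y ∈ H l, rdist X H b q ≤ rdist X H q y := by
    intro y hy
    rw [rdist_symm b q]
    exact proj_le l q hy
  set ρ := 2 * δ + 2 with hρ
  have t1 := S.tri a p q
  have t2 := S.tri a q p
  have t3 := S.tri a b q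
  rw [rdist_symm q p] at t2
  have hDp : ρ ≤ rdist X H a p := by omega
  have hDq : ρ ≤ rdist X H b q := by omega
  have a1 : rdist X H (v ρ) p = rdist X H a p - ρ := by
    have := vd ρ _ hDp le_rfl
    rwa [vn] at this
  have a2 : rdist X H a (v ρ) = ρ := by
    have := vd 0 ρ (Nat.zero_le _) hDp
    rw [v0] at this; omega
  have b1 : rdist X H (w ρ) q = rdist X H b q - ρ := by
    have := wd ρ _ hDq le_rfl
    rwa [wn] at this
  have b2 : rdist X H b (w ρ) = ρ := by
    have := wd 0 ρ (Nat.zero_le _) hDq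
    rw [w0] at this; omega
  -- distance of `v ρ` to `H l`
  have fa : ∀ y ∈ H l, ρ ≤ rdist X H (v ρ) y := by
    intro y hy
    have h1 := hpa y hy
    have h2 := S.tri p (v ρ) y
    rw [rdist_symm p (v ρ)] at h2
    (clear * - hDp hDq a1 h1 h2; omega)
  have fb : ∀ y ∈ H l, ρ ≤ rdist X H (w ρ) y := by
    intro y hy
    have h1 := hqb y hy
    have h2 := S.tri q (w ρ) y
    rw [rdist_symm q (w ρ)] at h2
    omega
  -- four point
  have f1 := S.hyp (v ρ) q p a
  have f2 := S.hyp (v ρ) (w ρ) a q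
  have s1 : rdist X H (v ρ) a = ρ := by rw [rdist_symm]; exact a2
  have s2 : rdist X H q a = rdist X H a q := rdist_symm _ _
  have s3 : rdist X H p a = rdist X H a p := rdist_symm _ _
  have s4 : rdist X H q p = rdist X H p q := rdist_symm _ _
  have s5 : rdist X H (w ρ) a ≤ ρ + 1 := by
    have := S.tri (w ρ) b a
    rw [rdist_symm (w ρ) b, rdist_symm b a] at this
    omega
  have t4 := S.tri b a q
  have hqa : rdist X H b q ≤ rdist X H a q := by
    have := hqb a (proj_mem l p)
    rwa [s2] at this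
  rw [s1, s2, s3, s4, a1] at f1
  rw [s1, b1] at f2
  have hx : rdist X H (v ρ) (w ρ) ≤ 2 * δ + 1 := by
    have g1 : rdist X H (v ρ) q ≤ rdist X H a q - ρ + δ := by
      rcases le_total (rdist X H a p - ρ + rdist X H a q) (ρ + rdist X H p q) with hm | hm
      · rw [max_eq_right hm] at f1; omega
      · rw [max_eq_left hm] at f1; (clear * - hab t3 hDp hDq f1 s2 s3 hqa; omega)
    rcases le_total (ρ + (rdist X H b q - ρ)) (rdist X H (v ρ) q + rdist X H (w ρ) a) with hm | hm
    · rw [max_eq_right hm] at f2; omega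
    · rw [max_eq_left hm] at f2; (clear * - hab t3 hDq f2 s2 hqa; omega)
  -- assemble
  have w1 : Lnk X H l ρ (v ρ) a := by
    have := S.lnk_geo (l := l) (p := v ρ) (q := a) (by
      intro y hy hyl
      have := fa y hyl
      (clear * - s1 hy this; omega))
    rwa [s1] at this
  have w2 : Lnk X H l (2 * δ + 1) (v ρ) (w ρ) :=
    (S.lnk_far (by intro y hy; have := fa y hy; (clear * - hx this; omega))).mono hx
  have w3 : Lnk X H l ρ (w ρ) b := by
    have := S.lnk_geo (l := l) (p := w ρ) (q := b) (by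
      intro y hy hyl
      have := fb y hyl
      rw [rdist_symm (w ρ) b] at hy
      omega)
    rwa [rdist_symm (w ρ) b, b2] at this
  exact ((w1.symm.trans w2).trans w3).mono (by (clear * -; omega))

/-- The projection to `H l` is Lipschitz along edges outside `H l`. -/
theorem proj_step {l : ι} {p q : G} (h : OEdge X H l p q) :
    Lnk X H l (6 * δ + 8) (proj X H l p) (proj X H l q) := by
  have hpq := rdist_edge h.edge
  set a := proj X H l p with ha
  set b := proj X H l q with hb
  have hpa : ∀ y ∈ H l, rdist X H p a ≤ rdist X H p y := fun y hy => proj_le l p hy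
  have hqb : ∀ y ∈ H l, rdist X H q b ≤ rdist X H q y := fun y hy => proj_le l q hy
  have q1 := hpa b (proj_mem l q)
  have q2 := hqb a (proj_mem l p)
  have t1 := S.tri p q b
  have t2 := S.tri q p a
  rw [rdist_symm q p] at t2
  by_cases hD : rdist X H p a ≤ 2 * δ + 3
  · have w1 : Lnk X H l (rdist X H p a) p a := S.lnk_geo (by
      intro y hy hyl
      have := hpa y hyl
      omega)
    have w2 : Lnk X H l (rdist X H q b) q b := S.lnk_geo (by
      intro y hy hyl
      have := hqb y hyl
      omega)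
    exact ((w1.symm.trans ⟨1, le_rfl, Walk.single h⟩).trans w2).mono (by omega)
  · refine (S.contract ?_).mono (by (clear * -; omega))
    rw [← ha, rdist_symm a p, rdist_symm a q]
    have t3 := S.tri p q a
    omega

end RH

end basic

end Vale.Agent.P184
end
end

section

section

/-!
# Relatively hyperbolic groups: centralizers of parabolic elements, bounded orbits
-/

namespace Vale.Agent.P184

section near

variable {G : Type*} [Group G] {ι : Type*} {X : Set G} {H : ι → Subgroup G}

/-- The projections of `p` and `q` to the coset `u * H l` are close. -/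
def Near (X : Set G) (H : ι → Subgroup G) (l : ι) (u : G) (n : ℕ) (p q : G) : Prop :=
  Lnk X H l n (proj X H l (u⁻¹ * p)) (proj X H l (u⁻¹ * q))

theorem Near.refl {l : ι} {u : G} (n : ℕ) (p : G) : Near X H l u n p p := Lnk.refl n _

theorem Near.symm {l : ι} {u : G} {n : ℕ} {p q : G} (h : Near X H l u n p q) :
    Near X H l u n q p := Lnk.symm h

theorem Near.trans {l : ι} {u : G} {m n : ℕ} {p q r : G} (h : Near X H l u m p q)
    (h' : Near X H l u n q r) : Near X H l u (m + n) p r := Lnk.trans h h'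

theorem Near.mono {l : ι} {u : G} {m n : ℕ} {p q : G} (h : Near X H l u m p q) (hmn : m ≤ n) :
    Near X H l u n p q := Lnk.mono h hmn

theorem Near.smul {l : ι} {u : G} {n : ℕ} {p q : G} (g : G) :
    Near X H l (g * u) n (g * p) (g * q) ↔ Near X H l u n p q := by
  unfold Near
  rw [show (g * u)⁻¹ * (g * p) = u⁻¹ * p by group, show (g * u)⁻¹ * (g * q) = u⁻¹ * q by group]

theorem Near.coset {l : ι} {u : G} {n : ℕ} {p q : G} {h : G} (hh : h ∈ H l)
    (hn : Near X H l u n p q) : Near X H l (u * h) n p q := by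
  unfold Near at *
  rw [show (u * h)⁻¹ * p = h⁻¹ * (u⁻¹ * p) by group, show (u * h)⁻¹ * q = h⁻¹ * (u⁻¹ * q) by group,
    proj_smul ((H l).inv_mem hh), proj_smul ((H l).inv_mem hh)]
  exact Lnk.smul ((H l).inv_mem hh) hn

theorem Near.coset' {l : ι} {u v : G} {n : ℕ} {p q : G} (hh : u⁻¹ * v ∈ H l)
    (hn : Near X H l u n p q) : Near X H l v n p q := by
  have := hn.coset hh
  rwa [mul_inv_cancel_left] at this

namespace RH

variable {δ : ℕ} (S : RH X H δ)
include S

theorem near_edge {l : ι} {u p q : G} (h : Edge X H p q)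
    (h' : ¬ (u⁻¹ * p ∈ H l ∧ u⁻¹ * q ∈ H l)) : Near X H l u (6 * δ + 8) p q :=
  S.proj_step ((h.smul u⁻¹).oedge h')

theorem near_walk {l : ι} {u : G} {v : ℕ → G} {a b : ℕ} (hab : a ≤ b)
    (h : ∀ i, a ≤ i → i < b → Edge X H (v i) (v (i + 1)))
    (h' : ∀ i, a ≤ i → i < b → ¬ (u⁻¹ * v i ∈ H l ∧ u⁻¹ * v (i + 1) ∈ H l)) :
    Near X H l u ((6 * δ + 8) * (b - a)) (v a) (v b) := by
  induction b, hab using Nat.le_induction with
  | base => exact Near.refl _ _
  | succ b hab ih =>
    have h1 := ih (fun i h1 h2 => h i h1 (by omega)) (fun i h1 h2 => h' i h1 (by omega))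
    have h2 := S.near_edge (h b hab (by omega)) (h' b hab (by omega))
    refine (h1.trans h2).mono ?_
    rw [show b + 1 - a = (b - a) + 1 by omega]
    ring_nf
    (clear * -; omega)

/-- Two points joined by a geodesic which misses the coset. -/
theorem near_far {l : ι} {u p q : G}
    (h : ∀ w, rdist X H p w + rdist X H w q = rdist X H p q → rdist X H p w < rdist X H p q →
      u⁻¹ * w ∉ H l) :
    Near X H l u ((6 * δ + 8) * rdist X H p q) p q := by
  obtain ⟨v, h0, hn, hv, hd⟩ := S.geo p q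
  have := S.near_walk (l := l) (u := u) (v := v) (Nat.zero_le (rdist X H p q))
    (fun i _ hi => hv i hi) (fun i _ hi hc => by
      have h1 := hd 0 i (Nat.zero_le _) hi.le
      have h2 := hd i _ hi.le le_rfl
      rw [h0] at h1
      rw [hn] at h2
      exact h (v i) (by omega) (by omega) hc.1)
  rwa [h0, hn, Nat.sub_zero] at this

theorem near_contract {l : ι} {u p q : G}
    (h : ∀ a, u⁻¹ * a ∈ H l →
      rdist X H p q + 2 * (2 * δ + 3) ≤ rdist X H a p + rdist X H a q) :
    Near X H l u (6 * δ + 5) p q := by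
  apply S.contract
  have h1 := h (u * proj X H l (u⁻¹ * p)) (by
    rw [inv_mul_cancel_left]; exact proj_mem l _)
  rw [rdist_smul, ← rdist_smul u (proj X H l (u⁻¹ * p)) (u⁻¹ * p),
    ← rdist_smul u (proj X H l (u⁻¹ * p)) (u⁻¹ * q), mul_inv_cancel_left, mul_inv_cancel_left]
  exact h1

/-- The centralizer of an element of infinite order of `H l` is contained in `H l`. -/
theorem mem_of_commute {l : ι} {x g : G} (hx : x ∈ H l) (hinf : ¬ IsOfFinOrder x)
    (hg : Commute g x) : g ∈ H l := by
  by_contra hgl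
  set a := proj X H l g with ha
  have w : Lnk X H l (rdist X H g a) g a := S.lnk_geo (by
    intro y hy hyl
    have : rdist X H g a ≤ rdist X H g y := proj_le l g hyl
    omega)
  have key : ∀ k : ℤ, Lnk X H l (rdist X H g a + 1 + rdist X H g a) 1 (a⁻¹ * (x ^ k * a)) := by
    intro k
    have hxk : x ^ k ∈ H l := (H l).zpow_mem hx k
    have w1 : Lnk X H l 1 g (x ^ k * g) := by
      refine ⟨1, le_rfl, Walk.single (Or.inr (Or.inr ⟨l, ?_, fun h => hgl h.2⟩))⟩
      rw [← (hg.zpow_right k).eq, inv_mul_cancel_left]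
      exact hxk
    have w2 := w.smul hxk
    exact ((w.symm.trans w1).trans w2).inv_mul (proj_mem l g)
  have hinj : Function.Injective fun k : ℤ => a⁻¹ * (x ^ k * a) := by
    intro k k' h
    have h1 : x ^ k = x ^ k' := by
      have h2 : a⁻¹ * (x ^ k * a) = a⁻¹ * (x ^ k' * a) := h
      exact mul_right_cancel (mul_left_cancel h2)
    exact injective_zpow_iff_not_isOfFinOrder.2 hinf h1
  refine Set.infinite_range_of_injective hinj
    ((S.finite_lnk (l := l) (rdist X H g a + 1 + rdist X H g a)).subset ?_)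
  rintro _ ⟨k, rfl⟩
  exact ⟨(H l).mul_mem ((H l).inv_mem (proj_mem l g))
    ((H l).mul_mem ((H l).zpow_mem hx k) (proj_mem l g)), key k⟩

theorem finite_lnk_mul {l : ι} (n : ℕ) {y : G} (hy : y ∈ H l) :
    {h | h ∈ H l ∧ Lnk X H l n y h}.Finite := by
  refine ((S.finite_lnk (l := l) n).image fun b => y * b).subset ?_
  rintro h ⟨hh, hl⟩
  exact ⟨y⁻¹ * h, ⟨(H l).mul_mem ((H l).inv_mem hy) hh, hl.inv_mul hy⟩, mul_inv_cancel_left _ _⟩

/-- Points with projection near a given one have finitely many projections. -/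
theorem finite_near {l : ι} (u : G) (n : ℕ) (p : G) :
    {h | ∃ q, Near X H l u n p q ∧ proj X H l (u⁻¹ * q) = h}.Finite := by
  refine (S.finite_lnk_mul (l := l) n (proj_mem (X := X) l (u⁻¹ * p))).subset ?_
  rintro _ ⟨q, hq, rfl⟩
  exact ⟨proj_mem l _, hq⟩

omit S in
theorem coset_dist {l : ι} {u a b : G} (ha : u⁻¹ * a ∈ H l) (hb : u⁻¹ * b ∈ H l) :
    rdist X H a b ≤ 1 := by
  apply rdist_edge
  refine Or.inr (Or.inr ⟨l, ?_⟩)
  have := (H l).mul_mem ((H l).inv_mem ha) hb
  simpa only [mul_inv_rev, inv_inv, mul_assoc, mul_inv_cancel_left] using this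

/-- A bounded set all whose projections are finite is finite. -/
theorem finite_of_proj [Finite ι] (n : ℕ) : ∀ (u : G) (T : Set G),
    (∀ s ∈ T, rdist X H u s ≤ n) →
    (∀ l (w : G), ((fun s => proj X H l (w⁻¹ * s)) '' T).Finite) → T.Finite := by
  induction n with
  | zero =>
    intro u T hT _
    refine (Set.finite_singleton u).subset fun s hs => ?_
    exact (S.eq_of_zero (Nat.le_zero.1 (hT s hs))).symm
  | succ n ih =>
    intro u T hT hp
    set V : Set G := {v | Edge X H u v ∧ ∃ s ∈ T, rdist X H u s = n + 1 ∧ rdist X H v s = n}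
      with hV
    have hVfin : V.Finite := by
      have h1 : V ⊆ ((fun y => u * y) '' X) ∪ ((fun y => u * y⁻¹) '' X) ∪
          ⋃ l, {v | u⁻¹ * v ∈ H l ∧ ∃ s ∈ T, rdist X H u s = n + 1 ∧ rdist X H v s = n} := by
        rintro v ⟨hv | hv | ⟨l, hv⟩, hs⟩
        · exact Or.inl (Or.inl ⟨_, hv, by group⟩)
        · exact Or.inl (Or.inr ⟨_, hv, by group⟩)
        · exact Or.inr (Set.mem_iUnion.2 ⟨l, hv, hs⟩)
      refine Set.Finite.subset ?_ h1
      refine ((S.fin.image _).union (S.fin.image _)).union (Set.finite_iUnion fun l => ?_)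
      -- the main case
      have hfin := (hp l u).prod (S.finite_lnk (l := l) ((6 * δ + 8) * n))
      refine (hfin.image fun z : G × G => u * (z.1 * z.2)).subset ?_
      rintro v ⟨hv, s, hsT, hs1, hs2⟩
      obtain ⟨w, w0, wn, hw, wd⟩ := S.geo v s
      rw [hs2] at wn hw wd
      have hnear := S.near_walk (l := l) (u := u) (v := w) (Nat.zero_le n)
        (fun i _ hi => hw i hi) (fun i _ hi hc => by
          have h2 := wd (i + 1) n (by omega) le_rfl
          rw [wn] at h2
          have h3 := coset_dist (X := X) (H := H) (l := l) (u := u) (a := u) (b := w (i + 1))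
            (by rw [inv_mul_cancel]; exact (H l).one_mem) hc.2
          have h4 := S.tri u (w (i + 1)) s
          omega)
      rw [w0, wn, Nat.sub_zero] at hnear
      have h5 : proj X H l (u⁻¹ * v) = u⁻¹ * v := S.proj_self hv
      have h6 := hnear.symm
      unfold Near at h6
      rw [h5] at h6
      refine ⟨(proj X H l (u⁻¹ * s), (proj X H l (u⁻¹ * s))⁻¹ * (u⁻¹ * v)),
        ⟨⟨s, hsT, rfl⟩, (H l).mul_mem ((H l).inv_mem (proj_mem l _)) hv,
          h6.inv_mul (proj_mem l _)⟩, ?_⟩
      simp only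
      group
    have hsub : T ⊆ {s ∈ T | rdist X H u s ≤ n} ∪ ⋃ v ∈ V, {s ∈ T | rdist X H v s ≤ n} := by
      intro s hs
      by_cases hsn : rdist X H u s ≤ n
      · exact Or.inl ⟨hs, hsn⟩
      · right
        have h1 : rdist X H u s = n + 1 := by have := hT s hs; omega
        obtain ⟨w, w0, wn, hw, wd⟩ := S.geo u s
        rw [h1] at wn hw wd
        have h2 : rdist X H (w 1) s = n := by
          have := wd 1 (n + 1) (by omega) le_rfl
          rw [wn] at this
          omega
        have h3 := hw 0 (by omega)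
        rw [w0] at h3
        exact Set.mem_biUnion (x := w 1) ⟨h3, s, hs, h1, h2⟩ ⟨hs, h2.le⟩
    have himg : ∀ T' ⊆ T, ∀ l (w : G), ((fun s => proj X H l (w⁻¹ * s)) '' T').Finite :=
      fun T' hT' l w => (hp l w).subset (Set.image_mono hT')
    refine Set.Finite.subset ((ih u _ (fun s hs => hs.2) (himg _ (Set.sep_subset _ _))).union
      (hVfin.biUnion fun v _ => ih v _ (fun s hs => hs.2) (himg _ (Set.sep_subset _ _)))) hsub

/-- An element of infinite order with bounded orbits is conjugate into some `H l`. -/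
theorem exists_conj_of_bounded [Finite ι] {x : G} (hinf : ¬ IsOfFinOrder x) {D : ℕ}
    (hb : ∀ k : ℤ, rdist X H 1 (x ^ k) ≤ D) : ∃ (l : ι) (w : G), w⁻¹ * x * w ∈ H l := by
  by_contra hcon
  push Not at hcon
  have hinj : Function.Injective fun k : ℤ => x ^ k := injective_zpow_iff_not_isOfFinOrder.2 hinf
  have hT : ¬ (Set.range fun k : ℤ => x ^ k).Finite := Set.infinite_range_of_injective hinj
  have h0 : ∃ (l : ι) (w : G),
      ¬ ((fun s => proj X H l (w⁻¹ * s)) '' (Set.range fun k : ℤ => x ^ k)).Finite := by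
    by_contra h
    push Not at h
    exact hT (S.finite_of_proj D 1 _ (by rintro _ ⟨k, rfl⟩; exact hb k) h)
  obtain ⟨l, w, hinfin⟩ := h0
  -- no nonzero power preserves the coset
  have hpow : ∀ m : ℤ, m ≠ 0 → w⁻¹ * x ^ m * w ∉ H l := by
    intro m hm hmem
    have h1 : w⁻¹ * x ^ m * w = (w⁻¹ * x * w) ^ m := by
      have := conj_zpow (a := w⁻¹) (b := x) (i := m)
      rw [inv_inv] at this
      exact this.symm
    rw [h1] at hmem
    refine hcon l w (S.mem_of_commute hmem ?_ (Commute.self_zpow _ _))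
    rw [← h1]
    intro hfin
    have h2 : IsOfFinOrder (x ^ m) := by
      rw [isOfFinOrder_iff_pow_eq_one] at hfin ⊢
      obtain ⟨n, hn, h⟩ := hfin
      refine ⟨n, hn, ?_⟩
      have h3 : (w⁻¹ * x ^ m * w) ^ n = w⁻¹ * (x ^ m) ^ n * w := by
        have := conj_pow (a := w⁻¹) (b := x ^ m) (i := n)
        rw [inv_inv] at this
        exact this
      rw [h3] at h
      calc (x ^ m) ^ n = w * (w⁻¹ * (x ^ m) ^ n * w) * w⁻¹ := by group
        _ = 1 := by rw [h]; group
    rw [isOfFinOrder_iff_pow_eq_one] at h2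
    obtain ⟨n, hn, h⟩ := h2
    have h3 : x ^ (m * n) = x ^ (0 : ℤ) := by
      rw [zpow_mul, zpow_natCast, h, zpow_zero]
    have h4 := hinj h3
    rcases mul_eq_zero.1 h4 with h5 | h5
    · exact hm h5
    · omega
  have hx1 : (x * w)⁻¹ * w ∉ H l := by
    have := hpow (-1) (by omega)
    rwa [show (x * w)⁻¹ * w = w⁻¹ * x ^ (-1 : ℤ) * w by group]
  have hx2 : w⁻¹ * (x * w) ∉ H l := by
    have := hpow 1 (by omega)
    rwa [show w⁻¹ * (x * w) = w⁻¹ * x ^ (1 : ℤ) * w by group]
  -- geodesic from `1` to `x`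
  obtain ⟨v, v0, vn, hv, vd⟩ := S.geo 1 x
  set n₁ := rdist X H 1 x with hn₁
  set B₀ : Set ℤ := ⋃ i ∈ Set.Iio n₁, {k : ℤ | (x * w)⁻¹ * (x ^ k * v i) ∈ H l} with hB₀
  have hB₀fin : B₀.Finite := by
    refine (Set.finite_Iio n₁).biUnion fun i _ => ?_
    refine Set.Subsingleton.finite ?_
    intro k hk k' hk'
    by_contra hne
    refine hpow (k - k') (by omega) ?_
    have h1 := (H l).mul_mem hk ((H l).inv_mem hk')
    have h2 : (x * w)⁻¹ * (x ^ k * v i) * ((x * w)⁻¹ * (x ^ k' * v i))⁻¹ =
        w⁻¹ * x ^ (k - k') * w := by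
      rw [show x ^ (k - k') = x ^ (-1 : ℤ) * x ^ k * (x ^ k')⁻¹ * x ^ (1 : ℤ) by
        rw [← zpow_neg, ← zpow_add, ← zpow_add, ← zpow_add]; congr 1; ring]
      group
    rwa [h2] at h1
  set C := 6 * δ + 8 with hC
  set D' := D + rdist X H 1 w with hD'
  -- the finite set containing all but finitely many projections
  set N₁ := C * n₁ + C * (D' + 1) with hN₁
  have key : ∀ k : ℤ, k ∉ B₀ → Near X H l w N₁ (x⁻¹ * w) (x ^ k) ∨ Near X H l w N₁ (x * w) (x ^ k) := by
    intro k hk
    have hstep : Near X H l (x * w) (C * n₁) (x ^ k) (x ^ (k + 1)) := by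
      have := S.near_walk (l := l) (u := x * w) (v := fun i => x ^ k * v i) (Nat.zero_le n₁)
        (fun i _ hi => (hv i hi).smul _) (fun i _ hi hc => by
          exact hk (Set.mem_biUnion (x := i) hi hc.1))
      simp only [v0, vn, mul_one, Nat.sub_zero] at this
      rwa [← zpow_add_one] at this
    set a := w * proj X H l (w⁻¹ * x ^ k) with ha
    have haw : w⁻¹ * a ∈ H l := by rw [ha, inv_mul_cancel_left]; exact proj_mem l _
    have hmin : ∀ y, w⁻¹ * y ∈ H l → rdist X H (x ^ k) a ≤ rdist X H (x ^ k) y := by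
      intro y hy
      have h1 := proj_le (X := X) (H := H) l (w⁻¹ * x ^ k) hy
      rw [← rdist_smul w, ← rdist_smul w (w⁻¹ * x ^ k) (w⁻¹ * y)] at h1
      simpa only [ge_iff_le, mul_inv_cancel_left] using h1
    have hd : rdist X H (x ^ k) a ≤ D' := by
      have h1 := hmin w (by rw [inv_mul_cancel]; exact (H l).one_mem)
      have h2 := S.tri (x ^ k) 1 w
      have h3 := hb k
      rw [rdist_symm] at h3
      omega
    obtain ⟨y, y0, yn, hy, yd⟩ := S.geo (x ^ k) a
    by_cases hcross : ∃ i, i < rdist X H (x ^ k) a ∧ (x * w)⁻¹ * y i ∈ H l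
    · right
      obtain ⟨i, hi, hiw⟩ := hcross
      have h1 := S.near_walk (l := l) (u := w) (v := y) (Nat.zero_le i)
        (fun j _ hj => hy j (by omega)) (fun j _ hj hc => by
          have h2 := hmin _ hc.1
          have h3 := yd 0 j (Nat.zero_le _) (by omega)
          rw [y0] at h3
          omega)
      rw [y0, Nat.sub_zero] at h1
      have h2 : Edge X H (y i) (x * w) := by
        refine Or.inr (Or.inr ⟨l, ?_⟩)
        have := (H l).inv_mem hiw
        simpa only [mul_inv_rev, mul_assoc, inv_inv] using this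
      have h3 := S.near_edge (l := l) (u := w) h2 (fun hc => hx2 hc.2)
      refine (h1.trans h3).symm.mono ?_
      rw [← hC]
      have h4 : C * i ≤ C * D' := Nat.mul_le_mul_left _ (by omega)
      rw [hN₁, Nat.mul_add]
      (clear * - h4; omega)
    · left
      push Not at hcross
      have h1 := S.near_walk (l := l) (u := x * w) (v := y) (Nat.zero_le (rdist X H (x ^ k) a))
        (fun j _ hj => hy j hj) (fun j _ hj hc => hcross j hj hc.1)
      rw [y0, yn, Nat.sub_zero] at h1
      have h2 : Edge X H a w := by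
        refine Or.inr (Or.inr ⟨l, ?_⟩)
        have := (H l).inv_mem haw
        simpa only [mul_inv_rev, inv_inv] using this
      have h3 := S.near_edge (l := l) (u := x * w) h2 (fun hc => hx1 hc.2)
      have h4 := (h1.trans h3).symm.trans hstep
      have h5 : Near X H l w (C * rdist X H (x ^ k) a + C + C * n₁) (x⁻¹ * w) (x ^ k) := by
        rw [← Near.smul x]
        rw [mul_inv_cancel_left, ← zpow_one_add, add_comm 1 k]
        exact h4
      refine h5.mono ?_
      have h6 : C * rdist X H (x ^ k) a ≤ C * D' := Nat.mul_le_mul_left _ hd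
      rw [hN₁, Nat.mul_add]
      omega
  apply hinfin
  refine Set.Finite.subset ((hB₀fin.image fun k : ℤ => proj X H l (w⁻¹ * x ^ k)).union
    ((S.finite_near (l := l) w N₁ (x⁻¹ * w)).union (S.finite_near (l := l) w N₁ (x * w)))) ?_
  rintro _ ⟨_, ⟨k, rfl⟩, rfl⟩
  by_cases hk : k ∈ B₀
  · exact Or.inl ⟨k, hk, rfl⟩
  · rcases key k hk with h | h
    · exact Or.inr (Or.inl ⟨_, h, rfl⟩)
    · exact Or.inr (Or.inr ⟨_, h, rfl⟩)

end RH

end near

end Vale.Agent.P184
end
end

section

section

namespace Vale.Agent.P184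

open Module

variable {k : Type*} [Field k] {V : Type*} [AddCommGroup V] [Module k V] [FiniteDimensional k V]
  {G : Type*} [Group G]

/-- Homogenization trick. -/
lemma charged_of_almost {g : G} (L φ : G → ℝ) (K : ℝ)
    (hL : ∀ x y, L (x * y) ≤ L x + L y)
    (hφ : ∀ z w, Commute z g → Commute w g → φ (z * w) = φ z + φ w)
    (hle : ∀ z, Commute z g → φ z ≤ L z + K) (hg : φ g ≠ 0) : Charged g := by
  refine ⟨L, φ, hL, hφ, ?_, hg⟩
  intro z hz
  have hpow : ∀ n : ℕ, φ (z ^ (n + 1)) = (n + 1) * φ z := by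
    intro n
    induction n with
    | zero => simp
    | succ n ih =>
      rw [pow_succ, hφ _ _ (hz.pow_left _) hz, ih]
      push_cast
      ring
  have hLpow : ∀ n : ℕ, L (z ^ (n + 1)) ≤ (n + 1) * L z := by
    intro n
    induction n with
    | zero => simp
    | succ n ih =>
      rw [pow_succ]
      refine (hL _ _).trans ?_
      push_cast
      linarith
  by_contra hcon
  push Not at hcon
  obtain ⟨n, hn⟩ := exists_nat_gt (K / (φ z - L z))
  have h1 := hle (z ^ (n + 1)) (hz.pow_left _)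
  rw [hpow] at h1
  have h2 := hLpow n
  have h3 : 0 < φ z - L z := by linarith only [hcon]
  rw [div_lt_iff₀ h3] at hn
  linarith only [h3, h2, h1, hn]

theorem charged_of_eigenvalue (v : AbsoluteValue k ℝ) (ρ : G →* (V →ₗ[k] V)) (g : G) (lam : k)
    (hlam : Module.End.HasEigenvalue (ρ g) lam) (hv : v lam ≠ 1) : Charged g := by
  classical
  set W := End.eigenspace (ρ g) lam with hW
  have hWne : W ≠ ⊥ := hlam
  set m := finrank k W with hm
  have hmpos : 0 < m := by
    rw [hm]
    exact (Submodule.one_le_finrank_iff.mpr hWne)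
  let w : Basis (Fin m) k W := finBasis k W
  choose c hc using fun i => LinearMap.exists_extend (w.coord i)
  have hc' : ∀ i (x : W), c i x = w.coord i x := fun i x => by
    rw [← hc i]; rfl
  let M : G → Matrix (Fin m) (Fin m) k := fun x => Matrix.of fun i j => c i (ρ x (w j))
  have hpres : ∀ z, Commute z g → ∀ x ∈ W, ρ z x ∈ W := by
    intro z hz x hx
    rw [hW, End.mem_eigenspace_iff] at hx ⊢
    calc ρ g (ρ z x) = (ρ g * ρ z) x := rfl
      _ = ρ (g * z) x := by rw [map_mul]
      _ = ρ (z * g) x := by rw [hz.eq]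
      _ = ρ z (ρ g x) := by rw [map_mul]; rfl
      _ = lam • ρ z x := by rw [hx, map_smul]
  have hMmul : ∀ z y, Commute y g → M (z * y) = M z * M y := by
    intro z y hy
    ext i j
    have h1 : ρ y (w j) ∈ W := hpres y hy _ (w j).2
    have h2 : (⟨ρ y (w j), h1⟩ : W) = ∑ l, (M y l j) • w l := by
      rw [← w.sum_repr ⟨ρ y (w j), h1⟩]
      refine Finset.sum_congr rfl fun l _ => ?_
      congr 1
      have := hc' l ⟨ρ y (w j), h1⟩
      simp only [Basis.coord_apply] at this
      rw [← this]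
      rfl
    have h3 : ρ y (w j) = ∑ l, (M y l j) • (w l : V) := by
      have := congrArg (Submodule.subtype W) h2
      simpa only [Submodule.subtype_apply, map_sum, map_smul] using this
    rw [Matrix.mul_apply]
    change c i (ρ (z * y) (w j)) = _
    rw [map_mul]
    change c i (ρ z (ρ y (w j))) = _
    rw [h3, map_sum, map_sum]
    refine Finset.sum_congr rfl fun l _ => ?_
    rw [map_smul, map_smul, smul_eq_mul, mul_comm]
    rfl
  have hM1 : M 1 = 1 := by
    ext i j
    change c i (ρ 1 (w j)) = _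
    rw [map_one]
    change c i (w j) = _
    rw [hc']
    simp [Matrix.one_apply, Finsupp.single_apply, eq_comm]
  have hMg : M g = lam • (1 : Matrix (Fin m) (Fin m) k) := by
    ext i j
    change c i (ρ g (w j)) = _
    have : ρ g (w j) = lam • (w j : V) := by
      exact End.mem_eigenspace_iff.mp (w j).2
    rw [this, map_smul, hc']
    simp [Matrix.one_apply, Finsupp.single_apply, eq_comm]
  have hdet_ne : ∀ z, Commute z g → (M z).det ≠ 0 := by
    intro z hz
    have h1 : M z⁻¹ * M z = 1 := by rw [← hMmul _ _ hz, inv_mul_cancel, hM1]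
    have h2 := congrArg Matrix.det h1
    rw [Matrix.det_mul, Matrix.det_one] at h2
    exact right_ne_zero_of_mul_eq_one h2
  -- the subadditive function
  let B := finBasis k V
  let A : G → Matrix (Fin (finrank k V)) (Fin (finrank k V)) k := fun x =>
    LinearMap.toMatrix B B (ρ x)
  let s : G → ℝ := fun x => ∑ a, ∑ b, v (A x a b)
  have hs_nonneg : ∀ x, 0 ≤ s x := fun x =>
    Finset.sum_nonneg fun a _ => Finset.sum_nonneg fun b _ => v.nonneg _
  have hs_ge : ∀ x a b, v (A x a b) ≤ s x := by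
    intro x a b
    calc v (A x a b) ≤ ∑ b, v (A x a b) :=
          Finset.single_le_sum (f := fun b => v (A x a b)) (fun b _ => v.nonneg _)
            (Finset.mem_univ b)
      _ ≤ s x := Finset.single_le_sum (f := fun a => ∑ b, v (A x a b))
            (fun a _ => Finset.sum_nonneg fun b _ => v.nonneg _) (Finset.mem_univ a)
  have hs_mul : ∀ x y, s (x * y) ≤ s x * s y := by
    intro x y
    have hA : A (x * y) = A x * A y := by
      change LinearMap.toMatrix B B (ρ (x * y)) = _
      rw [map_mul, LinearMap.toMatrix_mul]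
    calc s (x * y) = ∑ a, ∑ b, v (∑ l, A x a l * A y l b) := by
          simp only [hA, Matrix.mul_apply, s]
      _ ≤ ∑ a, ∑ b, ∑ l, v (A x a l) * v (A y l b) := by
          refine Finset.sum_le_sum fun a _ => Finset.sum_le_sum fun b _ => ?_
          refine (AbsoluteValue.sum_le v _ _).trans (le_of_eq ?_)
          exact Finset.sum_congr rfl fun l _ => map_mul v _ _
      _ = ∑ a, ∑ l, v (A x a l) * ∑ b, v (A y l b) := by
          refine Finset.sum_congr rfl fun a _ => ?_
          rw [Finset.sum_comm]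
          exact Finset.sum_congr rfl fun l _ => by rw [Finset.mul_sum]
      _ ≤ ∑ a, ∑ l, v (A x a l) * s y := by
          refine Finset.sum_le_sum fun a _ => Finset.sum_le_sum fun l _ => ?_
          refine mul_le_mul_of_nonneg_left ?_ (v.nonneg _)
          exact Finset.single_le_sum (f := fun a => ∑ b, v (A y a b))
            (fun a _ => Finset.sum_nonneg fun b _ => v.nonneg _) (Finset.mem_univ l)
      _ = s x * s y := by
          simp only [s, Finset.sum_mul]
  have hVpos : ∃ x : V, x ≠ 0 := by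
    obtain ⟨x, _, hx⟩ := (Submodule.ne_bot_iff W).mp hWne
    exact ⟨x, hx⟩
  have hs_pos : ∀ x, 0 < s x := by
    intro x
    refine lt_of_le_of_ne (hs_nonneg x) fun h => ?_
    have h1 : s 1 = 0 := by
      have := hs_mul x x⁻¹
      rw [← h, zero_mul, mul_inv_cancel] at this
      exact le_antisymm this (hs_nonneg 1)
    have h2 : A 1 = 0 := by
      ext a b
      have := hs_ge 1 a b
      rw [h1] at this
      have h3 := le_antisymm this (v.nonneg _)
      exact (v.eq_zero).mp h3
    have h4 : A 1 = 1 := by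
      change LinearMap.toMatrix B B (ρ 1) = 1
      rw [map_one]
      exact LinearMap.toMatrix_one B
    obtain ⟨y, hy⟩ := hVpos
    have h5 : (LinearMap.toMatrix B B) (1 : V →ₗ[k] V) = 0 := by
      rw [LinearMap.toMatrix_one B, ← h4, h2]
    have h6 : (1 : V →ₗ[k] V) = 0 := by
      apply (LinearMap.toMatrix B B).injective
      rw [h5, map_zero]
    exact hy (by simpa only [End.one_apply, LinearMap.zero_apply] using congrArg (fun f => f y) h6)
  -- bound on the entries of `M`
  let C0 : ℝ := ∑ i, ∑ j, ∑ a, ∑ b, v (c i (B a)) * v (B.repr (w j) b)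
  have hC0 : 0 ≤ C0 := Finset.sum_nonneg fun i _ => Finset.sum_nonneg fun j _ =>
    Finset.sum_nonneg fun a _ => Finset.sum_nonneg fun b _ => mul_nonneg (v.nonneg _) (v.nonneg _)
  have hMbound : ∀ x i j, v (M x i j) ≤ (1 + C0) * s x := by
    intro x i j
    have h1 : M x i j = ∑ a, ∑ b, c i (B a) * B.repr (w j) b * A x a b := by
      change c i (ρ x (w j)) = _
      have h2 : ρ x (w j) = ∑ b, B.repr (w j) b • ρ x (B b) := by
        conv_lhs => rw [← B.sum_repr (w j : V)]
        rw [map_sum]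
        exact Finset.sum_congr rfl fun b _ => by rw [map_smul]
      have h3 : ∀ b, ρ x (B b) = ∑ a, A x a b • B a := by
        intro b
        have := LinearMap.toMatrix_apply B B (ρ x)
        conv_lhs => rw [← B.sum_repr (ρ x (B b))]
        exact Finset.sum_congr rfl fun a _ => by rw [← this]
      rw [h2, map_sum]
      simp only [h3, map_smul, map_sum, smul_eq_mul, Finset.mul_sum]
      rw [Finset.sum_comm]
      exact Finset.sum_congr rfl fun a _ => Finset.sum_congr rfl fun b _ => by ring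
    have hpart : ∑ a, ∑ b, v (c i (B a)) * v (B.repr (w j) b) ≤ C0 := by
      calc ∑ a, ∑ b, v (c i (B a)) * v (B.repr (w j) b)
          ≤ ∑ j, ∑ a, ∑ b, v (c i (B a)) * v (B.repr (w j) b) :=
            Finset.single_le_sum
              (f := fun j => ∑ a, ∑ b, v (c i (B a)) * v (B.repr (w j) b))
              (fun j _ => Finset.sum_nonneg fun a _ => Finset.sum_nonneg fun b _ =>
                mul_nonneg (v.nonneg _) (v.nonneg _)) (Finset.mem_univ j)
        _ ≤ C0 := Finset.single_le_sum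
              (f := fun i => ∑ j, ∑ a, ∑ b, v (c i (B a)) * v (B.repr (w j) b))
              (fun i _ => Finset.sum_nonneg fun j _ => Finset.sum_nonneg fun a _ =>
                Finset.sum_nonneg fun b _ => mul_nonneg (v.nonneg _) (v.nonneg _))
              (Finset.mem_univ i)
    calc v (M x i j) ≤ ∑ a, ∑ b, v (c i (B a) * B.repr (w j) b * A x a b) := by
          rw [h1]
          refine (AbsoluteValue.sum_le v _ _).trans ?_
          exact Finset.sum_le_sum fun a _ => AbsoluteValue.sum_le v _ _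
      _ ≤ ∑ a, ∑ b, v (c i (B a)) * v (B.repr (w j) b) * s x := by
          refine Finset.sum_le_sum fun a _ => Finset.sum_le_sum fun b _ => ?_
          rw [map_mul, map_mul]
          exact mul_le_mul_of_nonneg_left (hs_ge x a b) (mul_nonneg (v.nonneg _) (v.nonneg _))
      _ = (∑ a, ∑ b, v (c i (B a)) * v (B.repr (w j) b)) * s x := by
          simp only [Finset.sum_mul]
      _ ≤ (1 + C0) * s x := by
          refine mul_le_mul_of_nonneg_right ?_ (hs_nonneg x)
          linarith only [hpart]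
  refine charged_of_almost (g := g) (fun x => m * Real.log (s x))
    (fun x => Real.log (v (M x).det))
    (Real.log ((Nat.factorial m : ℝ) * (1 + C0) ^ m)) ?_ ?_ ?_ ?_
  · intro x y
    have h1 : Real.log (s (x * y)) ≤ Real.log (s x) + Real.log (s y) := by
      rw [← Real.log_mul (hs_pos x).ne' (hs_pos y).ne']
      exact Real.log_le_log (hs_pos _) (hs_mul x y)
    have h2 : (0 : ℝ) ≤ m := Nat.cast_nonneg m
    calc (m : ℝ) * Real.log (s (x * y)) ≤ m * (Real.log (s x) + Real.log (s y)) :=
          mul_le_mul_of_nonneg_left h1 h2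
      _ = _ := by ring
  · intro z y hz hy
    rw [hMmul z y hy, Matrix.det_mul, map_mul, Real.log_mul]
    · exact fun h => hdet_ne z hz ((v.eq_zero).mp h)
    · exact fun h => hdet_ne y hy ((v.eq_zero).mp h)
  · intro z hz
    have h1 : v (M z).det ≤ (Nat.factorial m : ℝ) * ((1 + C0) * s z) ^ m := by
      have := Matrix.det_le (A := M z) (abv := v) (x := (1 + C0) * s z) (hMbound z)
      simpa only [ge_iff_le, Fintype.card_fin, nsmul_eq_mul] using this
    have h2 : 0 < v (M z).det := lt_of_le_of_ne (v.nonneg _)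
      fun h => hdet_ne z hz ((v.eq_zero).mp h.symm)
    have h3 : (0 : ℝ) < (Nat.factorial m : ℝ) * (1 + C0) ^ m := by (clear * -; (clear * -; positivity))
    calc Real.log (v (M z).det)
        ≤ Real.log ((Nat.factorial m : ℝ) * ((1 + C0) * s z) ^ m) := Real.log_le_log h2 h1
      _ = Real.log (((Nat.factorial m : ℝ) * (1 + C0) ^ m) * (s z) ^ m) := by
          rw [mul_pow]; ring_nf
      _ = m * Real.log (s z) + Real.log ((Nat.factorial m : ℝ) * (1 + C0) ^ m) := by
          rw [Real.log_mul h3.ne' (pow_pos (hs_pos z) m).ne', Real.log_pow]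
          ring
  · change Real.log (v (M g).det) ≠ 0
    rw [hMg, Matrix.det_smul, Matrix.det_one, mul_one, Fintype.card_fin, map_pow, Real.log_pow]
    have hlam0 : v lam ≠ 0 := by
      intro h
      have h0 : lam = 0 := (v.eq_zero).mp h
      have h1 := hdet_ne g (Commute.refl g)
      have h2 : Nonempty (Fin m) := ⟨⟨0, hmpos⟩⟩
      rw [hMg, h0, zero_smul, Matrix.det_zero] at h1
      exact h1 rfl
    have hpos : 0 < v lam := lt_of_le_of_ne (v.nonneg _) hlam0.symm
    refine mul_ne_zero (by exact_mod_cast hmpos.ne') ?_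
    intro h
    rcases Real.log_eq_zero.mp h with h | h | h
    · exact hlam0 h
    · exact hv h
    · linarith only [h, hpos]

end Vale.Agent.P184
end
end

section

section

namespace Vale.Agent.P184

open Module

/-- Kronecker: a nonzero element of a number field that is not a root of unity has an absolute
value different from one at some place. -/
theorem exists_abs_numberField (K : Type*) [Field K] [NumberField K] (x : K)
    (hx : ∀ m : ℕ, 0 < m → x ^ m ≠ 1) : ∃ v : AbsoluteValue K ℝ, v x ≠ 1 := by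
  by_contra hcon
  push Not at hcon
  have hint : IsIntegral ℤ x := by
    have h1 : x ∈ (algebraMap (NumberField.RingOfIntegers K) K).range := by
      apply IsDedekindDomain.HeightOneSpectrum.mem_integers_of_valuation_le_one K x
      intro v
      have h2 := hcon (NumberField.HeightOneSpectrum.adicAbv K v)
      rw [NumberField.HeightOneSpectrum.adicAbv_def] at h2
      have h3 : WithZeroMulInt.toNNReal (NumberField.HeightOneSpectrum.absNorm_ne_zero v)
          (v.valuation K x) = 1 := by exact_mod_cast h2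
      rw [WithZeroMulInt.toNNReal_eq_one_iff] at h3
      · exact h3.le
      · exact (NumberField.HeightOneSpectrum.one_lt_absNorm_nnreal v).ne'
    obtain ⟨y, rfl⟩ := h1
    exact NumberField.RingOfIntegers.isIntegral_coe y
  have hemb : ∀ φ : K →+* ℂ, ‖φ x‖ = 1 := by
    intro φ
    exact hcon ((NormedField.toAbsoluteValue ℂ).comp φ.injective)
  obtain ⟨n, hn, h⟩ := NumberField.Embeddings.pow_eq_one_of_norm_eq_one K ℂ hint hemb
  exact hx n hn h

/-- The absolute value `2 ^ deg` on the field of rational functions. -/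
noncomputable def degAbs (F : Type*) [Field F] : AbsoluteValue (RatFunc F) ℝ := by
  classical
  exact
  { toFun := fun x => if x = 0 then 0 else (2 : ℝ) ^ (x.intDegree)
    map_mul' := by
      intro x y
      by_cases hx : x = 0
      · simp [hx]
      by_cases hy : y = 0
      · simp [hy]
      rw [if_neg hx, if_neg hy, if_neg (mul_ne_zero hx hy), RatFunc.intDegree_mul hx hy,
        zpow_add₀ (by norm_num)]
    nonneg' := by
      intro x
      by_cases hx : x = 0
      · simp [hx]
      · simp only [hx, if_false]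
        positivity
    eq_zero' := by
      intro x
      by_cases hx : x = 0
      · simp [hx]
      · simp only [hx, if_false, iff_false]
        positivity
    add_le' := by
      intro x y
      have hnn : ∀ z : RatFunc F, (0 : ℝ) ≤ if z = 0 then 0 else (2 : ℝ) ^ (z.intDegree) := by
        intro z
        by_cases hz : z = 0
        · simp [hz]
        · simp only [hz, if_false]
          positivity
      by_cases hx : x = 0
      · simp [hx]
      by_cases hy : y = 0
      · simp [hy]
      by_cases hxy : x + y = 0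
      · rw [if_pos hxy]
        exact add_nonneg (hnn x) (hnn y)
      rw [if_neg hx, if_neg hy, if_neg hxy]
      have h1 := RatFunc.intDegree_add_le hy hxy
      have h2 : (2 : ℝ) ^ (x + y).intDegree ≤ (2 : ℝ) ^ (max x.intDegree y.intDegree) :=
        zpow_le_zpow_right₀ (by norm_num) h1
      refine h2.trans ?_
      rcases le_total x.intDegree y.intDegree with h | h
      · rw [max_eq_right h]
        have : (0 : ℝ) < 2 ^ x.intDegree := by positivity
        linarith
      · rw [max_eq_left h]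
        have : (0 : ℝ) < 2 ^ y.intDegree := by positivity
        linarith }

lemma degAbs_X (F : Type*) [Field F] : degAbs F RatFunc.X ≠ 1 := by
  classical
  have h : degAbs F RatFunc.X = (2 : ℝ) ^ (RatFunc.X : RatFunc F).intDegree :=
    if_neg RatFunc.X_ne_zero
  rw [h, RatFunc.intDegree_X]
  norm_num

/-- Representation over a finite extension. -/
theorem charged_of_matrix {k k' : Type*} [Field k] [Field k'] [Algebra k k']
    [FiniteDimensional k k'] (v : AbsoluteValue k ℝ) {n : ℕ} {G : Type*} [Group G]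
    (ρ : G →* Matrix (Fin n) (Fin n) k') (g : G) (lam : k)
    (hdet : (algebraMap k k' lam • (1 : Matrix (Fin n) (Fin n) k') - ρ g).det = 0)
    (hv : v lam ≠ 1) : Charged g := by
  let σ : G →* ((Fin n → k') →ₗ[k] (Fin n → k')) :=
    { toFun := fun x => (Matrix.toLin' (ρ x)).restrictScalars k
      map_one' := by
        rw [map_one, Matrix.toLin'_one]; rfl
      map_mul' := by
        intro x y
        rw [map_mul, Matrix.toLin'_mul]; rfl }
  refine charged_of_eigenvalue v σ g lam ?_ hv
  obtain ⟨w, hw, hw2⟩ := Matrix.exists_mulVec_eq_zero_iff.mpr hdet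
  apply Module.End.hasEigenvalue_of_hasEigenvector (x := w)
  refine ⟨?_, hw⟩
  rw [End.mem_eigenspace_iff]
  change (ρ g).mulVec w = lam • w
  rw [Matrix.sub_mulVec, Matrix.smul_mulVec, Matrix.one_mulVec, sub_eq_zero] at hw2
  rw [← hw2, algebraMap_smul]

end Vale.Agent.P184
end
end

section

section

namespace Vale.Agent.P184

open Module

universe u w

/-- The entries of a matrix representation of a finitely generated group lie in a finitely
generated algebra. -/
theorem exists_finite_entries {E : Type u} [Field E] {n : ℕ} {G : Type*} [Group G] [Group.FG G]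
    (ρ : G →* Matrix (Fin n) (Fin n) E) (lam : E) :
    ∃ S : Set E, S.Finite ∧ lam ∈ S ∧ ∀ (k : Type w) [Field k] [Algebra k E],
      ∀ x i j, ρ x i j ∈ Algebra.adjoin k S := by
  obtain ⟨T, hT, hTf⟩ := (Group.fg_iff (G := G)).mp inferInstance
  refine ⟨insert lam (⋃ i, ⋃ j, ((fun x => ρ x i j) '' T ∪ (fun x => ρ x⁻¹ i j) '' T)), ?_, ?_, ?_⟩
  · refine Set.Finite.insert _ (Set.finite_iUnion fun i => Set.finite_iUnion fun j => ?_)
    exact (hTf.image _).union (hTf.image _)
  · exact Set.mem_insert _ _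
  · intro k _ _ x
    set A := Algebra.adjoin k
      (insert lam (⋃ i, ⋃ j, ((fun x => ρ x i j) '' T ∪ (fun x => ρ x⁻¹ i j) '' T))) with hA
    have hx : x ∈ Subgroup.closure T := by rw [hT]; exact Subgroup.mem_top x
    suffices h : (∀ i j, ρ x i j ∈ A) ∧ (∀ i j, ρ x⁻¹ i j ∈ A) from h.1
    have hone : ∀ i j, ρ (1 : G) i j ∈ A := by
      intro i j
      rw [map_one, Matrix.one_apply]
      split_ifs
      · exact A.one_mem
      · exact A.zero_mem
    have hmul : ∀ y z : G, (∀ i j, ρ y i j ∈ A) → (∀ i j, ρ z i j ∈ A) → ∀ i j, ρ (y * z) i j ∈ A := by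
      intro y z hy hz i j
      rw [map_mul, Matrix.mul_apply]
      exact A.sum_mem fun l _ => A.mul_mem (hy i l) (hz l j)
    refine Subgroup.closure_induction
      (p := fun x _ => (∀ i j, ρ x i j ∈ A) ∧ (∀ i j, ρ x⁻¹ i j ∈ A)) ?_ ?_ ?_ ?_ hx
    · intro y hy
      constructor
      · intro i j
        apply Algebra.subset_adjoin
        refine Set.mem_insert_of_mem _ (Set.mem_iUnion.mpr ⟨i, Set.mem_iUnion.mpr ⟨j, Or.inl ?_⟩⟩)
        exact ⟨y, hy, rfl⟩
      · intro i j
        apply Algebra.subset_adjoin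
        refine Set.mem_insert_of_mem _ (Set.mem_iUnion.mpr ⟨i, Set.mem_iUnion.mpr ⟨j, Or.inr ?_⟩⟩)
        exact ⟨y, hy, rfl⟩
    · refine ⟨hone, ?_⟩
      rw [inv_one]; exact hone
    · rintro y z _ _ ⟨hy, hy'⟩ ⟨hz, hz'⟩
      refine ⟨hmul y z hy hz, ?_⟩
      rw [mul_inv_rev]
      exact hmul _ _ hz' hy'
    · rintro y _ ⟨hy, hy'⟩
      refine ⟨hy', ?_⟩
      rw [inv_inv]; exact hy

/-- Specialization of a matrix representation to a finite extension of the base field. -/
theorem exists_specialization {k : Type w} {E : Type u} [Field k] [Field E] [Algebra k E] {n : ℕ}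
    {G : Type*} [Group G] (ρ : G →* Matrix (Fin n) (Fin n) E) (g : G) (lam : E)
    (hdet : (lam • (1 : Matrix (Fin n) (Fin n) E) - ρ g).det = 0)
    (S : Set E) (hS : S.Finite) (hlam : lam ∈ S)
    (hent : ∀ x i j, ρ x i j ∈ Algebra.adjoin k S) :
    ∃ (k' : Type u) (_ : Field k') (_ : Algebra k k') (_ : FiniteDimensional k k')
      (ψ : Algebra.adjoin k S →ₐ[k] k') (ρ' : G →* Matrix (Fin n) (Fin n) k'),
      (ψ ⟨lam, Algebra.subset_adjoin hlam⟩ • (1 : Matrix (Fin n) (Fin n) k') - ρ' g).det = 0 := by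
  set A := Algebra.adjoin k S with hA
  obtain ⟨𝔪, h𝔪⟩ := Ideal.exists_maximal A
  let : Field (A ⧸ 𝔪) := Ideal.Quotient.field 𝔪
  have hft : Algebra.FiniteType k A := by
    rw [← Subalgebra.fg_iff_finiteType]
    exact ⟨hS.toFinset, by simp [hA]⟩
  have hft' : Algebra.FiniteType k (A ⧸ 𝔪) :=
    Algebra.FiniteType.of_surjective (Ideal.Quotient.mkₐ k 𝔪) (Ideal.Quotient.mkₐ_surjective k 𝔪)
  have hfin : Module.Finite k (A ⧸ 𝔪) := finite_of_finite_type_of_isJacobsonRing k (A ⧸ 𝔪)
  let ρA : G →* Matrix (Fin n) (Fin n) A :=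
    { toFun := fun x => Matrix.of fun i j => ⟨ρ x i j, hent x i j⟩
      map_one' := by
        ext i j
        simp only [map_one, Matrix.of_apply, Matrix.one_apply]
        split_ifs <;> rfl
      map_mul' := by
        intro x y
        ext i j
        simp only [map_mul, Matrix.mul_apply, Matrix.of_apply, MulMemClass.mk_mul_mk, AddSubmonoidClass.coe_finsetSum] }
  let ψ : A →ₐ[k] (A ⧸ 𝔪) := Ideal.Quotient.mkₐ k 𝔪
  refine ⟨A ⧸ 𝔪, inferInstance, inferInstance, hfin, ψ,
    (ψ.toRingHom.mapMatrix : Matrix (Fin n) (Fin n) A →+* _).toMonoidHom.comp ρA, ?_⟩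
  have h1 : ((⟨lam, Algebra.subset_adjoin hlam⟩ : A) • (1 : Matrix (Fin n) (Fin n) A) -
      ρA g).det = 0 := by
    apply Subtype.val_injective
    change A.val.toRingHom _ = _
    rw [RingHom.map_det]
    have : (A.val.toRingHom.mapMatrix ((⟨lam, Algebra.subset_adjoin hlam⟩ : A) •
        (1 : Matrix (Fin n) (Fin n) A) - ρA g)) = lam • (1 : Matrix (Fin n) (Fin n) E) - ρ g := by
      ext i j
      simp only [RingHom.mapMatrix_apply, Matrix.map_apply, Matrix.sub_apply, Matrix.smul_apply,
        Matrix.one_apply, smul_eq_mul, map_sub, map_mul]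
      split_ifs
      · simp only [AlgHom.toRingHom_eq_coe, RingHom.coe_coe, Subalgebra.coe_val, OneMemClass.coe_one, mul_one, MonoidHom.coe_mk, OneHom.coe_mk, Matrix.of_apply, ρA]
      · simp only [AlgHom.toRingHom_eq_coe, RingHom.coe_coe, Subalgebra.coe_val, ZeroMemClass.coe_zero, mul_zero, MonoidHom.coe_mk, OneHom.coe_mk, Matrix.of_apply, zero_sub, ρA]
    rw [this, hdet]
    rfl
  have h2 := congrArg ψ.toRingHom h1
  rw [RingHom.map_det, map_zero] at h2
  rw [← h2]
  congr 1
  ext i j
  simp only [Matrix.sub_apply, Matrix.smul_apply, Matrix.one_apply, smul_eq_mul, map_sub, RingHom.mapMatrix_apply, Matrix.map_apply, map_mul]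
  split_ifs
  · simp only [mul_one, AlgHom.toRingHom_eq_coe, RingHom.toMonoidHom_eq_coe, MonoidHom.coe_comp, MonoidHom.coe_coe, Function.comp_apply, RingHom.mapMatrix_apply, RingHom.coe_coe, Matrix.map_apply, map_one]
  · simp only [mul_zero, AlgHom.toRingHom_eq_coe, RingHom.toMonoidHom_eq_coe, MonoidHom.coe_comp, MonoidHom.coe_coe, Function.comp_apply, RingHom.mapMatrix_apply, RingHom.coe_coe, Matrix.map_apply, zero_sub, map_zero]

theorem charged_of_transcendental {F : Type w} {E : Type u} [Field F] [Field E] [Algebra F E] {n : ℕ}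
    {G : Type*} [Group G] [Group.FG G] (ρ : G →* Matrix (Fin n) (Fin n) E) (g : G) (lam : E)
    (hdet : (lam • (1 : Matrix (Fin n) (Fin n) E) - ρ g).det = 0)
    (htr : Transcendental F lam) : Charged g := by
  let K := IntermediateField.adjoin F {lam}
  obtain ⟨S, hS, hlam, hent⟩ := exists_finite_entries ρ lam
  obtain ⟨k', _, _, _, ψ, ρ', hdet'⟩ :=
    exists_specialization (k := K) ρ g lam hdet S hS hlam (hent K)
  let e := RatFunc.algEquivOfTranscendental lam htr
  let v : AbsoluteValue K ℝ := (degAbs F).comp (f := e.symm.toRingEquiv.toRingHom)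
    e.symm.injective
  have hgen : ψ ⟨lam, Algebra.subset_adjoin hlam⟩ =
      algebraMap K k' (IntermediateField.AdjoinSimple.gen F lam) := by
    rw [← ψ.commutes]
    rfl
  refine charged_of_matrix v ρ' g (IntermediateField.AdjoinSimple.gen F lam) ?_ ?_
  · rw [← hgen]; exact hdet'
  · change degAbs F (e.symm (IntermediateField.AdjoinSimple.gen F lam)) ≠ 1
    rw [RatFunc.algEquivOfTranscendental_symm_gen]
    exact degAbs_X F

theorem charged_of_algebraic_rat {E : Type u} [Field E] [CharZero E] {n : ℕ}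
    {G : Type*} [Group G] [Group.FG G] (ρ : G →* Matrix (Fin n) (Fin n) E) (g : G) (lam : E)
    (hdet : (lam • (1 : Matrix (Fin n) (Fin n) E) - ρ g).det = 0)
    (halg : IsAlgebraic ℚ lam) (hroot : ∀ m : ℕ, 0 < m → lam ^ m ≠ 1) : Charged g := by
  obtain ⟨S, hS, hlam, hent⟩ := exists_finite_entries ρ lam
  obtain ⟨k', _, alg, hfd, ψ, ρ', hdet'⟩ :=
    exists_specialization (k := ℚ) ρ g lam hdet S hS hlam (hent ℚ)
  have hcz : CharZero k' := charZero_of_injective_algebraMap (algebraMap ℚ k').injective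
  have halgeq : alg = DivisionRing.toRatAlgebra := Subsingleton.elim _ _
  subst halgeq
  have : NumberField k' :=
    { to_charZero := hcz
      to_finiteDimensional := hfd }
  set lam' := ψ ⟨lam, Algebra.subset_adjoin hlam⟩ with hlam'
  have hroot' : ∀ m : ℕ, 0 < m → lam' ^ m ≠ 1 := by
    intro m hm h
    let a : Algebra.adjoin ℚ S := ⟨lam, Algebra.subset_adjoin hlam⟩ ^ m - 1
    have ha0 : a ≠ 0 := by
      intro h0
      have := congrArg Subtype.val h0
      have h1 : lam ^ m - 1 = 0 := by simpa [a] using this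
      exact hroot m hm (sub_eq_zero.mp h1)
    have hint : IsIntegral ℚ a := by
      have h1 : IsIntegral ℚ (⟨lam, Algebra.subset_adjoin hlam⟩ : Algebra.adjoin ℚ S) := by
        rw [← isIntegral_algHom_iff (Algebra.adjoin ℚ S).val Subtype.val_injective]
        exact halg.isIntegral
      exact (h1.pow m).sub isIntegral_one
    have hunit : IsUnit a := hint.isUnit ha0
    have h2 : IsUnit (ψ a) := hunit.map ψ
    have h3 : ψ a = 0 := by
      simp only [a, map_sub, map_pow, map_one]
      rw [← hlam', h, sub_self]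
    rw [h3] at h2
    exact not_isUnit_zero h2
  obtain ⟨v, hv⟩ := exists_abs_numberField k' lam' hroot'
  exact charged_of_matrix v ρ' g lam' (by simpa only [Algebra.algebraMap_self, RingHom.id_apply] using hdet') hv

/-- An element of a finitely generated linear group with an eigenvalue which is not a root of
unity is charged. -/
theorem charged_of_fg {E : Type u} [Field E] {n : ℕ}
    {G : Type*} [Group G] [Group.FG G] (ρ : G →* Matrix (Fin n) (Fin n) E) (g : G) (lam : E)
    (hdet : (lam • (1 : Matrix (Fin n) (Fin n) E) - ρ g).det = 0)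
    (hroot : ∀ m : ℕ, 0 < m → lam ^ m ≠ 1) : Charged g := by
  have hlam0 : lam ≠ 0 := by
    rintro rfl
    have h1 : (ρ g⁻¹ * ρ g).det = 1 := by rw [← map_mul, inv_mul_cancel, map_one, Matrix.det_one]
    rw [Matrix.det_mul] at h1
    rw [zero_smul, zero_sub, Matrix.det_neg] at hdet
    rcases mul_eq_zero.mp hdet with h | h
    · exact (pow_ne_zero _ (neg_ne_zero.mpr one_ne_zero)) h
    · rw [h, mul_zero] at h1
      exact zero_ne_one h1
  obtain ⟨p, hp⟩ := CharP.exists E
  rcases Nat.eq_zero_or_pos p with h0 | hpos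
  · subst h0
    have : CharZero E := CharP.charP_to_charZero E
    by_cases halg : IsAlgebraic ℚ lam
    · exact charged_of_algebraic_rat ρ g lam hdet halg hroot
    · exact charged_of_transcendental (F := ℚ) ρ g lam hdet halg
  · have : Fact p.Prime := ⟨(CharP.char_is_prime_or_zero E p).resolve_right hpos.ne'⟩
    let : Algebra (ZMod p) E := ZMod.algebra E p
    by_cases halg : IsAlgebraic (ZMod p) lam
    · exfalso
      have : FiniteDimensional (ZMod p) (IntermediateField.adjoin (ZMod p) {lam}) :=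
        IntermediateField.adjoin.finiteDimensional halg.isIntegral
      have : Finite (IntermediateField.adjoin (ZMod p) {lam}) :=
        Module.finite_of_finite (ZMod p)
      have := Fintype.ofFinite (IntermediateField.adjoin (ZMod p) {lam})
      have h1 := FiniteField.pow_card_sub_one_eq_one
        (IntermediateField.AdjoinSimple.gen (ZMod p) lam) (by
          intro h
          apply hlam0
          have := congrArg Subtype.val h
          simpa only [IntermediateField.AdjoinSimple.coe_gen, ZeroMemClass.coe_zero] using this)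
      have h2 := congrArg Subtype.val h1
      refine hroot _ ?_ (by simpa only [SubmonoidClass.coe_pow, IntermediateField.AdjoinSimple.coe_gen, OneMemClass.coe_one] using h2)
      have := Fintype.one_lt_card (α := IntermediateField.adjoin (ZMod p) {lam})
      omega
    · exact charged_of_transcendental (F := ZMod p) ρ g lam hdet halg

end Vale.Agent.P184
end
end

section

section

namespace Vale.Agent.P184

open Subgroup

/-- An element with positive stable length whose powers have finite index in its centralizer is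
charged. -/
theorem charged_of_virtuallyCyclic {G : Type*} [Group G] (x : G) (L : G → ℝ)
    (hmul : ∀ g h, L (g * h) ≤ L g + L h) (h0 : ∀ g, 0 ≤ L g) (c : ℝ) (hc : 0 < c)
    (hx : ∀ n : ℕ, c * n ≤ L (x ^ n)) (F : Set G) (hF : F.Finite)
    (hZ : ∀ z, Commute z x → ∃ i : ℤ, ∃ f ∈ F, z = x ^ i * f) : Charged x := by
  classical
  have hcen : ∀ z, Commute z x ↔ z ∈ centralizer ({x} : Set G) := by
    intro z
    rw [Subgroup.mem_centralizer_singleton_iff]
    exact ⟨fun h => h.eq, fun h => h⟩
  have hord : ¬ IsOfFinOrder x := by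
    intro h
    obtain ⟨m, hm, hxm⟩ := isOfFinOrder_iff_pow_eq_one.mp h
    obtain ⟨k, hk⟩ := exists_nat_gt (L 1 / c)
    have h1 := hx (m * k)
    rw [pow_mul, hxm, one_pow] at h1
    rw [div_lt_iff₀ hc] at hk
    have hm' : (1 : ℝ) ≤ m := by exact_mod_cast hm
    have hk0 : (0 : ℝ) ≤ k := Nat.cast_nonneg k
    push_cast at h1
    have h2 : (k : ℝ) ≤ m * k := by nlinarith only [hm']
    linarith only [mul_nonneg (le_of_lt (sub_pos.2 hc)) (sub_nonneg.2 h2), h1, hk]
  let Z := centralizer ({x} : Set G)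
  let x0 : Z := ⟨x, (hcen x).mp (Commute.refl x)⟩
  let N : Subgroup Z := zpowers x0
  have hx0 : ∀ z : Z, z * x0 = x0 * z := fun z => Subtype.ext ((hcen z).mpr z.2).eq
  have hNc : N ≤ center Z := by
    rw [Subgroup.zpowers_le, Subgroup.mem_center_iff]
    exact hx0
  have hNn : N.Normal := ⟨fun n hn g => by
    have h1 := (Subgroup.mem_center_iff.mp (hNc hn)) g
    rw [h1, mul_assoc, mul_inv_cancel, mul_one]
    exact hn⟩
  have hfin : Finite (Z ⧸ N) := by
    have : Finite {f : G // f ∈ F ∧ f ∈ Z} := (hF.subset (fun f hf => hf.1)).to_subtype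
    refine Finite.of_surjective
      (fun f : {f : G // f ∈ F ∧ f ∈ Z} => (QuotientGroup.mk (⟨f.1, f.2.2⟩ : Z) : Z ⧸ N)) ?_
    intro q
    obtain ⟨z, rfl⟩ := QuotientGroup.mk_surjective q
    obtain ⟨i, f, hf, hzf⟩ := hZ z ((hcen z).mpr z.2)
    have hfZ : f ∈ Z := by
      have h1 : f = (x0 ^ i : Z)⁻¹ * z := by
        rw [hzf]; simp only [InvMemClass.coe_inv, SubgroupClass.coe_zpow, inv_mul_cancel_left, x0]
      rw [h1]
      exact Subgroup.mul_mem _ (Subgroup.inv_mem _ (x0 ^ i : Z).2) z.2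
    refine ⟨⟨f, hf, hfZ⟩, ?_⟩
    rw [QuotientGroup.eq]
    have h2 : z = x0 ^ i * ⟨f, hfZ⟩ := Subtype.ext (by simpa only [coe_mul, SubgroupClass.coe_zpow, x0] using hzf)
    have h3 : (⟨f, hfZ⟩ : Z)⁻¹ * z = x0 ^ i := by
      have h4 := (Subgroup.mem_center_iff.mp (hNc (Subgroup.zpow_mem_zpowers x0 i))) (⟨f, hfZ⟩ : Z)
      rw [h2, ← h4, inv_mul_cancel_left]
    rw [h3]
    exact Subgroup.zpow_mem_zpowers x0 i
  have hNfi : N.FiniteIndex := Subgroup.finiteIndex_of_finite_quotient
  have hcfi : (center Z).FiniteIndex := Subgroup.finiteIndex_of_le hNc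
  set M : ℕ := (center Z).index * N.index with hM
  have hM0 : 0 < M := Nat.mul_pos (Nat.pos_of_ne_zero Subgroup.FiniteIndex.index_ne_zero)
    (Nat.pos_of_ne_zero Subgroup.FiniteIndex.index_ne_zero)
  have hMmul : ∀ a b : Z, (a * b) ^ M = a ^ M * b ^ M := by
    intro a b
    have h1 : (a * b) ^ (center Z).index = a ^ (center Z).index * b ^ (center Z).index := by
      have := map_mul (MonoidHom.transferCenterPow Z) a b
      exact congrArg (Subtype.val) this
    have h2 : Commute (a ^ (center Z).index) (b ^ (center Z).index) :=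
      ((Subgroup.mem_center_iff.mp ((center Z).pow_index_mem b)) (a ^ (center Z).index))
    rw [hM, pow_mul, h1, h2.mul_pow, pow_mul, pow_mul]
  have hMN : ∀ a : Z, ∃ j : ℤ, x ^ j = (a : G) ^ M := by
    intro a
    have h1 : (a ^ (center Z).index) ^ N.index ∈ N := N.pow_index_mem _
    obtain ⟨j, hj⟩ := Subgroup.mem_zpowers_iff.mp h1
    refine ⟨j, ?_⟩
    have h2 := congrArg (Subtype.val) hj
    rw [hM, pow_mul]
    simpa [x0] using h2
  choose j hj using hMN
  have hinj := injective_zpow_iff_not_isOfFinOrder.mpr hord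
  refine ⟨fun g => (M / c) * L g, fun g => if h : g ∈ Z then (j ⟨g, h⟩ : ℝ) else 0, ?_, ?_, ?_, ?_⟩
  · intro g h
    have h1 : 0 ≤ (M : ℝ) / c := by (clear * - hM0 hc; positivity)
    have := mul_le_mul_of_nonneg_left (hmul g h) h1
    linarith only [this]
  · intro g h hg hh
    have hgZ : g ∈ Z := (hcen g).mp hg
    have hhZ : h ∈ Z := (hcen h).mp hh
    have hghZ : g * h ∈ Z := Subgroup.mul_mem _ hgZ hhZ
    simp only [hgZ, hhZ, hghZ, dif_pos]
    have h1 : j ⟨g * h, hghZ⟩ = j ⟨g, hgZ⟩ + j ⟨h, hhZ⟩ := by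
      refine hinj ?_
      change x ^ j ⟨g * h, hghZ⟩ = x ^ (j ⟨g, hgZ⟩ + j ⟨h, hhZ⟩)
      rw [zpow_add, hj, hj, hj]
      have h2 := congrArg (Subtype.val) (hMmul ⟨g, hgZ⟩ ⟨h, hhZ⟩)
      simpa only [MulMemClass.mk_mul_mk, SubmonoidClass.mk_pow] using h2
    rw [h1]; push_cast; ring
  · intro g hg
    have hgZ : g ∈ Z := (hcen g).mp hg
    simp only [hgZ, dif_pos]
    have hpow : ∀ (g : G) (n : ℕ), 0 < n → L (g ^ n) ≤ n * L g := by
      intro g n hn
      induction n, hn using Nat.le_induction with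
      | base => simp
      | succ n hn ih =>
        rw [pow_succ]
        have := hmul (g ^ n) g
        push_cast
        linarith only [this, ih]
    rcases le_or_gt 0 (j ⟨g, hgZ⟩) with h1 | h1
    · obtain ⟨n, hn⟩ := Int.eq_ofNat_of_zero_le h1
      have h2 := hj ⟨g, hgZ⟩
      rw [hn] at h2 ⊢
      have h3 := hx n
      have h4 : x ^ n = g ^ M := by simpa only [zpow_natCast] using h2
      rw [h4] at h3
      have h5 := hpow g M hM0
      have h6 : c * n ≤ M * L g := h3.trans h5
      push_cast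
      rw [div_mul_eq_mul_div, le_div_iff₀ hc]
      linarith only [h3, h5]
    · have h2 : ((j ⟨g, hgZ⟩ : ℤ) : ℝ) < 0 := by exact_mod_cast h1
      have h3 : 0 ≤ (M : ℝ) / c * L g := mul_nonneg (by (clear * - hM0 hc; (clear * - hM0 hc; positivity))) (h0 g)
      linarith only [h3, h2]
  · have hxZ : x ∈ Z := (hcen x).mp (Commute.refl x)
    simp only [hxZ, dif_pos]
    have h1 : j ⟨x, hxZ⟩ = (M : ℤ) := by
      refine hinj ?_
      change x ^ j ⟨x, hxZ⟩ = x ^ (M : ℤ)
      rw [hj, zpow_natCast]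
    rw [h1]
    have : (0 : ℝ) < M := by exact_mod_cast hM0
    push_cast
    exact this.ne'

end Vale.Agent.P184
end
end

section

section

noncomputable section
open scoped Topology

namespace Vale.Agent.P184

/-- A length function on a group. -/
def IsLength {G : Type*} [Group G] (L : G → ℝ) : Prop :=
  L 1 = 0 ∧ (∀ g, L g⁻¹ = L g) ∧ ∀ g h, L (g * h) ≤ L g + L h

theorem IsLength.nonneg {G : Type*} [Group G] {L : G → ℝ} (hL : IsLength L) (g : G) : 0 ≤ L g := by
  have h1 := hL.2.2 g g⁻¹
  rw [mul_inv_cancel, hL.1, hL.2.1] at h1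
  linarith only [h1]

/-! ### Tuples, steps, orbits -/

section Tuples

variable {G : Type*} [Group G] (x : G)

/-- closing up a tuple -/
def clo {m : ℕ} (p : Fin (m + 1) → G) : Fin (m + 2) → G := Fin.snoc p (x * p 0)

/-- the steps of a closed up tuple -/
def stp {m : ℕ} (p : Fin (m + 1) → G) (i : Fin (m + 1)) : G :=
  (clo x p i.castSucc)⁻¹ * clo x p i.succ

theorem clo_castSucc {m : ℕ} (p : Fin (m + 1) → G) (i : Fin (m + 1)) :
    clo x p i.castSucc = p i := by
  unfold clo
  exact Fin.snoc_castSucc (α := fun _ => G) (x * p 0) p i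

theorem clo_last {m : ℕ} (p : Fin (m + 1) → G) : clo x p (Fin.last (m + 1)) = x * p 0 := by
  unfold clo
  exact Fin.snoc_last (α := fun _ => G) (x * p 0) p

theorem stp_castSucc {m : ℕ} (p : Fin (m + 1) → G) (k : Fin m) :
    stp x p k.castSucc = (p k.castSucc)⁻¹ * p k.succ := by
  unfold stp
  rw [clo_castSucc, Fin.succ_castSucc, clo_castSucc]

theorem stp_last {m : ℕ} (p : Fin (m + 1) → G) :
    stp x p (Fin.last m) = (p (Fin.last m))⁻¹ * (x * p 0) := by
  unfold stp
  rw [clo_castSucc, Fin.succ_last, clo_last]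

/-- left translation of a tuple -/
def tra {n : ℕ} (h : G) (p : Fin n → G) : Fin n → G := fun i => h * p i

theorem stp_tra {m : ℕ} {h : G} (hh : Commute h x) (p : Fin (m + 1) → G) (i : Fin (m + 1)) :
    stp x (tra h p) i = stp x p i := by
  refine Fin.lastCases ?_ (fun k => ?_) i
  · rw [stp_last, stp_last]
    simp only [tra]
    have h1 : x * (h * p 0) = h * (x * p 0) := by
      rw [← mul_assoc, ← mul_assoc, hh.eq]
    rw [h1]
    group
  · rw [stp_castSucc, stp_castSucc]
    simp only [tra]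
    group

/-- orbit relation of the centralizer -/
def cset (m : ℕ) : Setoid (Fin (m + 1) → G) where
  r p p' := ∃ h : G, Commute h x ∧ p' = tra h p
  iseqv :=
    { refl := fun p => ⟨1, Commute.one_left x, by funext i; simp [tra]⟩
      symm := by
        rintro p p' ⟨h, hh, rfl⟩
        exact ⟨h⁻¹, hh.inv_left, by funext i; simp [tra]⟩
      trans := by
        rintro p p' p'' ⟨h, hh, rfl⟩ ⟨k, hk, rfl⟩
        exact ⟨k * h, hk.mul_left hh, by funext i; simp [tra, mul_assoc]⟩ }

/-- orbits of the centralizer on tuples -/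
def Orb (m : ℕ) : Type _ := Quotient (cset x m)

/-- representative -/
def Orb.rep {m : ℕ} (a : Orb x m) : Fin (m + 1) → G := Quotient.out a

theorem rep_mk {m : ℕ} (p : Fin (m + 1) → G) :
    ∃ h : G, Commute h x ∧ Orb.rep x (Quotient.mk (cset x m) p) = tra h p := by
  have h1 : (cset x m).r (Quotient.out (Quotient.mk (cset x m) p)) p := Quotient.mk_out p
  obtain ⟨h, hh, h2⟩ := (cset x m).symm h1
  exact ⟨h, hh, h2⟩

theorem mk_rep {m : ℕ} (a : Orb x m) : Quotient.mk (cset x m) (Orb.rep x a) = a :=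
  Quotient.out_eq a

/-- invariance under the centralizer -/
def CInv {n : ℕ} (F : (Fin n → G) → ℝ) : Prop := ∀ h : G, Commute h x → ∀ p, F (tra h p) = F p

theorem stp_injective {m : ℕ} : Function.Injective fun a : Orb x m => stp x (Orb.rep x a) := by
  intro a b hab
  have hab' : ∀ i, stp x (Orb.rep x a) i = stp x (Orb.rep x b) i := fun i => congrFun hab i
  set p := Orb.rep x a with hp
  set p' := Orb.rep x b with hp'
  set h := p' 0 * (p 0)⁻¹ with hh
  have h1 : ∀ i, p' i = h * p i := by
    intro i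
    refine Fin.induction ?_ (fun k ih => ?_) i
    · rw [hh]; group
    · have h2 := hab' k.castSucc
      rw [stp_castSucc, stp_castSucc, ih] at h2
      have h3 : p' k.succ = (h * p k.castSucc) * ((h * p k.castSucc)⁻¹ * p' k.succ) := by group
      rw [h3, ← h2]
      group
  have h2 := hab' (Fin.last m)
  rw [stp_last, stp_last, h1, h1] at h2
  have h3 : x * p 0 = h⁻¹ * (x * (h * p 0)) := by
    have h4 : (p (Fin.last m)) * ((p (Fin.last m))⁻¹ * (x * p 0)) =
        (p (Fin.last m)) * ((h * p (Fin.last m))⁻¹ * (x * (h * p 0))) := by rw [h2]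
    calc x * p 0 = (p (Fin.last m)) * ((p (Fin.last m))⁻¹ * (x * p 0)) := by group
      _ = _ := h4
      _ = _ := by group
  have h5 : Commute h x := by
    have h6 : x = h⁻¹ * (x * h) := by
      have : x * p 0 = h⁻¹ * (x * h) * p 0 := by rw [h3]; group
      exact mul_right_cancel this
    have h7 : h * x = h * (h⁻¹ * (x * h)) := by rw [← h6]
    change h * x = x * h
    rw [h7]; group
  rw [← mk_rep x a, ← mk_rep x b]
  exact Quotient.sound ⟨h, h5, funext h1⟩

/-- cyclic shift of a closed up tuple -/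
def shf {m : ℕ} (p : Fin (m + 1) → G) : Fin (m + 1) → G := fun i => clo x p i.succ

theorem shf_last {m : ℕ} (p : Fin (m + 1) → G) : shf x p (Fin.last m) = x * p 0 := by
  unfold shf
  rw [Fin.succ_last, clo_last]

theorem shf_castSucc {m : ℕ} (p : Fin (m + 1) → G) (k : Fin m) :
    shf x p k.castSucc = p k.succ := by
  unfold shf
  rw [Fin.succ_castSucc, clo_castSucc]

/-- the cyclic shift as a bijection -/
def shfEquiv (m : ℕ) : (Fin (m + 1) → G) ≃ (Fin (m + 1) → G) where
  toFun := shf x
  invFun p := Fin.cons (x⁻¹ * p (Fin.last m)) (fun k : Fin m => p k.castSucc)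
  left_inv p := by
    funext i
    refine Fin.cases ?_ (fun k => ?_) i
    · simp only [Fin.cons_zero, shf_last, inv_mul_cancel_left]
    · simp only [Fin.cons_succ, shf_castSucc]
  right_inv p := by
    funext i
    refine Fin.lastCases ?_ (fun k => ?_) i
    · rw [shf_last]
      simp only [Fin.cons_zero, mul_inv_cancel_left]
    · rw [shf_castSucc]
      simp only [Fin.cons_succ]

theorem shf_tra {m : ℕ} {h : G} (hh : Commute h x) (p : Fin (m + 1) → G) :
    shf x (tra h p) = tra h (shf x p) := by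
  funext i
  refine Fin.lastCases ?_ (fun k => ?_) i
  · rw [shf_last]
    simp only [tra]
    rw [shf_last, ← mul_assoc, ← mul_assoc, hh.eq]
  · rw [shf_castSucc]
    simp only [tra]
    rw [shf_castSucc]

/-- the cyclic shift on orbits -/
def shfOrb (m : ℕ) : Orb x m ≃ Orb x m :=
  Quotient.congr (shfEquiv x m) (fun p p' => by
    constructor
    · rintro ⟨h, hh, rfl⟩
      exact ⟨h, hh, shf_tra x hh p⟩
    · rintro ⟨h, hh, h2⟩
      refine ⟨h, hh, (shfEquiv x m).injective ?_⟩
      rw [h2]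
      exact (shf_tra x hh p).symm)

theorem rep_shfOrb {m : ℕ} (a : Orb x m) :
    ∃ h : G, Commute h x ∧ Orb.rep x (shfOrb x m a) = tra h (shf x (Orb.rep x a)) := by
  have h1 : shfOrb x m a = Quotient.mk (cset x m) (shf x (Orb.rep x a)) := by
    conv_lhs => rw [← mk_rep x a]
    rfl
  rw [h1]
  exact rep_mk x _

/-- adding a last vertex, on orbits -/
def addOrb (m : ℕ) : Orb x m × G ≃ Orb x (m + 1) :=
  Equiv.ofBijective
    (fun z => Quotient.mk (cset x (m + 1)) (Fin.snoc (Orb.rep x z.1) z.2 : Fin (m + 2) → G)) (by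
    constructor
    · rintro ⟨a, g⟩ ⟨b, g'⟩ hab
      obtain ⟨h, hh, h1⟩ := Quotient.exact hab
      have h2 : Orb.rep x b = tra h (Orb.rep x a) := by
        funext i
        have := congrFun h1 i.castSucc
        simpa [tra] using this
      have h3 : a = b := by
        rw [← mk_rep x a, ← mk_rep x b]
        exact Quotient.sound ⟨h, hh, h2⟩
      subst h3
      have h4 : h = 1 := by
        have := congrFun h2 0
        simpa [tra] using this
      have h5 := congrFun h1 (Fin.last (m + 1))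
      simp [tra, h4] at h5
      rw [h5]
    · intro c
      set p := Orb.rep x c with hp
      obtain ⟨h, hh, h1⟩ := rep_mk x (fun i : Fin (m + 1) => p i.castSucc)
      refine ⟨(Quotient.mk (cset x m) (fun i : Fin (m + 1) => p i.castSucc),
        h * p (Fin.last (m + 1))), ?_⟩
      rw [← mk_rep x c]
      refine Quotient.sound ⟨h⁻¹, hh.inv_left, ?_⟩
      funext i
      refine Fin.lastCases ?_ (fun k => ?_) i
      · simp [tra, ← hp]
      · simp only [tra, Fin.snoc_castSucc, h1]
        rw [← hp, inv_mul_cancel_left])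

theorem rep_addOrb {m : ℕ} (z : Orb x m × G) : ∃ h : G, Commute h x ∧
    Orb.rep x (addOrb x m z) = tra h (Fin.snoc (Orb.rep x z.1) z.2 : Fin (m + 2) → G) :=
  rep_mk x _

end Tuples

/-! ### Summability over tuples -/

theorem summable_pi {G : Type*} {A : G → ℝ} (h0 : ∀ g, 0 ≤ A g) (hA : Summable A) (n : ℕ) :
    Summable fun g : Fin n → G => ∏ i, A (g i) := by
  induction n with
  | zero => exact (hasSum_fintype _).summable
  | succ n ih =>
    have h1 := hA.mul_of_nonneg ih h0 (fun g => Finset.prod_nonneg fun i _ => h0 _)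
    rw [← (Fin.consEquiv (fun _ : Fin (n + 1) => G)).summable_iff]
    refine h1.congr fun p => ?_
    simp only [Fin.prod_univ_succ, Fin.consEquiv, Equiv.coe_fn_mk, Function.comp_apply, Fin.cons_zero, Fin.cons_succ]

/-! ### Growth -/

section Growth

variable {G : Type*} [Group G] (x : G) (L : G → ℝ)

/-- the size of a tuple relative to `x` -/
def siz {n : ℕ} (p : Fin n → G) : ℝ :=
  (∑ i, ∑ j, L ((p i)⁻¹ * p j)) + ∑ i, L ((p i)⁻¹ * x * p i)

/-- subexponential growth of a function on tuples -/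
def SubExp {n : ℕ} (F : (Fin n → G) → ℝ) : Prop :=
  ∀ ε : ℝ, 0 < ε → ∃ C : ℝ, ∀ p, |F p| ≤ C * Real.exp (ε * siz x L p)

variable {x L}

theorem siz_nonneg (hL : IsLength L) {n : ℕ} (p : Fin n → G) : 0 ≤ siz x L p :=
  add_nonneg (Finset.sum_nonneg fun _ _ => Finset.sum_nonneg fun _ _ => hL.nonneg _)
    (Finset.sum_nonneg fun _ _ => hL.nonneg _)

theorem SubExp.pos {n : ℕ} {F : (Fin n → G) → ℝ} (hF : SubExp x L F) {ε : ℝ} (hε : 0 < ε) :
    ∃ C : ℝ, 0 ≤ C ∧ ∀ p, |F p| ≤ C * Real.exp (ε * siz x L p) := by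
  obtain ⟨C, hC⟩ := hF ε hε
  refine ⟨|C|, abs_nonneg C, fun p => (hC p).trans ?_⟩
  exact mul_le_mul_of_nonneg_right (le_abs_self C) (Real.exp_pos _).le

theorem SubExp.mul {n : ℕ} {F F' : (Fin n → G) → ℝ} (hF : SubExp x L F) (hF' : SubExp x L F') :
    SubExp x L fun p => F p * F' p := by
  intro ε hε
  obtain ⟨C, hC0, hC⟩ := hF.pos (half_pos hε)
  obtain ⟨C', hC0', hC'⟩ := hF'.pos (half_pos hε)
  refine ⟨C * C', fun p => ?_⟩
  rw [abs_mul]
  refine (mul_le_mul (hC p) (hC' p) (abs_nonneg _) (by positivity)).trans (le_of_eq ?_)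
  have : ε * siz x L p = ε / 2 * siz x L p + ε / 2 * siz x L p := by ring
  rw [this, Real.exp_add]
  ring

theorem SubExp.add {n : ℕ} {F F' : (Fin n → G) → ℝ} (hF : SubExp x L F) (hF' : SubExp x L F') :
    SubExp x L fun p => F p + F' p := by
  intro ε hε
  obtain ⟨C, hC0, hC⟩ := hF.pos hε
  obtain ⟨C', hC0', hC'⟩ := hF'.pos hε
  refine ⟨C + C', fun p => (abs_add_le _ _).trans ?_⟩
  rw [add_mul]
  exact add_le_add (hC p) (hC' p)

theorem SubExp.const (hL : IsLength L) {n : ℕ} (c : ℝ) : SubExp x L fun _ : Fin n → G => c := by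
  intro ε hε
  refine ⟨|c|, fun p => ?_⟩
  refine le_mul_of_one_le_right (abs_nonneg c) (Real.one_le_exp ?_)
  exact mul_nonneg hε.le (siz_nonneg hL p)

theorem SubExp.smul (hL : IsLength L) {n : ℕ} (c : ℝ) {F : (Fin n → G) → ℝ} (hF : SubExp x L F) :
    SubExp x L fun p => c * F p := (SubExp.const hL c).mul hF

theorem siz_comp (hL : IsLength L) {n m : ℕ} (f : Fin n → Fin m) (p : Fin m → G) :
    siz x L (fun i => p (f i)) ≤ (n * n + n) * siz x L p := by
  have h1 : ∀ i j, L ((p i)⁻¹ * p j) ≤ siz x L p := by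
    intro i j
    have h2 : L ((p i)⁻¹ * p j) ≤ ∑ j, L ((p i)⁻¹ * p j) :=
      Finset.single_le_sum (f := fun j => L ((p i)⁻¹ * p j)) (fun _ _ => hL.nonneg _)
        (Finset.mem_univ j)
    have h3 : ∑ j, L ((p i)⁻¹ * p j) ≤ ∑ i, ∑ j, L ((p i)⁻¹ * p j) :=
      Finset.single_le_sum (f := fun i => ∑ j, L ((p i)⁻¹ * p j))
        (fun _ _ => Finset.sum_nonneg fun _ _ => hL.nonneg _) (Finset.mem_univ i)
    have h4 : 0 ≤ ∑ i, L ((p i)⁻¹ * x * p i) := Finset.sum_nonneg fun _ _ => hL.nonneg _
    unfold siz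
    linarith only [h2, h3, h4]
  have h1' : ∀ i, L ((p i)⁻¹ * x * p i) ≤ siz x L p := by
    intro i
    have h2 : L ((p i)⁻¹ * x * p i) ≤ ∑ i, L ((p i)⁻¹ * x * p i) :=
      Finset.single_le_sum (f := fun i => L ((p i)⁻¹ * x * p i)) (fun _ _ => hL.nonneg _)
        (Finset.mem_univ i)
    have h4 : 0 ≤ ∑ i, ∑ j, L ((p i)⁻¹ * p j) :=
      Finset.sum_nonneg fun _ _ => Finset.sum_nonneg fun _ _ => hL.nonneg _
    unfold siz
    linarith
  have h5 : ∑ i : Fin n, ∑ j : Fin n, L ((p (f i))⁻¹ * p (f j)) ≤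
      ∑ i : Fin n, ∑ j : Fin n, siz x L p :=
    Finset.sum_le_sum fun i _ => Finset.sum_le_sum fun j _ => h1 _ _
  have h6 : ∑ i : Fin n, L ((p (f i))⁻¹ * x * p (f i)) ≤ ∑ i : Fin n, siz x L p :=
    Finset.sum_le_sum fun i _ => h1' _
  simp only [Finset.sum_const, Finset.card_univ, Fintype.card_fin, nsmul_eq_mul] at h5 h6
  have h7 : siz x L (fun i => p (f i)) = ∑ i : Fin n, ∑ j : Fin n, L ((p (f i))⁻¹ * p (f j)) +
      ∑ i : Fin n, L ((p (f i))⁻¹ * x * p (f i)) := rfl
  rw [h7]
  linarith only [h6, h5]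

theorem SubExp.comp (hL : IsLength L) {n m : ℕ} {F : (Fin n → G) → ℝ} (hF : SubExp x L F)
    (f : Fin n → Fin m) : SubExp x L fun p : Fin m → G => F fun i => p (f i) := by
  intro ε hε
  have hk : (0 : ℝ) < n * n + n + 1 := by (clear * -; positivity)
  obtain ⟨C, hC0, hC⟩ := hF.pos (div_pos hε hk)
  refine ⟨C, fun p => (hC _).trans ?_⟩
  refine mul_le_mul_of_nonneg_left (Real.exp_le_exp.mpr ?_) hC0
  have h1 := siz_comp (x := x) hL f p
  have h2 := siz_nonneg (x := x) hL p
  have h3 : (n * n + n) * siz x L p ≤ (n * n + n + 1) * siz x L p := by linarith only [h2]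
  calc ε / (n * n + n + 1) * siz x L (fun i => p (f i))
      ≤ ε / (n * n + n + 1) * ((n * n + n + 1) * siz x L p) :=
        mul_le_mul_of_nonneg_left (h1.trans h3) (div_pos hε hk).le
    _ = ε * siz x L p := by (clear * - hε; field_simp)

theorem CInv.mul {n : ℕ} {F F' : (Fin n → G) → ℝ} (hF : CInv x F) (hF' : CInv x F') :
    CInv x fun p => F p * F' p := fun h hh p => by
  show F (tra h p) * F' (tra h p) = _
  rw [hF h hh, hF' h hh]

theorem CInv.add {n : ℕ} {F F' : (Fin n → G) → ℝ} (hF : CInv x F) (hF' : CInv x F') :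
    CInv x fun p => F p + F' p := fun h hh p => by
  show F (tra h p) + F' (tra h p) = _
  rw [hF h hh, hF' h hh]

theorem CInv.const {n : ℕ} (c : ℝ) : CInv x fun _ : Fin n → G => c := fun _ _ _ => rfl

theorem CInv.comp {n m : ℕ} {F : (Fin n → G) → ℝ} (hF : CInv x F)
    (f : Fin n → Fin m) : CInv x fun p : Fin m → G => F fun i => p (f i) :=
  fun h hh p => hF h hh (fun i => p (f i))

/-- the size is controlled by the steps -/
theorem siz_le_stp (hL : IsLength L) {m : ℕ} (p : Fin (m + 1) → G) :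
    siz x L p ≤ (2 * (m + 1) * (m + 1) + 4 * (m + 1)) * ∑ i, L (stp x p i) := by
  set S := ∑ i, L (stp x p i) with hS
  have hS0 : 0 ≤ S := Finset.sum_nonneg fun _ _ => hL.nonneg _
  -- distances from the first vertex
  have h0 : ∀ i : Fin (m + 1), L ((p 0)⁻¹ * p i) ≤
      ∑ k ∈ Finset.univ.filter (fun k : Fin (m + 1) => k < i), L (stp x p k) := by
    intro i
    refine Fin.induction ?_ (fun k ih => ?_) i
    · rw [inv_mul_cancel, hL.1]
      exact Finset.sum_nonneg fun _ _ => hL.nonneg _
    · have h1 : (p 0)⁻¹ * p k.succ = ((p 0)⁻¹ * p k.castSucc) * stp x p k.castSucc := by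
        rw [stp_castSucc]; group
      have h2 : Finset.univ.filter (fun l : Fin (m + 1) => l < k.succ) =
          insert k.castSucc (Finset.univ.filter (fun l : Fin (m + 1) => l < k.castSucc)) := by
        ext l
        simp only [Finset.mem_filter, Finset.mem_univ, true_and, Finset.mem_insert]
        rw [Fin.lt_def, Fin.lt_def, Fin.ext_iff]
        simp only [Fin.val_succ, Fin.val_castSucc]
        omega
      rw [h1, h2, Finset.sum_insert (by simp)]
      refine (hL.2.2 _ _).trans ?_
      linarith only [ih]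
  have h1 : ∀ i : Fin (m + 1), L ((p 0)⁻¹ * p i) ≤ S := fun i => (h0 i).trans
    (Finset.sum_le_sum_of_subset_of_nonneg (Finset.filter_subset _ _) fun _ _ _ => hL.nonneg _)
  have h1' : ∀ i : Fin (m + 1), L ((p i)⁻¹ * p 0) ≤ S := by
    intro i
    have : (p i)⁻¹ * p 0 = ((p 0)⁻¹ * p i)⁻¹ := by group
    rw [this, hL.2.1]
    exact h1 i
  have h2 : ∀ i j : Fin (m + 1), L ((p i)⁻¹ * p j) ≤ 2 * S := by
    intro i j
    have : (p i)⁻¹ * p j = ((p i)⁻¹ * p 0) * ((p 0)⁻¹ * p j) := by group
    rw [this]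
    refine (hL.2.2 _ _).trans ?_
    linarith only [h1' i, h1 j]
  have h3 : L (stp x p (Fin.last m)) ≤ S :=
    Finset.single_le_sum (f := fun i => L (stp x p i)) (fun _ _ => hL.nonneg _)
      (Finset.mem_univ _)
  have h4 : ∀ i : Fin (m + 1), L ((p i)⁻¹ * x * p i) ≤ 4 * S := by
    intro i
    have : (p i)⁻¹ * x * p i =
        ((p i)⁻¹ * p (Fin.last m)) * (stp x p (Fin.last m) * ((p 0)⁻¹ * p i)) := by
      rw [stp_last]; group
    rw [this]
    have h5 := hL.2.2 ((p i)⁻¹ * p (Fin.last m)) (stp x p (Fin.last m) * ((p 0)⁻¹ * p i))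
    have h6 := hL.2.2 (stp x p (Fin.last m)) ((p 0)⁻¹ * p i)
    linarith only [h3, h5, h6, h1 i, h2 i (Fin.last m)]
  have h5 : ∑ i : Fin (m + 1), ∑ j : Fin (m + 1), L ((p i)⁻¹ * p j) ≤
      ∑ i : Fin (m + 1), ∑ j : Fin (m + 1), 2 * S :=
    Finset.sum_le_sum fun i _ => Finset.sum_le_sum fun j _ => h2 _ _
  have h6 : ∑ i : Fin (m + 1), L ((p i)⁻¹ * x * p i) ≤ ∑ i : Fin (m + 1), 4 * S :=
    Finset.sum_le_sum fun i _ => h4 _
  simp only [Finset.sum_const, Finset.card_univ, Fintype.card_fin, nsmul_eq_mul] at h5 h6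
  push_cast at h5 h6
  unfold siz
  linarith only [h5, h6]

end Growth

end Vale.Agent.P184
end
end
end

section

section

noncomputable section
open scoped Topology

namespace Vale.Agent.P184

section Functional

variable {G : Type*} [Group G] {D : Type*} [NormedRing D] [NormedAlgebra ℂ D]
  (x : G) (tr : D →L[ℂ] ℂ) (E : G → D)

/-- weight of a tuple -/
def wgt {m : ℕ} (p : Fin (m + 1) → G) : ℂ := tr (List.ofFn fun i => E (stp x p i)).prod

/-- evaluation of an invariant function on tuples -/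
def pair {m : ℕ} (F : (Fin (m + 1) → G) → ℝ) : ℂ :=
  ∑' a : Orb x m, (F (Orb.rep x a) : ℂ) * wgt x tr E (Orb.rep x a)

theorem wgt_tra {m : ℕ} {h : G} (hh : Commute h x) (p : Fin (m + 1) → G) :
    wgt x tr E (tra h p) = wgt x tr E p := by
  unfold wgt
  congr 3
  funext i
  rw [stp_tra x hh]

theorem stp_shf_last {m : ℕ} (p : Fin (m + 1) → G) :
    stp x (shf x p) (Fin.last m) = stp x p 0 := by
  rw [stp_last, shf_last]
  have h1 : stp x p 0 = (p 0)⁻¹ * clo x p (Fin.succ 0) := by
    unfold stp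
    rw [clo_castSucc]
  have h2 : shf x p 0 = clo x p (Fin.succ 0) := rfl
  rw [h1, h2]
  group

theorem stp_shf_castSucc {m : ℕ} (p : Fin (m + 1) → G) (k : Fin m) :
    stp x (shf x p) k.castSucc = stp x p k.succ := by
  rw [stp_castSucc, shf_castSucc]
  unfold stp
  rw [clo_castSucc]
  rfl

theorem wgt_shf (htr : ∀ a b, tr (a * b) = tr (b * a)) {m : ℕ} (p : Fin (m + 1) → G) :
    wgt x tr E (shf x p) = wgt x tr E p := by
  unfold wgt
  rw [List.ofFn_succ' (fun i => E (stp x (shf x p) i)),
    List.ofFn_succ (f := fun i => E (stp x p i)),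
    List.concat_eq_append, List.prod_append, List.prod_singleton, htr,
    stp_shf_last, List.prod_cons]
  congr 4
  funext k
  rw [stp_shf_castSucc]

theorem stp_snoc_castSucc {m : ℕ} (p : Fin (m + 1) → G) (g : G) (k : Fin m) :
    stp x (Fin.snoc p g : Fin (m + 2) → G) k.castSucc.castSucc = stp x p k.castSucc := by
  rw [stp_castSucc, stp_castSucc, Fin.succ_castSucc, Fin.snoc_castSucc, Fin.snoc_castSucc]

theorem stp_snoc_mid {m : ℕ} (p : Fin (m + 1) → G) (g : G) :
    stp x (Fin.snoc p g : Fin (m + 2) → G) (Fin.last m).castSucc = (p (Fin.last m))⁻¹ * g := by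
  rw [stp_castSucc, Fin.succ_last, Fin.snoc_castSucc, Fin.snoc_last]

theorem stp_snoc_last {m : ℕ} (p : Fin (m + 1) → G) (g : G) :
    stp x (Fin.snoc p g : Fin (m + 2) → G) (Fin.last (m + 1)) = g⁻¹ * (x * p 0) := by
  rw [stp_last, Fin.snoc_last]
  have : (Fin.snoc p g : Fin (m + 2) → G) 0 = p 0 := by
    have h1 : (0 : Fin (m + 2)) = Fin.castSucc 0 := rfl
    rw [h1, Fin.snoc_castSucc]
  rw [this]

theorem wgt_snoc {m : ℕ} (p : Fin (m + 1) → G) (g : G) :
    wgt x tr E (Fin.snoc p g : Fin (m + 2) → G) =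
      tr ((List.ofFn fun k : Fin m => E (stp x p k.castSucc)).prod *
        (E ((p (Fin.last m))⁻¹ * g) * E (g⁻¹ * (x * p 0)))) := by
  unfold wgt
  rw [List.ofFn_succ' , List.ofFn_succ', List.concat_eq_append, List.concat_eq_append,
    List.prod_append, List.prod_append, List.prod_singleton, List.prod_singleton, mul_assoc,
    stp_snoc_mid, stp_snoc_last]
  congr 4
  funext k
  rw [stp_snoc_castSucc]

theorem wgt_last {m : ℕ} (p : Fin (m + 1) → G) :
    wgt x tr E p = tr ((List.ofFn fun k : Fin m => E (stp x p k.castSucc)).prod *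
        E ((p (Fin.last m))⁻¹ * (x * p 0))) := by
  unfold wgt
  rw [List.ofFn_succ', List.concat_eq_append, List.prod_append, List.prod_singleton, stp_last]

variable [CompleteSpace D]

theorem tsum_wgt_snoc (hs : Summable fun g => ‖E g‖) (hE : ∀ k, ∑' h, E h * E (h⁻¹ * k) = E k)
    {m : ℕ} (p : Fin (m + 1) → G) :
    ∑' g, wgt x tr E (Fin.snoc p g : Fin (m + 2) → G) = wgt x tr E p := by
  have h1 : Summable fun h => E h * E (h⁻¹ * ((p (Fin.last m))⁻¹ * (x * p 0))) := by
    refine Summable.of_norm_bounded (hs.mul_right (∑' g, ‖E g‖)) fun h => ?_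
    refine (norm_mul_le _ _).trans (mul_le_mul_of_nonneg_left ?_ (norm_nonneg _))
    exact hs.le_tsum _ fun _ _ => norm_nonneg _
  have h2 := (Equiv.mulLeft ((p (Fin.last m))⁻¹)).summable_iff.2 h1
  have h3 := (Equiv.mulLeft ((p (Fin.last m))⁻¹)).tsum_eq
    (fun h => E h * E (h⁻¹ * ((p (Fin.last m))⁻¹ * (x * p 0))))
  rw [hE] at h3
  have h4 : ∀ g, E ((p (Fin.last m))⁻¹ * g) * E (g⁻¹ * (x * p 0)) =
      E ((Equiv.mulLeft (p (Fin.last m))⁻¹) g) *
        E (((Equiv.mulLeft (p (Fin.last m))⁻¹) g)⁻¹ * ((p (Fin.last m))⁻¹ * (x * p 0))) := by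
    intro g
    congr 2
    simp only [Equiv.coe_mulLeft]
    group
  rw [wgt_last, ← h3]
  have h5 : ∀ g, wgt x tr E (Fin.snoc p g : Fin (m + 2) → G) =
      (tr.comp (ContinuousLinearMap.mul ℂ D
        (List.ofFn fun k : Fin m => E (stp x p k.castSucc)).prod))
        (E ((Equiv.mulLeft (p (Fin.last m))⁻¹) g) *
        E (((Equiv.mulLeft (p (Fin.last m))⁻¹) g)⁻¹ * ((p (Fin.last m))⁻¹ * (x * p 0)))) := by
    intro g
    rw [wgt_snoc, h4]
    rfl
  rw [tsum_congr h5]
  exact (ContinuousLinearMap.map_tsum _ h2).symm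

end Functional

/-! ### The functional for a function with exponential decay -/

section Decayed

variable {G : Type*} [Group G] {D : Type*} [NormedRing D] [NormedAlgebra ℂ D]

theorem norm_wgt_le (x : G) (tr : D →L[ℂ] ℂ) (E : G → D) {m : ℕ} (p : Fin (m + 1) → G) :
    ‖wgt x tr E p‖ ≤ ‖tr‖ * ∏ i, ‖E (stp x p i)‖ := by
  unfold wgt
  refine (tr.le_opNorm _).trans (mul_le_mul_of_nonneg_left ?_ (norm_nonneg _))
  refine (List.norm_prod_le' ?_).trans (le_of_eq ?_)
  · intro h
    have := congrArg List.length h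
    simp only [List.ofFn_succ, List.length_cons, List.length_ofFn, List.length_nil, Nat.add_eq_zero_iff, one_ne_zero, and_false] at this
  · rw [List.map_ofFn, List.prod_ofFn]
    rfl

/-- Data: an idempotent function with exponential decay, and a trace. -/
structure DData (G : Type*) [Group G] (D : Type*) [NormedRing D] [NormedAlgebra ℂ D] where
  x : G
  tr : D →L[ℂ] ℂ
  E : G → D
  L : G → ℝ
  eps : ℝ
  htr : ∀ a b, tr (a * b) = tr (b * a)
  hE : ∀ k, ∑' h, E h * E (h⁻¹ * k) = E k
  hL : IsLength L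
  heps : 0 < eps
  hdec : Summable fun g => ‖E g‖ * Real.exp (eps * L g)

namespace DData

variable (A : DData G D)

theorem hs : Summable fun g => ‖A.E g‖ := by
  refine Summable.of_nonneg_of_le (fun _ => norm_nonneg _) (fun g => ?_) A.hdec
  refine le_mul_of_one_le_right (norm_nonneg _) (Real.one_le_exp ?_)
  exact mul_nonneg A.heps.le (A.hL.nonneg g)

/-- the functional -/
def pr {m : ℕ} (F : (Fin (m + 1) → G) → ℝ) : ℂ := pair A.x A.tr A.E F

/-- admissible functions: invariant under the centralizer and of subexponential growth -/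
structure Good {n : ℕ} (F : (Fin n → G) → ℝ) : Prop where
  inv : CInv A.x F
  sub : SubExp A.x A.L F

variable {A}

theorem Good.mul {n : ℕ} {F F' : (Fin n → G) → ℝ} (hF : A.Good F) (hF' : A.Good F') :
    A.Good fun p => F p * F' p := ⟨hF.inv.mul hF'.inv, hF.sub.mul hF'.sub⟩

theorem Good.add {n : ℕ} {F F' : (Fin n → G) → ℝ} (hF : A.Good F) (hF' : A.Good F') :
    A.Good fun p => F p + F' p := ⟨hF.inv.add hF'.inv, hF.sub.add hF'.sub⟩

theorem Good.const {n : ℕ} (c : ℝ) : A.Good fun _ : Fin n → G => c :=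
  ⟨CInv.const c, SubExp.const A.hL c⟩

theorem Good.smul {n : ℕ} (c : ℝ) {F : (Fin n → G) → ℝ} (hF : A.Good F) :
    A.Good fun p => c * F p := (Good.const c).mul hF

theorem Good.sum {n : ℕ} {ι : Type*} (S : Finset ι) {F : ι → (Fin n → G) → ℝ}
    (hF : ∀ i, A.Good (F i)) : A.Good fun p => ∑ i ∈ S, F i p := by
  classical
  induction S using Finset.induction_on with
  | empty => simpa using (Good.const (A := A) (n := n) 0)
  | insert a S ha ih =>
    simp only [Finset.sum_insert ha]
    exact (hF a).add ih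

theorem Good.comp {n m : ℕ} {F : (Fin n → G) → ℝ} (hF : A.Good F) (f : Fin n → Fin m) :
    A.Good fun p : Fin m → G => F fun i => p (f i) := ⟨hF.inv.comp f, hF.sub.comp A.hL f⟩

theorem Good.summable {m : ℕ} {F : (Fin (m + 1) → G) → ℝ} (hF : A.Good F) :
    Summable fun a : Orb A.x m =>
      (F (Orb.rep A.x a) : ℂ) * wgt A.x A.tr A.E (Orb.rep A.x a) := by
  set K : ℝ := 2 * (m + 1) * (m + 1) + 4 * (m + 1) with hK
  have hK0 : 0 < K := by (clear * -; (clear * -; positivity))
  obtain ⟨C, hC0, hC⟩ := hF.sub.pos (div_pos A.heps hK0)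
  set B : G → ℝ := fun g => ‖A.E g‖ * Real.exp (A.eps * A.L g) with hB
  have h1 := summable_pi (A := B) (fun g => by (clear * -; positivity)) A.hdec (m + 1)
  have h2 : Summable fun a : Orb A.x m => ∏ i, B (stp A.x (Orb.rep A.x a) i) :=
    h1.comp_injective (stp_injective A.x)
  refine Summable.of_norm_bounded (h2.mul_left (C * ‖A.tr‖)) fun a => ?_
  set p := Orb.rep A.x a with hp
  rw [norm_mul, Complex.norm_real, Real.norm_eq_abs]
  have h3 := siz_le_stp (x := A.x) A.hL p
  have h4 : |F p| ≤ C * ∏ i, Real.exp (A.eps * A.L (stp A.x p i)) := by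
    refine (hC p).trans (mul_le_mul_of_nonneg_left ?_ hC0)
    rw [← Real.exp_sum, Real.exp_le_exp, ← Finset.mul_sum]
    calc A.eps / K * siz A.x A.L p ≤ A.eps / K * (K * ∑ i, A.L (stp A.x p i)) :=
          mul_le_mul_of_nonneg_left h3 (div_pos A.heps hK0).le
      _ = A.eps * ∑ i, A.L (stp A.x p i) := by (clear * - hK0; field_simp)
  have h5 := norm_wgt_le A.x A.tr A.E p
  calc |F p| * ‖wgt A.x A.tr A.E p‖
      ≤ (C * ∏ i, Real.exp (A.eps * A.L (stp A.x p i))) *
        (‖A.tr‖ * ∏ i, ‖A.E (stp A.x p i)‖) := by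
        refine mul_le_mul h4 h5 (norm_nonneg _) ?_
        exact mul_nonneg hC0 (Finset.prod_nonneg fun _ _ => (Real.exp_pos _).le)
    _ = C * ‖A.tr‖ * ∏ i, B (stp A.x p i) := by
        simp only [hB, Finset.prod_mul_distrib]
        ring

theorem pr_add {m : ℕ} {F F' : (Fin (m + 1) → G) → ℝ} (hF : A.Good F) (hF' : A.Good F') :
    A.pr (fun p => F p + F' p) = A.pr F + A.pr F' := by
  unfold pr pair
  rw [← hF.summable.tsum_add hF'.summable]
  refine tsum_congr fun a => ?_
  push_cast; ring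

theorem pr_smul {m : ℕ} (c : ℝ) {F : (Fin (m + 1) → G) → ℝ} :
    A.pr (fun p => c * F p) = c * A.pr F := by
  unfold pr pair
  rw [← tsum_mul_left]
  refine tsum_congr fun a => ?_
  push_cast; ring

theorem pr_zero {m : ℕ} : A.pr (fun _ : Fin (m + 1) → G => 0) = 0 := by
  have := pr_smul (A := A) (m := m) 0 (F := fun _ => 0)
  simpa using this

theorem pr_sum {m : ℕ} {ι : Type*} (S : Finset ι) {F : ι → (Fin (m + 1) → G) → ℝ}
    (hF : ∀ i, A.Good (F i)) : A.pr (fun p => ∑ i ∈ S, F i p) = ∑ i ∈ S, A.pr (F i) := by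
  classical
  induction S using Finset.induction_on with
  | empty => simpa only [Finset.sum_empty] using (pr_zero (A := A) (m := m))
  | insert a S ha ih =>
    simp only [Finset.sum_insert ha]
    rw [pr_add (hF a) (Good.sum S hF), ih]

/-- invariance under the cyclic shift -/
theorem pr_shf {m : ℕ} {F : (Fin (m + 1) → G) → ℝ} (hF : CInv A.x F) :
    A.pr (fun p => F (shf A.x p)) = A.pr F := by
  unfold pr pair
  rw [← (shfOrb A.x m).tsum_eq (fun a => (F (Orb.rep A.x a) : ℂ) *
    wgt A.x A.tr A.E (Orb.rep A.x a))]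
  refine tsum_congr fun a => ?_
  obtain ⟨h, hh, h1⟩ := rep_shfOrb A.x a
  rw [h1, hF h hh, wgt_tra A.x A.tr A.E hh, wgt_shf A.x A.tr A.E A.htr]

/-- deletion of the last vertex -/
theorem pr_castSucc [CompleteSpace D] {m : ℕ} {F : (Fin (m + 1) → G) → ℝ} (hF : A.Good F) :
    A.pr (fun p : Fin (m + 2) → G => F fun i => p i.castSucc) = A.pr F := by
  have h0 := (hF.comp (Fin.castSucc : Fin (m + 1) → Fin (m + 2))).summable
  have h1 : ∀ z : Orb A.x m × G,
      ((F fun i => Orb.rep A.x (addOrb A.x m z) i.castSucc : ℝ) : ℂ) *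
        wgt A.x A.tr A.E (Orb.rep A.x (addOrb A.x m z)) =
      (F (Orb.rep A.x z.1) : ℂ) *
        wgt A.x A.tr A.E (Fin.snoc (Orb.rep A.x z.1) z.2 : Fin (m + 2) → G) := by
    intro z
    obtain ⟨h, hh, h1⟩ := rep_addOrb A.x z
    rw [h1, wgt_tra A.x A.tr A.E hh]
    congr 2
    have h2 : (fun i : Fin (m + 1) => tra h (Fin.snoc (Orb.rep A.x z.1) z.2 : Fin (m + 2) → G)
        i.castSucc) = tra h (Orb.rep A.x z.1) := by
      funext i
      simp only [tra, Fin.snoc_castSucc]
    rw [h2, hF.inv h hh]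
  have h2 := (addOrb A.x m).summable_iff.2 h0
  have h3 : Summable fun z : Orb A.x m × G => (F (Orb.rep A.x z.1) : ℂ) *
        wgt A.x A.tr A.E (Fin.snoc (Orb.rep A.x z.1) z.2 : Fin (m + 2) → G) :=
    h2.congr h1
  unfold pr pair
  rw [← (addOrb A.x m).tsum_eq (fun a => ((F fun i => Orb.rep A.x a i.castSucc : ℝ) : ℂ) *
    wgt A.x A.tr A.E (Orb.rep A.x a)), tsum_congr h1, h3.tsum_prod]
  refine tsum_congr fun a => ?_
  have h4 := tsum_wgt_snoc A.x A.tr A.E A.hs A.hE (Orb.rep A.x a)
  rw [← h4, ← tsum_mul_left]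

/-- value on the constant function -/
theorem pr_one : A.pr (fun _ : Fin 1 → G => 1) = ∑' g : {g // IsConj A.x g}, A.tr (A.E g) := by
  let f : Orb A.x 0 → {g // IsConj A.x g} := fun a =>
    ⟨stp A.x (Orb.rep A.x a) (Fin.last 0), by
      rw [stp_last, isConj_iff]
      refine ⟨(Orb.rep A.x a 0)⁻¹, ?_⟩
      have : (Fin.last 0) = 0 := rfl
      rw [this]; group⟩
  have hf : Function.Bijective f := by
    constructor
    · intro a b hab
      refine stp_injective A.x ?_
      funext i
      have h1 : i = Fin.last 0 := Fin.eq_last_of_not_lt (by simp)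
      rw [h1]
      exact congrArg Subtype.val hab
    · rintro ⟨g, hg⟩
      obtain ⟨c, hc⟩ := isConj_iff.1 hg
      refine ⟨Quotient.mk (cset A.x 0) (fun _ => c⁻¹), ?_⟩
      apply Subtype.ext
      obtain ⟨h, hh, h1⟩ := rep_mk A.x (fun _ : Fin 1 => c⁻¹)
      change stp A.x (Orb.rep A.x _) (Fin.last 0) = g
      rw [h1, stp_tra A.x hh, stp_last, ← hc]
      group
  unfold pr pair
  rw [← (Equiv.ofBijective f hf).tsum_eq (fun g : {g // IsConj A.x g} => A.tr (A.E g))]
  refine tsum_congr fun a => ?_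
  rw [Complex.ofReal_one, one_mul]
  unfold wgt
  have h1 : (List.ofFn fun i => A.E (stp A.x (Orb.rep A.x a) i)) =
      [A.E (stp A.x (Orb.rep A.x a) (Fin.last 0))] := by
    rw [List.ofFn_succ']
    simp
  rw [h1, List.prod_singleton]
  rfl

end DData

end Decayed

end Vale.Agent.P184
end
end
end

section

section

noncomputable section
open scoped Topology

namespace Vale.Agent.P184

open Equiv (Perm)

section Combinatorics

/-- permutations of `n + 1` points, decomposed by the image of the first point -/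
def permDec (n : ℕ) : Fin (n + 1) × Perm (Fin n) ≃ Perm (Fin (n + 1)) :=
  Equiv.ofBijective
    (fun z => z.1.cycleRange.symm * Equiv.Perm.decomposeFin.symm (0, z.2)) (by
    have hinj : Function.Injective (fun z : Fin (n + 1) × Perm (Fin n) =>
        z.1.cycleRange.symm * Equiv.Perm.decomposeFin.symm (0, z.2)) := by
      rintro ⟨j, τ⟩ ⟨j', τ'⟩ h
      have h0 := congrArg (fun σ : Perm (Fin (n + 1)) => σ 0) h
      simp only [Equiv.Perm.mul_apply, Equiv.Perm.decomposeFin_symm_apply_zero,
        Fin.cycleRange_symm_zero] at h0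
      subst h0
      have h1 := mul_left_cancel h
      have h2 := Equiv.Perm.decomposeFin.symm.injective h1
      exact Prod.ext rfl (Prod.ext_iff.mp h2).2
    refine (Fintype.bijective_iff_injective_and_card _).2 ⟨hinj, ?_⟩
    rw [Fintype.card_prod, Fintype.card_perm, Fintype.card_perm, Fintype.card_fin,
      Fintype.card_fin, Nat.factorial_succ])

theorem permDec_zero {n : ℕ} (j : Fin (n + 1)) (τ : Perm (Fin n)) : permDec n (j, τ) 0 = j := by
  change (j.cycleRange.symm * Equiv.Perm.decomposeFin.symm (0, τ)) 0 = j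
  rw [Equiv.Perm.mul_apply, Equiv.Perm.decomposeFin_symm_apply_zero, Fin.cycleRange_symm_zero]

theorem permDec_succ {n : ℕ} (j : Fin (n + 1)) (τ : Perm (Fin n)) (i : Fin n) :
    permDec n (j, τ) i.succ = j.succAbove (τ i) := by
  change (j.cycleRange.symm * Equiv.Perm.decomposeFin.symm (0, τ)) i.succ = _
  rw [Equiv.Perm.mul_apply, Equiv.Perm.decomposeFin_symm_apply_succ, Equiv.swap_self,
    Equiv.refl_apply, Fin.cycleRange_symm_succ]

theorem permDec_sign {n : ℕ} (j : Fin (n + 1)) (τ : Perm (Fin n)) :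
    (Equiv.Perm.sign (permDec n (j, τ)) : ℤ) = (-1) ^ (j : ℕ) * (Equiv.Perm.sign τ : ℤ) := by
  change ((Equiv.Perm.sign (j.cycleRange.symm * Equiv.Perm.decomposeFin.symm (0, τ)) : ℤˣ) : ℤ) = _
  rw [Equiv.Perm.sign_mul, Equiv.Perm.decomposeFin.symm_sign, if_pos rfl, one_mul]
  have h1 : Equiv.Perm.sign (j.cycleRange.symm) = Equiv.Perm.sign j.cycleRange :=
    Equiv.Perm.sign_inv j.cycleRange
  rw [h1, Fin.sign_cycleRange]
  push_cast
  rfl

end Combinatorics

/-- invariance under multiplication of the single entries by powers of `x` -/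
def XInv {G : Type*} [Group G] (x : G) {n : ℕ} (F : (Fin n → G) → ℝ) : Prop :=
  ∀ (k : Fin n → ℤ) (p : Fin n → G), F (fun i => x ^ k i * p i) = F p

theorem XInv.comp {G : Type*} [Group G] {x : G} {n m : ℕ} {F : (Fin n → G) → ℝ} (hF : XInv x F)
    (f : Fin n → Fin m) : XInv x fun p : Fin m → G => F fun i => p (f i) :=
  fun k p => hF (fun i => k (f i)) fun i => p (f i)

theorem XInv.mul {G : Type*} [Group G] {x : G} {n : ℕ} {F F' : (Fin n → G) → ℝ} (hF : XInv x F)
    (hF' : XInv x F') : XInv x fun p => F p * F' p := fun k p => by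
  show F (fun i => x ^ k i * p i) * F' (fun i => x ^ k i * p i) = _
  rw [hF, hF']

theorem shf_eq {G : Type*} [Group G] (x : G) {m : ℕ} (p : Fin (m + 1) → G) :
    shf x p = fun i => x ^ (if i = Fin.last m then (1 : ℤ) else 0) * p (finRotate (m + 1) i) := by
  funext i
  refine Fin.lastCases ?_ (fun k => ?_) i
  · rw [shf_last, if_pos rfl, zpow_one, finRotate_last]
  · rw [shf_castSucc, if_neg (Fin.castSucc_lt_last k).ne, zpow_zero, one_mul]
    congr 1
    apply Fin.ext
    rw [coe_finRotate_of_ne_last (Fin.castSucc_lt_last k).ne]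
    simp

namespace DData

variable {G : Type*} [Group G] {D : Type*} [NormedRing D] [NormedAlgebra ℂ D] {A : DData G D}

theorem siz_shf {x : G} {L : G → ℝ} (hL : IsLength L) {m : ℕ} (p : Fin (m + 1) → G) :
    siz x L (shf x p) ≤ (2 * (m + 1) * (m + 1) + 2 * (m + 1)) * siz x L p := by
  have h1 : ∀ i j, L ((p i)⁻¹ * p j) ≤ siz x L p := by
    intro i j
    have h2 : L ((p i)⁻¹ * p j) ≤ ∑ j, L ((p i)⁻¹ * p j) :=
      Finset.single_le_sum (f := fun j => L ((p i)⁻¹ * p j)) (fun _ _ => hL.nonneg _)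
        (Finset.mem_univ j)
    have h3 : ∑ j, L ((p i)⁻¹ * p j) ≤ ∑ i, ∑ j, L ((p i)⁻¹ * p j) :=
      Finset.single_le_sum (f := fun i => ∑ j, L ((p i)⁻¹ * p j))
        (fun _ _ => Finset.sum_nonneg fun _ _ => hL.nonneg _) (Finset.mem_univ i)
    have h4 : 0 ≤ ∑ i, L ((p i)⁻¹ * x * p i) := Finset.sum_nonneg fun _ _ => hL.nonneg _
    unfold siz
    linarith only [h2, h3, h4]
  have h1' : ∀ i, L ((p i)⁻¹ * x * p i) ≤ siz x L p := by
    intro i
    have h2 : L ((p i)⁻¹ * x * p i) ≤ ∑ i, L ((p i)⁻¹ * x * p i) :=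
      Finset.single_le_sum (f := fun i => L ((p i)⁻¹ * x * p i)) (fun _ _ => hL.nonneg _)
        (Finset.mem_univ i)
    have h4 : 0 ≤ ∑ i, ∑ j, L ((p i)⁻¹ * p j) :=
      Finset.sum_nonneg fun _ _ => Finset.sum_nonneg fun _ _ => hL.nonneg _
    unfold siz
    linarith only [h2, h4]
  have h0 := siz_nonneg (x := x) hL p
  -- steps between shifted vertices
  have h2 : ∀ i j, L ((shf x p i)⁻¹ * shf x p j) ≤ 2 * siz x L p := by
    intro i j
    refine Fin.lastCases ?_ (fun k => ?_) i
    · refine Fin.lastCases ?_ (fun l => ?_) j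
      · rw [inv_mul_cancel, hL.1]; linarith only [h0]
      · rw [shf_last, shf_castSucc]
        have : (x * p 0)⁻¹ * p l.succ = ((p 0)⁻¹ * x * p 0)⁻¹ * ((p 0)⁻¹ * p l.succ) := by group
        rw [this]
        have h3 := hL.2.2 ((p 0)⁻¹ * x * p 0)⁻¹ ((p 0)⁻¹ * p l.succ)
        rw [hL.2.1] at h3
        linarith only [h1 0 l.succ, h1' 0, h3]
    · refine Fin.lastCases ?_ (fun l => ?_) j
      · rw [shf_last, shf_castSucc]
        have : (p k.succ)⁻¹ * (x * p 0) = ((p k.succ)⁻¹ * p 0) * ((p 0)⁻¹ * x * p 0) := by group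
        rw [this]
        have h3 := hL.2.2 ((p k.succ)⁻¹ * p 0) ((p 0)⁻¹ * x * p 0)
        linarith [h1' 0, h1 k.succ 0]
      · rw [shf_castSucc, shf_castSucc]
        linarith only [h0, h1 k.succ l.succ]
  have h2' : ∀ i, L ((shf x p i)⁻¹ * x * shf x p i) ≤ 2 * siz x L p := by
    intro i
    refine Fin.lastCases ?_ (fun k => ?_) i
    · rw [shf_last]
      have : (x * p 0)⁻¹ * x * (x * p 0) = (p 0)⁻¹ * x * p 0 := by group
      rw [this]
      linarith [h1' 0]
    · rw [shf_castSucc]
      linarith only [h0, h1' k.succ]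
  have h5 : ∑ i : Fin (m + 1), ∑ j : Fin (m + 1), L ((shf x p i)⁻¹ * shf x p j) ≤
      ∑ i : Fin (m + 1), ∑ j : Fin (m + 1), 2 * siz x L p :=
    Finset.sum_le_sum fun i _ => Finset.sum_le_sum fun j _ => h2 _ _
  have h6 : ∑ i : Fin (m + 1), L ((shf x p i)⁻¹ * x * shf x p i) ≤
      ∑ i : Fin (m + 1), 2 * siz x L p := Finset.sum_le_sum fun i _ => h2' _
  simp only [Finset.sum_const, Finset.card_univ, Fintype.card_fin, nsmul_eq_mul] at h5 h6
  push_cast at h5 h6
  have h7 : siz x L (shf x p) =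
    ∑ i : Fin (m + 1), ∑ j : Fin (m + 1), L ((shf x p i)⁻¹ * shf x p j) +
    ∑ i : Fin (m + 1), L ((shf x p i)⁻¹ * x * shf x p i) := rfl
  rw [h7]
  linarith only [h6, h5]

theorem Good.shf {m : ℕ} {F : (Fin (m + 1) → G) → ℝ} (hF : A.Good F) :
    A.Good fun p => F (shf A.x p) := by
  constructor
  · intro h hh p
    show F (Vale.Agent.P184.shf A.x (tra h p)) = _
    rw [shf_tra A.x hh, hF.inv h hh]
  · intro ε hε
    set K : ℝ := 2 * (m + 1) * (m + 1) + 2 * (m + 1) with hK
    have hK0 : 0 < K := by (clear * -; positivity)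
    obtain ⟨C, hC0, hC⟩ := hF.sub.pos (div_pos hε hK0)
    refine ⟨C, fun p => (hC _).trans ?_⟩
    refine mul_le_mul_of_nonneg_left (Real.exp_le_exp.mpr ?_) hC0
    calc ε / K * siz A.x A.L (Vale.Agent.P184.shf A.x p)
        ≤ ε / K * (K * siz A.x A.L p) :=
          mul_le_mul_of_nonneg_left (siz_shf A.hL p) (div_pos hε hK0).le
      _ = ε * siz A.x A.L p := by field_simp

theorem shf_castSucc_succAbove (x : G) {m : ℕ} (p : Fin (m + 2) → G) (k : Fin (m + 1)) :
    (fun i => Vale.Agent.P184.shf x p (k.castSucc.succAbove i)) =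
      Vale.Agent.P184.shf x (fun i => p (k.succ.succAbove i)) := by
  funext i
  refine Fin.lastCases ?_ (fun l => ?_) i
  · rw [shf_last]
    have h1 : k.castSucc.succAbove (Fin.last m) = Fin.last (m + 1) := by
      rw [Fin.succAbove_of_le_castSucc, Fin.succ_last]
      exact Fin.castSucc_le_castSucc_iff.mpr (Fin.le_last k)
    rw [h1, shf_last, Fin.succ_succAbove_zero]
  · rw [Fin.castSucc_succAbove_castSucc, shf_castSucc, shf_castSucc, Fin.succ_succAbove_succ]

variable [CompleteSpace D]

/-- deletion of an arbitrary vertex -/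
theorem pr_del {m : ℕ} (j : Fin (m + 2)) {F : (Fin (m + 1) → G) → ℝ} (hF : A.Good F) :
    A.pr (fun p : Fin (m + 2) → G => F fun i => p (j.succAbove i)) = A.pr F := by
  revert F
  refine Fin.reverseInduction (motive := fun j => ∀ {F : (Fin (m + 1) → G) → ℝ}, A.Good F →
    A.pr (fun p : Fin (m + 2) → G => F fun i => p (j.succAbove i)) = A.pr F)
    ?_ (fun k ih => ?_) j
  · intro F hF
    have h1 : ∀ i : Fin (m + 1), (Fin.last (m + 1)).succAbove i = i.castSucc :=
      fun i => Fin.succAbove_last_apply i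
    simp only [h1]
    exact pr_castSucc hF
  · intro F hF
    rw [← pr_shf (hF.comp k.castSucc.succAbove).inv]
    simp only [shf_castSucc_succAbove]
    rw [ih hF.shf]
    exact pr_shf hF.inv

variable (A) in
/-- alternating evaluation -/
def alt {m : ℕ} (F : (Fin (m + 1) → G) → ℝ) : ℂ :=
  ∑ σ : Perm (Fin (m + 1)), ((Equiv.Perm.sign σ : ℤ) : ℂ) * A.pr fun p => F fun i => p (σ i)

theorem alt_add {m : ℕ} {F F' : (Fin (m + 1) → G) → ℝ} (hF : A.Good F) (hF' : A.Good F') :
    A.alt (fun p => F p + F' p) = A.alt F + A.alt F' := by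
  unfold alt
  rw [← Finset.sum_add_distrib]
  refine Finset.sum_congr rfl fun σ _ => ?_
  rw [pr_add (hF.comp σ) (hF'.comp σ), mul_add]

theorem alt_smul {m : ℕ} (c : ℝ) {F : (Fin (m + 1) → G) → ℝ} :
    A.alt (fun p => c * F p) = c * A.alt F := by
  unfold alt
  rw [Finset.mul_sum]
  refine Finset.sum_congr rfl fun σ _ => ?_
  rw [pr_smul]
  ring

theorem alt_sum {m : ℕ} {ι : Type*} (S : Finset ι) {F : ι → (Fin (m + 1) → G) → ℝ}
    (hF : ∀ i, A.Good (F i)) : A.alt (fun p => ∑ i ∈ S, F i p) = ∑ i ∈ S, A.alt (F i) := by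
  unfold alt
  rw [Finset.sum_comm]
  refine Finset.sum_congr rfl fun σ _ => ?_
  rw [pr_sum S (fun i => (hF i).comp σ), Finset.mul_sum]

theorem alt_perm {m : ℕ} (c : Perm (Fin (m + 1))) (F : (Fin (m + 1) → G) → ℝ) :
    A.alt (fun p => F fun i => p (c i)) = ((Equiv.Perm.sign c : ℤ) : ℂ) * A.alt F := by
  unfold alt
  rw [Finset.mul_sum, ← Equiv.sum_comp (Equiv.mulRight c) (fun σ =>
    ((Equiv.Perm.sign c : ℤ) : ℂ) * (((Equiv.Perm.sign σ : ℤ) : ℂ) *
      A.pr fun p => F fun i => p (σ i)))]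
  refine Finset.sum_congr rfl fun σ _ => ?_
  simp only [Equiv.coe_mulRight, Perm.sign_mul, Perm.mul_apply]
  have h1 : ((Equiv.Perm.sign c : ℤ) : ℂ) * ((Equiv.Perm.sign c : ℤ) : ℂ) = 1 := by
    rcases Int.units_eq_one_or (Equiv.Perm.sign c) with h | h <;> simp only [h, Units.val_neg, Units.val_one, Int.reduceNeg, Int.cast_neg, Int.cast_one, mul_neg, mul_one, neg_neg]
  have h2 : (((Equiv.Perm.sign σ * Equiv.Perm.sign c : ℤˣ) : ℤ) : ℂ) =
      ((Equiv.Perm.sign σ : ℤ) : ℂ) * ((Equiv.Perm.sign c : ℤ) : ℂ) := by push_cast; rfl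
  rw [h2]
  linear_combination (-((Equiv.Perm.sign σ : ℤ) : ℂ) *
    A.pr fun p => F fun i => p (σ (c i))) * h1

theorem sum_sign_odd {m : ℕ} (hm : Even m) : ∑ j : Fin (m + 1), ((-1 : ℂ)) ^ (j : ℕ) = 1 := by
  rw [Fin.sum_neg_one_pow, if_neg]
  simpa only [Nat.not_even_iff_odd] using hm.add_one

/-- deletion of the first vertex, alternating version -/
theorem alt_succ {m : ℕ} (hm : Odd m) {F : (Fin (m + 1) → G) → ℝ} (hF : A.Good F) :
    A.alt (fun p : Fin (m + 2) → G => F fun i => p i.succ) = A.alt F := by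
  have h1 : ∀ z : Fin (m + 2) × Perm (Fin (m + 1)),
      ((Equiv.Perm.sign (permDec (m + 1) z) : ℤ) : ℂ) *
        A.pr (fun p : Fin (m + 2) → G => F fun i => p (permDec (m + 1) z i.succ)) =
      (-1 : ℂ) ^ (z.1 : ℕ) * (((Equiv.Perm.sign z.2 : ℤ) : ℂ) *
        A.pr (fun p : Fin (m + 1) → G => F fun i => p (z.2 i))) := by
    rintro ⟨j, τ⟩
    rw [permDec_sign]
    simp only [permDec_succ]
    have h2 := pr_del (A := A) j (F := fun p => F fun i => p (τ i)) (hF.comp τ)
    rw [h2]
    push_cast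
    ring
  unfold alt
  rw [← (permDec (m + 1)).sum_comp, Finset.sum_congr rfl (fun z _ => h1 z),
    Fintype.sum_prod_type]
  simp only [← Finset.mul_sum, ← Finset.sum_mul]
  rw [sum_sign_odd hm.add_one, one_mul]

/-- alternating evaluation after deletion of an arbitrary vertex -/
theorem alt_del {m : ℕ} (hm : Odd m) (j : Fin (m + 2)) {F : (Fin (m + 1) → G) → ℝ}
    (hF : A.Good F) :
    A.alt (fun p : Fin (m + 2) → G => F fun i => p (j.succAbove i)) =
      (-1 : ℂ) ^ (j : ℕ) * A.alt F := by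
  have h1 := alt_perm (A := A) (j.cycleRange.symm) (fun p : Fin (m + 2) → G => F fun i => p i.succ)
  simp only [Fin.cycleRange_symm_succ] at h1
  rw [h1, alt_succ hm hF]
  have h2 : Equiv.Perm.sign (j.cycleRange.symm) = Equiv.Perm.sign j.cycleRange :=
    Equiv.Perm.sign_inv j.cycleRange
  rw [h2, Fin.sign_cycleRange]
  push_cast
  rfl

/-- the simplicial coboundary -/
def cob {n : ℕ} (F : (Fin n → G) → ℝ) (p : Fin (n + 1) → G) : ℝ :=
  ∑ j : Fin (n + 1), (-1) ^ (j : ℕ) * F fun i => p (j.succAbove i)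

theorem alt_cob {m : ℕ} (hm : Odd m) {F : (Fin (m + 1) → G) → ℝ} (hF : A.Good F) :
    A.alt (cob F) = (m + 2) * A.alt F := by
  unfold cob
  refine (alt_sum (A := A) Finset.univ (F := fun (j : Fin (m + 2)) (p : Fin (m + 2) → G) =>
    (-1) ^ (j : ℕ) * F fun i => p (j.succAbove i))
    (fun j => (hF.comp j.succAbove).smul _)).trans ?_
  have h1 : ∀ j : Fin (m + 2), A.alt (fun p : Fin (m + 2) → G =>
      (-1) ^ (j : ℕ) * F fun i => p (j.succAbove i)) = A.alt F := by
    intro j
    rw [alt_smul, alt_del hm j hF]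
    push_cast
    rw [← mul_assoc, ← pow_add, Even.neg_one_pow ⟨_, rfl⟩, one_mul]
  rw [Finset.sum_congr rfl fun j _ => h1 j]
  simp only [Finset.sum_const, Finset.card_univ, Fintype.card_fin, nsmul_eq_mul, Nat.cast_add, Nat.cast_ofNat]

/-- rotation invariance for `x`-invariant functions -/
theorem pr_rot {m : ℕ} {F : (Fin (m + 1) → G) → ℝ} (hF : A.Good F) (hX : XInv A.x F)
    (σ : Perm (Fin (m + 1))) :
    A.pr (fun p => F fun i => p ((finRotate (m + 1) * σ) i)) = A.pr fun p => F fun i => p (σ i) := by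
  rw [← pr_shf (hF.comp σ).inv]
  congr 1
  funext p
  rw [shf_eq]
  exact (hX (fun i => if σ i = Fin.last m then 1 else 0)
    (fun i => p (finRotate (m + 1) (σ i)))).symm

/-- an `x`-invariant function of an even number of points has alternating evaluation zero -/
theorem alt_even {m : ℕ} (hm : Odd m) {F : (Fin (m + 1) → G) → ℝ} (hF : A.Good F)
    (hX : XInv A.x F) : A.alt F = 0 := by
  have h1 : A.alt F = - A.alt F := by
    conv_lhs => unfold alt
    rw [← Equiv.sum_comp (Equiv.mulLeft (finRotate (m + 1)))]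
    unfold alt
    rw [← Finset.sum_neg_distrib]
    refine Finset.sum_congr rfl fun σ _ => ?_
    rw [Equiv.coe_mulLeft, pr_rot hF hX σ, Equiv.Perm.sign_mul, sign_finRotate,
      Nat.add_sub_cancel, hm.neg_one_pow]
    push_cast
    ring
  linear_combination (1 / 2 : ℂ) * h1

/-- The key computation: for `F` depending on an odd number of points. -/
theorem alt_conn {m : ℕ} (hm : Even m) {F : (Fin (m + 1) → G) → ℝ} (hF : A.Good F)
    (hX : XInv A.x F) (α : G → G → ℝ)
    (hα : A.Good fun p : Fin 2 → G => α (p 0) (p 1))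
    (hαx : ∀ p q, α p (A.x * q) = α p q + 1) :
    2 * (m + 1) * A.alt (fun p : Fin (m + 2) → G => α (p 0) (p 1) * F fun i => p i.succ) =
      (m + 2) * A.alt F := by
  have hαx' : ∀ p q, α (A.x * p) q = α p q - 1 := by
    intro p q
    have h1 := hα.inv A.x (Commute.refl A.x) ![p, q]
    simp [tra] at h1
    rw [hαx] at h1
    linarith
  set γ : (Fin (m + 2) → G) → ℝ := fun p => α (p 0) (p 1) * F fun i => p i.succ with hγ
  have hγG : A.Good γ := by
    have h1 := hα.comp (m := m + 2) ![0, 1]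
    simp at h1
    exact h1.mul (hF.comp Fin.succ)
  set r := finRotate (m + 2) with hr
  set Φ : Perm (Fin (m + 2)) → ℂ := fun ρ =>
    A.pr (fun p : Fin (m + 2) → G => F fun i => p (ρ i.succ)) with hΦ
  set d : Fin (m + 2) → ℝ := fun j => if j = 0 then 1 else 0 with hd
  -- effect of the cyclic shift
  have hstep : ∀ σ : Perm (Fin (m + 2)), A.pr (fun p => γ fun i => p (σ i)) =
      A.pr (fun p => γ fun i => p ((r * σ) i)) +
        ((d ((r * σ) 1) - d ((r * σ) 0) : ℝ) : ℂ) * Φ (r * σ) := by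
    intro σ
    rw [← pr_shf (hγG.comp σ).inv]
    have h1 : ∀ j : Fin (m + 2), (j = Fin.last (m + 1)) ↔ r j = 0 := by
      intro j
      rw [hr, ← finRotate_last, (finRotate (m + 2)).injective.eq_iff]
    have h2 : ∀ p : Fin (m + 2) → G, (γ fun i => Vale.Agent.P184.shf A.x p (σ i)) =
        (γ fun i => p ((r * σ) i)) + (d ((r * σ) 1) - d ((r * σ) 0)) *
          (F fun i => p ((r * σ) i.succ)) := by
      intro p
      have h3 : (F fun i => Vale.Agent.P184.shf A.x p (σ i.succ)) =
          F fun i => p ((r * σ) i.succ) := by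
        rw [shf_eq]
        exact hX (fun i => if σ i.succ = Fin.last (m + 1) then 1 else 0)
          (fun i => p (finRotate (m + 2) (σ i.succ)))
      have h4 : ∀ a b : Fin (m + 2), a ≠ b → α (Vale.Agent.P184.shf A.x p a)
          (Vale.Agent.P184.shf A.x p b) = α (p (r a)) (p (r b)) + (d (r b) - d (r a)) := by
        intro a b hab
        rw [shf_eq]
        simp only [h1, hd]
        by_cases ha : r a = 0
        · have hb : r b ≠ 0 := fun hb => hab (r.injective (ha.trans hb.symm))
          rw [if_pos ha, if_neg hb, if_neg hb, if_pos ha, zpow_one, zpow_zero, one_mul, hαx']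
          ring
        · rw [if_neg ha, if_neg ha, zpow_zero, one_mul]
          by_cases hb : r b = 0
          · rw [if_pos hb, if_pos hb, zpow_one, hαx]
            ring
          · rw [if_neg hb, if_neg hb, zpow_zero, one_mul]
            ring
      have h5 : (σ 0) ≠ σ 1 := fun h => by
        have := σ.injective h
        exact absurd this (by simp)
      simp only [hγ]
      rw [h3, h4 _ _ h5]
      simp only [Equiv.Perm.mul_apply]
      ring
    simp only [h2]
    rw [pr_add (hγG.comp (r * σ)) (Good.smul _ (hF.comp fun i => (r * σ) i.succ)), pr_smul]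
  -- signs
  have hsr : Equiv.Perm.sign r = -1 := by
    rw [hr, sign_finRotate, show m + 2 - 1 = m + 1 from rfl, hm.add_one.neg_one_pow]
  have hmain : 2 * A.alt γ = ∑ ρ : Perm (Fin (m + 2)), ((Equiv.Perm.sign ρ : ℤ) : ℂ) *
      (((d (ρ 0) - d (ρ 1) : ℝ) : ℂ) * Φ ρ) := by
    have h1 : A.alt γ = ∑ ρ : Perm (Fin (m + 2)), (-((Equiv.Perm.sign ρ : ℤ) : ℂ)) *
        (A.pr (fun p => γ fun i => p (ρ i)) + ((d (ρ 1) - d (ρ 0) : ℝ) : ℂ) * Φ ρ) := by
      conv_lhs => unfold alt
      rw [← Equiv.sum_comp (Equiv.mulLeft r) (fun ρ => (-((Equiv.Perm.sign ρ : ℤ) : ℂ)) *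
        (A.pr (fun p => γ fun i => p (ρ i)) + ((d (ρ 1) - d (ρ 0) : ℝ) : ℂ) * Φ ρ))]
      refine Finset.sum_congr rfl fun σ _ => ?_
      rw [Equiv.coe_mulLeft, Equiv.Perm.sign_mul, hsr, hstep σ]
      push_cast
      ring
    have h2 : A.alt γ = ∑ ρ : Perm (Fin (m + 2)), ((Equiv.Perm.sign ρ : ℤ) : ℂ) *
        A.pr (fun p => γ fun i => p (ρ i)) := rfl
    rw [two_mul]
    nth_rewrite 1 [h1]
    nth_rewrite 1 [h2]
    rw [← Finset.sum_add_distrib]
    refine Finset.sum_congr rfl fun ρ _ => ?_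
    push_cast
    ring
  -- decomposition
  set f : Perm (Fin (m + 1)) → ℂ := fun τ => ((Equiv.Perm.sign τ : ℤ) : ℂ) *
    A.pr (fun p => F fun i => p (τ i)) with hf
  have haltF : A.alt F = ∑ τ, f τ := rfl
  set B : ℂ := ∑ τ : Perm (Fin (m + 1)), (if τ 0 = 0 then f τ else 0) with hB
  have hdec : ∀ z : Fin (m + 2) × Perm (Fin (m + 1)),
      ((Equiv.Perm.sign (permDec (m + 1) z) : ℤ) : ℂ) *
      (((d (permDec (m + 1) z 0) - d (permDec (m + 1) z 1) : ℝ) : ℂ) * Φ (permDec (m + 1) z)) =
      (if z.1 = 0 then f z.2 else 0) -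
        (if z.1 = 0 then 0 else (-1 : ℂ) ^ (z.1 : ℕ) * (if z.2 0 = 0 then f z.2 else 0)) := by
    rintro ⟨j, τ⟩
    have h1 : Φ (permDec (m + 1) (j, τ)) = A.pr (fun p => F fun i => p (τ i)) := by
      simp only [hΦ, permDec_succ]
      exact pr_del (A := A) j (F := fun p => F fun i => p (τ i)) (hF.comp τ)
    have h2 : permDec (m + 1) (j, τ) 1 = j.succAbove (τ 0) := by
      rw [← Fin.succ_zero_eq_one, permDec_succ]
    rw [h1, permDec_zero, h2, permDec_sign]
    by_cases hj : j = 0
    · subst hj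
      have h3 : (0 : Fin (m + 2)).succAbove (τ 0) ≠ 0 := by
        rw [Fin.zero_succAbove]; exact Fin.succ_ne_zero _
      simp only [hd, if_true, if_neg h3, hf]
      simp
    · have h3 : j.succAbove (τ 0) = 0 ↔ τ 0 = 0 := by
        constructor
        · intro h
          by_contra h4
          exact (Fin.succAbove_ne_zero hj h4) h
        · intro h
          rw [h]
          exact Fin.succAbove_ne_zero_zero hj
      simp only [hd, if_neg hj, h3, hf]
      by_cases h4 : τ 0 = 0
      · simp only [if_pos h4]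
        push_cast
        ring
      · simp only [if_neg h4]
        simp only [Int.reduceNeg, Int.cast_mul, Int.cast_pow, Int.cast_neg, Int.cast_one, sub_self, Complex.ofReal_zero, zero_mul, mul_zero]
  have hsum : 2 * A.alt γ = A.alt F + B := by
    rw [hmain, ← (permDec (m + 1)).sum_comp, Finset.sum_congr rfl (fun z _ => hdec z),
      Finset.sum_sub_distrib, Fintype.sum_prod_type, Fintype.sum_prod_type, haltF]
    have h1 : ∑ j : Fin (m + 2), ∑ τ : Perm (Fin (m + 1)), (if j = 0 then f τ else 0) =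
        ∑ τ, f τ := by
      rw [Finset.sum_eq_single (0 : Fin (m + 2))]
      · simp only [↓reduceIte]
      · intro j _ hj
        simp [hj]
      · simp only [Finset.mem_univ, not_true_eq_false, ↓reduceIte, IsEmpty.forall_iff]
    have h2 : ∑ j : Fin (m + 2), ∑ τ : Perm (Fin (m + 1)),
        (if j = 0 then 0 else (-1 : ℂ) ^ (j : ℕ) * (if τ 0 = 0 then f τ else 0)) = - B := by
      rw [Fin.sum_univ_succ]
      simp only [if_true, Finset.sum_const_zero, zero_add, Fin.succ_ne_zero, if_false,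
        ← Finset.mul_sum, ← hB, ← Finset.sum_mul]
      have h3 : ∑ i : Fin (m + 1), (-1 : ℂ) ^ ((i.succ : Fin (m + 2)) : ℕ) = -1 := by
        have h4 := sum_sign_odd hm
        simp only [Fin.val_succ, pow_succ, ← Finset.sum_mul, h4]
        ring
      rw [h3]; ring
    rw [h1, h2]
    ring
  -- rotation invariance
  have hrot : (m + 1 : ℂ) * B = A.alt F := by
    set Bk : Fin (m + 1) → ℂ := fun k => ∑ τ : Perm (Fin (m + 1)), (if τ 0 = k then f τ else 0)
      with hBk
    have h1 : ∀ k, Bk (finRotate (m + 1) k) = Bk k := by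
      intro k
      simp only [hBk]
      rw [← Equiv.sum_comp (Equiv.mulLeft (finRotate (m + 1)))]
      refine Finset.sum_congr rfl fun τ _ => ?_
      simp only [Equiv.coe_mulLeft, Equiv.Perm.mul_apply, EmbeddingLike.apply_eq_iff_eq]
      split_ifs
      · simp only [hf]
        rw [pr_rot hF hX τ, Equiv.Perm.sign_mul, sign_finRotate, Nat.add_sub_cancel,
          hm.neg_one_pow, one_mul]
      · rfl
    have h2 : ∀ k : Fin (m + 1), Bk k = Bk 0 := by
      intro k
      refine Fin.induction rfl (fun l ih => ?_) k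
      rw [← ih, ← h1 l.castSucc]
      congr 1
      apply Fin.ext
      rw [coe_finRotate_of_ne_last (Fin.castSucc_lt_last l).ne]
      simp
    have h3 : ∑ k, Bk k = A.alt F := by
      simp only [hBk]
      rw [Finset.sum_comm, haltF]
      refine Finset.sum_congr rfl fun τ _ => ?_
      simp only [Finset.sum_ite_eq, Finset.mem_univ, ↓reduceIte]
    rw [← h3, Finset.sum_congr rfl fun k _ => h2 k]
    simp only [Finset.sum_const, Finset.card_univ, Fintype.card_fin, nsmul_eq_mul]
    push_cast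
    rfl
  linear_combination (m + 1 : ℂ) * hsum + hrot

end DData

end Vale.Agent.P184
end
end
end

section

/-!
# Algebra of cyclic cochains: the periodicity operator
-/

noncomputable section

namespace Vale.Agent.P184

open Equiv (Perm)
open DData (cob)

section Algebra

variable {G : Type*} [Group G]

/-- position-weighted coboundary -/
def wcob {n : ℕ} (F : (Fin n → G) → ℝ) (p : Fin (n + 1) → G) : ℝ :=
  ∑ j : Fin (n + 1), (-1) ^ (j : ℕ) * ((j : ℕ) : ℝ) * F fun i => p (j.succAbove i)

theorem cob_add {n : ℕ} (F F' : (Fin n → G) → ℝ) (p : Fin (n + 1) → G) :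
    cob (fun q => F q + F' q) p = cob F p + cob F' p := by
  unfold DData.cob
  rw [← Finset.sum_add_distrib]
  exact Finset.sum_congr rfl fun j _ => by ring

theorem cob_smul {n : ℕ} (c : ℝ) (F : (Fin n → G) → ℝ) (p : Fin (n + 1) → G) :
    cob (fun q => c * F q) p = c * cob F p := by
  unfold DData.cob
  rw [Finset.mul_sum]
  exact Finset.sum_congr rfl fun j _ => by ring

theorem wcob_add {n : ℕ} (F F' : (Fin n → G) → ℝ) (p : Fin (n + 1) → G) :
    wcob (fun q => F q + F' q) p = wcob F p + wcob F' p := by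
  unfold wcob
  rw [← Finset.sum_add_distrib]
  exact Finset.sum_congr rfl fun j _ => by ring

theorem wcob_smul {n : ℕ} (c : ℝ) (F : (Fin n → G) → ℝ) (p : Fin (n + 1) → G) :
    wcob (fun q => c * F q) p = c * wcob F p := by
  unfold wcob
  rw [Finset.mul_sum]
  exact Finset.sum_congr rfl fun j _ => by ring

theorem cob_cons {n : ℕ} (F : (Fin (n + 1) → G) → ℝ) (p : Fin (n + 2) → G) :
    cob F p = (F fun i => p i.succ) +
      (-1) * cob (fun q : Fin n → G => F (Fin.cons (p 0) q)) fun i => p i.succ := by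
  unfold DData.cob
  rw [Fin.sum_univ_succ]
  simp only [Fin.val_zero, pow_zero, one_mul, Fin.zero_succAbove, Fin.val_succ, pow_succ,
    mul_neg, mul_one, neg_mul, Finset.sum_neg_distrib]
  congr 2
  refine Finset.sum_congr rfl fun j _ => ?_
  congr 2
  funext i
  refine Fin.cases ?_ (fun k => ?_) i
  · rw [Fin.succ_succAbove_zero, Fin.cons_zero]
  · rw [Fin.succ_succAbove_succ, Fin.cons_succ]

theorem cob_cob {n : ℕ} (F : (Fin n → G) → ℝ) (p : Fin (n + 2) → G) : cob (cob F) p = 0 := by
  induction n with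
  | zero =>
    unfold DData.cob
    simp only [Fin.sum_univ_succ, Finset.univ_eq_empty, Finset.sum_empty, Fin.val_zero, pow_zero,
      one_mul, Fin.val_succ, zero_add, pow_one, add_zero]
    have h : ∀ q q' : Fin 0 → G, F q = F q' := fun q q' => congrArg F (Subsingleton.elim _ _)
    rw [h _ (fun i => p i.succ.succ)]
    rw [h (fun i => p ((Fin.succ 0).succAbove (Fin.succAbove 0 i))) (fun i => p i.succ.succ)]
    ring
  | succ n ih =>
    rw [cob_cons]
    have h : (fun q : Fin (n + 1) → G => cob F (Fin.cons (p 0) q)) = fun q => F q +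
        (-1) * cob (fun q' : Fin n → G => F (Fin.cons (p 0) q')) q := by
      funext q
      rw [cob_cons]
      simp only [Fin.cons_succ, Fin.cons_zero]
    rw [h, cob_add, cob_smul, ih]
    ring

theorem cob_drop {n : ℕ} (F : (Fin n → G) → ℝ) (p : Fin (n + 2) → G) :
    cob (fun q : Fin (n + 1) → G => F fun i => q i.succ) p =
      (F fun i => p i.succ.succ) + (-1) * cob F fun i => p i.succ := by
  rw [cob_cons]
  simp only [Fin.cons_succ]

theorem cob_const {n : ℕ} (hn : Even n) (c : ℝ) (p : Fin (n + 1) → G) :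
    cob (fun _ : Fin n → G => c) p = c := by
  unfold DData.cob
  rw [← Finset.sum_mul, Fin.sum_neg_one_pow, if_neg (by simpa only [Nat.not_even_iff_odd] using hn.add_one), one_mul]

theorem wcob_const {n : ℕ} (c : ℝ) (p : Fin (2 * n + 2) → G) :
    wcob (fun _ : Fin (2 * n + 1) → G => c) p = -((n : ℝ) + 1) * c := by
  unfold wcob
  rw [← Finset.sum_mul]
  congr 1
  have h : ∀ k : ℕ, ∑ j ∈ Finset.range (2 * k + 2), (-1 : ℝ) ^ j * (j : ℝ) = -((k : ℝ) + 1) := by
    intro k
    induction k with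
    | zero => simp only [mul_zero, zero_add, Finset.sum_range_succ, Finset.range_one, Finset.sum_singleton, pow_zero, CharP.cast_eq_zero, pow_one, Nat.cast_one, mul_one]
    | succ k ih =>
      have h1 : 2 * (k + 1) + 2 = 2 * k + 2 + 1 + 1 := by ring
      rw [h1, Finset.sum_range_succ, Finset.sum_range_succ, ih]
      have h2 : (-1 : ℝ) ^ (2 * k + 2) = 1 := by
        rw [show 2 * k + 2 = 2 * (k + 1) by ring, pow_mul]; simp only [even_two, Even.neg_pow, one_pow]
      have h3 : (-1 : ℝ) ^ (2 * k + 2 + 1) = -1 := by rw [pow_succ, h2]; ring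
      rw [h2, h3]
      push_cast
      ring
  rw [← h n, Finset.sum_range]

/-- the coboundary after a cyclic shift -/
theorem cob_shf (x : G) {m : ℕ} (F : (Fin (m + 1) → G) → ℝ) (p : Fin (m + 2) → G) :
    cob F (shf x p) = (-1) * cob (fun q => F (shf x q)) p + F (shf x fun i => p i.succ) +
      (-1) ^ (m + 1) * F fun i => p i.succ := by
  have h1 : cob F (shf x p) = ∑ k : Fin (m + 1), (-1) ^ (k : ℕ) *
      F (shf x fun i => p (k.succ.succAbove i)) + (-1) ^ (m + 1) * F fun i => p i.succ := by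
    unfold DData.cob
    rw [Fin.sum_univ_castSucc]
    simp only [DData.shf_castSucc_succAbove, Fin.val_castSucc, Fin.val_last,
      Fin.succAbove_last_apply, shf_castSucc]
  have h2 : cob (fun q => F (shf x q)) p = F (shf x fun i => p i.succ) +
      (-1) * ∑ k : Fin (m + 1), (-1) ^ (k : ℕ) * F (shf x fun i => p (k.succ.succAbove i)) := by
    unfold DData.cob
    rw [Fin.sum_univ_succ]
    simp only [Fin.val_zero, pow_zero, one_mul, Fin.zero_succAbove, Fin.val_succ, pow_succ,
      mul_neg, mul_one, neg_mul, Finset.sum_neg_distrib]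
  rw [h1, h2]
  ring

/-- the weighted coboundary after a cyclic shift -/
theorem wcob_shf (x : G) {m : ℕ} (F : (Fin (m + 1) → G) → ℝ) (p : Fin (m + 2) → G) :
    wcob F (shf x p) = (-1) * wcob (fun q => F (shf x q)) p + cob (fun q => F (shf x q)) p -
      F (shf x fun i => p i.succ) + (-1) ^ (m + 1) * ((m : ℝ) + 1) * F fun i => p i.succ := by
  have h1 : wcob F (shf x p) = ∑ k : Fin (m + 1), (-1) ^ (k : ℕ) * ((k : ℕ) : ℝ) *
      F (shf x fun i => p (k.succ.succAbove i)) +
      (-1) ^ (m + 1) * ((m : ℝ) + 1) * F fun i => p i.succ := by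
    unfold wcob
    rw [Fin.sum_univ_castSucc]
    simp only [DData.shf_castSucc_succAbove, Fin.val_castSucc, Fin.val_last,
      Fin.succAbove_last_apply, shf_castSucc]
    push_cast
    rfl
  have h2 : cob (fun q => F (shf x q)) p = F (shf x fun i => p i.succ) +
      (-1) * ∑ k : Fin (m + 1), (-1) ^ (k : ℕ) * F (shf x fun i => p (k.succ.succAbove i)) := by
    unfold DData.cob
    rw [Fin.sum_univ_succ]
    simp only [Fin.val_zero, pow_zero, Fin.zero_succAbove, one_mul, Fin.val_succ, pow_succ, mul_neg, mul_one, neg_mul, Finset.sum_neg_distrib]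
  have h3 : wcob (fun q => F (shf x q)) p = (-1) * ∑ k : Fin (m + 1), (-1) ^ (k : ℕ) *
      ((k : ℕ) : ℝ) * F (shf x fun i => p (k.succ.succAbove i)) +
      (-1) * ∑ k : Fin (m + 1), (-1) ^ (k : ℕ) * F (shf x fun i => p (k.succ.succAbove i)) := by
    unfold wcob
    rw [Fin.sum_univ_succ, Finset.mul_sum, Finset.mul_sum]
    simp only [Fin.val_zero, pow_zero, one_mul, Nat.cast_zero, zero_mul, zero_add]
    rw [← Finset.sum_add_distrib]
    refine Finset.sum_congr rfl fun k _ => ?_
    rw [Fin.val_succ, pow_succ]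
    push_cast
    ring
  rw [h1, h2, h3]
  ring

/-- The periodicity operator on cyclic cochains. -/
theorem shf_per (x : G) {m : ℕ} (hm : Odd m) (ψ : (Fin (m + 1) → G) → ℝ)
    (hψ : ∀ p, ψ (shf x p) = - ψ p) (p : Fin (m + 3) → G) :
    ((m : ℝ) + 3) * cob (wcob ψ) (shf x p) + ((m : ℝ) + 1) * wcob (cob ψ) (shf x p) =
      -(((m : ℝ) + 3) * cob (wcob ψ) p + ((m : ℝ) + 1) * wcob (cob ψ) p) := by
  have e1 : (-1 : ℝ) ^ (m + 1) = 1 := hm.add_one.neg_one_pow
  have e2 : (-1 : ℝ) ^ (m + 1 + 1) = -1 := hm.add_one.add_one.neg_one_pow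
  have hψ' : (fun q => ψ (shf x q)) = fun q => (-1) * ψ q := by
    funext q; rw [hψ]; ring
  -- the coboundary is cyclic
  have h1 : ∀ q, cob ψ (shf x q) = cob ψ q := by
    intro q
    rw [cob_shf, hψ', cob_smul, hψ, e1]
    ring
  have h1' : (fun q => cob ψ (shf x q)) = cob ψ := funext h1
  have h2 : ∀ q, wcob ψ (shf x q) = wcob ψ q + (-1) * cob ψ q +
      ((m : ℝ) + 2) * ψ fun i => q i.succ := by
    intro q
    rw [wcob_shf, hψ', wcob_smul, cob_smul, hψ, e1]
    ring
  have h2' : (fun q => wcob ψ (shf x q)) = fun q => (wcob ψ q + (-1) * cob ψ q) +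
      ((m : ℝ) + 2) * ψ fun i => q i.succ := funext h2
  have h3 : cob (wcob ψ) (shf x p) = - cob (wcob ψ) p +
      ((m : ℝ) + 1) * cob ψ fun i => p i.succ := by
    rw [cob_shf, h2', cob_add, cob_add, cob_smul, cob_smul, cob_cob, h2, e2, cob_drop]
    ring
  have h4 : wcob (cob ψ) (shf x p) = - wcob (cob ψ) p -
      ((m : ℝ) + 3) * cob ψ fun i => p i.succ := by
    rw [wcob_shf, h1', cob_cob, h1, e2]
    push_cast
    ring
  rw [h3, h4]
  ring

/-! ### Alternation -/

/-- alternating sum -/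
def AltF {k : ℕ} (K : (Fin k → G) → ℝ) (p : Fin k → G) : ℝ :=
  ∑ σ : Perm (Fin k), ((Equiv.Perm.sign σ : ℤ) : ℝ) * K fun i => p (σ i)

theorem sign_mul_self {k : ℕ} (c : Perm (Fin k)) :
    ((Equiv.Perm.sign c : ℤ) : ℝ) * ((Equiv.Perm.sign c : ℤ) : ℝ) = 1 := by
  rcases Int.units_eq_one_or (Equiv.Perm.sign c) with h | h <;> simp [h]

theorem AltF_perm {k : ℕ} (c : Perm (Fin k)) (K : (Fin k → G) → ℝ) (p : Fin k → G) :
    AltF K (fun i => p (c i)) = ((Equiv.Perm.sign c : ℤ) : ℝ) * AltF K p := by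
  unfold AltF
  rw [Finset.mul_sum, ← Equiv.sum_comp (Equiv.mulLeft c) (fun σ =>
    ((Equiv.Perm.sign c : ℤ) : ℝ) * (((Equiv.Perm.sign σ : ℤ) : ℝ) * K fun i => p (σ i)))]
  refine Finset.sum_congr rfl fun σ _ => ?_
  simp only [Equiv.coe_mulLeft, Equiv.Perm.sign_mul, Equiv.Perm.mul_apply]
  have h2 : (((Equiv.Perm.sign c * Equiv.Perm.sign σ : ℤˣ) : ℤ) : ℝ) =
      ((Equiv.Perm.sign c : ℤ) : ℝ) * ((Equiv.Perm.sign σ : ℤ) : ℝ) := by push_cast; rfl
  rw [h2]
  linear_combination (-((Equiv.Perm.sign σ : ℤ) : ℝ) * K fun i => p (c (σ i))) * sign_mul_self c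

theorem AltF_comp {k : ℕ} (c : Perm (Fin k)) (K : (Fin k → G) → ℝ) (p : Fin k → G) :
    AltF (fun q => K fun i => q (c i)) p = ((Equiv.Perm.sign c : ℤ) : ℝ) * AltF K p := by
  unfold AltF
  rw [Finset.mul_sum, ← Equiv.sum_comp (Equiv.mulRight c) (fun σ =>
    ((Equiv.Perm.sign c : ℤ) : ℝ) * (((Equiv.Perm.sign σ : ℤ) : ℝ) * K fun i => p (σ i)))]
  refine Finset.sum_congr rfl fun σ _ => ?_
  simp only [Equiv.coe_mulRight, Equiv.Perm.sign_mul, Equiv.Perm.mul_apply]
  have h2 : (((Equiv.Perm.sign σ * Equiv.Perm.sign c : ℤˣ) : ℤ) : ℝ) =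
      ((Equiv.Perm.sign σ : ℤ) : ℝ) * ((Equiv.Perm.sign c : ℤ) : ℝ) := by push_cast; rfl
  rw [h2]
  linear_combination (-((Equiv.Perm.sign σ : ℤ) : ℝ) * K fun i => p (σ (c i))) * sign_mul_self c

theorem AltF_add {k : ℕ} (K K' : (Fin k → G) → ℝ) (p : Fin k → G) :
    AltF (fun q => K q + K' q) p = AltF K p + AltF K' p := by
  unfold AltF
  rw [← Finset.sum_add_distrib]
  exact Finset.sum_congr rfl fun j _ => by ring

theorem AltF_smul {k : ℕ} (c : ℝ) (K : (Fin k → G) → ℝ) (p : Fin k → G) :
    AltF (fun q => c * K q) p = c * AltF K p := by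
  unfold AltF
  rw [Finset.mul_sum]
  exact Finset.sum_congr rfl fun j _ => by ring

theorem AltF_sum {k : ℕ} {ι : Type*} (S : Finset ι) (K : ι → (Fin k → G) → ℝ) (p : Fin k → G) :
    AltF (fun q => ∑ j ∈ S, K j q) p = ∑ j ∈ S, AltF (K j) p := by
  unfold AltF
  rw [Finset.sum_comm]
  exact Finset.sum_congr rfl fun j _ => by rw [Finset.mul_sum]

theorem AltF_drop {k : ℕ} (K : (Fin k → G) → ℝ) (p : Fin (k + 1) → G) :
    AltF (fun q : Fin (k + 1) → G => K fun i => q i.succ) p = cob (AltF K) p := by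
  unfold AltF DData.cob
  rw [← (permDec k).sum_comp, Fintype.sum_prod_type]
  refine Finset.sum_congr rfl fun j _ => ?_
  rw [Finset.mul_sum]
  refine Finset.sum_congr rfl fun τ _ => ?_
  rw [permDec_sign]
  simp only [permDec_succ]
  push_cast
  ring

theorem AltF_cob {k : ℕ} (K : (Fin k → G) → ℝ) (p : Fin (k + 1) → G) :
    AltF (cob K) p = ((k : ℝ) + 1) * cob (AltF K) p := by
  have h1 : ∀ j : Fin (k + 1), AltF (fun q : Fin (k + 1) → G => (-1) ^ (j : ℕ) *
      K fun i => q (j.succAbove i)) p = cob (AltF K) p := by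
    intro j
    rw [AltF_smul]
    have h2 := AltF_comp (j.cycleRange.symm) (fun q : Fin (k + 1) → G => K fun i => q i.succ) p
    simp only [Fin.cycleRange_symm_succ] at h2
    have h3 : Equiv.Perm.sign (j.cycleRange.symm) = Equiv.Perm.sign j.cycleRange :=
      Equiv.Perm.sign_inv j.cycleRange
    rw [h2, AltF_drop, h3, Fin.sign_cycleRange]
    push_cast
    rw [← mul_assoc, ← pow_add, Even.neg_one_pow ⟨_, rfl⟩, one_mul]
  have h2 : AltF (cob K) p = ∑ j : Fin (k + 1), AltF (fun q : Fin (k + 1) → G =>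
      (-1) ^ (j : ℕ) * K fun i => q (j.succAbove i)) p :=
    AltF_sum Finset.univ (fun (j : Fin (k + 1)) (q : Fin (k + 1) → G) =>
      (-1) ^ (j : ℕ) * K fun i => q (j.succAbove i)) p
  rw [h2, Finset.sum_congr rfl fun j _ => h1 j]
  simp only [Finset.sum_const, Finset.card_univ, Fintype.card_fin, nsmul_eq_mul, Nat.cast_add, Nat.cast_one]

/-- partial alternation, the first point being fixed -/
def AltB {m : ℕ} (K : (Fin (m + 1) → G) → ℝ) (q : Fin (m + 1) → G) : ℝ :=
  AltF (fun r : Fin m → G => K (Fin.cons (q 0) r)) fun i => q i.succ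

theorem cob_AltB {m : ℕ} {K : (Fin (m + 1) → G) → ℝ} (hK : ∀ p, cob K p = 0)
    (p : Fin (m + 2) → G) :
    ((m : ℝ) + 1) * cob (AltB K) p = ((m : ℝ) + 1) * (AltB K fun i => p i.succ) -
      AltF K fun i => p i.succ := by
  have h1 : cob (fun r : Fin m → G => K (Fin.cons (p 0) r)) = K := by
    funext q
    have h2 := hK (Fin.cons (p 0) q)
    rw [cob_cons] at h2
    simp only [Fin.cons_succ, Fin.cons_zero] at h2
    linarith only [h2]
  have h3 := AltF_cob (fun r : Fin m → G => K (Fin.cons (p 0) r)) fun i => p i.succ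
  rw [h1] at h3
  rw [cob_cons]
  have h4 : (fun q : Fin m → G => AltB K (Fin.cons (p 0) q)) =
      AltF (fun r : Fin m → G => K (Fin.cons (p 0) r)) := by
    funext q
    unfold AltB
    simp only [Fin.cons_succ, Fin.cons_zero]
  rw [h4, h3]
  ring

theorem sum_fix_zero {m : ℕ} (K : (Fin (m + 1) → G) → ℝ) (q : Fin (m + 1) → G) :
    ∑ τ : Perm (Fin (m + 1)), (if τ 0 = 0 then ((Equiv.Perm.sign τ : ℤ) : ℝ) *
      K (fun i => q (τ i)) else 0) = AltB K q := by
  rw [← (permDec m).sum_comp, Fintype.sum_prod_type, Fin.sum_univ_succ]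
  simp only [permDec_zero, if_true, Fin.succ_ne_zero, if_false, Finset.sum_const_zero, add_zero]
  unfold AltB AltF
  refine Finset.sum_congr rfl fun τ _ => ?_
  rw [permDec_sign]
  have h1 : (fun i => q (permDec m (0, τ) i)) = Fin.cons (q 0) fun i => q (τ i).succ := by
    funext i
    refine Fin.cases ?_ (fun k => ?_) i
    · rw [permDec_zero, Fin.cons_zero]
    · rw [permDec_succ, Fin.zero_succAbove, Fin.cons_succ]
  rw [h1]
  simp only [Int.reduceNeg, Fin.coe_ofNat_eq_mod, Nat.zero_mod, pow_zero, one_mul]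

/-- the alternation of the product with the connection, after a cyclic shift -/
theorem AltF_conn_shf (x : G) (α : G → G → ℝ)
    (hα1 : ∀ h p q, Commute h x → α (h * p) (h * q) = α p q)
    (hαx : ∀ p q, α p (x * q) = α p q + 1) {m : ℕ} (hm : Even m) {K : (Fin (m + 1) → G) → ℝ}
    (hX : XInv x K) (hK : ∀ p, cob K p = 0) (p : Fin (m + 2) → G) :
    ((m : ℝ) + 1) * AltF (fun p : Fin (m + 2) → G => α (p 0) (p 1) * K fun i => p i.succ)
      (shf x p) =
    -(((m : ℝ) + 1) * AltF (fun p : Fin (m + 2) → G => α (p 0) (p 1) * K fun i => p i.succ) p) +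
      ((m : ℝ) + 2) * AltF K fun i => p i.succ := by
  have hαx' : ∀ p q, α (x * p) q = α p q - 1 := by
    intro p q
    have h1 := hα1 x p (x⁻¹ * q) (Commute.refl x)
    have h2 := hαx p (x⁻¹ * q)
    rw [mul_inv_cancel_left] at h1 h2
    linarith only [h1, h2]
  set γ : (Fin (m + 2) → G) → ℝ := fun p => α (p 0) (p 1) * K fun i => p i.succ with hγ
  set r := finRotate (m + 2) with hr
  set d : Fin (m + 2) → ℝ := fun j => if j = 0 then 1 else 0 with hd
  have h1 : ∀ j : Fin (m + 2), (j = Fin.last (m + 1)) ↔ r j = 0 := by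
    intro j
    rw [hr, ← finRotate_last, (finRotate (m + 2)).injective.eq_iff]
  have h2 : ∀ σ : Perm (Fin (m + 2)), (γ fun i => shf x p (σ i)) =
      (γ fun i => p ((r * σ) i)) + (d ((r * σ) 1) - d ((r * σ) 0)) *
        (K fun i => p ((r * σ) i.succ)) := by
    intro σ
    have h3 : (K fun i => shf x p (σ i.succ)) = K fun i => p ((r * σ) i.succ) := by
      rw [shf_eq]
      exact hX (fun i => if σ i.succ = Fin.last (m + 1) then 1 else 0)
        (fun i => p (finRotate (m + 2) (σ i.succ)))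
    have h4 : ∀ a b : Fin (m + 2), a ≠ b → α (shf x p a) (shf x p b) =
        α (p (r a)) (p (r b)) + (d (r b) - d (r a)) := by
      intro a b hab
      rw [shf_eq]
      simp only [h1, hd]
      by_cases ha : r a = 0
      · have hb : r b ≠ 0 := fun hb => hab (r.injective (ha.trans hb.symm))
        rw [if_pos ha, if_neg hb, if_neg hb, if_pos ha, zpow_one, zpow_zero, one_mul, hαx']
        ring
      · rw [if_neg ha, if_neg ha, zpow_zero, one_mul]
        by_cases hb : r b = 0
        · rw [if_pos hb, if_pos hb, zpow_one, hαx]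
          ring
        · rw [if_neg hb, if_neg hb, zpow_zero, one_mul]
          ring
    have h5 : (σ 0) ≠ σ 1 := fun h => by
      have := σ.injective h
      exact absurd this (by simp)
    simp only [hγ]
    rw [h3, h4 _ _ h5]
    simp only [Equiv.Perm.mul_apply]
    ring
  have hsr : Equiv.Perm.sign r = -1 := by
    rw [hr, sign_finRotate, show m + 2 - 1 = m + 1 from rfl, hm.add_one.neg_one_pow]
  -- the defect
  set Q : ℝ := ∑ ρ : Perm (Fin (m + 2)), ((Equiv.Perm.sign ρ : ℤ) : ℝ) *
    ((d (ρ 1) - d (ρ 0)) * K fun i => p (ρ i.succ)) with hQ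
  have hmain : AltF γ (shf x p) = - AltF γ p - Q := by
    have h6 : AltF γ (shf x p) = ∑ ρ : Perm (Fin (m + 2)), (-((Equiv.Perm.sign ρ : ℤ) : ℝ)) *
        ((γ fun i => p (ρ i)) + (d (ρ 1) - d (ρ 0)) * (K fun i => p (ρ i.succ))) := by
      unfold AltF
      rw [← Equiv.sum_comp (Equiv.mulLeft r) (fun ρ => (-((Equiv.Perm.sign ρ : ℤ) : ℝ)) *
        ((γ fun i => p (ρ i)) + (d (ρ 1) - d (ρ 0)) * (K fun i => p (ρ i.succ))))]
      refine Finset.sum_congr rfl fun σ _ => ?_
      rw [Equiv.coe_mulLeft, Equiv.Perm.sign_mul, hsr, h2 σ]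
      push_cast
      ring
    rw [h6, hQ]
    unfold AltF
    rw [← Finset.sum_neg_distrib, ← Finset.sum_sub_distrib]
    exact Finset.sum_congr rfl fun ρ _ => by ring
  have hQ1 : Q = cob (AltB K) p - (AltB K fun i => p i.succ) - AltF K fun i => p i.succ := by
    have h7 : ∀ (j : Fin (m + 2)) (τ : Perm (Fin (m + 1))),
        ((Equiv.Perm.sign (permDec (m + 1) (j, τ)) : ℤ) : ℝ) *
        ((d (permDec (m + 1) (j, τ) 1) - d (permDec (m + 1) (j, τ) 0)) *
          K fun i => p (permDec (m + 1) (j, τ) i.succ)) =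
        if j = 0 then -(((Equiv.Perm.sign τ : ℤ) : ℝ) * K fun i => p (τ i).succ) else
          (-1) ^ (j : ℕ) * (if τ 0 = 0 then ((Equiv.Perm.sign τ : ℤ) : ℝ) *
            K (fun i => p (j.succAbove (τ i))) else 0) := by
      intro j τ
      have h8 : permDec (m + 1) (j, τ) 1 = j.succAbove (τ 0) := by
        rw [← Fin.succ_zero_eq_one, permDec_succ]
      rw [permDec_zero, h8, permDec_sign]
      simp only [permDec_succ]
      by_cases hj : j = 0
      · subst hj
        have h3 : (0 : Fin (m + 2)).succAbove (τ 0) ≠ 0 := by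
          rw [Fin.zero_succAbove]; exact Fin.succ_ne_zero _
        simp only [hd, if_true, if_neg h3, Fin.zero_succAbove, Fin.val_zero, pow_zero, one_mul,
          Fin.succ_ne_zero, if_false]
        ring
      · have h3 : j.succAbove (τ 0) = 0 ↔ τ 0 = 0 := by
          constructor
          · intro h
            by_contra h4
            exact (Fin.succAbove_ne_zero hj h4) h
          · intro h
            rw [h]
            exact Fin.succAbove_ne_zero_zero hj
        simp only [hd, if_neg hj, h3]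
        by_cases h4 : τ 0 = 0
        · simp only [if_pos h4]
          push_cast
          ring
        · simp only [if_neg h4]
          simp only [Int.reduceNeg, Int.cast_mul, Int.cast_pow, Int.cast_neg, Int.cast_one, sub_self, zero_mul, mul_zero]
    rw [hQ, ← (permDec (m + 1)).sum_comp, Fintype.sum_prod_type]
    simp only [h7]
    rw [Fin.sum_univ_succ]
    simp only [if_true, Fin.succ_ne_zero, if_false]
    have h9 : ∑ τ : Perm (Fin (m + 1)), -(((Equiv.Perm.sign τ : ℤ) : ℝ) *
        K fun i => p (τ i).succ) = - AltF K fun i => p i.succ := by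
      unfold AltF
      rw [Finset.sum_neg_distrib]
    have h10 : ∀ i : Fin (m + 1), ∑ τ : Perm (Fin (m + 1)), (-1 : ℝ) ^ ((i.succ : Fin (m + 2)) : ℕ) *
        (if τ 0 = 0 then ((Equiv.Perm.sign τ : ℤ) : ℝ) *
            K (fun k => p (i.succ.succAbove (τ k))) else 0) =
        (-1 : ℝ) ^ ((i.succ : Fin (m + 2)) : ℕ) * AltB K fun k => p (i.succ.succAbove k) := by
      intro i
      rw [← Finset.mul_sum]
      congr 1
      exact sum_fix_zero K fun k => p (i.succ.succAbove k)
    rw [h9, Finset.sum_congr rfl fun i _ => h10 i]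
    have h11 : cob (AltB K) p = (AltB K fun i => p i.succ) +
        ∑ i : Fin (m + 1), (-1 : ℝ) ^ ((i.succ : Fin (m + 2)) : ℕ) *
          AltB K fun k => p (i.succ.succAbove k) := by
      unfold DData.cob
      rw [Fin.sum_univ_succ]
      simp only [Fin.val_zero, pow_zero, one_mul, Fin.zero_succAbove]
    rw [h11]
    ring
  have h12 := cob_AltB hK p
  rw [hmain, hQ1]
  linear_combination (-1 : ℝ) * h12

end Algebra

end Vale.Agent.P184
end
end
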