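import Mathlib
import Vale.Agent.P184.Bdl.B1
import Vale.Agent.P184.Bdl.B2
import Vale.Agent.P184.Defs

set_option linter.all false

namespace AFast0b05f5x7a
@[reducible] noncomputable def a0.{u1, u2} {x1 : Type u1} {x2 : Type u2} [x3 : NormedRing x2] [x4 : NormedAlgebra ℂ x2] : Module ℂ (Vale.Agent.P184.L1 x1 x2) := inferInstance
@[reducible] noncomputable def a1.{u1, u2} {x1 : Type u1} {x2 : Type u2} [x3 : NormedRing x2] [x4 : NormedAlgebra ℂ x2] : DistribMulAction ℂ (Vale.Agent.P184.L1 x1 x2) := inferInstance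
@[reducible] noncomputable def a2.{u1, u2} {x1 : Type u1} {x2 : Type u2} [x3 : NormedRing x2] [x4 : NormedAlgebra ℂ x2] : MulAction ℂ (Vale.Agent.P184.L1 x1 x2) := inferInstance
theorem a3.{u1, u2} {x1 : Type u1} {x2 : Type u2} [x3 : NormedRing x2] [x4 : NormedAlgebra ℂ x2] : ContinuousConstSMul ℂ (Vale.Agent.P184.L1 x1 x2) := inferInstance
theorem a4 : Algebra.IsIntegral ℝ ℂ := inferInstance
@[reducible] def a5.{u1, u2} {x1 : Type u1} [x2 : Group x1] {x3 : Type u2} {x4 : x3 → Subgroup x1} {x5 : x3} : Monoid ↥(x4 x5) := inferInstance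
@[reducible] noncomputable def a6.{u1, u2} {x1 : Type u1} {x2 : Type u2} [x3 : NormedRing x2] [x4 : NormedAlgebra ℂ x2] : AddCommMonoid (Vale.Agent.P184.L1 x1 x2 →L[ℂ] Vale.Agent.P184.L1 x1 x2) := inferInstance
theorem a7.{u1, u2} {x1 : Type u1} {x2 : Type u2} [x3 : NormedRing x2] [x4 : NormedAlgebra ℂ x2] : UniformContinuousConstSMul ℂ (Vale.Agent.P184.L1 x1 x2) := inferInstance
theorem a8.{u1, u2} {x1 : Type u1} {x2 : Type u2} [x3 : NormedRing x2] : ContinuousAdd (Vale.Agent.P184.L1 x1 x2) := inferInstance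
theorem a9 : Algebra.IsAlgebraic ℝ ℂ := inferInstance
theorem a10 : Module.IsTorsionFree ℝ ℂ := inferInstance
@[reducible] noncomputable def a11.{u1, u2} {x1 : Type u1} {x2 : Type u2} [x3 : NormedRing x2] : AddCommMonoid (Vale.Agent.P184.L1 x1 x2) := inferInstance
theorem a12 : CharZero ℝ := inferInstance
theorem a13.{u1, u2} {x1 : Type u1} {x2 : Type u2} [x3 : NormedRing x2] : IsTopologicalAddGroup (Vale.Agent.P184.L1 x1 x2) := inferInstance
@[reducible] noncomputable def a14.{u1, u2} {x1 : Type u1} {x2 : Type u2} [x3 : NormedRing x2] [x4 : NormedAlgebra ℂ x2] : TopologicalSpace (Vale.Agent.P184.L1 x1 x2 →L[ℂ] Vale.Agent.P184.L1 x1 x2) := inferInstance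
theorem a15 : Algebra.IsSeparable ℝ ℂ := inferInstance
@[reducible] noncomputable def a16.{u1, u2} {x1 : Type u1} {x2 : Type u2} [x3 : NormedRing x2] : AddCommGroup (Vale.Agent.P184.L1 x1 x2) := inferInstance
theorem a17 : CovariantClass ℝ ℝ (Function.swap fun x1 x2 => x1 + x2) fun x1 x2 => x1 ≤ x2 := inferInstance
theorem a18.{u1, u2} {x1 : Type u1} {x2 : Type u2} [x3 : Group x1] [x4 : Group x2] : MulHomClass (x1 →* x2) x1 x2 := inferInstance
@[reducible] def a19.{u1, u2} {x1 : Type u1} [x2 : Group x1] {x3 : Type u2} {x4 : x3 → Subgroup x1} {x5 : x3} : MulOne ↥(x4 x5) := inferInstance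
@[reducible] def a20.{u1, u2} {x1 : Type u1} [x2 : Group x1] {x3 : Type u2} {x4 : x3 → Subgroup x1} {x5 : x3} : MulOneClass ↥(x4 x5) := inferInstance
@[reducible] noncomputable def a21.{u1, u2} {x1 : Type u1} {x2 : Type u2} [x3 : NormedRing x2] [x4 : NormedAlgebra ℂ x2] : Add (Vale.Agent.P184.L1 x1 x2 →L[ℂ] Vale.Agent.P184.L1 x1 x2) := inferInstance
theorem a22 : AddLeftMono ℝ := inferInstance
@[reducible] noncomputable def a23.{u1, u2} {x1 : Type u1} {x2 : Type u2} [x3 : NormedRing x2] : Zero (Vale.Agent.P184.L1 x1 x2) := inferInstance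
@[reducible] noncomputable def a24.{u1, u2} {x1 : Type u1} {x2 : Type u2} [x3 : NormedRing x2] : AddMonoid (Vale.Agent.P184.L1 x1 x2) := inferInstance
@[reducible] noncomputable def a25.{u1, u2} {x1 : Type u1} {x2 : Type u2} [x3 : NormedRing x2] : AddZero (Vale.Agent.P184.L1 x1 x2) := inferInstance
@[reducible] noncomputable def a26.{u1, u2} {x1 : Type u1} {x2 : Type u2} [x3 : NormedRing x2] : AddZeroClass (Vale.Agent.P184.L1 x1 x2) := inferInstance
theorem a27.{u1} {x1 : Type u1} {x2 : Nat} : @ContinuousConstSMul Complex (@Vale.Agent.P184.L1 x1 (Matrix (Fin x2) (Fin x2) Complex) (@Matrix.linftyOpNormedRing (Fin x2) Complex (Fin.fintype x2) (@CStarAlgebra.toNormedRing Complex (@CommCStarAlgebra.toCStarAlgebra Complex instCommCStarAlgebraComplex)) (instDecidableEqFin x2))) (@UniformSpace.toTopologicalSpace (@Vale.Agent.P184.L1 x1 (Matrix (Fin x2) (Fin x2) Complex) (@Matrix.linftyOpNormedRing (Fin x2) Complex (Fin.fintype x2) (@CStarAlgebra.toNormedRing Complex (@CommCStarAlgebra.toCStarAlgebra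 Complex instCommCStarAlgebraComplex)) (instDecidableEqFin x2))) (@PseudoMetricSpace.toUniformSpace (@Vale.Agent.P184.L1 x1 (Matrix (Fin x2) (Fin x2) Complex) (@Matrix.linftyOpNormedRing (Fin x2) Complex (Fin.fintype x2) (@CStarAlgebra.toNormedRing Complex (@CommCStarAlgebra.toCStarAlgebra Complex instCommCStarAlgebraComplex)) (instDecidableEqFin x2))) (@SeminormedAddCommGroup.toPseudoMetricSpace (@Vale.Agent.P184.L1 x1 (Matrix (Fin x2) (Fin x2) Complex) (@Matrix.linftyOpNormedRing (Fin x2) Complex (Fin.fintype x2) (@CStarAlgebra.toNormedRing Complex (@CommCStarAlgebra.toCStarAlgebra Complex instCommCStarAlgebraComplex)) (instDecidableEqFin x2))) (@NormedAddCommGroup.toSeminormedAddCommGroup (@Vale.Agent.P184.L1 x1 (Matrix (Fin x2) (Fin x2) Complex) (@Matrix.linftyOpNormedRing (Fin x2) Complex (Fin.fintype x2) (@CStarAlgebra.toNormedRing Complex (@CommCStarAlgebra.toCStarAlgebra Complex instCommCStarAlgebraComplex)) (instDecidableEqFin x2))) (@Vale.Agent.P184.L1.instNormedAddCommGroup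 x1 (Matrix (Fin x2) (Fin x2) Complex) (@Matrix.linftyOpNormedRing (Fin x2) Complex (Fin.fintype x2) (@CStarAlgebra.toNormedRing Complex (@CommCStarAlgebra.toCStarAlgebra Complex instCommCStarAlgebraComplex)) (instDecidableEqFin x2))))))) (@SMulZeroClass.toSMul Complex (@Vale.Agent.P184.L1 x1 (Matrix (Fin x2) (Fin x2) Complex) (@Matrix.linftyOpNormedRing (Fin x2) Complex (Fin.fintype x2) (@CStarAlgebra.toNormedRing Complex (@CommCStarAlgebra.toCStarAlgebra Complex instCommCStarAlgebraComplex)) (instDecidableEqFin x2))) (@AddZero.toZero (@Vale.Agent.P184.L1 x1 (Matrix (Fin x2) (Fin x2) Complex) (@Matrix.linftyOpNormedRing (Fin x2) Complex (Fin.fintype x2) (@CStarAlgebra.toNormedRing Complex (@CommCStarAlgebra.toCStarAlgebra Complex instCommCStarAlgebraComplex)) (instDecidableEqFin x2))) (@AddZeroClass.toAddZero (@Vale.Agent.P184.L1 x1 (Matrix (Fin x2) (Fin x2) Complex) (@Matrix.linftyOpNormedRing (Fin x2) Complex (Fin.fintype x2) (@CStarAlgebra.toNormedRing Complex (@CommCStarAlgebra.toCStarAlgebra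 Complex instCommCStarAlgebraComplex)) (instDecidableEqFin x2))) (@AddMonoid.toAddZeroClass (@Vale.Agent.P184.L1 x1 (Matrix (Fin x2) (Fin x2) Complex) (@Matrix.linftyOpNormedRing (Fin x2) Complex (Fin.fintype x2) (@CStarAlgebra.toNormedRing Complex (@CommCStarAlgebra.toCStarAlgebra Complex instCommCStarAlgebraComplex)) (instDecidableEqFin x2))) (@AddCommMonoid.toAddMonoid (@Vale.Agent.P184.L1 x1 (Matrix (Fin x2) (Fin x2) Complex) (@Matrix.linftyOpNormedRing (Fin x2) Complex (Fin.fintype x2) (@CStarAlgebra.toNormedRing Complex (@CommCStarAlgebra.toCStarAlgebra Complex instCommCStarAlgebraComplex)) (instDecidableEqFin x2))) (@AddCommGroup.toAddCommMonoid (@Vale.Agent.P184.L1 x1 (Matrix (Fin x2) (Fin x2) Complex) (@Matrix.linftyOpNormedRing (Fin x2) Complex (Fin.fintype x2) (@CStarAlgebra.toNormedRing Complex (@CommCStarAlgebra.toCStarAlgebra Complex instCommCStarAlgebraComplex)) (instDecidableEqFin x2))) (@NormedAddCommGroup.toAddCommGroup (@Vale.Agent.P184.L1 x1 (Matrix (Fin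 x2) (Fin x2) Complex) (@Matrix.linftyOpNormedRing (Fin x2) Complex (Fin.fintype x2) (@CStarAlgebra.toNormedRing Complex (@CommCStarAlgebra.toCStarAlgebra Complex instCommCStarAlgebraComplex)) (instDecidableEqFin x2))) (@Vale.Agent.P184.L1.instNormedAddCommGroup x1 (Matrix (Fin x2) (Fin x2) Complex) (@Matrix.linftyOpNormedRing (Fin x2) Complex (Fin.fintype x2) (@CStarAlgebra.toNormedRing Complex (@CommCStarAlgebra.toCStarAlgebra Complex instCommCStarAlgebraComplex)) (instDecidableEqFin x2))))))))) (@DistribSMul.toSMulZeroClass Complex (@Vale.Agent.P184.L1 x1 (Matrix (Fin x2) (Fin x2) Complex) (@Matrix.linftyOpNormedRing (Fin x2) Complex (Fin.fintype x2) (@CStarAlgebra.toNormedRing Complex (@CommCStarAlgebra.toCStarAlgebra Complex instCommCStarAlgebraComplex)) (instDecidableEqFin x2))) (@AddMonoid.toAddZeroClass (@Vale.Agent.P184.L1 x1 (Matrix (Fin x2) (Fin x2) Complex) (@Matrix.linftyOpNormedRing (Fin x2) Complex (Fin.fintype x2) (@CStarAlgebra.toNormedRing Complex (@CommCStarAlgebra.toCStarAlgebra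 Complex instCommCStarAlgebraComplex)) (instDecidableEqFin x2))) (@AddCommMonoid.toAddMonoid (@Vale.Agent.P184.L1 x1 (Matrix (Fin x2) (Fin x2) Complex) (@Matrix.linftyOpNormedRing (Fin x2) Complex (Fin.fintype x2) (@CStarAlgebra.toNormedRing Complex (@CommCStarAlgebra.toCStarAlgebra Complex instCommCStarAlgebraComplex)) (instDecidableEqFin x2))) (@AddCommGroup.toAddCommMonoid (@Vale.Agent.P184.L1 x1 (Matrix (Fin x2) (Fin x2) Complex) (@Matrix.linftyOpNormedRing (Fin x2) Complex (Fin.fintype x2) (@CStarAlgebra.toNormedRing Complex (@CommCStarAlgebra.toCStarAlgebra Complex instCommCStarAlgebraComplex)) (instDecidableEqFin x2))) (@NormedAddCommGroup.toAddCommGroup (@Vale.Agent.P184.L1 x1 (Matrix (Fin x2) (Fin x2) Complex) (@Matrix.linftyOpNormedRing (Fin x2) Complex (Fin.fintype x2) (@CStarAlgebra.toNormedRing Complex (@CommCStarAlgebra.toCStarAlgebra Complex instCommCStarAlgebraComplex)) (instDecidableEqFin x2))) (@Vale.Agent.P184.L1.instNormedAddCommGroup x1 (Matrix (Fin x2)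 (Fin x2) Complex) (@Matrix.linftyOpNormedRing (Fin x2) Complex (Fin.fintype x2) (@CStarAlgebra.toNormedRing Complex (@CommCStarAlgebra.toCStarAlgebra Complex instCommCStarAlgebraComplex)) (instDecidableEqFin x2))))))) (@DistribMulAction.toDistribSMul Complex (@Vale.Agent.P184.L1 x1 (Matrix (Fin x2) (Fin x2) Complex) (@Matrix.linftyOpNormedRing (Fin x2) Complex (Fin.fintype x2) (@CStarAlgebra.toNormedRing Complex (@CommCStarAlgebra.toCStarAlgebra Complex instCommCStarAlgebraComplex)) (instDecidableEqFin x2))) (@Semiring.toMonoid Complex Complex.instSemiring) (@AddCommMonoid.toAddMonoid (@Vale.Agent.P184.L1 x1 (Matrix (Fin x2) (Fin x2) Complex) (@Matrix.linftyOpNormedRing (Fin x2) Complex (Fin.fintype x2) (@CStarAlgebra.toNormedRing Complex (@CommCStarAlgebra.toCStarAlgebra Complex instCommCStarAlgebraComplex)) (instDecidableEqFin x2))) (@AddCommGroup.toAddCommMonoid (@Vale.Agent.P184.L1 x1 (Matrix (Fin x2) (Fin x2) Complex) (@Matrix.linftyOpNormedRing (Fin x2) Complex (Fin.fintype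 x2) (@CStarAlgebra.toNormedRing Complex (@CommCStarAlgebra.toCStarAlgebra Complex instCommCStarAlgebraComplex)) (instDecidableEqFin x2))) (@NormedAddCommGroup.toAddCommGroup (@Vale.Agent.P184.L1 x1 (Matrix (Fin x2) (Fin x2) Complex) (@Matrix.linftyOpNormedRing (Fin x2) Complex (Fin.fintype x2) (@CStarAlgebra.toNormedRing Complex (@CommCStarAlgebra.toCStarAlgebra Complex instCommCStarAlgebraComplex)) (instDecidableEqFin x2))) (@Vale.Agent.P184.L1.instNormedAddCommGroup x1 (Matrix (Fin x2) (Fin x2) Complex) (@Matrix.linftyOpNormedRing (Fin x2) Complex (Fin.fintype x2) (@CStarAlgebra.toNormedRing Complex (@CommCStarAlgebra.toCStarAlgebra Complex instCommCStarAlgebraComplex)) (instDecidableEqFin x2)))))) (@Module.toDistribMulAction Complex (@Vale.Agent.P184.L1 x1 (Matrix (Fin x2) (Fin x2) Complex) (@Matrix.linftyOpNormedRing (Fin x2) Complex (Fin.fintype x2) (@CStarAlgebra.toNormedRing Complex (@CommCStarAlgebra.toCStarAlgebra Complex instCommCStarAlgebraComplex)) (instDecidableEqFin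 x2))) Complex.instSemiring (@AddCommGroup.toAddCommMonoid (@Vale.Agent.P184.L1 x1 (Matrix (Fin x2) (Fin x2) Complex) (@Matrix.linftyOpNormedRing (Fin x2) Complex (Fin.fintype x2) (@CStarAlgebra.toNormedRing Complex (@CommCStarAlgebra.toCStarAlgebra Complex instCommCStarAlgebraComplex)) (instDecidableEqFin x2))) (@NormedAddCommGroup.toAddCommGroup (@Vale.Agent.P184.L1 x1 (Matrix (Fin x2) (Fin x2) Complex) (@Matrix.linftyOpNormedRing (Fin x2) Complex (Fin.fintype x2) (@CStarAlgebra.toNormedRing Complex (@CommCStarAlgebra.toCStarAlgebra Complex instCommCStarAlgebraComplex)) (instDecidableEqFin x2))) (@Vale.Agent.P184.L1.instNormedAddCommGroup x1 (Matrix (Fin x2) (Fin x2) Complex) (@Matrix.linftyOpNormedRing (Fin x2) Complex (Fin.fintype x2) (@CStarAlgebra.toNormedRing Complex (@CommCStarAlgebra.toCStarAlgebra Complex instCommCStarAlgebraComplex)) (instDecidableEqFin x2))))) (@NormedSpace.toModule Complex (@Vale.Agent.P184.L1 x1 (Matrix (Fin x2) (Fin x2) Complex) (@Matrix.linftyOpNormedRing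 (Fin x2) Complex (Fin.fintype x2) (@CStarAlgebra.toNormedRing Complex (@CommCStarAlgebra.toCStarAlgebra Complex instCommCStarAlgebraComplex)) (instDecidableEqFin x2))) Complex.instNormedField (@NormedAddCommGroup.toSeminormedAddCommGroup (@Vale.Agent.P184.L1 x1 (Matrix (Fin x2) (Fin x2) Complex) (@Matrix.linftyOpNormedRing (Fin x2) Complex (Fin.fintype x2) (@CStarAlgebra.toNormedRing Complex (@CommCStarAlgebra.toCStarAlgebra Complex instCommCStarAlgebraComplex)) (instDecidableEqFin x2))) (@Vale.Agent.P184.L1.instNormedAddCommGroup x1 (Matrix (Fin x2) (Fin x2) Complex) (@Matrix.linftyOpNormedRing (Fin x2) Complex (Fin.fintype x2) (@CStarAlgebra.toNormedRing Complex (@CommCStarAlgebra.toCStarAlgebra Complex instCommCStarAlgebraComplex)) (instDecidableEqFin x2)))) (@Vale.Agent.P184.L1.instNormedSpaceComplexOfNormedAlgebra x1 (Matrix (Fin x2) (Fin x2) Complex) (@Matrix.linftyOpNormedRing (Fin x2) Complex (Fin.fintype x2) (@CStarAlgebra.toNormedRing Complex (@CommCStarAlgebra.toCStarAlgebra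 Complex instCommCStarAlgebraComplex)) (instDecidableEqFin x2)) (@Matrix.linftyOpNormedAlgebra Complex (Fin x2) Complex (Fin.fintype x2) Complex.instNormedField (@NormedRing.toSeminormedRing Complex (@CStarAlgebra.toNormedRing Complex (@CommCStarAlgebra.toCStarAlgebra Complex instCommCStarAlgebraComplex))) (@CStarAlgebra.toNormedAlgebra Complex (@CommCStarAlgebra.toCStarAlgebra Complex instCommCStarAlgebraComplex)) (instDecidableEqFin x2)))))))) := inferInstance
@[reducible] noncomputable def a28.{u1, u2} {x1 : Type u1} {x2 : Type u2} [x3 : NormedRing x2] : TopologicalSpace (Vale.Agent.P184.L1 x1 x2) := inferInstance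
@[reducible] noncomputable def a29.{u1, u2} {x1 : Type u1} {x2 : Type u2} [x3 : NormedRing x2] : UniformSpace (Vale.Agent.P184.L1 x1 x2) := inferInstance
theorem a30.{u1} {x1 : Type u1} {x2 : Nat} : @UniformContinuousConstSMul Complex (@Vale.Agent.P184.L1 x1 (Matrix (Fin x2) (Fin x2) Complex) (@Matrix.linftyOpNormedRing (Fin x2) Complex (Fin.fintype x2) (@CStarAlgebra.toNormedRing Complex (@CommCStarAlgebra.toCStarAlgebra Complex instCommCStarAlgebraComplex)) (instDecidableEqFin x2))) (@PseudoMetricSpace.toUniformSpace (@Vale.Agent.P184.L1 x1 (Matrix (Fin x2) (Fin x2) Complex) (@Matrix.linftyOpNormedRing (Fin x2) Complex (Fin.fintype x2) (@CStarAlgebra.toNormedRing Complex (@CommCStarAlgebra.toCStarAlgebra Complex instCommCStarAlgebraComplex)) (instDecidableEqFin x2))) (@SeminormedAddCommGroup.toPseudoMetricSpace (@Vale.Agent.P184.L1 x1 (Matrix (Fin x2) (Fin x2) Complex) (@Matrix.linftyOpNormedRing (Fin x2) Complex (Fin.fintype x2) (@CStarAlgebra.toNormedRing Complex (@CommCStarAlgebra.toCStarAlgebra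 Complex instCommCStarAlgebraComplex)) (instDecidableEqFin x2))) (@NormedAddCommGroup.toSeminormedAddCommGroup (@Vale.Agent.P184.L1 x1 (Matrix (Fin x2) (Fin x2) Complex) (@Matrix.linftyOpNormedRing (Fin x2) Complex (Fin.fintype x2) (@CStarAlgebra.toNormedRing Complex (@CommCStarAlgebra.toCStarAlgebra Complex instCommCStarAlgebraComplex)) (instDecidableEqFin x2))) (@Vale.Agent.P184.L1.instNormedAddCommGroup x1 (Matrix (Fin x2) (Fin x2) Complex) (@Matrix.linftyOpNormedRing (Fin x2) Complex (Fin.fintype x2) (@CStarAlgebra.toNormedRing Complex (@CommCStarAlgebra.toCStarAlgebra Complex instCommCStarAlgebraComplex)) (instDecidableEqFin x2)))))) (@SMulZeroClass.toSMul Complex (@Vale.Agent.P184.L1 x1 (Matrix (Fin x2) (Fin x2) Complex) (@Matrix.linftyOpNormedRing (Fin x2) Complex (Fin.fintype x2) (@CStarAlgebra.toNormedRing Complex (@CommCStarAlgebra.toCStarAlgebra Complex instCommCStarAlgebraComplex)) (instDecidableEqFin x2))) (@AddZero.toZero (@Vale.Agent.P184.L1 x1 (Matrix (Fin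 x2) (Fin x2) Complex) (@Matrix.linftyOpNormedRing (Fin x2) Complex (Fin.fintype x2) (@CStarAlgebra.toNormedRing Complex (@CommCStarAlgebra.toCStarAlgebra Complex instCommCStarAlgebraComplex)) (instDecidableEqFin x2))) (@AddZeroClass.toAddZero (@Vale.Agent.P184.L1 x1 (Matrix (Fin x2) (Fin x2) Complex) (@Matrix.linftyOpNormedRing (Fin x2) Complex (Fin.fintype x2) (@CStarAlgebra.toNormedRing Complex (@CommCStarAlgebra.toCStarAlgebra Complex instCommCStarAlgebraComplex)) (instDecidableEqFin x2))) (@AddMonoid.toAddZeroClass (@Vale.Agent.P184.L1 x1 (Matrix (Fin x2) (Fin x2) Complex) (@Matrix.linftyOpNormedRing (Fin x2) Complex (Fin.fintype x2) (@CStarAlgebra.toNormedRing Complex (@CommCStarAlgebra.toCStarAlgebra Complex instCommCStarAlgebraComplex)) (instDecidableEqFin x2))) (@AddCommMonoid.toAddMonoid (@Vale.Agent.P184.L1 x1 (Matrix (Fin x2) (Fin x2) Complex) (@Matrix.linftyOpNormedRing (Fin x2) Complex (Fin.fintype x2) (@CStarAlgebra.toNormedRing Complex (@CommCStarAlgebra.toCStarAlgebra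 Complex instCommCStarAlgebraComplex)) (instDecidableEqFin x2))) (@AddCommGroup.toAddCommMonoid (@Vale.Agent.P184.L1 x1 (Matrix (Fin x2) (Fin x2) Complex) (@Matrix.linftyOpNormedRing (Fin x2) Complex (Fin.fintype x2) (@CStarAlgebra.toNormedRing Complex (@CommCStarAlgebra.toCStarAlgebra Complex instCommCStarAlgebraComplex)) (instDecidableEqFin x2))) (@NormedAddCommGroup.toAddCommGroup (@Vale.Agent.P184.L1 x1 (Matrix (Fin x2) (Fin x2) Complex) (@Matrix.linftyOpNormedRing (Fin x2) Complex (Fin.fintype x2) (@CStarAlgebra.toNormedRing Complex (@CommCStarAlgebra.toCStarAlgebra Complex instCommCStarAlgebraComplex)) (instDecidableEqFin x2))) (@Vale.Agent.P184.L1.instNormedAddCommGroup x1 (Matrix (Fin x2) (Fin x2) Complex) (@Matrix.linftyOpNormedRing (Fin x2) Complex (Fin.fintype x2) (@CStarAlgebra.toNormedRing Complex (@CommCStarAlgebra.toCStarAlgebra Complex instCommCStarAlgebraComplex)) (instDecidableEqFin x2))))))))) (@DistribSMul.toSMulZeroClass Complex (@Vale.Agent.P184.L1 x1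 (Matrix (Fin x2) (Fin x2) Complex) (@Matrix.linftyOpNormedRing (Fin x2) Complex (Fin.fintype x2) (@CStarAlgebra.toNormedRing Complex (@CommCStarAlgebra.toCStarAlgebra Complex instCommCStarAlgebraComplex)) (instDecidableEqFin x2))) (@AddMonoid.toAddZeroClass (@Vale.Agent.P184.L1 x1 (Matrix (Fin x2) (Fin x2) Complex) (@Matrix.linftyOpNormedRing (Fin x2) Complex (Fin.fintype x2) (@CStarAlgebra.toNormedRing Complex (@CommCStarAlgebra.toCStarAlgebra Complex instCommCStarAlgebraComplex)) (instDecidableEqFin x2))) (@AddCommMonoid.toAddMonoid (@Vale.Agent.P184.L1 x1 (Matrix (Fin x2) (Fin x2) Complex) (@Matrix.linftyOpNormedRing (Fin x2) Complex (Fin.fintype x2) (@CStarAlgebra.toNormedRing Complex (@CommCStarAlgebra.toCStarAlgebra Complex instCommCStarAlgebraComplex)) (instDecidableEqFin x2))) (@AddCommGroup.toAddCommMonoid (@Vale.Agent.P184.L1 x1 (Matrix (Fin x2) (Fin x2) Complex) (@Matrix.linftyOpNormedRing (Fin x2) Complex (Fin.fintype x2) (@CStarAlgebra.toNormedRing Complex (@CommCStarAlgebra.toCStarAlgebra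 Complex instCommCStarAlgebraComplex)) (instDecidableEqFin x2))) (@NormedAddCommGroup.toAddCommGroup (@Vale.Agent.P184.L1 x1 (Matrix (Fin x2) (Fin x2) Complex) (@Matrix.linftyOpNormedRing (Fin x2) Complex (Fin.fintype x2) (@CStarAlgebra.toNormedRing Complex (@CommCStarAlgebra.toCStarAlgebra Complex instCommCStarAlgebraComplex)) (instDecidableEqFin x2))) (@Vale.Agent.P184.L1.instNormedAddCommGroup x1 (Matrix (Fin x2) (Fin x2) Complex) (@Matrix.linftyOpNormedRing (Fin x2) Complex (Fin.fintype x2) (@CStarAlgebra.toNormedRing Complex (@CommCStarAlgebra.toCStarAlgebra Complex instCommCStarAlgebraComplex)) (instDecidableEqFin x2))))))) (@DistribMulAction.toDistribSMul Complex (@Vale.Agent.P184.L1 x1 (Matrix (Fin x2) (Fin x2) Complex) (@Matrix.linftyOpNormedRing (Fin x2) Complex (Fin.fintype x2) (@CStarAlgebra.toNormedRing Complex (@CommCStarAlgebra.toCStarAlgebra Complex instCommCStarAlgebraComplex)) (instDecidableEqFin x2))) (@Semiring.toMonoid Complex Complex.instSemiring) (@AddCommMonoid.toAddMonoid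 (@Vale.Agent.P184.L1 x1 (Matrix (Fin x2) (Fin x2) Complex) (@Matrix.linftyOpNormedRing (Fin x2) Complex (Fin.fintype x2) (@CStarAlgebra.toNormedRing Complex (@CommCStarAlgebra.toCStarAlgebra Complex instCommCStarAlgebraComplex)) (instDecidableEqFin x2))) (@AddCommGroup.toAddCommMonoid (@Vale.Agent.P184.L1 x1 (Matrix (Fin x2) (Fin x2) Complex) (@Matrix.linftyOpNormedRing (Fin x2) Complex (Fin.fintype x2) (@CStarAlgebra.toNormedRing Complex (@CommCStarAlgebra.toCStarAlgebra Complex instCommCStarAlgebraComplex)) (instDecidableEqFin x2))) (@NormedAddCommGroup.toAddCommGroup (@Vale.Agent.P184.L1 x1 (Matrix (Fin x2) (Fin x2) Complex) (@Matrix.linftyOpNormedRing (Fin x2) Complex (Fin.fintype x2) (@CStarAlgebra.toNormedRing Complex (@CommCStarAlgebra.toCStarAlgebra Complex instCommCStarAlgebraComplex)) (instDecidableEqFin x2))) (@Vale.Agent.P184.L1.instNormedAddCommGroup x1 (Matrix (Fin x2) (Fin x2) Complex) (@Matrix.linftyOpNormedRing (Fin x2) Complex (Fin.fintype x2) (@CStarAlgebra.toNormedRing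 Complex (@CommCStarAlgebra.toCStarAlgebra Complex instCommCStarAlgebraComplex)) (instDecidableEqFin x2)))))) (@Module.toDistribMulAction Complex (@Vale.Agent.P184.L1 x1 (Matrix (Fin x2) (Fin x2) Complex) (@Matrix.linftyOpNormedRing (Fin x2) Complex (Fin.fintype x2) (@CStarAlgebra.toNormedRing Complex (@CommCStarAlgebra.toCStarAlgebra Complex instCommCStarAlgebraComplex)) (instDecidableEqFin x2))) Complex.instSemiring (@AddCommGroup.toAddCommMonoid (@Vale.Agent.P184.L1 x1 (Matrix (Fin x2) (Fin x2) Complex) (@Matrix.linftyOpNormedRing (Fin x2) Complex (Fin.fintype x2) (@CStarAlgebra.toNormedRing Complex (@CommCStarAlgebra.toCStarAlgebra Complex instCommCStarAlgebraComplex)) (instDecidableEqFin x2))) (@NormedAddCommGroup.toAddCommGroup (@Vale.Agent.P184.L1 x1 (Matrix (Fin x2) (Fin x2) Complex) (@Matrix.linftyOpNormedRing (Fin x2) Complex (Fin.fintype x2) (@CStarAlgebra.toNormedRing Complex (@CommCStarAlgebra.toCStarAlgebra Complex instCommCStarAlgebraComplex)) (instDecidableEqFin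 x2))) (@Vale.Agent.P184.L1.instNormedAddCommGroup x1 (Matrix (Fin x2) (Fin x2) Complex) (@Matrix.linftyOpNormedRing (Fin x2) Complex (Fin.fintype x2) (@CStarAlgebra.toNormedRing Complex (@CommCStarAlgebra.toCStarAlgebra Complex instCommCStarAlgebraComplex)) (instDecidableEqFin x2))))) (@NormedSpace.toModule Complex (@Vale.Agent.P184.L1 x1 (Matrix (Fin x2) (Fin x2) Complex) (@Matrix.linftyOpNormedRing (Fin x2) Complex (Fin.fintype x2) (@CStarAlgebra.toNormedRing Complex (@CommCStarAlgebra.toCStarAlgebra Complex instCommCStarAlgebraComplex)) (instDecidableEqFin x2))) Complex.instNormedField (@NormedAddCommGroup.toSeminormedAddCommGroup (@Vale.Agent.P184.L1 x1 (Matrix (Fin x2) (Fin x2) Complex) (@Matrix.linftyOpNormedRing (Fin x2) Complex (Fin.fintype x2) (@CStarAlgebra.toNormedRing Complex (@CommCStarAlgebra.toCStarAlgebra Complex instCommCStarAlgebraComplex)) (instDecidableEqFin x2))) (@Vale.Agent.P184.L1.instNormedAddCommGroup x1 (Matrix (Fin x2) (Fin x2) Complex) (@Matrix.linftyOpNormedRing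 (Fin x2) Complex (Fin.fintype x2) (@CStarAlgebra.toNormedRing Complex (@CommCStarAlgebra.toCStarAlgebra Complex instCommCStarAlgebraComplex)) (instDecidableEqFin x2)))) (@Vale.Agent.P184.L1.instNormedSpaceComplexOfNormedAlgebra x1 (Matrix (Fin x2) (Fin x2) Complex) (@Matrix.linftyOpNormedRing (Fin x2) Complex (Fin.fintype x2) (@CStarAlgebra.toNormedRing Complex (@CommCStarAlgebra.toCStarAlgebra Complex instCommCStarAlgebraComplex)) (instDecidableEqFin x2)) (@Matrix.linftyOpNormedAlgebra Complex (Fin x2) Complex (Fin.fintype x2) Complex.instNormedField (@NormedRing.toSeminormedRing Complex (@CStarAlgebra.toNormedRing Complex (@CommCStarAlgebra.toCStarAlgebra Complex instCommCStarAlgebraComplex))) (@CStarAlgebra.toNormedAlgebra Complex (@CommCStarAlgebra.toCStarAlgebra Complex instCommCStarAlgebraComplex)) (instDecidableEqFin x2)))))))) := inferInstance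
@[reducible] def a31 : Monoid ℂ := inferInstance
theorem a32 : T2Space ℝ := inferInstance
theorem a33 : ContinuousSMul ℂ ℂ := inferInstance
@[reducible] noncomputable def a34.{u1, u2} {x1 : Type u1} {x2 : Type u2} [x3 : NormedRing x2] : NegZeroClass (Vale.Agent.P184.L1 x1 x2) := inferInstance
@[reducible] noncomputable def a35.{u1, u2} {x1 : Type u1} {x2 : Type u2} [x3 : NormedRing x2] : SubNegZeroMonoid (Vale.Agent.P184.L1 x1 x2) := inferInstance
@[reducible] noncomputable def a36.{u1, u2} {x1 : Type u1} {x2 : Type u2} [x3 : NormedRing x2] : SubtractionCommMonoid (Vale.Agent.P184.L1 x1 x2) := inferInstance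
@[reducible] noncomputable def a37.{u1, u2} {x1 : Type u1} {x2 : Type u2} [x3 : NormedRing x2] : SubtractionMonoid (Vale.Agent.P184.L1 x1 x2) := inferInstance
theorem a38.{u1} {x1 : Type u1} {x2 : Nat} : @ContinuousAdd (@Vale.Agent.P184.L1 x1 (Matrix (Fin x2) (Fin x2) Complex) (@Matrix.linftyOpNormedRing (Fin x2) Complex (Fin.fintype x2) (@CStarAlgebra.toNormedRing Complex (@CommCStarAlgebra.toCStarAlgebra Complex instCommCStarAlgebraComplex)) (instDecidableEqFin x2))) (@UniformSpace.toTopologicalSpace (@Vale.Agent.P184.L1 x1 (Matrix (Fin x2) (Fin x2) Complex) (@Matrix.linftyOpNormedRing (Fin x2) Complex (Fin.fintype x2) (@CStarAlgebra.toNormedRing Complex (@CommCStarAlgebra.toCStarAlgebra Complex instCommCStarAlgebraComplex)) (instDecidableEqFin x2))) (@PseudoMetricSpace.toUniformSpace (@Vale.Agent.P184.L1 x1 (Matrix (Fin x2) (Fin x2) Complex) (@Matrix.linftyOpNormedRing (Fin x2) Complex (Fin.fintype x2) (@CStarAlgebra.toNormedRing Complex (@CommCStarAlgebra.toCStarAlgebra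 Complex instCommCStarAlgebraComplex)) (instDecidableEqFin x2))) (@SeminormedAddCommGroup.toPseudoMetricSpace (@Vale.Agent.P184.L1 x1 (Matrix (Fin x2) (Fin x2) Complex) (@Matrix.linftyOpNormedRing (Fin x2) Complex (Fin.fintype x2) (@CStarAlgebra.toNormedRing Complex (@CommCStarAlgebra.toCStarAlgebra Complex instCommCStarAlgebraComplex)) (instDecidableEqFin x2))) (@NormedAddCommGroup.toSeminormedAddCommGroup (@Vale.Agent.P184.L1 x1 (Matrix (Fin x2) (Fin x2) Complex) (@Matrix.linftyOpNormedRing (Fin x2) Complex (Fin.fintype x2) (@CStarAlgebra.toNormedRing Complex (@CommCStarAlgebra.toCStarAlgebra Complex instCommCStarAlgebraComplex)) (instDecidableEqFin x2))) (@Vale.Agent.P184.L1.instNormedAddCommGroup x1 (Matrix (Fin x2) (Fin x2) Complex) (@Matrix.linftyOpNormedRing (Fin x2) Complex (Fin.fintype x2) (@CStarAlgebra.toNormedRing Complex (@CommCStarAlgebra.toCStarAlgebra Complex instCommCStarAlgebraComplex)) (instDecidableEqFin x2))))))) (@AddSemigroup.toAdd (@Vale.Agent.P184.L1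 x1 (Matrix (Fin x2) (Fin x2) Complex) (@Matrix.linftyOpNormedRing (Fin x2) Complex (Fin.fintype x2) (@CStarAlgebra.toNormedRing Complex (@CommCStarAlgebra.toCStarAlgebra Complex instCommCStarAlgebraComplex)) (instDecidableEqFin x2))) (@AddMonoid.toAddSemigroup (@Vale.Agent.P184.L1 x1 (Matrix (Fin x2) (Fin x2) Complex) (@Matrix.linftyOpNormedRing (Fin x2) Complex (Fin.fintype x2) (@CStarAlgebra.toNormedRing Complex (@CommCStarAlgebra.toCStarAlgebra Complex instCommCStarAlgebraComplex)) (instDecidableEqFin x2))) (@SubNegMonoid.toAddMonoid (@Vale.Agent.P184.L1 x1 (Matrix (Fin x2) (Fin x2) Complex) (@Matrix.linftyOpNormedRing (Fin x2) Complex (Fin.fintype x2) (@CStarAlgebra.toNormedRing Complex (@CommCStarAlgebra.toCStarAlgebra Complex instCommCStarAlgebraComplex)) (instDecidableEqFin x2))) (@AddGroup.toSubNegMonoid (@Vale.Agent.P184.L1 x1 (Matrix (Fin x2) (Fin x2) Complex) (@Matrix.linftyOpNormedRing (Fin x2) Complex (Fin.fintype x2) (@CStarAlgebra.toNormedRing Complex (@CommCStarAlgebra.toCStarAlgebra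 Complex instCommCStarAlgebraComplex)) (instDecidableEqFin x2))) (@AddCommGroup.toAddGroup (@Vale.Agent.P184.L1 x1 (Matrix (Fin x2) (Fin x2) Complex) (@Matrix.linftyOpNormedRing (Fin x2) Complex (Fin.fintype x2) (@CStarAlgebra.toNormedRing Complex (@CommCStarAlgebra.toCStarAlgebra Complex instCommCStarAlgebraComplex)) (instDecidableEqFin x2))) (@NormedAddCommGroup.toAddCommGroup (@Vale.Agent.P184.L1 x1 (Matrix (Fin x2) (Fin x2) Complex) (@Matrix.linftyOpNormedRing (Fin x2) Complex (Fin.fintype x2) (@CStarAlgebra.toNormedRing Complex (@CommCStarAlgebra.toCStarAlgebra Complex instCommCStarAlgebraComplex)) (instDecidableEqFin x2))) (@Vale.Agent.P184.L1.instNormedAddCommGroup x1 (Matrix (Fin x2) (Fin x2) Complex) (@Matrix.linftyOpNormedRing (Fin x2) Complex (Fin.fintype x2) (@CStarAlgebra.toNormedRing Complex (@CommCStarAlgebra.toCStarAlgebra Complex instCommCStarAlgebraComplex)) (instDecidableEqFin x2))))))))) := inferInstance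
@[reducible] noncomputable def a39.{u1, u2} {x1 : Type u1} {x2 : Type u2} [x3 : NormedRing x2] : PseudoMetricSpace (Vale.Agent.P184.L1 x1 x2) := inferInstance
@[reducible] noncomputable def a40.{u1, u2} {x1 : Type u1} {x2 : Type u2} [x3 : NormedRing x2] : Add (Vale.Agent.P184.L1 x1 x2) := inferInstance
@[reducible] noncomputable def a41.{u1, u2} {x1 : Type u1} {x2 : Type u2} [x3 : NormedRing x2] : AddCommMagma (Vale.Agent.P184.L1 x1 x2) := inferInstance
@[reducible] noncomputable def a42.{u1, u2} {x1 : Type u1} {x2 : Type u2} [x3 : NormedRing x2] : AddCommSemigroup (Vale.Agent.P184.L1 x1 x2) := inferInstance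
theorem a43 : AddRightStrictMono ℝ := inferInstance
theorem a44.{u1, u2} {x1 : Type u1} {x2 : Type u2} [x3 : NormedRing x2] [x4 : NormedAlgebra ℂ x2] : IsBoundedSMul ℂ (Vale.Agent.P184.L1 x1 x2) := inferInstance
theorem a45 : AddLeftReflectLE ℝ := inferInstance
@[reducible] noncomputable def a46.{u1, u2} {x1 : Type u1} {x2 : Type u2} [x3 : NormedRing x2] : AddGroup (Vale.Agent.P184.L1 x1 x2) := inferInstance
@[reducible] def a47 : CommMonoid ℂ := inferInstance
theorem a48 : PosMulReflectLT ℝ := inferInstance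
@[reducible] noncomputable def a49.{u1, u2} {x1 : Type u1} {x2 : Type u2} [x3 : NormedRing x2] : SubNegMonoid (Vale.Agent.P184.L1 x1 x2) := inferInstance
theorem a50 : PosMulReflectLE ℝ := inferInstance
theorem a51 : ContinuousAdd ℂ := inferInstance
theorem a52 : PerfectField ℝ := inferInstance
@[reducible] def a53.{u1} {x1 : Type u1} [x2 : Group x1] : MulOne (MulAut x1) := inferInstance
@[reducible] def a54.{u1} {x1 : Type u1} [x2 : Group x1] : MulOneClass (MulAut x1) := inferInstance
@[reducible] def a55.{u1, u2} {x1 : Type u1} [x2 : Group x1] {x3 : Type u2} {x4 : x3 → Subgroup x1} {x5 : x3} : Monoid ↥(x4 x5).toSubmonoid := inferInstance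
theorem a56 : IsLeftCancelAdd ℝ := inferInstance
@[reducible] def a57.{u1} {x1 : Type u1} [x2 : Group x1] : Monoid (MulAut x1) := inferInstance
theorem a58 : PosMulStrictMono ℝ := inferInstance
theorem a59 : OrderClosedTopology ℝ := inferInstance
@[reducible] def a60 {x1 : ℕ} : MulOne (Equiv.Perm (Fin (2 * x1 + 1))) := inferInstance
@[reducible] def a61 {x1 : ℕ} : MulOneClass (Equiv.Perm (Fin (2 * x1 + 1))) := inferInstance
@[reducible] def a62.{u1, u2} {x1 : Type u1} [x2 : Group x1] {x3 : Type u2} {x4 : x3 → Subgroup x1} {x5 : x3} : DivInvMonoid ↥(x4 x5) := inferInstance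
theorem a63 : IsRightCancelAdd ℝ := inferInstance
theorem a64 : IsTopologicalRing ℂ := inferInstance
@[reducible] def a65 {x1 : ℕ} : Monoid (Equiv.Perm (Fin (2 * x1 + 1))) := inferInstance
theorem a66 : AddRightReflectLE ℝ := inferInstance
end AFast0b05f5x7a
attribute [local instance] AFast0b05f5x7a.a0 AFast0b05f5x7a.a1 AFast0b05f5x7a.a2 AFast0b05f5x7a.a3
  AFast0b05f5x7a.a4 AFast0b05f5x7a.a5 AFast0b05f5x7a.a6 AFast0b05f5x7a.a7 AFast0b05f5x7a.a8
  AFast0b05f5x7a.a9 AFast0b05f5x7a.a10 AFast0b05f5x7a.a11 AFast0b05f5x7a.a12 AFast0b05f5x7a.a13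
  AFast0b05f5x7a.a14 AFast0b05f5x7a.a15 AFast0b05f5x7a.a16 AFast0b05f5x7a.a17 AFast0b05f5x7a.a18
  AFast0b05f5x7a.a19 AFast0b05f5x7a.a20 AFast0b05f5x7a.a21 AFast0b05f5x7a.a22 AFast0b05f5x7a.a23
  AFast0b05f5x7a.a24 AFast0b05f5x7a.a25 AFast0b05f5x7a.a26 AFast0b05f5x7a.a27 AFast0b05f5x7a.a28
  AFast0b05f5x7a.a29 AFast0b05f5x7a.a30 AFast0b05f5x7a.a31 AFast0b05f5x7a.a32 AFast0b05f5x7a.a33
  AFast0b05f5x7a.a34 AFast0b05f5x7a.a35 AFast0b05f5x7a.a36 AFast0b05f5x7a.a37 AFast0b05f5x7a.a38
  AFast0b05f5x7a.a39 AFast0b05f5x7a.a40 AFast0b05f5x7a.a41 AFast0b05f5x7a.a42 AFast0b05f5x7a.a43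
  AFast0b05f5x7a.a44 AFast0b05f5x7a.a45 AFast0b05f5x7a.a46 AFast0b05f5x7a.a47 AFast0b05f5x7a.a48
  AFast0b05f5x7a.a49 AFast0b05f5x7a.a50 AFast0b05f5x7a.a51 AFast0b05f5x7a.a52 AFast0b05f5x7a.a53
  AFast0b05f5x7a.a54 AFast0b05f5x7a.a55 AFast0b05f5x7a.a56 AFast0b05f5x7a.a57 AFast0b05f5x7a.a58
  AFast0b05f5x7a.a59 AFast0b05f5x7a.a60 AFast0b05f5x7a.a61 AFast0b05f5x7a.a62 AFast0b05f5x7a.a63
  AFast0b05f5x7a.a64 AFast0b05f5x7a.a65 AFast0b05f5x7a.a66
namespace AFast0b05f5x7b
theorem a0 : Module.Free ℝ ℂ := inferInstance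
@[reducible] noncomputable def a1.{u1, u2} {x1 : Type u1} {x2 : Type u2} [x3 : NormedRing x2] [x4 : NormedAlgebra ℂ x2] : Module ℂ (Vale.Agent.P184.L1 x1 x2 →L[ℂ] Vale.Agent.P184.L1 x1 x2) := inferInstance
theorem a2 : Module.Flat ℝ ℂ := inferInstance
@[reducible] noncomputable def a3.{u1, u2} {x1 : Type u1} {x2 : Type u2} [x3 : NormedRing x2] [x4 : NormedAlgebra ℂ x2] : SMulZeroClass ℂ (Vale.Agent.P184.L1 x1 x2) := inferInstance
theorem a4 : Module.FaithfullyFlat ℝ ℂ := inferInstance
@[reducible] noncomputable def a5.{u1, u2} {x1 : Type u1} {x2 : Type u2} [x3 : NormedRing x2] [x4 : NormedAlgebra ℂ x2] : DistribSMul ℂ (Vale.Agent.P184.L1 x1 x2) := inferInstance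
@[reducible] noncomputable def a6.{u1, u2} {x1 : Type u1} {x2 : Type u2} [x3 : NormedRing x2] [x4 : NormedAlgebra ℂ x2] : SMul ℂ (Vale.Agent.P184.L1 x1 x2) := inferInstance
theorem a7.{u1, u2} {x1 : Type u1} {x2 : Type u2} [x3 : NormedRing x2] [x4 : NormedAlgebra ℂ x2] : SMulCommClass ℂ ℂ (Vale.Agent.P184.L1 x1 x2) := inferInstance
@[reducible] noncomputable def a8.{u1, u2} {x1 : Type u1} {x2 : Type u2} [x3 : NormedRing x2] [x4 : NormedAlgebra ℂ x2] : SMul ℂ (Vale.Agent.P184.L1 x1 x2 →L[ℂ] Vale.Agent.P184.L1 x1 x2) := inferInstance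
theorem a9 : FaithfulSMul ℝ ℂ := inferInstance
@[reducible] noncomputable def a10 : Module ℝ ℂ := inferInstance
@[reducible] def a11.{u1} {x1 : Type u1} [x2 : Group x1] {x3 : Finset x1} : MulOne ↥(@Subgroup.closure x1 x2 (@SetLike.coe (Finset x1) x1 (@Finset.instSetLike x1) x3)) := inferInstance
theorem a12.{u1} {x1 : Type u1} {x2 : Nat} : @SMulCommClass Complex Complex (@Vale.Agent.P184.L1 x1 (Matrix (Fin x2) (Fin x2) Complex) (@Matrix.linftyOpNormedRing (Fin x2) Complex (Fin.fintype x2) (@CStarAlgebra.toNormedRing Complex (@CommCStarAlgebra.toCStarAlgebra Complex instCommCStarAlgebraComplex)) (instDecidableEqFin x2))) (@SemigroupAction.toSMul Complex (@Vale.Agent.P184.L1 x1 (Matrix (Fin x2) (Fin x2) Complex) (@Matrix.linftyOpNormedRing (Fin x2) Complex (Fin.fintype x2) (@CStarAlgebra.toNormedRing Complex (@CommCStarAlgebra.toCStarAlgebra Complex instCommCStarAlgebraComplex)) (instDecidableEqFin x2))) (@Monoid.toSemigroup Complex (@CommMonoid.toMonoid Complex (@CommRing.toCommMonoid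 Complex Complex.commRing))) (@MulAction.toSemigroupAction Complex (@Vale.Agent.P184.L1 x1 (Matrix (Fin x2) (Fin x2) Complex) (@Matrix.linftyOpNormedRing (Fin x2) Complex (Fin.fintype x2) (@CStarAlgebra.toNormedRing Complex (@CommCStarAlgebra.toCStarAlgebra Complex instCommCStarAlgebraComplex)) (instDecidableEqFin x2))) (@CommMonoid.toMonoid Complex (@CommRing.toCommMonoid Complex Complex.commRing)) (@DistribMulAction.toMulAction Complex (@Vale.Agent.P184.L1 x1 (Matrix (Fin x2) (Fin x2) Complex) (@Matrix.linftyOpNormedRing (Fin x2) Complex (Fin.fintype x2) (@CStarAlgebra.toNormedRing Complex (@CommCStarAlgebra.toCStarAlgebra Complex instCommCStarAlgebraComplex)) (instDecidableEqFin x2))) (@CommMonoid.toMonoid Complex (@CommRing.toCommMonoid Complex Complex.commRing)) (@AddCommMonoid.toAddMonoid (@Vale.Agent.P184.L1 x1 (Matrix (Fin x2) (Fin x2) Complex) (@Matrix.linftyOpNormedRing (Fin x2) Complex (Fin.fintype x2) (@CStarAlgebra.toNormedRing Complex (@CommCStarAlgebra.toCStarAlgebra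 Complex instCommCStarAlgebraComplex)) (instDecidableEqFin x2))) (@AddCommGroup.toAddCommMonoid (@Vale.Agent.P184.L1 x1 (Matrix (Fin x2) (Fin x2) Complex) (@Matrix.linftyOpNormedRing (Fin x2) Complex (Fin.fintype x2) (@CStarAlgebra.toNormedRing Complex (@CommCStarAlgebra.toCStarAlgebra Complex instCommCStarAlgebraComplex)) (instDecidableEqFin x2))) (@NormedAddCommGroup.toAddCommGroup (@Vale.Agent.P184.L1 x1 (Matrix (Fin x2) (Fin x2) Complex) (@Matrix.linftyOpNormedRing (Fin x2) Complex (Fin.fintype x2) (@CStarAlgebra.toNormedRing Complex (@CommCStarAlgebra.toCStarAlgebra Complex instCommCStarAlgebraComplex)) (instDecidableEqFin x2))) (@Vale.Agent.P184.L1.instNormedAddCommGroup x1 (Matrix (Fin x2) (Fin x2) Complex) (@Matrix.linftyOpNormedRing (Fin x2) Complex (Fin.fintype x2) (@CStarAlgebra.toNormedRing Complex (@CommCStarAlgebra.toCStarAlgebra Complex instCommCStarAlgebraComplex)) (instDecidableEqFin x2)))))) (@Module.toDistribMulAction Complex (@Vale.Agent.P184.L1 x1 (Matrix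 (Fin x2) (Fin x2) Complex) (@Matrix.linftyOpNormedRing (Fin x2) Complex (Fin.fintype x2) (@CStarAlgebra.toNormedRing Complex (@CommCStarAlgebra.toCStarAlgebra Complex instCommCStarAlgebraComplex)) (instDecidableEqFin x2))) Complex.instSemiring (@AddCommGroup.toAddCommMonoid (@Vale.Agent.P184.L1 x1 (Matrix (Fin x2) (Fin x2) Complex) (@Matrix.linftyOpNormedRing (Fin x2) Complex (Fin.fintype x2) (@CStarAlgebra.toNormedRing Complex (@CommCStarAlgebra.toCStarAlgebra Complex instCommCStarAlgebraComplex)) (instDecidableEqFin x2))) (@NormedAddCommGroup.toAddCommGroup (@Vale.Agent.P184.L1 x1 (Matrix (Fin x2) (Fin x2) Complex) (@Matrix.linftyOpNormedRing (Fin x2) Complex (Fin.fintype x2) (@CStarAlgebra.toNormedRing Complex (@CommCStarAlgebra.toCStarAlgebra Complex instCommCStarAlgebraComplex)) (instDecidableEqFin x2))) (@Vale.Agent.P184.L1.instNormedAddCommGroup x1 (Matrix (Fin x2) (Fin x2) Complex) (@Matrix.linftyOpNormedRing (Fin x2) Complex (Fin.fintype x2) (@CStarAlgebra.toNormedRing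 Complex (@CommCStarAlgebra.toCStarAlgebra Complex instCommCStarAlgebraComplex)) (instDecidableEqFin x2))))) (@NormedSpace.toModule Complex (@Vale.Agent.P184.L1 x1 (Matrix (Fin x2) (Fin x2) Complex) (@Matrix.linftyOpNormedRing (Fin x2) Complex (Fin.fintype x2) (@CStarAlgebra.toNormedRing Complex (@CommCStarAlgebra.toCStarAlgebra Complex instCommCStarAlgebraComplex)) (instDecidableEqFin x2))) Complex.instNormedField (@NormedAddCommGroup.toSeminormedAddCommGroup (@Vale.Agent.P184.L1 x1 (Matrix (Fin x2) (Fin x2) Complex) (@Matrix.linftyOpNormedRing (Fin x2) Complex (Fin.fintype x2) (@CStarAlgebra.toNormedRing Complex (@CommCStarAlgebra.toCStarAlgebra Complex instCommCStarAlgebraComplex)) (instDecidableEqFin x2))) (@Vale.Agent.P184.L1.instNormedAddCommGroup x1 (Matrix (Fin x2) (Fin x2) Complex) (@Matrix.linftyOpNormedRing (Fin x2) Complex (Fin.fintype x2) (@CStarAlgebra.toNormedRing Complex (@CommCStarAlgebra.toCStarAlgebra Complex instCommCStarAlgebraComplex)) (instDecidableEqFin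 x2)))) (@Vale.Agent.P184.L1.instNormedSpaceComplexOfNormedAlgebra x1 (Matrix (Fin x2) (Fin x2) Complex) (@Matrix.linftyOpNormedRing (Fin x2) Complex (Fin.fintype x2) (@CStarAlgebra.toNormedRing Complex (@CommCStarAlgebra.toCStarAlgebra Complex instCommCStarAlgebraComplex)) (instDecidableEqFin x2)) (@Matrix.linftyOpNormedAlgebra Complex (Fin x2) Complex (Fin.fintype x2) Complex.instNormedField (@NormedRing.toSeminormedRing Complex (@CStarAlgebra.toNormedRing Complex (@CommCStarAlgebra.toCStarAlgebra Complex instCommCStarAlgebraComplex))) (@CStarAlgebra.toNormedAlgebra Complex (@CommCStarAlgebra.toCStarAlgebra Complex instCommCStarAlgebraComplex)) (instDecidableEqFin x2)))))))) (@SemigroupAction.toSMul Complex (@Vale.Agent.P184.L1 x1 (Matrix (Fin x2) (Fin x2) Complex) (@Matrix.linftyOpNormedRing (Fin x2) Complex (Fin.fintype x2) (@CStarAlgebra.toNormedRing Complex (@CommCStarAlgebra.toCStarAlgebra Complex instCommCStarAlgebraComplex)) (instDecidableEqFin x2))) (@Monoid.toSemigroup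 Complex (@CommMonoid.toMonoid Complex (@CommRing.toCommMonoid Complex Complex.commRing))) (@MulAction.toSemigroupAction Complex (@Vale.Agent.P184.L1 x1 (Matrix (Fin x2) (Fin x2) Complex) (@Matrix.linftyOpNormedRing (Fin x2) Complex (Fin.fintype x2) (@CStarAlgebra.toNormedRing Complex (@CommCStarAlgebra.toCStarAlgebra Complex instCommCStarAlgebraComplex)) (instDecidableEqFin x2))) (@CommMonoid.toMonoid Complex (@CommRing.toCommMonoid Complex Complex.commRing)) (@DistribMulAction.toMulAction Complex (@Vale.Agent.P184.L1 x1 (Matrix (Fin x2) (Fin x2) Complex) (@Matrix.linftyOpNormedRing (Fin x2) Complex (Fin.fintype x2) (@CStarAlgebra.toNormedRing Complex (@CommCStarAlgebra.toCStarAlgebra Complex instCommCStarAlgebraComplex)) (instDecidableEqFin x2))) (@CommMonoid.toMonoid Complex (@CommRing.toCommMonoid Complex Complex.commRing)) (@AddCommMonoid.toAddMonoid (@Vale.Agent.P184.L1 x1 (Matrix (Fin x2) (Fin x2) Complex) (@Matrix.linftyOpNormedRing (Fin x2) Complex (Fin.fintype x2)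 (@CStarAlgebra.toNormedRing Complex (@CommCStarAlgebra.toCStarAlgebra Complex instCommCStarAlgebraComplex)) (instDecidableEqFin x2))) (@AddCommGroup.toAddCommMonoid (@Vale.Agent.P184.L1 x1 (Matrix (Fin x2) (Fin x2) Complex) (@Matrix.linftyOpNormedRing (Fin x2) Complex (Fin.fintype x2) (@CStarAlgebra.toNormedRing Complex (@CommCStarAlgebra.toCStarAlgebra Complex instCommCStarAlgebraComplex)) (instDecidableEqFin x2))) (@NormedAddCommGroup.toAddCommGroup (@Vale.Agent.P184.L1 x1 (Matrix (Fin x2) (Fin x2) Complex) (@Matrix.linftyOpNormedRing (Fin x2) Complex (Fin.fintype x2) (@CStarAlgebra.toNormedRing Complex (@CommCStarAlgebra.toCStarAlgebra Complex instCommCStarAlgebraComplex)) (instDecidableEqFin x2))) (@Vale.Agent.P184.L1.instNormedAddCommGroup x1 (Matrix (Fin x2) (Fin x2) Complex) (@Matrix.linftyOpNormedRing (Fin x2) Complex (Fin.fintype x2) (@CStarAlgebra.toNormedRing Complex (@CommCStarAlgebra.toCStarAlgebra Complex instCommCStarAlgebraComplex)) (instDecidableEqFin x2))))))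 (@Module.toDistribMulAction Complex (@Vale.Agent.P184.L1 x1 (Matrix (Fin x2) (Fin x2) Complex) (@Matrix.linftyOpNormedRing (Fin x2) Complex (Fin.fintype x2) (@CStarAlgebra.toNormedRing Complex (@CommCStarAlgebra.toCStarAlgebra Complex instCommCStarAlgebraComplex)) (instDecidableEqFin x2))) Complex.instSemiring (@AddCommGroup.toAddCommMonoid (@Vale.Agent.P184.L1 x1 (Matrix (Fin x2) (Fin x2) Complex) (@Matrix.linftyOpNormedRing (Fin x2) Complex (Fin.fintype x2) (@CStarAlgebra.toNormedRing Complex (@CommCStarAlgebra.toCStarAlgebra Complex instCommCStarAlgebraComplex)) (instDecidableEqFin x2))) (@NormedAddCommGroup.toAddCommGroup (@Vale.Agent.P184.L1 x1 (Matrix (Fin x2) (Fin x2) Complex) (@Matrix.linftyOpNormedRing (Fin x2) Complex (Fin.fintype x2) (@CStarAlgebra.toNormedRing Complex (@CommCStarAlgebra.toCStarAlgebra Complex instCommCStarAlgebraComplex)) (instDecidableEqFin x2))) (@Vale.Agent.P184.L1.instNormedAddCommGroup x1 (Matrix (Fin x2) (Fin x2) Complex) (@Matrix.linftyOpNormedRing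 (Fin x2) Complex (Fin.fintype x2) (@CStarAlgebra.toNormedRing Complex (@CommCStarAlgebra.toCStarAlgebra Complex instCommCStarAlgebraComplex)) (instDecidableEqFin x2))))) (@NormedSpace.toModule Complex (@Vale.Agent.P184.L1 x1 (Matrix (Fin x2) (Fin x2) Complex) (@Matrix.linftyOpNormedRing (Fin x2) Complex (Fin.fintype x2) (@CStarAlgebra.toNormedRing Complex (@CommCStarAlgebra.toCStarAlgebra Complex instCommCStarAlgebraComplex)) (instDecidableEqFin x2))) Complex.instNormedField (@NormedAddCommGroup.toSeminormedAddCommGroup (@Vale.Agent.P184.L1 x1 (Matrix (Fin x2) (Fin x2) Complex) (@Matrix.linftyOpNormedRing (Fin x2) Complex (Fin.fintype x2) (@CStarAlgebra.toNormedRing Complex (@CommCStarAlgebra.toCStarAlgebra Complex instCommCStarAlgebraComplex)) (instDecidableEqFin x2))) (@Vale.Agent.P184.L1.instNormedAddCommGroup x1 (Matrix (Fin x2) (Fin x2) Complex) (@Matrix.linftyOpNormedRing (Fin x2) Complex (Fin.fintype x2) (@CStarAlgebra.toNormedRing Complex (@CommCStarAlgebra.toCStarAlgebra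 Complex instCommCStarAlgebraComplex)) (instDecidableEqFin x2)))) (@Vale.Agent.P184.L1.instNormedSpaceComplexOfNormedAlgebra x1 (Matrix (Fin x2) (Fin x2) Complex) (@Matrix.linftyOpNormedRing (Fin x2) Complex (Fin.fintype x2) (@CStarAlgebra.toNormedRing Complex (@CommCStarAlgebra.toCStarAlgebra Complex instCommCStarAlgebraComplex)) (instDecidableEqFin x2)) (@Matrix.linftyOpNormedAlgebra Complex (Fin x2) Complex (Fin.fintype x2) Complex.instNormedField (@NormedRing.toSeminormedRing Complex (@CStarAlgebra.toNormedRing Complex (@CommCStarAlgebra.toCStarAlgebra Complex instCommCStarAlgebraComplex))) (@CStarAlgebra.toNormedAlgebra Complex (@CommCStarAlgebra.toCStarAlgebra Complex instCommCStarAlgebraComplex)) (instDecidableEqFin x2)))))))) := inferInstance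
@[reducible] def a13.{u1} {x1 : Type u1} [x2 : Group x1] {x3 : Finset x1} : MulOneClass ↥(@Subgroup.closure x1 x2 (@SetLike.coe (Finset x1) x1 (@Finset.instSetLike x1) x3)) := inferInstance
@[reducible] def a14.{u1} {x1 : Type u1} [x2 : Group x1] {x3 : Finset x1} : Monoid ↥(@Subgroup.closure x1 x2 (@SetLike.coe (Finset x1) x1 (@Finset.instSetLike x1) x3)) := inferInstance
@[reducible] noncomputable def a15.{u1, u2} {x1 : Type u1} {x2 : Type u2} [x3 : NormedRing x2] [x4 : NormedAlgebra ℂ x2] : SMulZeroClass ℂ (Vale.Agent.P184.L1 x1 x2 →L[ℂ] Vale.Agent.P184.L1 x1 x2) := inferInstance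
theorem a16.{u1, u2} {x1 : Type u1} {x2 : Type u2} [x3 : NormedRing x2] [x4 : NormedAlgebra ℂ x2] : ContinuousAdd (Vale.Agent.P184.L1 x1 x2 →L[ℂ] Vale.Agent.P184.L1 x1 x2) := inferInstance
@[reducible] noncomputable def a17.{u1, u2} {x1 : Type u1} {x2 : Type u2} [x3 : NormedRing x2] [x4 : NormedAlgebra ℂ x2] : DistribSMul ℂ (Vale.Agent.P184.L1 x1 x2 →L[ℂ] Vale.Agent.P184.L1 x1 x2) := inferInstance
@[reducible] noncomputable def a18.{u1, u2} {x1 : Type u1} {x2 : Type u2} [x3 : NormedRing x2] [x4 : NormedAlgebra ℂ x2] : DistribMulAction ℂ (Vale.Agent.P184.L1 x1 x2 →L[ℂ] Vale.Agent.P184.L1 x1 x2) := inferInstance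
theorem a19.{u1, u2} {x1 : Type u1} {x2 : Type u2} [x3 : NormedRing x2] [x4 : NormedAlgebra ℂ x2] : IsSemitopologicalSemiring (Vale.Agent.P184.L1 x1 x2 →L[ℂ] Vale.Agent.P184.L1 x1 x2) := inferInstance
theorem a20.{u1, u2} {x1 : Type u1} {x2 : Type u2} [x3 : NormedRing x2] [x4 : NormedAlgebra ℂ x2] : IsTopologicalRing (Vale.Agent.P184.L1 x1 x2 →L[ℂ] Vale.Agent.P184.L1 x1 x2) := inferInstance
theorem a21.{u1, u2} {x1 : Type u1} {x2 : Type u2} [x3 : NormedRing x2] [x4 : NormedAlgebra ℂ x2] : ContinuousConstSMul ℂ (Vale.Agent.P184.L1 x1 x2 →L[ℂ] Vale.Agent.P184.L1 x1 x2) := inferInstance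
theorem a22.{u1, u2} {x1 : Type u1} {x2 : Type u2} [x3 : NormedRing x2] [x4 : NormedAlgebra ℂ x2] : IsSemitopologicalRing (Vale.Agent.P184.L1 x1 x2 →L[ℂ] Vale.Agent.P184.L1 x1 x2) := inferInstance
end AFast0b05f5x7b
attribute [local instance] AFast0b05f5x7b.a0 AFast0b05f5x7b.a1 AFast0b05f5x7b.a2 AFast0b05f5x7b.a3
  AFast0b05f5x7b.a4 AFast0b05f5x7b.a5 AFast0b05f5x7b.a6 AFast0b05f5x7b.a7 AFast0b05f5x7b.a8
  AFast0b05f5x7b.a9 AFast0b05f5x7b.a10 AFast0b05f5x7b.a11 AFast0b05f5x7b.a12 AFast0b05f5x7b.a13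
  AFast0b05f5x7b.a14 AFast0b05f5x7b.a15 AFast0b05f5x7b.a16 AFast0b05f5x7b.a17 AFast0b05f5x7b.a18
  AFast0b05f5x7b.a19 AFast0b05f5x7b.a20 AFast0b05f5x7b.a21 AFast0b05f5x7b.a22
section

section

noncomputable section

namespace Vale.Agent.P184

universe u v w

/-- A charged element carries no trace. -/
theorem vanishesAt_of_charged {G : Type*} [Group G] {x : G} (hx : Charged x) : VanishesAt x := by
  obtain ⟨L, φ, h1, h2, h3, h4⟩ := hx
  exact fun q e he => master x L φ h1 h2 h3 h4 e he

/-- Elements mapping to a class, sorted by their class. -/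
def classEquiv {G H : Type*} [Group G] [Group H] (f : H →* G) (C : ConjClasses G) :
    (Σ D : {D : ConjClasses H // ConjClasses.map f D = C}, {y : H // ConjClasses.mk y = D.1}) ≃
      {h : H // ConjClasses.mk (f h) = C} where
  toFun p := ⟨p.2.1, by
    have h2 := p.1.2
    rw [← p.2.2] at h2
    exact h2⟩
  invFun h := ⟨⟨ConjClasses.mk h.1, h.2⟩, ⟨h.1, rfl⟩⟩
  left_inv := by
    rintro ⟨⟨D, hD⟩, ⟨y, hy⟩⟩
    obtain rfl : ConjClasses.mk y = D := hy
    rfl
  right_inv h := rfl

theorem classEquiv_apply {G H : Type*} [Group G] [Group H] (f : H →* G) (C : ConjClasses G)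
    (p : Σ D : {D : ConjClasses H // ConjClasses.map f D = C}, {y : H // ConjClasses.mk y = D.1}) :
    (classEquiv f C p : H) = p.2.1 := rfl

theorem tau_eq {H : Type*} [Group H] {q : ℕ} (b : Matrix (Fin q) (Fin q) (H → ℂ))
    (D : ConjClasses H) : tau D b = ∑' y : {y : H // ConjClasses.mk y = D}, ∑ i, b i i y := by
  have hset : D.carrier = {g | ConjClasses.mk g = D} := by
    ext g
    exact ConjClasses.mem_carrier_iff_mk_eq
  unfold tau
  rw [hset]
  rfl

/-- Summation over conjugacy classes. -/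
theorem tsum_classes {G H : Type*} [Group G] [Group H] {q : ℕ}
    {b : Matrix (Fin q) (Fin q) (H → ℂ)} (hb : IsIdem b) (f : H →* G) (C : ConjClasses G)
    (h0 : ∀ D : ConjClasses H, ConjClasses.map f D = C → tau D b = 0) :
    ∑' h : {h : H // ConjClasses.mk (f h) = C}, ∑ i, b i i h = 0 := by
  set F : H → ℂ := fun h => ∑ i, b i i h with hF
  have hs : Summable F := summable_sum fun i _ => (hb.1 i i).of_norm
  have hs1 : Summable fun h : {h : H // ConjClasses.mk (f h) = C} => F h := hs.subtype _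
  have hs2 := (classEquiv f C).summable_iff.mpr hs1
  have h1 : ∑' h : {h : H // ConjClasses.mk (f h) = C}, F h =
      ∑' p, F (classEquiv f C p) := ((classEquiv f C).tsum_eq _).symm
  have h2 := hs2.tsum_sigma
  have h3 : ∀ D : {D : ConjClasses H // ConjClasses.map f D = C},
      ∑' c : {y : H // ConjClasses.mk y = D.1}, F (classEquiv f C ⟨D, c⟩) = 0 := by
    intro D
    have h4 := h0 D.1 D.2
    rw [tau_eq] at h4
    exact h4
  refine h1.trans (h2.trans ?_)
  refine (tsum_congr h3).trans tsum_zero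

theorem vanishesAt_of_local {G : Type u} [Group G] (x : G)
    (h : ∀ S : Finset G, ∃ (H : Type v) (_ : Group H) (f : H →* G) (s : G → H),
      LiftsTo S f s ∧ ∀ y : H, IsConj x (f y) → VanishesAt y) : VanishesAt x := by
  intro q e he
  obtain ⟨S, hS⟩ := transfer.{u, v} e he
  obtain ⟨H, _, f, s, ⟨hfs, hsm⟩, hv⟩ := h S
  obtain ⟨b, hb, htau⟩ := hS H f s hfs hsm
  rw [htau]
  refine tsum_classes hb f _ fun D hD => ?_
  obtain ⟨y, rfl⟩ := ConjClasses.mk_surjective D
  refine hv y ?_ q b hb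
  have : ConjClasses.mk (f y) = ConjClasses.mk x := hD
  exact (ConjClasses.mk_eq_mk_iff_isConj.mp this).symm

/-- The `ℓ¹`-Bass conjecture passes to groups all of whose finite partial multiplication tables
lift to groups satisfying it, for example to directed colimits. -/
theorem l1Bass_of_local {G : Type u} [Group G]
    (h : ∀ S : Finset G, ∃ (H : Type v) (_ : Group H) (f : H →* G) (s : G → H),
      LiftsTo S f s ∧ L1Bass H) : L1Bass G := by
  classical
  intro q e he
  obtain ⟨S, hS⟩ := transfer.{u, v} e he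
  obtain ⟨H, _, f, s, ⟨hfs, hsm⟩, hv⟩ := h S
  obtain ⟨b, hb, htau⟩ := hS H f s hfs hsm
  obtain ⟨F, hF1, hF2⟩ := hv q b hb
  refine ⟨F.image (ConjClasses.map f), ?_, ?_⟩
  · intro C hC g hg
    obtain ⟨D, hD, rfl⟩ := Finset.mem_image.mp hC
    obtain ⟨y, rfl⟩ := ConjClasses.mk_surjective D
    have h1 : ConjClasses.mk g = ConjClasses.mk (f y) := ConjClasses.mem_carrier_iff_mk_eq.mp hg
    obtain ⟨c, hc⟩ := isConj_iff.mp (ConjClasses.mk_eq_mk_iff_isConj.mp h1).symm
    have h2 : IsOfFinOrder (f y) := f.isOfFinOrder (hF1 _ hD y ConjClasses.mem_carrier_mk)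
    rw [← hc]
    have h3 : c * f y * c⁻¹ = MulAut.conj c (f y) := rfl
    rw [h3]
    exact (MulAut.conj c).toMonoidHom.isOfFinOrder h2
  · intro C hC
    rw [htau]
    refine tsum_classes hb f C fun D hD => ?_
    refine hF2 D fun h1 => hC ?_
    exact Finset.mem_image.mpr ⟨D, h1, hD⟩

/-- Lifting to the subgroup generated by a finite set. -/
theorem liftsTo_closure {G : Type u} [Group G] (S : Finset G) :
    ∃ s : G → Subgroup.closure (S : Set G), LiftsTo S (Subgroup.closure (S : Set G)).subtype s := by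
  classical
  refine ⟨fun g => if h : g ∈ Subgroup.closure (S : Set G) then ⟨g, h⟩ else 1, ?_, ?_⟩
  · intro x hx
    have h : x ∈ Subgroup.closure (S : Set G) := Subgroup.subset_closure hx
    simp [h]
  · intro x hx y hy _
    have h1 : x ∈ Subgroup.closure (S : Set G) := Subgroup.subset_closure hx
    have h2 : y ∈ Subgroup.closure (S : Set G) := Subgroup.subset_closure hy
    have h3 := Subgroup.mul_mem _ h1 h2
    simp [h1, h2, h3]

theorem l1Bass_of_finite_torsion {G : Type*} [Group G]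
    (hv : ∀ x : G, ¬ IsOfFinOrder x → VanishesAt x)
    (hfin : {C : ConjClasses G | IsTorsionClass C}.Finite) : L1Bass G := by
  classical
  intro q e he
  refine ⟨hfin.toFinset, fun C hC => by simpa using hC, fun C hC => ?_⟩
  obtain ⟨x, rfl⟩ := ConjClasses.mk_surjective C
  refine hv x (fun hx => hC ?_) q e he
  simp only [Set.Finite.mem_toFinset, Set.mem_ofPred_eq]
  intro g hg
  have h1 : ConjClasses.mk g = ConjClasses.mk x := ConjClasses.mem_carrier_iff_mk_eq.mp hg
  obtain ⟨c, hc⟩ := isConj_iff.mp (ConjClasses.mk_eq_mk_iff_isConj.mp h1).symm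
  rw [← hc]
  exact (MulAut.conj c).toMonoidHom.isOfFinOrder hx

end Vale.Agent.P184
end
end
end

section

section

noncomputable section

namespace Vale.Agent.P184

universe u v w

section Congr

variable {G H : Type*} [Group G] [Group H] {D : Type*} [NormedRing D] [NormedAlgebra ℂ D]
  [CompleteSpace D]

omit [CompleteSpace D] in
theorem phi_congr (A A' : CrossedData G D) (h : ∀ g m, A.act g m = A'.act g m) (g : G) (m : D) :
    A.phi g m = A'.phi g m :=
  CrossedData.op_ext fun v k => by rw [A.phi_co, A'.phi_co, h]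

theorem theta_congr (A A' : CrossedData G D) (h : ∀ g m, A.act g m = A'.act g m) (f : H →* G)
    (v : L1 H D) : theta A f v = theta A' f v := by
  rw [theta_apply, theta_apply]
  exact tsum_congr fun x => phi_congr A A' h _ _

end Congr

section Mat

attribute [local instance] Matrix.linftyOpNormedRing Matrix.linftyOpNormedAlgebra

/-- Pushforward of idempotents along a homomorphism of groups. -/
theorem pushforward {G : Type*} {Q : Type*} [Group G] [Group Q] (π : G →* Q) {q : ℕ}
    (e : Matrix (Fin q) (Fin q) (G → ℂ)) (he : IsIdem e) :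
    ∃ b : Matrix (Fin q) (Fin q) (Q → ℂ), IsIdem b ∧
      ∀ C : ConjClasses Q, tau C b = ∑' g : {g : G // ConjClasses.mk (π g) = C}, ∑ i, e i i g := by
  classical
  set ve : L1 G (Matrix (Fin q) (Fin q) ℂ) := L1.mk (toFn e) (toFn_summable he) with hve
  let B : CrossedData G (Matrix (Fin q) (Fin q) ℂ) :=
    trivData (mtr q) (mtr_comm q) (fun _ => False) (fun _ _ h => h)
  let A : CrossedData Q (Matrix (Fin q) (Fin q) ℂ) :=
    trivData (mtr q) (mtr_comm q) (fun _ => False) (fun _ _ h => h)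
  have hB : ∀ g a, B.act g a = a := fun g a => rfl
  have hA : ∀ g a, A.act g a = a := fun g a => rfl
  set p := theta B (MonoidHom.id G) ve with hp
  have hpm : p ∈ B.clos := theta_mem B _ ve
  have hpi : p * p = p := theta_idem B hB ve (toFn_conv he)
  set f := Psi A π p with hf
  have hfm : f ∈ A.clos := Psi_mem A B π hpm
  have hfi : f * f = f := by
    rw [hf, ← Psi_mul A B π (fun _ _ => rfl) hpm hpm, hpi]
  set vb := f CrossedData.del with hvb
  have h1 : theta A (MonoidHom.id Q) vb = f := by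
    rw [hvb, ← Psi_apply]
    exact Psi_id A hfm
  refine ⟨Matrix.of fun i j => fun h => vb.co h i j, ?_, ?_⟩
  · refine isIdem_of_conv vb.summable_norm fun k => ?_
    refine (theta_co A hA vb vb k).symm.trans ?_
    rw [h1, hvb]
    change ((f * f) CrossedData.del).co k = _
    rw [hfi]
  · intro C
    have hP : ∀ g h : Q, ConjClasses.mk (g * h) = C → ConjClasses.mk (h * g) = C := by
      intro g h hgh
      rw [← hgh, ConjClasses.mk_eq_mk_iff_isConj]
      exact isConj_iff.2 ⟨g, by group⟩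
    let A' : CrossedData Q (Matrix (Fin q) (Fin q) ℂ) :=
      trivData (mtr q) (mtr_comm q) (fun g => ConjClasses.mk g = C) hP
    have hAA : ∀ g m, A'.act g m = A.act g m := fun _ _ => rfl
    have h2 : theta A' (MonoidHom.id Q) vb = theta A' π ve := by
      rw [theta_congr A' A hAA, theta_congr A' A hAA, h1, hf, Psi_apply, hp, theta_del B hB]
    have h3 := congrArg A'.tr h2
    rw [tr_theta, tr_theta] at h3
    have h4 : ∑' h, A'.fn ((MonoidHom.id Q) h) (vb.co h) =
        tau C (Matrix.of fun i j => fun h => vb.co h i j) := by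
      rw [tau_eq]
      have := tsum_subtype {g : Q | ConjClasses.mk g = C} (fun h => ∑ i, vb.co h i i)
      refine Eq.trans ?_ this.symm
      refine tsum_congr fun g => ?_
      by_cases hg : ConjClasses.mk g = C
      · rw [Set.indicator_of_mem (by exact hg)]
        exact trivData_fn_pos (mtr q) (mtr_comm q) (fun g => ConjClasses.mk g = C) hP
          (g := g) hg _
      · rw [Set.indicator_of_notMem (by exact hg)]
        exact trivData_fn_neg (mtr q) (mtr_comm q) (fun g => ConjClasses.mk g = C) hP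
          (g := g) hg _
    have h5 : ∑' h, A'.fn (π h) (ve.co h) =
        ∑' g : {g : G // ConjClasses.mk (π g) = C}, ∑ i, e i i g := by
      have := tsum_subtype {h : G | ConjClasses.mk (π h) = C} (fun h => ∑ i, e i i h)
      refine Eq.trans ?_ this.symm
      refine tsum_congr fun g => ?_
      by_cases hg : ConjClasses.mk (π g) = C
      · rw [Set.indicator_of_mem (by exact hg)]
        exact trivData_fn_pos (mtr q) (mtr_comm q) (fun g => ConjClasses.mk g = C) hP
          (g := π g) hg _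
      · rw [Set.indicator_of_notMem (by exact hg)]
        exact trivData_fn_neg (mtr q) (mtr_comm q) (fun g => ConjClasses.mk g = C) hP
          (g := π g) hg _
    rw [← h4, h3, h5]

end Mat

/-- Sum over classes when only one class contributes. -/
theorem tsum_classes_single {G H : Type*} [Group G] [Group H] {q : ℕ}
    {b : Matrix (Fin q) (Fin q) (H → ℂ)} (hb : IsIdem b) (f : H →* G) (C : ConjClasses G)
    (D0 : ConjClasses H) (hD0 : ConjClasses.map f D0 = C)
    (h0 : ∀ D : ConjClasses H, ConjClasses.map f D = C → D ≠ D0 → tau D b = 0) :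
    ∑' h : {h : H // ConjClasses.mk (f h) = C}, ∑ i, b i i h = tau D0 b := by
  set F : H → ℂ := fun h => ∑ i, b i i h with hF
  have hs : Summable F := summable_sum fun i _ => (hb.1 i i).of_norm
  have hs1 : Summable fun h : {h : H // ConjClasses.mk (f h) = C} => F h := hs.subtype _
  have hs2 := (classEquiv f C).summable_iff.mpr hs1
  have h1 : ∑' h : {h : H // ConjClasses.mk (f h) = C}, F h =
      ∑' p, F (classEquiv f C p) := ((classEquiv f C).tsum_eq _).symm
  have h2 := hs2.tsum_sigma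
  refine h1.trans (h2.trans ?_)
  rw [tsum_eq_single (⟨D0, hD0⟩ : {D : ConjClasses H // ConjClasses.map f D = C})]
  · rw [tau_eq]
    rfl
  · intro D hD
    have h4 := h0 D.1 D.2 (fun h => hD (Subtype.ext h))
    rw [tau_eq] at h4
    exact h4

/-- Retraction principle: if all classes with the same image as `x`, other than the class of
`x`, carry no trace, then the coefficient at `x` can be computed in the quotient. -/
theorem tau_eq_pushforward {G : Type*} {Q : Type*} [Group G] [Group Q] (π : G →* Q) {q : ℕ}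
    (e : Matrix (Fin q) (Fin q) (G → ℂ)) (he : IsIdem e) (x : G)
    (h : ∀ y : G, IsConj (π x) (π y) → ¬ IsConj x y → VanishesAt y) :
    ∑' g : {g : G // ConjClasses.mk (π g) = ConjClasses.mk (π x)}, ∑ i, e i i g =
      tau (ConjClasses.mk x) e := by
  refine tsum_classes_single he π _ (ConjClasses.mk x) rfl fun D hD hne => ?_
  obtain ⟨y, rfl⟩ := ConjClasses.mk_surjective D
  have h1 : ConjClasses.mk (π y) = ConjClasses.mk (π x) := hD
  refine h y (ConjClasses.mk_eq_mk_iff_isConj.mp h1).symm (fun h2 => hne ?_) q e he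
  exact (ConjClasses.mk_eq_mk_iff_isConj.mpr h2).symm

theorem charged_of_map {G Q : Type*} [Group G] [Group Q] (π : G →* Q) {x : G}
    (hx : Charged (π x)) : Charged x := by
  obtain ⟨L, φ, h1, h2, h3, h4⟩ := hx
  refine ⟨fun g => L (π g), fun g => φ (π g), fun g h => ?_, fun g h hg hh => ?_, fun g hg => ?_, h4⟩
  · change L (π (g * h)) ≤ _
    rw [map_mul]; exact h1 _ _
  · change φ (π (g * h)) = _
    rw [map_mul]; exact h2 _ _ (hg.map π) (hh.map π)
  · exact h3 _ (hg.map π)

theorem charged_of_pow {G : Type*} [Group G] {x : G} (m : ℕ) (hx : Charged (x ^ m)) :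
    Charged x := by
  obtain ⟨L, φ, h1, h2, h3, h4⟩ := hx
  refine ⟨L, φ, h1, fun g h hg hh => h2 g h (hg.pow_right m) (hh.pow_right m),
    fun g hg => h3 g (hg.pow_right m), fun h0 => h4 ?_⟩
  have h5 : ∀ n : ℕ, φ (x ^ n) = n * φ x := by
    intro n
    induction n with
    | zero =>
      have := h2 1 1 (Commute.one_left _) (Commute.one_left _)
      simp at this
      simp only [pow_zero, this, CharP.cast_eq_zero, zero_mul]
    | succ n ih =>
      rw [pow_succ, h2 _ _ (((Commute.refl x).pow_left n).pow_right m)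
        ((Commute.refl x).pow_right m), ih]
      push_cast; ring
  rw [h5, h0, mul_zero]

theorem isTorsionClass_mk {G : Type*} [Group G] {x : G} :
    IsTorsionClass (ConjClasses.mk x) ↔ IsOfFinOrder x := by
  constructor
  · intro h
    exact h x ConjClasses.mem_carrier_mk
  · intro hx g hg
    have h1 : ConjClasses.mk g = ConjClasses.mk x := ConjClasses.mem_carrier_iff_mk_eq.mp hg
    obtain ⟨c, hc⟩ := isConj_iff.mp (ConjClasses.mk_eq_mk_iff_isConj.mp h1).symm
    rw [← hc]
    exact (MulAut.conj c).toMonoidHom.isOfFinOrder hx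

/-- The `ℓ¹`-Bass conjecture passes to products with groups all of whose nontrivial elements are
charged. -/
theorem l1Bass_prod {Q A : Type*} [Group Q] [Group A] (hQ : L1Bass Q)
    (hA : ∀ a : A, a ≠ 1 → Charged a) : L1Bass (Q × A) := by
  classical
  intro q e he
  obtain ⟨b, hb, htau⟩ := pushforward (MonoidHom.fst Q A) e he
  obtain ⟨F, hF1, hF2⟩ := hQ q b hb
  refine ⟨F.image (ConjClasses.map (MonoidHom.inl Q A)), ?_, ?_⟩
  · intro C hC
    obtain ⟨D, hD, rfl⟩ := Finset.mem_image.mp hC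
    obtain ⟨y, rfl⟩ := ConjClasses.mk_surjective D
    have h1 := isTorsionClass_mk.mp (hF1 _ hD)
    exact isTorsionClass_mk.mpr ((MonoidHom.inl Q A).isOfFinOrder h1)
  · intro C hC
    obtain ⟨⟨c, a⟩, rfl⟩ := ConjClasses.mk_surjective C
    by_cases ha : a = 1
    · subst ha
      have h1 := tau_eq_pushforward (MonoidHom.fst Q A) e he (c, 1) ?_
      · rw [← h1, ← htau]
        refine hF2 _ fun h2 => hC (Finset.mem_image.mpr ⟨_, h2, rfl⟩)
      · rintro ⟨c', a'⟩ h2 h3
        have ha' : a' ≠ 1 := by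
          rintro rfl
          apply h3
          obtain ⟨d, hd⟩ := isConj_iff.mp h2
          exact isConj_iff.mpr ⟨(d, 1), by simpa only [Prod.mk_mul_mk, mul_one, Prod.inv_mk, inv_one, Prod.mk.injEq, and_true, MonoidHom.coe_fst] using     hd⟩
        exact vanishesAt_of_charged (charged_of_map (MonoidHom.snd Q A) (hA a' ha'))
    · exact vanishesAt_of_charged
        (charged_of_map (x := (c, a)) (MonoidHom.snd Q A) (hA a ha)) q e he

end Vale.Agent.P184
end
end
end

section

section

noncomputable section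

namespace Vale.Agent.P184

universe u v w

/-- relations recording a finite piece of a multiplication table -/
def tableRels {G : Type u} [Group G] {n : ℕ} (s : Fin n → G) : Set (FreeGroup (Fin n)) :=
  {w | ∃ i j k : Fin n, s i * s j = s k ∧
    w = FreeGroup.of i * FreeGroup.of j * (FreeGroup.of k)⁻¹}

theorem tableRels_finite {G : Type u} [Group G] {n : ℕ} (s : Fin n → G) :
    (tableRels s).Finite := by
  have h1 : tableRels s ⊆ Set.range fun p : Fin n × Fin n × Fin n =>
      FreeGroup.of p.1 * FreeGroup.of p.2.1 * (FreeGroup.of p.2.2)⁻¹ := by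
    rintro w ⟨i, j, k, _, rfl⟩
    exact ⟨(i, j, k), rfl⟩
  exact (Set.finite_range _).subset h1

/-- Finite pieces of the multiplication table lift to finitely presented groups. -/
theorem liftsTo_fp {G : Type u} [Group G] (S : Finset G) :
    ∃ (n : ℕ) (rels : Set (FreeGroup (Fin n))) (_ : rels.Finite)
      (f : PresentedGroup rels →* G) (s : G → PresentedGroup rels), LiftsTo S f s := by
  classical
  let e := S.equivFin
  let t : Fin S.card → G := fun i => (e.symm i : G)
  have ht : ∀ x (hx : x ∈ S), t (e ⟨x, hx⟩) = x := fun x hx => by simp only [Equiv.symm_apply_apply, t]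
  have hrel : ∀ r ∈ tableRels t, FreeGroup.lift t r = 1 := by
    rintro r ⟨i, j, k, h, rfl⟩
    simp only [map_mul, FreeGroup.lift_apply_of, h, map_inv, mul_inv_cancel]
  refine ⟨S.card, tableRels t, tableRels_finite t, PresentedGroup.toGroup hrel,
    fun x => if hx : x ∈ S then PresentedGroup.of (e ⟨x, hx⟩) else 1, ?_, ?_⟩
  · intro x hx
    simp only [hx, dif_pos]
    rw [PresentedGroup.toGroup.of, ht]
  · intro x hx y hy hxy
    simp only [hx, hy, hxy, dif_pos]
    have h1 : FreeGroup.of (e ⟨x, hx⟩) * FreeGroup.of (e ⟨y, hy⟩) *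
        (FreeGroup.of (e ⟨x * y, hxy⟩))⁻¹ ∈ tableRels t :=
      ⟨_, _, _, by rw [ht, ht, ht], rfl⟩
    have h2 := (PresentedGroup.one_of_mem h1)
    rw [map_mul, map_mul, map_inv, mul_inv_eq_one] at h2
    exact h2

/-- The `ℓ¹`-Bass conjecture for finitely presented groups implies it for all groups. -/
theorem l1Bass_of_fp
    (h : ∀ (n : ℕ) (rels : Set (FreeGroup (Fin n))), rels.Finite → L1Bass (PresentedGroup rels))
    (G : Type u) [Group G] : L1Bass G := by
  refine l1Bass_of_local.{u, 0} fun S => ?_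
  obtain ⟨n, rels, hfin, f, s, hs⟩ := liftsTo_fp S
  exact ⟨PresentedGroup rels, inferInstance, f, s, hs, h n rels hfin⟩

end Vale.Agent.P184
end
end
end

section

section

open Filter Topology

namespace Vale.Agent.P184

section Mid

variable {X : Type*} [MetricSpace X]

/-- midpoints in the sense of Bruhat and Tits -/
def IsMid (p q m : X) : Prop :=
  ∀ z : X, dist z m ^ 2 ≤ (dist z p ^ 2 + dist z q ^ 2) / 2 - dist p q ^ 2 / 4

theorem IsMid.dist_le {a b c m m' : X} (h : IsMid a b m) (h' : IsMid b c m') :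
    dist m m' ≤ dist a c / 2 := by
  have h1 := h m'
  have h2 := h' a
  have h3 := h' b
  rw [dist_self] at h3
  rw [dist_comm m' m, dist_comm m' a, dist_comm m' b] at h1
  have h4 : dist m m' ^ 2 ≤ (dist a c / 2) ^ 2 := by linarith only [h3, h2, h1]
  have h5 : (0 : ℝ) ≤ dist a c / 2 := by (clear * -; positivity)
  exact (sq_le_sq₀ dist_nonneg h5).mp h4

end Mid

section Disp

variable {G : Type*} [Group G] {X : Type*} [MetricSpace X] [MulAction G X]

theorem IsMid.smul (hiso : ∀ (g : G) (p q : X), dist (g • p) (g • q) = dist p q)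
    {p q m : X} (h : IsMid p q m) (g : G) : IsMid (g • p) (g • q) (g • m) := by
  intro z
  have h1 := h (g⁻¹ • z)
  have h2 : ∀ w : X, dist z (g • w) = dist (g⁻¹ • z) w := by
    intro w
    rw [← hiso g (g⁻¹ • z) w, smul_inv_smul]
  rw [h2, h2, h2, hiso]
  exact h1

theorem disp_sq (hiso : ∀ (g : G) (p q : X), dist (g • p) (g • q) = dist p q)
    (hX : HasCNMidpoints X) {y : G} {δ : ℝ} (hy : ∀ v : X, δ ≤ dist v (y • v)) (v : X) :
    2 * δ ≤ dist v ((y * y) • v) := by
  obtain ⟨m, hm⟩ := hX v (y • v)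
  have h1 : IsMid v (y • v) m := hm
  have h2 := h1.smul hiso y
  have h3 := h1.dist_le h2
  have h4 := hy m
  rw [mul_smul]
  linarith only [h3, h4]

theorem disp_pow_two (hiso : ∀ (g : G) (p q : X), dist (g • p) (g • q) = dist p q)
    (hX : HasCNMidpoints X) {x : G} {δ : ℝ} (hx : ∀ v : X, δ ≤ dist v (x • v)) (k : ℕ) :
    ∀ v : X, 2 ^ k * δ ≤ dist v (x ^ (2 ^ k) • v) := by
  induction k with
  | zero => simpa only [pow_zero, one_mul, pow_one] using hx
  | succ k ih =>
    intro v
    have h1 := disp_sq hiso hX ih v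
    have h2 : x ^ 2 ^ (k + 1) = x ^ 2 ^ k * x ^ 2 ^ k := by
      rw [← pow_add, ← two_mul, ← pow_succ']
    rw [h2, pow_succ]
    linarith only [h1]

theorem disp_le_mul (hiso : ∀ (g : G) (p q : X), dist (g • p) (g • q) = dist p q)
    (y : G) (p : X) (n : ℕ) : dist p (y ^ n • p) ≤ n * dist p (y • p) := by
  induction n with
  | zero => simp
  | succ n ih =>
    have h2 := dist_triangle p (y ^ n • p) (y ^ (n + 1) • p)
    have h3 : dist (y ^ n • p) (y ^ (n + 1) • p) = dist p (y • p) := by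
      rw [pow_succ, mul_smul, hiso]
    push_cast
    linarith only [ih, h2, h3]

/-- The translation length equals the infimal displacement. -/
theorem disp_pow (hiso : ∀ (g : G) (p q : X), dist (g • p) (g • q) = dist p q)
    (hX : HasCNMidpoints X) {x : G} {δ : ℝ} (hx : ∀ v : X, δ ≤ dist v (x • v)) (p : X) (n : ℕ) :
    δ * n ≤ dist p (x ^ n • p) := by
  rcases Nat.eq_zero_or_pos n with rfl | hn
  · simp
  by_contra hlt
  push Not at hlt
  have hn' : (0 : ℝ) < n := by exact_mod_cast hn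
  set a := dist p (x ^ n • p) with ha
  set b := dist p (x • p) with hb
  have hb0 : 0 ≤ b := dist_nonneg
  have hgap : 0 < δ * n - a := by linarith only [hlt]
  obtain ⟨k, hk⟩ := pow_unbounded_of_one_lt (n * n * b / (δ * n - a)) (one_lt_two (α := ℝ))
  rw [div_lt_iff₀ hgap] at hk
  have h1 := disp_pow_two hiso hX hx k p
  set N := 2 ^ k with hN
  have h2 : dist p (x ^ N • p) ≤ ((N / n : ℕ) : ℝ) * a + ((N % n : ℕ) : ℝ) * b := by
    have h3 : x ^ N = (x ^ n) ^ (N / n) * x ^ (N % n) := by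
      rw [← pow_mul, ← pow_add, Nat.div_add_mod]
    have h4 := dist_triangle p ((x ^ n) ^ (N / n) • p) (x ^ N • p)
    have h5 : dist ((x ^ n) ^ (N / n) • p) (x ^ N • p) = dist p (x ^ (N % n) • p) := by
      rw [h3, mul_smul, hiso]
    have h6 := disp_le_mul hiso (x ^ n) p (N / n)
    have h7 := disp_le_mul hiso x p (N % n)
    linarith only [h7, h6, h5, h4]
  have h3 : ((N / n : ℕ) : ℝ) * n ≤ N := by
    exact_mod_cast Nat.div_mul_le_self N n
  have h4 : ((N % n : ℕ) : ℝ) ≤ n := by
    exact_mod_cast (Nat.mod_lt N hn).le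
  have ha0 : 0 ≤ a := dist_nonneg
  have h5 : ((N : ℕ) : ℝ) = 2 ^ k := by rw [hN]; push_cast; rfl
  have h6 : (2 : ℝ) ^ k * δ * n ≤ ((N / n : ℕ) : ℝ) * n * a + ((N % n : ℕ) : ℝ) * n * b := by
    (by_contra nlg; linarith only [mul_pos (sub_pos.2 (not_le.1 nlg)) (sub_pos.2 hn'), mul_nonneg (mul_self_nonneg (↑n : ℝ)) (sub_nonneg.2 h2), mul_nonneg (mul_self_nonneg (↑n : ℝ)) (sub_nonneg.2 h1)])
  have h7 : ((N / n : ℕ) : ℝ) * n * a ≤ 2 ^ k * a := by
    rw [← h5]; exact mul_le_mul_of_nonneg_right h3 ha0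
  have h8 : ((N % n : ℕ) : ℝ) * n * b ≤ n * n * b :=
    mul_le_mul_of_nonneg_right (mul_le_mul_of_nonneg_right h4 hn'.le) hb0
  linarith only [h8, h7, h6, hk]

/-- Elements with positive infimal displacement are charged. -/
theorem charged_of_disp [Nonempty X]
    (hiso : ∀ (g : G) (p q : X), dist (g • p) (g • q) = dist p q)
    (hX : HasCNMidpoints X) {x : G} {δ : ℝ} (hδ : 0 < δ) (hx : ∀ v : X, δ ≤ dist v (x • v)) :
    Charged x :=
  charged_of_cat hiso hX x (Classical.arbitrary X) δ hδ fun n => disp_pow hiso hX hx _ n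

theorem cont_disp (hiso : ∀ (g : G) (p q : X), dist (g • p) (g • q) = dist p q) (h : G) :
    Continuous fun w : X => dist w (h • w) := by
  have h1 : Continuous fun w : X => h • w := (Isometry.of_dist_eq (hiso h)).continuous
  exact continuous_id.dist h1

/-- For a proper cocompact action, small displacement only occurs for elements conjugate to one
of finitely many elements of finite order. -/
theorem gap_of_proper_cocompact (hiso : ∀ (g : G) (p q : X), dist (g • p) (g • q) = dist p q)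
    (hprop : ∀ w : X, ∃ r > 0, {g : G | dist w (g • w) < r}.Finite)
    (K : Set X) (hK : IsCompact K) (hcov : ∀ p : X, ∃ g : G, g • p ∈ K) :
    ∃ (F : Finset G) (η : ℝ), 0 < η ∧ (∀ h ∈ F, IsOfFinOrder h) ∧
      ∀ (x : G) (v : X), dist v (x • v) < η → ∃ h ∈ F, IsConj x h := by
  classical
  choose r hr hfin using hprop
  -- elements fixing a point have finite order
  have htor : ∀ (h : G) (w : X), h • w = w → IsOfFinOrder h := by
    intro h w hw
    rw [← not_not (a := IsOfFinOrder h)]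
    intro hno
    have hinj : Function.Injective fun n : ℕ => h ^ n := injective_pow_iff_not_isOfFinOrder.mpr hno
    have h1 : Set.range (fun n : ℕ => h ^ n) ⊆ {g : G | dist w (g • w) < r w} := by
      rintro _ ⟨n, rfl⟩
      have h2 : h ^ n • w = w := by
        induction n with
        | zero => simp
        | succ n ih => rw [pow_succ, mul_smul, hw, ih]
      simp only [Set.mem_ofPred_eq, h2, dist_self]
      exact hr w
    exact (Set.infinite_range_of_injective hinj) ((hfin w).subset h1)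
  -- finite cover
  obtain ⟨t, ht⟩ := hK.elim_finite_subcover (fun w : X => Metric.ball w (r w / 4))
    (fun w => Metric.isOpen_ball) (fun w _ => Set.mem_iUnion.2 ⟨w, by
      simpa only [Metric.mem_ball, dist_self, Nat.ofNat_pos, div_pos_iff_of_pos_right, gt_iff_lt] using hr w⟩)
  let F0 : Finset G := t.biUnion fun w => (hfin w).toFinset
  obtain ⟨ρ, hρ0, hρ⟩ : ∃ ρ : ℝ, 0 < ρ ∧ ∀ w ∈ t, ρ ≤ r w / 2 := by
    rcases t.eq_empty_or_nonempty with rfl | hne
    · exact ⟨1, one_pos, by simp only [Finset.notMem_empty, IsEmpty.forall_iff, implies_true]⟩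
    · obtain ⟨w0, hw0, hmin⟩ := t.exists_min_image r hne
      exact ⟨r w0 / 2, by have := hr w0; linarith only [this], fun w hw => by have := hmin w hw; linarith only [this]⟩
  have hF0 : ∀ (h : G) (w : X), w ∈ K → dist w (h • w) < ρ → h ∈ F0 := by
    intro h w hw hd
    have h1 := ht hw
    simp only [Set.mem_iUnion] at h1
    obtain ⟨w', hw', hb⟩ := h1
    rw [Metric.mem_ball] at hb
    refine Finset.mem_biUnion.mpr ⟨w', hw', ?_⟩
    rw [Set.Finite.mem_toFinset, Set.mem_ofPred_eq]
    have h2 := dist_triangle4 w' w (h • w) (h • w')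
    rw [hiso, dist_comm w' w] at h2
    have h3 := hρ w' hw'
    linarith only [h3, h2, hb, hd]
  -- lower bounds
  have hgap : ∀ h : G, ∃ η : ℝ, 0 < η ∧ ((∀ w ∈ K, h • w ≠ w) → ∀ w ∈ K, η ≤ dist w (h • w)) := by
    intro h
    rcases K.eq_empty_or_nonempty with rfl | hne
    · exact ⟨1, one_pos, by simp only [Set.mem_empty_iff_false, ne_eq, IsEmpty.forall_iff, implies_true, imp_self]⟩
    · obtain ⟨w0, hw0, hmin⟩ := hK.exists_isMinOn hne (cont_disp hiso h).continuousOn
      by_cases hz : h • w0 = w0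
      · exact ⟨1, one_pos, fun hno => absurd hz (hno w0 hw0)⟩
      · refine ⟨dist w0 (h • w0), dist_pos.mpr (Ne.symm hz), fun _ w hw => hmin hw⟩
  choose η hη0 hη using hgap
  obtain ⟨η', hη'0, hη'⟩ : ∃ η' : ℝ, 0 < η' ∧ ∀ h ∈ F0, η' ≤ η h := by
    rcases F0.eq_empty_or_nonempty with h | hne
    · exact ⟨1, one_pos, by simp only [h, Finset.notMem_empty, IsEmpty.forall_iff, implies_true]⟩
    · obtain ⟨w0, hw0, hmin⟩ := F0.exists_min_image η hne
      exact ⟨η w0, hη0 w0, hmin⟩
  refine ⟨F0.filter fun h => ∃ w ∈ K, h • w = w, min ρ η', lt_min hρ0 hη'0, ?_, ?_⟩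
  · intro h hh
    obtain ⟨w, _, hw⟩ := (Finset.mem_filter.mp hh).2
    exact htor h w hw
  · intro x v hv
    obtain ⟨g, hg⟩ := hcov v
    set h := g * x * g⁻¹ with hh
    have h1 : dist (g • v) (h • (g • v)) = dist v (x • v) := by
      rw [hh, ← mul_smul, mul_assoc, inv_mul_cancel, mul_one, mul_smul, hiso]
    have h2 : h ∈ F0 := hF0 h (g • v) hg (by rw [h1]; exact hv.trans_le (min_le_left _ _))
    refine ⟨h, Finset.mem_filter.mpr ⟨h2, ?_⟩, isConj_iff.mpr ⟨g, rfl⟩⟩
    by_contra hno
    push Not at hno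
    have h3 := hη h hno (g • v) hg
    rw [h1] at h3
    have h4 := hη' h h2
    have h5 := min_le_right ρ η'
    linarith only [hv, h3, h4, h5]

/-- The `ℓ¹`-Bass conjecture for groups acting properly and cocompactly by isometries on a
`CAT(0)` space. -/
theorem l1Bass_of_cat [Nonempty X]
    (hiso : ∀ (g : G) (p q : X), dist (g • p) (g • q) = dist p q) (hX : HasCNMidpoints X)
    (hprop : ∀ w : X, ∃ r > 0, {g : G | dist w (g • w) < r}.Finite)
    (K : Set X) (hK : IsCompact K) (hcov : ∀ p : X, ∃ g : G, g • p ∈ K) : L1Bass G := by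
  classical
  obtain ⟨F, η, hη, hF, hgap⟩ := gap_of_proper_cocompact hiso hprop K hK hcov
  intro q e he
  refine ⟨F.image ConjClasses.mk, ?_, ?_⟩
  · intro C hC
    obtain ⟨h, hh, rfl⟩ := Finset.mem_image.mp hC
    exact isTorsionClass_mk.mpr (hF h hh)
  · intro C hC
    obtain ⟨x, rfl⟩ := ConjClasses.mk_surjective C
    refine vanishesAt_of_charged (charged_of_disp hiso hX hη fun v => ?_) q e he
    by_contra hlt
    push Not at hlt
    obtain ⟨h, hh, hxh⟩ := hgap x v hlt
    exact hC (Finset.mem_image.mpr ⟨h, hh, (ConjClasses.mk_eq_mk_iff_isConj.mpr hxh).symm⟩)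

end Disp

end Vale.Agent.P184
end
end

section

section

noncomputable section

namespace Vale.Agent.P184

universe u v w

open Polynomial in
/-- A matrix none of whose positive powers is unipotent has an eigenvalue, over the algebraic
closure, that is not a root of unity. -/
theorem exists_eigenvalue_of_not_quasiunipotent {K : Type u} [Field K] {n : ℕ}
    (A : Matrix (Fin n) (Fin n) K) (hA : ∀ m : ℕ, 0 < m → ¬ IsNilpotent (A ^ m - 1)) :
    ∃ lam : AlgebraicClosure K, (∀ m : ℕ, 0 < m → lam ^ m ≠ 1) ∧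
      (lam • (1 : Matrix (Fin n) (Fin n) (AlgebraicClosure K)) -
        A.map (algebraMap K (AlgebraicClosure K))).det = 0 := by
  classical
  by_contra hcon
  push Not at hcon
  set B := A.map (algebraMap K (AlgebraicClosure K)) with hB
  set R := B.charpoly.roots with hR
  have hroot : ∀ lam ∈ R, ∃ m : ℕ, 0 < m ∧ lam ^ m = 1 := by
    intro lam hlam
    by_contra h
    push Not at h
    refine hcon lam (fun m hm => h m hm) ?_
    have h1 := (Polynomial.mem_roots (B.charpoly_monic.ne_zero)).mp hlam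
    rw [Polynomial.IsRoot.def, Matrix.eval_charpoly] at h1
    rw [← h1]
    congr 2
    ext i j
    simp only [Matrix.smul_apply, Matrix.one_apply, smul_eq_mul, mul_ite, mul_one, mul_zero, Matrix.scalar_apply, Matrix.diagonal_apply]
  choose! m hm using hroot
  set M := ∏ lam ∈ R.toFinset, m lam with hM
  have hMpos : 0 < M := Finset.prod_pos fun lam hlam => (hm lam (Multiset.mem_toFinset.mp hlam)).1
  have hM1 : ∀ lam ∈ R, lam ^ M = 1 := by
    intro lam hlam
    obtain ⟨c, hc⟩ : m lam ∣ M := Finset.dvd_prod_of_mem m (Multiset.mem_toFinset.mpr hlam)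
    rw [hc, pow_mul, (hm lam hlam).2, one_pow]
  refine hA M hMpos ?_
  have hsplit : B.charpoly = (R.map fun a => X - C a).prod := by
    have h1 := (IsAlgClosed.splits B.charpoly).eq_prod_roots
    rw [B.charpoly_monic.leadingCoeff] at h1
    simpa only [map_one, one_mul] using h1
  have hdvd : B.charpoly ∣ (X ^ M - 1 : (AlgebraicClosure K)[X]) ^ R.card := by
    rw [hsplit]
    have h2 : ((X ^ M - 1 : (AlgebraicClosure K)[X]) ^ R.card) =
        (R.map fun _ => (X ^ M - 1 : (AlgebraicClosure K)[X])).prod := by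
      rw [Multiset.map_const', Multiset.prod_replicate]
    rw [h2]
    apply Multiset.prod_dvd_prod_of_dvd
    intro a ha
    rw [Polynomial.dvd_iff_isRoot]
    simp only [IsRoot.def, eval_sub, eval_pow, eval_X, hM1 a ha, eval_one, sub_self]
  obtain ⟨Q, hQ⟩ := hdvd
  have h3 : (B ^ M - 1) ^ R.card = 0 := by
    have h4 := congrArg (aeval B) hQ
    rw [map_mul, Matrix.aeval_self_charpoly, zero_mul] at h4
    simpa only [map_pow, aeval_sub, aeval_X, map_one] using h4
  have h5 : (B ^ M - 1) = (A ^ M - 1).map (algebraMap K (AlgebraicClosure K)) := by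
    have h6 : ((algebraMap K (AlgebraicClosure K)).mapMatrix (A ^ M - 1)) =
        (A ^ M - 1).map (algebraMap K (AlgebraicClosure K)) := rfl
    rw [← h6, map_sub, map_pow, map_one]
    rfl
  refine ⟨R.card, ?_⟩
  have h7 : ((algebraMap K (AlgebraicClosure K)).mapMatrix ((A ^ M - 1) ^ R.card)) = 0 := by
    rw [map_pow]
    have h6 : ((algebraMap K (AlgebraicClosure K)).mapMatrix (A ^ M - 1)) =
        (A ^ M - 1).map (algebraMap K (AlgebraicClosure K)) := rfl
    rw [h6, ← h5, h3]
  have h8 : Function.Injective ((algebraMap K (AlgebraicClosure K)).mapMatrix :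
      Matrix (Fin n) (Fin n) K →+* _) := by
    intro a b hab
    ext i j
    have := congrArg (fun m => m i j) hab
    exact (algebraMap K (AlgebraicClosure K)).injective this
  exact h8 (h7.trans (map_zero _).symm)

/-- Vanishing at all classes that are detected by a non quasi-unipotent matrix of some finite
dimensional representation over some field. -/
theorem vanishesAt_of_linear {G : Type u} [Group G] {K : Type w} [Field K] {n : ℕ}
    (ρ : G →* Matrix (Fin n) (Fin n) K) (x : G)
    (hx : ∀ m : ℕ, 0 < m → ¬ IsNilpotent (ρ x ^ m - 1)) : VanishesAt x := by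
  obtain ⟨lam, hlam, hdet⟩ := exists_eigenvalue_of_not_quasiunipotent (ρ x) hx
  refine vanishesAt_of_local.{u, u} x fun S => ?_
  obtain ⟨s, hs⟩ := liftsTo_closure S
  refine ⟨Subgroup.closure (S : Set G), inferInstance, _, s, hs, fun y hy => ?_⟩
  have hfg : Group.FG (Subgroup.closure (S : Set G)) :=
    (Group.fg_iff_subgroup_fg _).mpr ⟨S, rfl⟩
  let ρ' : Subgroup.closure (S : Set G) →* Matrix (Fin n) (Fin n) (AlgebraicClosure K) :=
    ((algebraMap K (AlgebraicClosure K)).mapMatrix.toMonoidHom.comp ρ).comp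
      (Subgroup.closure (S : Set G)).subtype
  refine vanishesAt_of_charged (charged_of_fg ρ' y lam ?_ hlam)
  obtain ⟨c, hc⟩ := isConj_iff.mp hy
  have h1 : ρ' y = (ρ c).map (algebraMap K (AlgebraicClosure K)) *
      (ρ x).map (algebraMap K (AlgebraicClosure K)) *
      (ρ c⁻¹).map (algebraMap K (AlgebraicClosure K)) := by
    change (algebraMap K (AlgebraicClosure K)).mapMatrix (ρ ((Subgroup.closure (S : Set G)).subtype y)) = _
    rw [← hc, map_mul, map_mul, map_mul, map_mul]
    rfl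
  have h2 : (ρ c).map (algebraMap K (AlgebraicClosure K)) *
      (ρ c⁻¹).map (algebraMap K (AlgebraicClosure K)) = 1 := by
    change (algebraMap K (AlgebraicClosure K)).mapMatrix (ρ c) *
      (algebraMap K (AlgebraicClosure K)).mapMatrix (ρ c⁻¹) = 1
    rw [← map_mul, ← map_mul, mul_inv_cancel, map_one, map_one]
  have h3 : lam • (1 : Matrix (Fin n) (Fin n) (AlgebraicClosure K)) - ρ' y =
      (ρ c).map (algebraMap K (AlgebraicClosure K)) *
      (lam • (1 : Matrix (Fin n) (Fin n) (AlgebraicClosure K)) -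
        (ρ x).map (algebraMap K (AlgebraicClosure K))) *
      (ρ c⁻¹).map (algebraMap K (AlgebraicClosure K)) := by
    rw [h1, mul_sub, sub_mul, mul_smul_comm, mul_one, smul_mul_assoc, h2]
  rw [h3, Matrix.det_mul, Matrix.det_mul, hdet, mul_zero, zero_mul]

/-- All coefficients at classes of infinite order vanish for linear groups in positive
characteristic. -/
theorem vanishesAt_of_linear_charP {G : Type u} [Group G] {K : Type w} [Field K] (p : ℕ)
    [Fact p.Prime] [CharP K p] {n : ℕ} (ρ : G →* Matrix (Fin n) (Fin n) K)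
    (hρ : Function.Injective ρ) (x : G) (hx : ¬ IsOfFinOrder x) : VanishesAt x := by
  refine vanishesAt_of_linear ρ x fun m hm hnil => hx ?_
  obtain ⟨k, hk⟩ := hnil
  rcases Nat.eq_zero_or_pos n with hn | hn
  · subst hn
    have h1 : x = 1 := hρ (Subsingleton.elim _ _)
    rw [h1]
    exact IsOfFinOrder.one
  have : Nonempty (Fin n) := ⟨⟨0, hn⟩⟩
  have hchar : CharP (Matrix (Fin n) (Fin n) K) p := inferInstance
  obtain ⟨r, hr⟩ : ∃ r : ℕ, k ≤ p ^ r := by
    obtain ⟨r, hr⟩ := pow_unbounded_of_one_lt k (Fact.out : p.Prime).one_lt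
    exact ⟨r, hr.le⟩
  have h1 : (ρ x ^ m - 1) ^ (p ^ r) = 0 := pow_eq_zero_of_le hr hk
  have h2 : (ρ x ^ m) ^ (p ^ r) = 1 := by
    rw [sub_pow_char_pow_of_commute p r (Commute.one_right _), one_pow, sub_eq_zero] at h1
    exact h1
  rw [isOfFinOrder_iff_pow_eq_one]
  refine ⟨m * p ^ r, Nat.mul_pos hm (pow_pos (Fact.out : p.Prime).pos r), hρ ?_⟩
  rw [map_pow, map_one, pow_mul, h2]

end Vale.Agent.P184
end
end
end

section

section

/-!
# Slowly varying equivariant maps to spheres
-/

namespace Vale.Agent.P184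

/-- There is a map from `K` to the unit sphere of a finite dimensional space that is equivariant
for `y`, acting by a diagonal unitary matrix without eigenvalue `1`, and varies by at most `δ`
under right translation by the elements of `S`. -/
def Slow {K : Type*} [Group K] (y : K) (S : Set K) (δ : ℝ) : Prop :=
  ∃ (ι : Type) (_ : Fintype ι) (ζ : ι → ℂ) (u : K → ι → ℂ),
    (∀ j, ‖ζ j‖ = 1 ∧ ζ j ≠ 1) ∧ (∀ p j, u (y * p) j = ζ j * u p j) ∧
    (∀ p, ∑ j, ‖u p j‖ ^ 2 = 1) ∧ ∀ s ∈ S, ∀ p, ∑ j, ‖u (p * s) j - u p j‖ ^ 2 ≤ δ ^ 2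

/-- Følner's condition. -/
def Folner (K : Type*) [Group K] : Prop :=
  ∀ (S : Finset K) (ε : ℝ), 0 < ε → ∃ F : Finset K, F.Nonempty ∧
    ∀ s ∈ S, (Set.ncard {f | f ∈ F ∧ s * f ∉ F} : ℝ) ≤ ε * F.card

end Vale.Agent.P184
end
end

section

section

/-!
# Slow maps from equivariant probability distributions
-/

noncomputable section
open scoped ComplexConjugate

namespace Vale.Agent.P184

/-- Parseval's formula. -/
theorem parseval_zmod (M : ℕ) [NeZero M] (f : ZMod M → ℂ) :
    ∑ b : ZMod M, ‖∑ j, f j * ZMod.stdAddChar (b * j)‖ ^ 2 = M * ∑ j, ‖f j‖ ^ 2 := by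
  have hn : ∀ z : ℂ, ((‖z‖ ^ 2 : ℝ) : ℂ) = z * conj z := by
    intro z
    rw [Complex.mul_conj, Complex.normSq_eq_norm_sq]
  have h : ((∑ b : ZMod M, ‖∑ j, f j * ZMod.stdAddChar (b * j)‖ ^ 2 : ℝ) : ℂ) =
      ((M * ∑ j, ‖f j‖ ^ 2 : ℝ) : ℂ) := by
    push_cast
    have h1 : ∀ b : ZMod M, ((‖∑ j, f j * ZMod.stdAddChar (b * j)‖ : ℝ) : ℂ) ^ 2 =
        ∑ j, ∑ k, f j * conj (f k) * ZMod.stdAddChar (b * (j - k)) := by
      intro b
      have h2 := hn (∑ j, f j * ZMod.stdAddChar (b * j))
      push_cast at h2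
      rw [h2, map_sum, Finset.sum_mul_sum]
      refine Finset.sum_congr rfl fun j _ => Finset.sum_congr rfl fun k _ => ?_
      rw [(starRingEnd ℂ).map_mul, ← AddChar.map_neg_eq_conj]
      have h3 : b * (j - k) = b * j + -(b * k) := by ring
      rw [h3, AddChar.map_add_eq_mul]
      ring
    rw [Finset.sum_congr rfl fun b _ => h1 b, Finset.sum_comm]
    have h4 : ∀ j : ZMod M, ∑ b : ZMod M, ∑ k, f j * conj (f k) *
        ZMod.stdAddChar (b * (j - k)) = M * (‖f j‖ : ℂ) ^ 2 := by
      intro j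
      rw [Finset.sum_comm]
      have h5 : ∀ k : ZMod M, ∑ b : ZMod M, f j * conj (f k) * ZMod.stdAddChar (b * (j - k)) =
          if j - k = 0 then f j * conj (f k) * M else 0 := by
        intro k
        rw [← Finset.mul_sum, AddChar.sum_mulShift _ (ZMod.isPrimitive_stdAddChar M)]
        split_ifs
        · rw [ZMod.card]
        · push_cast; ring
      rw [Finset.sum_congr rfl fun k _ => h5 k, Finset.sum_eq_single j]
      · rw [if_pos (sub_self j)]
        have := hn (f j)
        push_cast at this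
        rw [this]; ring
      · intro k _ hk
        rw [if_neg (sub_ne_zero.mpr hk.symm)]
      · intro h; exact absurd (Finset.mem_univ _) h
    rw [Finset.sum_congr rfl fun j _ => h4 j, Finset.mul_sum]
  exact_mod_cast h

theorem sum_shift_zmod {M : ℕ} [NeZero M] (F : ZMod M → ℂ) : ∑ j, F j = ∑ j, F (j + 1) :=
  (Equiv.sum_comp (Equiv.addRight (1 : ZMod M)) F).symm

/-- Normalization is Lipschitz on vectors that are not too short. -/
theorem normalize_sub {E : Type*} [NormedAddCommGroup E] [InnerProductSpace ℂ E] {w w' : E}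
    (h : 1 / 2 ≤ ‖w‖ ^ 2) (h' : 1 / 2 ≤ ‖w'‖ ^ 2) :
    ‖((‖w‖⁻¹ : ℝ) : ℂ) • w - ((‖w'‖⁻¹ : ℝ) : ℂ) • w'‖ ^ 2 ≤ 2 * ‖w - w'‖ ^ 2 := by
  have ha : 0 < ‖w‖ := by
    rcases (norm_nonneg w).lt_or_eq with h1 | h1
    · exact h1
    · rw [← h1] at h; norm_num at h
  have hb : 0 < ‖w'‖ := by
    rcases (norm_nonneg w').lt_or_eq with h1 | h1
    · exact h1
    · rw [← h1] at h'; norm_num at h'
  rw [norm_sub_sq (𝕜 := ℂ), norm_sub_sq (𝕜 := ℂ), norm_smul, norm_smul, inner_smul_left,
    inner_smul_right]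
  simp only [Complex.norm_real, norm_inv, norm_norm, Complex.conj_ofReal]
  rw [inv_mul_cancel₀ ha.ne', inv_mul_cancel₀ hb.ne']
  set R := RCLike.re (inner ℂ w w') with hR
  have h1 : RCLike.re (((‖w‖⁻¹ : ℝ) : ℂ) * (((‖w'‖⁻¹ : ℝ) : ℂ) * inner ℂ w w')) =
      (‖w‖ * ‖w'‖)⁻¹ * R := by
    rw [← mul_assoc, ← Complex.ofReal_mul, hR]
    change (((‖w‖⁻¹ * ‖w'‖⁻¹ : ℝ) : ℂ) * inner ℂ w w').re = _
    rw [Complex.re_ofReal_mul, mul_inv]
    rfl
  rw [h1]
  have hab : 1 / 2 ≤ ‖w‖ * ‖w'‖ := by
    have h2 : (1 / 2 : ℝ) ^ 2 ≤ (‖w‖ * ‖w'‖) ^ 2 := by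
      rw [mul_pow, sq (1 / 2 : ℝ)]
      exact mul_le_mul h h' (by norm_num) (by positivity)
    exact (pow_le_pow_iff_left₀ (by norm_num) (by positivity) two_ne_zero).mp h2
  have hab0 : 0 < ‖w‖ * ‖w'‖ := by positivity
  have hRle : 2 * R ≤ ‖w‖ ^ 2 + ‖w'‖ ^ 2 := by
    have h3 : R ≤ ‖w‖ * ‖w'‖ := (RCLike.re_le_norm _).trans (norm_inner_le_norm w w')
    linarith only [sq_nonneg (‖w‖ - ‖w'‖), h3]
  have h4 : 1 ^ 2 - 2 * ((‖w‖ * ‖w'‖)⁻¹ * R) + 1 ^ 2 ≤
      (‖w‖ * ‖w'‖)⁻¹ * (‖w‖ ^ 2 - 2 * R + ‖w'‖ ^ 2) := by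
    have h5 : (‖w‖ * ‖w'‖)⁻¹ * (2 * (‖w‖ * ‖w'‖)) = 2 := by
      field_simp
    have h6 : (‖w‖ * ‖w'‖)⁻¹ * (2 * (‖w‖ * ‖w'‖)) ≤
        (‖w‖ * ‖w'‖)⁻¹ * (‖w‖ ^ 2 + ‖w'‖ ^ 2) :=
      mul_le_mul_of_nonneg_left (by linarith only [sq_nonneg (‖w‖ - ‖w'‖)]) (by (clear * - ha hb; positivity))
    linarith only [h6, h5]
  refine h4.trans ?_
  refine mul_le_mul_of_nonneg_right ?_ (by linarith only [hRle])
  rw [inv_le_comm₀ hab0 (by norm_num)]
  linarith only [hab]

/-- Slow maps from equivariant probability distributions on `ZMod M × C` whose supports are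
small. -/
theorem slow_of_law {K : Type*} [Group K] {y : K} {S : Set K} {ε δ : ℝ} (M : ℕ) [NeZero M]
    {C : Type} [Fintype C] (a : K → ZMod M → C → ℝ) (h0 : ∀ p j c, 0 ≤ a p j c)
    (h1 : ∀ p, ∑ j, ∑ c, a p j c = 1) (hy : ∀ p j c, a (y * p) (j + 1) c = a p j c)
    (hs : ∀ s ∈ S, ∀ p, ∑ j, ∑ c, |a (p * s) j c - a p j c| ≤ ε)
    (hM : ∀ p c, 2 * Set.ncard {j | a p j c ≠ 0} ≤ M) (hδ : 2 * ε ≤ δ ^ 2) : Slow y S δ := by
  classical
  have hM0 : (0 : ℝ) < M := Nat.cast_pos.mpr (Nat.pos_of_ne_zero (NeZero.ne M))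
  set v : K → ZMod M → C → ℝ := fun p j c => √(a p j c) with hv
  have hv2 : ∀ p j c, (v p j c) ^ 2 = a p j c := fun p j c => Real.sq_sqrt (h0 p j c)
  let ι : Type := {b : ZMod M // b ≠ 0} × C
  set t : (ZMod M → ℂ) → ZMod M → ℂ := fun f b =>
    ((√(M : ℝ))⁻¹ : ℝ) * ∑ j, f j * ZMod.stdAddChar (b * j) with ht
  have htn : ∀ f b, ‖t f b‖ ^ 2 = (M : ℝ)⁻¹ * ‖∑ j, f j * ZMod.stdAddChar (b * j)‖ ^ 2 := by
    intro f b
    rw [ht]
    simp only
    rw [norm_mul, mul_pow, Complex.norm_real, Real.norm_eq_abs, sq_abs, inv_pow,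
      Real.sq_sqrt hM0.le]
  have hpars : ∀ f : ZMod M → ℂ, ∑ b, ‖t f b‖ ^ 2 = ∑ j, ‖f j‖ ^ 2 := by
    intro f
    rw [Finset.sum_congr rfl fun b _ => htn f b, ← Finset.mul_sum, parseval_zmod,
      ← mul_assoc, inv_mul_cancel₀ hM0.ne', one_mul]
  have hsplit : ∀ g : ZMod M → ℝ, ∑ b : {b : ZMod M // b ≠ 0}, g b = ∑ b, g b - g 0 := by
    intro g
    rw [← Finset.sum_subtype (Finset.univ.erase (0 : ZMod M)) (by intro x; simp only [Finset.mem_erase, ne_eq, Finset.mem_univ, and_true]) g,
      Finset.sum_erase_eq_sub (Finset.mem_univ _)]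
  -- the vectors
  set w : K → EuclideanSpace ℂ ι := fun p =>
    WithLp.toLp 2 fun i : ι => t (fun j => (v p j i.2 : ℂ)) i.1 with hw
  have hwn : ∀ g : K → ZMod M → C → ℂ, ∀ p,
      ∑ i : ι, ‖t (fun j => g p j i.2) i.1‖ ^ 2 =
        ∑ c, (∑ j, ‖g p j c‖ ^ 2 - ‖t (fun j => g p j c) 0‖ ^ 2) := by
    intro g p
    rw [Fintype.sum_prod_type_right]
    refine Finset.sum_congr rfl fun c _ => ?_
    rw [← hpars, ← hsplit fun b => ‖t (fun j => g p j c) b‖ ^ 2]
  have hnv : ∀ p j c, ‖(v p j c : ℂ)‖ ^ 2 = a p j c := by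
    intro p j c
    rw [Complex.norm_real, Real.norm_eq_abs, sq_abs, hv2]
  have hconst : ∀ p c, ‖t (fun j => (v p j c : ℂ)) 0‖ ^ 2 ≤ 1 / 2 * ∑ j, a p j c := by
    intro p c
    rw [htn]
    have h2 : ∀ j : ZMod M, (v p j c : ℂ) * ZMod.stdAddChar (0 * j) = ((v p j c : ℝ) : ℂ) := by
      intro j
      rw [zero_mul, AddChar.map_zero_eq_one, mul_one]
    rw [Finset.sum_congr rfl fun j _ => h2 j, ← Complex.ofReal_sum, Complex.norm_real,
      Real.norm_eq_abs, sq_abs]
    set s : Finset (ZMod M) := Finset.univ.filter fun j => a p j c ≠ 0 with hsdef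
    have h3 : ∑ j, v p j c = ∑ j ∈ s, v p j c := by
      rw [hsdef, Finset.sum_filter]
      refine Finset.sum_congr rfl fun j _ => ?_
      split_ifs with h
      · rfl
      · push Not at h
        rw [hv]
        simp only
        rw [h, Real.sqrt_zero]
    have h4 : (2 : ℝ) * s.card ≤ M := by
      have h5 := hM p c
      have h6 : {j | a p j c ≠ 0} = (s : Set (ZMod M)) := by
        ext j; simp only [ne_eq, Set.mem_ofPred_eq, hsdef, Finset.coe_filter, Finset.mem_univ, true_and]
      rw [h6, Set.ncard_coe_finset] at h5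
      exact_mod_cast h5
    have h7 : (∑ j ∈ s, v p j c) ^ 2 ≤ s.card * ∑ j ∈ s, (v p j c) ^ 2 :=
      sq_sum_le_card_mul_sum_sq
    have h8 : ∑ j ∈ s, (v p j c) ^ 2 ≤ ∑ j, a p j c := by
      rw [Finset.sum_congr rfl fun j _ => (hv2 p j c).symm]
      exact Finset.sum_le_sum_of_subset_of_nonneg (Finset.subset_univ _)
        fun j _ _ => sq_nonneg _
    rw [h3]
    have h9 : 0 ≤ ∑ j, a p j c := Finset.sum_nonneg fun j _ => h0 p j c
    calc (M : ℝ)⁻¹ * (∑ j ∈ s, v p j c) ^ 2
        ≤ (M : ℝ)⁻¹ * (s.card * ∑ j, a p j c) := by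
          refine mul_le_mul_of_nonneg_left (h7.trans ?_) (by (clear * - hM0; positivity))
          exact mul_le_mul_of_nonneg_left h8 (Nat.cast_nonneg _)
      _ ≤ (M : ℝ)⁻¹ * (M / 2 * ∑ j, a p j c) := by
          refine mul_le_mul_of_nonneg_left ?_ (by positivity)
          exact mul_le_mul_of_nonneg_right (by linarith only [h4]) h9
      _ = 1 / 2 * ∑ j, a p j c := by (clear y S ε δ h0 h1 hy hs hM hδ v hv hv2 ι t ht htn hpars hsplit w hw hwn hnv h2 s hsdef h3 h4 h7 h8 h9; field_simp)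
  have hwnorm : ∀ p, 1 / 2 ≤ ‖w p‖ ^ 2 := by
    intro p
    rw [EuclideanSpace.norm_sq_eq]
    change 1 / 2 ≤ ∑ i : ι, ‖t (fun j => (v p j i.2 : ℂ)) i.1‖ ^ 2
    rw [hwn fun p j c => (v p j c : ℂ)]
    simp only [hnv]
    have h2 : ∑ c, (∑ j, a p j c - 1 / 2 * ∑ j, a p j c) ≤
        ∑ c, (∑ j, a p j c - ‖t (fun j => (v p j c : ℂ)) 0‖ ^ 2) :=
      Finset.sum_le_sum fun c _ => sub_le_sub_left (hconst p c) _
    refine le_trans ?_ h2
    have h3 : ∑ c, ∑ j, a p j c = 1 := by rw [Finset.sum_comm]; exact h1 p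
    rw [Finset.sum_sub_distrib, ← Finset.mul_sum, h3]
    norm_num
  have hwdiff : ∀ s ∈ S, ∀ p, ‖w (p * s) - w p‖ ^ 2 ≤ ε := by
    intro s hs' p
    rw [EuclideanSpace.norm_sq_eq]
    have h2 : ∀ i : ι, (w (p * s) - w p) i =
        t (fun j => ((v (p * s) j i.2 - v p j i.2 : ℝ) : ℂ)) i.1 := by
      intro i
      change t (fun j => (v (p * s) j i.2 : ℂ)) i.1 - t (fun j => (v p j i.2 : ℂ)) i.1 = _
      rw [ht]
      simp only
      rw [← mul_sub, ← Finset.sum_sub_distrib]
      refine congrArg _ (Finset.sum_congr rfl fun j _ => ?_)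
      push_cast
      ring
    rw [Finset.sum_congr rfl fun i _ => by rw [h2 i]]
    rw [hwn fun p j c => ((v (p * s) j c - v p j c : ℝ) : ℂ)]
    refine le_trans ?_ (hs s hs' p)
    rw [Finset.sum_comm]
    refine Finset.sum_le_sum fun c _ => ?_
    refine (sub_le_self _ (sq_nonneg _)).trans ?_
    refine Finset.sum_le_sum fun j _ => ?_
    rw [Complex.norm_real, Real.norm_eq_abs, sq_abs]
    have h3 : a (p * s) j c - a p j c =
        (v (p * s) j c - v p j c) * (v (p * s) j c + v p j c) := by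
      rw [← hv2 (p * s), ← hv2 p]; ring
    rw [h3, abs_mul, sq, ← abs_mul_abs_self]
    refine mul_le_mul_of_nonneg_left ?_ (abs_nonneg _)
    have h4 : 0 ≤ v (p * s) j c := Real.sqrt_nonneg _
    have h5 : 0 ≤ v p j c := Real.sqrt_nonneg _
    rw [abs_of_nonneg (add_nonneg h4 h5), abs_le]
    constructor <;> linarith only [h4, h5]
  have hwy : ∀ p (i : ι), w (y * p) i = ZMod.stdAddChar (i.1 : ZMod M) * w p i := by
    intro p i
    change t (fun j => (v (y * p) j i.2 : ℂ)) i.1 = _ * t (fun j => (v p j i.2 : ℂ)) i.1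
    rw [ht]
    simp only
    rw [mul_left_comm]
    congr 1
    rw [sum_shift_zmod, Finset.mul_sum]
    refine Finset.sum_congr rfl fun j _ => ?_
    have h2 : v (y * p) (j + 1) i.2 = v p j i.2 := by
      rw [hv]; simp only; rw [hy]
    rw [h2, mul_add, mul_one, AddChar.map_add_eq_mul]
    ring
  have hζn : ∀ b : ZMod M, ‖(ZMod.stdAddChar b : ℂ)‖ = 1 := fun b => by
    rw [ZMod.stdAddChar_apply, Circle.norm_coe]
  have hwy2 : ∀ p, ‖w (y * p)‖ = ‖w p‖ := by
    intro p
    rw [EuclideanSpace.norm_eq, EuclideanSpace.norm_eq]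
    congr 1
    refine Finset.sum_congr rfl fun i _ => ?_
    rw [hwy, norm_mul, hζn, one_mul]
  refine ⟨ι, inferInstance, fun i => ZMod.stdAddChar (i.1 : ZMod M),
    fun p i => ((‖w p‖⁻¹ : ℝ) : ℂ) * w p i, fun i => ⟨hζn _, fun h => i.1.2 ?_⟩, ?_, ?_, ?_⟩
  · exact ZMod.injective_stdAddChar (h.trans (AddChar.map_zero_eq_one _).symm)
  · intro p i
    simp only
    rw [hwy2, hwy]
    ring
  · intro p
    have h2 : ∀ i : ι, ‖((‖w p‖⁻¹ : ℝ) : ℂ) * w p i‖ ^ 2 = (‖w p‖ ^ 2)⁻¹ * ‖w p i‖ ^ 2 := by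
      intro i
      rw [norm_mul, mul_pow, Complex.norm_real, norm_inv, norm_norm, inv_pow]
    rw [Finset.sum_congr rfl fun i _ => h2 i, ← Finset.mul_sum, ← EuclideanSpace.norm_sq_eq]
    exact inv_mul_cancel₀ (by linarith [hwnorm p])
  · intro s hs' p
    have h2 := normalize_sub (hwnorm (p * s)) (hwnorm p)
    rw [EuclideanSpace.norm_sq_eq] at h2
    have h3 := hwdiff s hs' p
    have h4 : ∀ i : ι, (((‖w (p * s)‖⁻¹ : ℝ) : ℂ) • w (p * s) - ((‖w p‖⁻¹ : ℝ) : ℂ) • w p) i =
        ((‖w (p * s)‖⁻¹ : ℝ) : ℂ) * w (p * s) i - ((‖w p‖⁻¹ : ℝ) : ℂ) * w p i := fun i => rfl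
    rw [Finset.sum_congr rfl fun i _ => by rw [h4 i]] at h2
    refine h2.trans ?_
    (clear y S h0 h1 hy hs hM hM0 hv hv2 ht htn hpars hsplit hw hwn hnv hconst hwnorm hwdiff hwy hζn hwy2 hs' h2 h4; linarith)

/-- The difference of the distributions of a map on two finite sets. -/
theorem law_diff {α β : Type*} [DecidableEq α] [DecidableEq β] [Fintype β] (g : α → β)
    (A B : Finset α) :
    ∑ x, |((A.filter fun a => g a = x).card : ℝ) - (B.filter fun a => g a = x).card| ≤
      (A \ B).card + (B \ A).card := by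
  have h1 : ∀ (A B : Finset α) (x : β), ((A.filter fun a => g a = x).card : ℝ) =
      ((A ∩ B).filter fun a => g a = x).card + ((A \ B).filter fun a => g a = x).card := by
    intro A B x
    rw [← Nat.cast_add, ← Finset.card_union_of_disjoint, ← Finset.filter_union]
    · congr 3
      ext a
      simp only [Finset.mem_union, Finset.mem_inter, Finset.mem_sdiff]
      (clear * -; tauto)
    · rw [Finset.disjoint_left]
      intro a ha hb
      rw [Finset.mem_filter, Finset.mem_inter] at ha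
      rw [Finset.mem_filter, Finset.mem_sdiff] at hb
      exact hb.1.2 ha.1.2
  have h2 : ∀ C : Finset α, (C.card : ℝ) = ∑ x, ((C.filter fun a => g a = x).card : ℝ) := by
    intro C
    rw [← Nat.cast_sum, ← Finset.card_eq_sum_card_fiberwise]
    intro a _
    exact Finset.mem_univ _
  rw [h2 (A \ B), h2 (B \ A), ← Finset.sum_add_distrib]
  refine Finset.sum_le_sum fun x _ => ?_
  rw [h1 A B x, h1 B A x, Finset.inter_comm B A, add_sub_add_left_eq_sub]
  refine (abs_sub _ _).trans ?_
  rw [Nat.abs_cast, Nat.abs_cast]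

/-- Slow maps from almost invariant sets. -/
theorem slow_of_fol {K : Type*} [Group K] {y : K} {S : Set K} {ε δ : ℝ} (F : Finset K)
    (hF : F.Nonempty)
    (hS : ∀ s ∈ S, (Set.ncard {f | f ∈ F ∧ s * f ∉ F} : ℝ) ≤ ε * F.card)
    (M : ℕ) [NeZero M] {C : Type} [Fintype C] (κ : K → ZMod M)
    (hκ : ∀ p, κ (y * p) = κ p + 1) (col : K → C) (hcol : ∀ p, col (y * p) = col p)
    (hM : ∀ p c, 2 * Set.ncard {j | ∃ f ∈ F, col (p * f) = c ∧ κ (p * f) = j} ≤ M)
    (hδ : 4 * ε ≤ δ ^ 2) : Slow y S δ := by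
  classical
  have hF0 : (0 : ℝ) < F.card := Nat.cast_pos.mpr hF.card_pos
  set N : K → Finset K → ZMod M × C → ℝ := fun p A x =>
    (A.filter fun f => (κ (p * f), col (p * f)) = x).card with hN
  have hsum : ∀ p, ∑ x, N p F x = F.card := by
    intro p
    rw [hN]
    simp only
    rw [← Nat.cast_sum, ← Finset.card_eq_sum_card_fiberwise]
    intro a _
    exact Finset.mem_univ _
  refine slow_of_law (ε := 2 * ε) M (fun p j c => N p F (j, c) / F.card)
    (fun p j c => by (clear * - hF; (clear * - hF; positivity))) ?_ ?_ ?_ ?_ (by linarith only [hδ])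
  · intro p
    have h1 := hsum p
    rw [Fintype.sum_prod_type] at h1
    simp only [← Finset.sum_div]
    rw [h1, div_self hF0.ne']
  · intro p j c
    congr 1
    rw [hN]
    simp only
    congr 2
    refine Finset.filter_congr fun f _ => ?_
    rw [mul_assoc, hκ, hcol, Prod.mk.injEq, Prod.mk.injEq, add_left_inj]
  · intro s hs p
    have h1 : ∀ x, N (p * s) F x = N p (F.map (mulLeftEmbedding s)) x := by
      intro x
      rw [hN]
      simp only
      rw [Finset.filter_map, Finset.card_map]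
      congr 2
      refine Finset.filter_congr fun f _ => ?_
      simp only [Function.comp_apply, mulLeftEmbedding_apply, mul_assoc]
    have h2 : ∀ (j : ZMod M) (c : C), |N (p * s) F (j, c) / F.card - N p F (j, c) / F.card| =
        |N p (F.map (mulLeftEmbedding s)) (j, c) - N p F (j, c)| / F.card := by
      intro j c
      rw [← sub_div, abs_div, abs_of_pos hF0, h1]
    rw [Finset.sum_congr rfl fun j _ => Finset.sum_congr rfl fun c _ => h2 j c]
    simp only [← Finset.sum_div]
    rw [← Fintype.sum_prod_type', div_le_iff₀ hF0]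
    have h3 := law_diff (fun f => (κ (p * f), col (p * f))) (F.map (mulLeftEmbedding s)) F
    have h4 : (F.map (mulLeftEmbedding s) \ F).card = Set.ncard {f | f ∈ F ∧ s * f ∉ F} := by
      have h5 : {f | f ∈ F ∧ s * f ∉ F} = ((F.filter fun f => s * f ∉ F : Finset K) : Set K) := by
        ext f; simp
      rw [h5, Set.ncard_coe_finset,
        ← Finset.card_map (mulLeftEmbedding s) (s := F.filter fun f => s * f ∉ F)]
      congr 1
      ext f
      rw [Finset.mem_sdiff, Finset.mem_map, Finset.mem_map]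
      constructor
      · rintro ⟨⟨a, ha, rfl⟩, h⟩
        exact ⟨a, Finset.mem_filter.mpr ⟨ha, h⟩, rfl⟩
      · rintro ⟨a, ha, rfl⟩
        rw [Finset.mem_filter] at ha
        exact ⟨⟨a, ha.1, rfl⟩, ha.2⟩
    have h5 : (F \ F.map (mulLeftEmbedding s)).card = (F.map (mulLeftEmbedding s) \ F).card := by
      have h6 := Finset.card_sdiff_add_card F (F.map (mulLeftEmbedding s))
      have h7 := Finset.card_sdiff_add_card (F.map (mulLeftEmbedding s)) F
      rw [Finset.union_comm] at h7
      rw [Finset.card_map] at h6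
      omega
    rw [h5, h4] at h3
    refine (h3.trans ?_)
    have := hS s hs
    linarith only [this]
  · intro p c
    refine le_trans (Nat.mul_le_mul_left 2 (Set.ncard_le_ncard ?_ (Set.toFinite _))) (hM p c)
    intro j hj
    change N p F (j, c) / F.card ≠ 0 at hj
    have h1 : N p F (j, c) ≠ 0 := fun h => hj (by rw [h, zero_div])
    rw [hN] at h1
    simp only [ne_eq, Nat.cast_eq_zero, Finset.card_eq_zero, ← Finset.nonempty_iff_ne_empty] at h1
    obtain ⟨f, hf⟩ := h1
    rw [Finset.mem_filter, Prod.mk.injEq] at hf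
    exact ⟨f, hf.1, hf.2.2, hf.2.1⟩

/-- Coordinates along the orbits of left multiplication by `y`. -/
theorem exists_kappa {K : Type*} [Group K] (y : K) (M : ℕ) (hM : M ∣ orderOf y) :
    ∃ κ : K → ZMod M, ∀ p, κ (y * p) = κ p + 1 := by
  classical
  set r : K → K := fun p => (Quotient.mk (QuotientGroup.rightRel (Subgroup.zpowers y)) p).out
    with hr
  have h1 : ∀ p, ∃ n : ℤ, p = y ^ n * r p := by
    intro p
    have h2 : QuotientGroup.rightRel (Subgroup.zpowers y) (r p) p := Quotient.mk_out p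
    rw [QuotientGroup.rightRel_apply] at h2
    obtain ⟨n, hn⟩ := h2
    refine ⟨n, ?_⟩
    simp only at hn
    rw [hn]
    group
  choose n hn using h1
  refine ⟨fun p => (n p : ZMod M), fun p => ?_⟩
  have h2 : r (y * p) = r p := by
    rw [hr]
    simp only
    congr 1
    refine Quotient.sound ?_
    change QuotientGroup.rightRel (Subgroup.zpowers y) _ _
    rw [QuotientGroup.rightRel_apply]
    refine ⟨-1, ?_⟩
    simp only
    group
  have h3 : y ^ (n (y * p)) = y ^ (n p + 1) := by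
    have h4 := hn (y * p)
    rw [h2] at h4
    have h5 : y * p = y ^ (n p + 1) * r p := by
      rw [zpow_add_one, (Commute.zpow_self y (n p)).eq, mul_assoc, ← hn p]
    exact mul_right_cancel (h4.symm.trans h5)
  have h4 := zpow_eq_zpow_iff_modEq.mp h3
  have h5 : (n (y * p) : ZMod M) = ((n p + 1 : ℤ) : ZMod M) := by
    rw [ZMod.intCast_eq_intCast_iff]
    exact h4.of_dvd (by exact_mod_cast hM)
  change ((n (y * p) : ℤ) : ZMod M) = (n p : ZMod M) + 1
  rw [h5]
  push_cast
  rfl

/-- In a group with Følner's condition, elements of infinite order have slow maps. -/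
theorem slow_of_infinite {K : Type*} [Group K] (hK : Folner K) {y : K} (hy : orderOf y = 0)
    {S : Set K} (hS : S.Finite) {δ : ℝ} (hδ : 0 < δ) : Slow y S δ := by
  obtain ⟨F, hF, hF2⟩ := hK hS.toFinset (δ ^ 2 / 4) (by (clear * - hδ; positivity))
  have : NeZero (2 * F.card) := ⟨by have := hF.card_pos; omega⟩
  obtain ⟨κ, hκ⟩ := exists_kappa y (2 * F.card) (by rw [hy]; exact dvd_zero _)
  refine slow_of_fol (C := Unit) F hF (ε := δ ^ 2 / 4) (fun s hs => hF2 s (by simpa using hs))
    (2 * F.card) κ hκ (fun _ => ()) (fun _ => rfl) (fun p c => ?_) (by linarith only [])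
  refine Nat.mul_le_mul_left 2 ?_
  have h1 : {j | ∃ f ∈ F, () = c ∧ κ (p * f) = j} ⊆ (fun f => κ (p * f)) '' (F : Set K) := by
    rintro j ⟨f, hf, _, h⟩
    exact ⟨f, hf, h⟩
  refine (Set.ncard_le_ncard h1 (Set.toFinite _)).trans ?_
  refine (Set.ncard_image_le (Finset.finite_toSet F)).trans ?_
  rw [Set.ncard_coe_finset]

/-- Greedy colouring of a graph of bounded degree. -/
theorem greedy {X : Type*} (R : X → X → Prop) (hR : ∀ x y, R x y → R y x) (d : ℕ)
    (hd : ∀ x, ∃ N : Finset X, N.card ≤ d ∧ ∀ y, R x y → y ∈ N) :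
    ∃ col : X → Fin (d + 1), ∀ x y, R x y → x ≠ y → col x ≠ col y := by
  classical
  let r : X → X → Prop := WellOrderingRel
  have hwf : WellFounded r := IsWellFounded.wf
  let c : X → ℕ := hwf.fix fun x ih => sInf {c | ∀ y (h : r y x), R x y → ih y h ≠ c}
  have hc : ∀ x, c x = sInf {n | ∀ y, r y x → R x y → c y ≠ n} := fun x => hwf.fix_eq _ x
  have hne : ∀ x, ∃ n ≤ d, n ∈ {n | ∀ y, r y x → R x y → c y ≠ n} := by
    intro x
    obtain ⟨N, hN, hN2⟩ := hd x
    have h1 : (N.image c).card < (Finset.range (d + 1)).card := by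
      rw [Finset.card_range]
      exact Nat.lt_succ_of_le (Finset.card_image_le.trans hN)
    obtain ⟨n, hn, hn2⟩ := Finset.exists_mem_notMem_of_card_lt_card h1
    refine ⟨n, Nat.lt_succ_iff.mp (Finset.mem_range.mp hn), fun y _ hy h => hn2 ?_⟩
    rw [← h]
    exact Finset.mem_image_of_mem _ (hN2 y hy)
  have hle : ∀ x, c x ≤ d := by
    intro x
    obtain ⟨n, hn, hn2⟩ := hne x
    rw [hc]
    exact (Nat.sInf_le hn2).trans hn
  have hlt : ∀ x y, r y x → R x y → c y ≠ c x := by
    intro x y hyx hxy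
    obtain ⟨n, _, hn2⟩ := hne x
    have h1 := Nat.sInf_mem ⟨n, hn2⟩
    rw [← hc] at h1
    exact h1 y hyx hxy
  refine ⟨fun x => ⟨c x, Nat.lt_succ_of_le (hle x)⟩, fun x y hxy hne' h => ?_⟩
  have h1 : c x = c y := congrArg Fin.val h
  rcases trichotomous_of r x y with h2 | h2 | h2
  · exact hlt y x h2 (hR x y hxy) h1
  · exact hne' h2
  · exact hlt x y h2 hxy h1.symm

/-- A colouring of the orbits of `y` such that distinct orbits meeting a common translate of `F`
have distinct colours. -/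
theorem exists_col {K : Type*} [Group K] (y : K) (F : Finset K) :
    ∃ (n : ℕ) (col : K → Fin n), (∀ p, col (y * p) = col p) ∧
      ∀ p, ∀ f ∈ F, ∀ f' ∈ F, col (p * f) = col (p * f') → ∃ k : ℤ, p * f' = y ^ k * (p * f) := by
  classical
  let X := Quotient (QuotientGroup.rightRel (Subgroup.zpowers y))
  let π : K → X := fun p => Quotient.mk _ p
  have hπ : ∀ p q, π p = π q ↔ ∃ k : ℤ, q = y ^ k * p := by
    intro p q
    change Quotient.mk _ p = Quotient.mk _ q ↔ _
    rw [Quotient.eq]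
    rw [QuotientGroup.rightRel_apply]
    constructor
    · rintro ⟨k, hk⟩
      simp only at hk
      exact ⟨k, by rw [hk]; group⟩
    · rintro ⟨k, rfl⟩
      exact ⟨k, by simp only; group⟩
  let R : X → X → Prop := fun a b => ∃ p, ∃ f ∈ F, ∃ f' ∈ F, π (p * f) = a ∧ π (p * f') = b
  have hR : ∀ a b, R a b → R b a := by
    rintro a b ⟨p, f, hf, f', hf', h1, h2⟩
    exact ⟨p, f', hf', f, hf, h2, h1⟩
  obtain ⟨col, hcol⟩ := greedy R hR ((F ×ˢ F).card) fun a => by
    obtain ⟨q, hq⟩ := Quotient.exists_rep a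
    refine ⟨(F ×ˢ F).image fun z => π (q * z.1⁻¹ * z.2), Finset.card_image_le, ?_⟩
    rintro b ⟨p, f, hf, f', hf', h1, h2⟩
    refine Finset.mem_image.mpr ⟨(f, f'), Finset.mk_mem_product hf hf', ?_⟩
    have h3 : π (p * f) = π q := h1.trans hq.symm
    obtain ⟨k, hk⟩ := (hπ _ _).mp h3
    rw [← h2]
    refine ((hπ _ _).mpr ⟨k, ?_⟩).symm
    simp only
    rw [hk]
    group
  refine ⟨_, fun p => col (π p), fun p => ?_, fun p f hf f' hf' h => ?_⟩
  · refine congrArg col ?_
    exact ((hπ p (y * p)).mpr ⟨1, by rw [zpow_one]⟩).symm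
  · by_contra hne
    refine hcol (π (p * f)) (π (p * f')) ⟨p, f, hf, f', hf', rfl, rfl⟩ (fun h1 => hne ?_) h
    exact (hπ _ _).mp h1

/-- In a group with Følner's condition, an element of finite order has slow maps unless it lies in
the subgroup generated by its powers in a conjugate of `F F⁻¹`. -/
theorem slow_of_torsion {K : Type*} [Group K] {y : K} {S : Set K} {ε δ : ℝ} (F : Finset K)
    (hF : F.Nonempty) (hS : ∀ s ∈ S, (Set.ncard {f | f ∈ F ∧ s * f ∉ F} : ℝ) ≤ ε * F.card)
    (hδ : 4 * ε ≤ δ ^ 2) (hy : 0 < orderOf y)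
    (hQ : ∀ p, y ∉ Subgroup.closure
      {z | z ∈ Subgroup.zpowers y ∧ ∃ f ∈ F, ∃ f' ∈ F, z = p * f' * f⁻¹ * p⁻¹}) :
    Slow y S δ := by
  have : NeZero (orderOf y) := ⟨hy.ne'⟩
  obtain ⟨κ, hκ⟩ := exists_kappa y (orderOf y) dvd_rfl
  have hκn : ∀ (n : ℕ) p, κ (y ^ n * p) = κ p + n := by
    intro n
    induction n with
    | zero => intro p; simp
    | succ n ih =>
      intro p
      rw [pow_succ, mul_assoc, ih, hκ]
      push_cast
      ring
  have hκz : ∀ (k : ℤ) p, κ (y ^ k * p) = κ p + k := by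
    intro k p
    obtain ⟨n, rfl | rfl⟩ := k.eq_nat_or_neg
    · rw [zpow_natCast, hκn]
      push_cast
      rfl
    · have h1 := hκn n (y ^ (-(n : ℤ)) * p)
      have h2 : y ^ n * (y ^ (-(n : ℤ)) * p) = p := by
        rw [← mul_assoc, zpow_neg, zpow_natCast, mul_inv_cancel, one_mul]
      rw [h2] at h1
      rw [h1]
      push_cast
      ring
  obtain ⟨n, col, hcol, hcol2⟩ := exists_col y F
  refine slow_of_fol F hF hS (orderOf y) κ hκ col hcol (fun p c => ?_) hδ
  rcases Set.eq_empty_or_nonempty {j | ∃ f ∈ F, col (p * f) = c ∧ κ (p * f) = j} with he | he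
  · rw [he, Set.ncard_empty]
    exact Nat.zero_le _
  · obtain ⟨_, f₀, hf₀, hc₀, rfl⟩ := he
    set Q := Subgroup.closure
      {z | z ∈ Subgroup.zpowers y ∧ ∃ f ∈ F, ∃ f' ∈ F, z = p * f' * f⁻¹ * p⁻¹} with hQdef
    let H : AddSubgroup (ZMod (orderOf y)) :=
      { carrier := {j | ∃ k : ℤ, (k : ZMod (orderOf y)) = j ∧ y ^ k ∈ Q}
        zero_mem' := ⟨0, by simp, by rw [zpow_zero]; exact Q.one_mem⟩
        add_mem' := by
          rintro _ _ ⟨k, rfl, hk⟩ ⟨l, rfl, hl⟩
          exact ⟨k + l, by push_cast; rfl, by rw [zpow_add]; exact Q.mul_mem hk hl⟩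
        neg_mem' := by
          rintro _ ⟨k, rfl, hk⟩
          exact ⟨-k, by push_cast; rfl, by rw [zpow_neg]; exact Q.inv_mem hk⟩ }
    have hH1 : (1 : ZMod (orderOf y)) ∉ H := by
      rintro ⟨k, hk, hk2⟩
      have h1 : (k : ZMod (orderOf y)) = ((1 : ℤ) : ZMod (orderOf y)) := by
        rw [hk]; simp
      rw [ZMod.intCast_eq_intCast_iff] at h1
      have h2 : y ^ k = y ^ (1 : ℤ) := zpow_eq_zpow_iff_modEq.mpr h1
      rw [h2, zpow_one] at hk2
      exact hQ p hk2
    have hHne : H ≠ ⊤ := fun h => hH1 (h ▸ AddSubgroup.mem_top _)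
    have h1 : {j | ∃ f ∈ F, col (p * f) = c ∧ κ (p * f) = j} ⊆
        (fun j => κ (p * f₀) + j) '' (H : Set (ZMod (orderOf y))) := by
      rintro _ ⟨f, hf, hc, rfl⟩
      obtain ⟨k, hk⟩ := hcol2 p f₀ hf₀ f hf (hc₀.trans hc.symm)
      refine ⟨(k : ZMod (orderOf y)), ⟨k, rfl, Subgroup.subset_closure ⟨⟨k, rfl⟩, f₀, hf₀, f,
        hf, ?_⟩⟩, ?_⟩
      · have h2 : y ^ k = (p * f) * (p * f₀)⁻¹ := by rw [hk]; group
        rw [h2]
        group
      · simp only
        rw [hk, hκz]
    have h2 : Set.ncard {j | ∃ f ∈ F, col (p * f) = c ∧ κ (p * f) = j} ≤ Nat.card H :=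
      (Set.ncard_le_ncard h1 (Set.toFinite _)).trans (Set.ncard_image_le (Set.toFinite _))
    have h3 := H.card_mul_index
    rw [Nat.card_zmod] at h3
    have h4 : H.index ≠ 1 := fun h => hHne (AddSubgroup.index_eq_one.mp h)
    have h5 : H.index ≠ 0 := fun h => by rw [h, mul_zero] at h3; omega
    have h6 : 2 ≤ H.index := by omega
    calc 2 * _ ≤ 2 * Nat.card H := Nat.mul_le_mul_left 2 h2
      _ ≤ Nat.card H * H.index := by rw [mul_comm]; exact Nat.mul_le_mul_left _ h6
      _ = orderOf y := h3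

/-- In a group with Følner's condition, all elements outside finitely many conjugacy classes have
slow maps. -/
theorem finite_exceptions {K : Type*} [Group K] (hK : Folner K) {S : Set K} (hS : S.Finite)
    {δ : ℝ} (hδ : 0 < δ) :
    ∃ B : Set K, B.Finite ∧ ∀ y : K, (∀ b ∈ B, ¬ IsConj b y) → Slow y S δ := by
  classical
  obtain ⟨F, hF, hF2⟩ := hK hS.toFinset (δ ^ 2 / 4) (by (clear * - hδ; positivity))
  set D : Finset K := (F ×ˢ F).image fun z => z.1 * z.2⁻¹ with hD
  refine ⟨⋃ A ∈ D.powerset, {z | IsOfFinOrder z ∧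
    Subgroup.zpowers z = Subgroup.closure (A : Set K)}, ?_, fun y hy => ?_⟩
  · refine Set.Finite.biUnion (Finset.finite_toSet _) fun A _ => ?_
    rcases Set.eq_empty_or_nonempty {z | IsOfFinOrder z ∧
      Subgroup.zpowers z = Subgroup.closure (A : Set K)} with he | ⟨z, hz, hz2⟩
    · rw [he]; exact Set.finite_empty
    · have h1 : (Subgroup.zpowers z : Set K).Finite := by
        rw [finite_zpowers]
        exact hz
      refine h1.subset fun w hw => ?_
      have h2 : w ∈ Subgroup.zpowers w := Subgroup.mem_zpowers w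
      rw [hw.2, ← hz2] at h2
      exact h2
  · rcases Nat.eq_zero_or_pos (orderOf y) with h0 | h0
    · exact slow_of_infinite hK h0 hS hδ
    · refine slow_of_torsion F hF (ε := δ ^ 2 / 4) (fun s hs => hF2 s (by simpa using hs))
        (by linarith only []) h0 fun p hp => ?_
      -- the exceptional case
      set y' := p⁻¹ * y * p with hy'
      set A : Finset K := D.filter fun z => z ∈ Subgroup.zpowers y' with hA
      have hconj : IsConj y' y := isConj_iff.mpr ⟨p, by rw [hy']; group⟩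
      have hfin : IsOfFinOrder y' := by
        have h1 : IsOfFinOrder y := orderOf_pos_iff.mp h0
        have h2 : y' = MulAut.conj p⁻¹ y := by rw [MulAut.conj_apply, inv_inv]
        rw [h2]
        exact MonoidHom.isOfFinOrder (MulAut.conj p⁻¹).toMonoidHom h1
      have hle : Subgroup.closure (A : Set K) ≤ Subgroup.zpowers y' := by
        rw [Subgroup.closure_le]
        intro z hz
        rw [Finset.mem_coe, hA, Finset.mem_filter] at hz
        exact hz.2
      have hmem : y' ∈ Subgroup.closure (A : Set K) := by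
        have h1 : (MulAut.conj p⁻¹).toMonoidHom y ∈ (Subgroup.closure
            {z | z ∈ Subgroup.zpowers y ∧ ∃ f ∈ F, ∃ f' ∈ F, z = p * f' * f⁻¹ * p⁻¹}).map
            (MulAut.conj p⁻¹).toMonoidHom := Subgroup.mem_map_of_mem _ hp
        rw [MonoidHom.map_closure] at h1
        have h2 : (MulAut.conj p⁻¹).toMonoidHom y = y' := by
          change MulAut.conj p⁻¹ y = y'
          rw [MulAut.conj_apply, inv_inv]
        rw [h2] at h1
        refine Subgroup.closure_mono ?_ h1
        rintro _ ⟨z, ⟨⟨k, hk⟩, f, hf, f', hf', hz⟩, rfl⟩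
        rw [hA, Finset.coe_filter]
        refine ⟨?_, ?_⟩
        · rw [hD]
          refine Finset.mem_image.mpr ⟨(f', f), Finset.mk_mem_product hf' hf, ?_⟩
          change f' * f⁻¹ = MulAut.conj p⁻¹ z
          rw [MulAut.conj_apply, hz]
          group
        · refine ⟨k, ?_⟩
          simp only at hk ⊢
          rw [← hk, ← h2, ← map_zpow]
      refine hy y' (Set.mem_biUnion (x := A) ?_ ⟨hfin, ?_⟩) hconj
      · rw [Finset.mem_coe, Finset.mem_powerset]
        exact Finset.filter_subset _ _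
      · refine le_antisymm ?_ hle
        rw [Subgroup.zpowers_le]
        exact hmem

end Vale.Agent.P184
end
end
end

section

section

/-!
# Vanishing of traces from slowly varying equivariant maps to spheres
-/

noncomputable section
open scoped Matrix Kronecker Matrix.Norms.L2Operator

namespace Vale.Agent.P184

section Norms

variable {n : Type*} [Fintype n] [DecidableEq n]

theorem l2_one_le : ‖(1 : Matrix n n ℂ)‖ ≤ 1 := by
  rw [← Matrix.diagonal_one, Matrix.l2_opNorm_diagonal]
  exact (pi_norm_le_iff_of_nonneg zero_le_one).2 fun i => by simp only [norm_one, Std.le_refl]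

theorem l2_le_of_sq {A : Matrix n n ℂ} {r : ℝ} (hr : 0 ≤ r) (h : Aᴴ * A = (r : ℂ) • 1) :
    ‖A‖ ≤ Real.sqrt r := by
  refine Real.le_sqrt_of_sq_le ?_
  rw [pow_two, ← Matrix.l2_opNorm_conjTranspose_mul_self, h]
  refine (norm_smul_le _ _).trans ?_
  rw [Complex.norm_real, Real.norm_of_nonneg hr]
  exact (mul_le_mul_of_nonneg_left l2_one_le hr).trans (mul_one r).le

theorem l2_proj_le {A : Matrix n n ℂ} (h1 : Aᴴ = A) (h2 : A * A = A) : ‖A‖ ≤ 1 := by
  have h := Matrix.l2_opNorm_conjTranspose_mul_self A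
  rw [h1, h2] at h
  by_contra hlt
  push Not at hlt
  nlinarith only [h, hlt]

theorem l2_single_kron_le {m : Type*} [Fintype m] [DecidableEq m] (i j : m) (a : ℂ) :
    ‖(Matrix.single i j a ⊗ₖ (1 : Matrix n n ℂ))‖ ≤ ‖a‖ := by
  have h1 : (Matrix.single i j a ⊗ₖ (1 : Matrix n n ℂ)) =
      a • (Matrix.single i j (1 : ℂ) ⊗ₖ (1 : Matrix n n ℂ)) := by
    rw [← Matrix.smul_kronecker, Matrix.smul_single, smul_eq_mul, mul_one]
  rw [h1]
  refine (norm_smul_le _ _).trans ?_
  refine (mul_le_mul_of_nonneg_left (?_ : _ ≤ (1 : ℝ)) (norm_nonneg _)).trans (mul_one _).le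
  have h2 := Matrix.l2_opNorm_conjTranspose_mul_self
    (Matrix.single i j (1 : ℂ) ⊗ₖ (1 : Matrix n n ℂ))
  have h3 : (Matrix.single i j (1 : ℂ) ⊗ₖ (1 : Matrix n n ℂ))ᴴ *
      (Matrix.single i j (1 : ℂ) ⊗ₖ (1 : Matrix n n ℂ)) =
      Matrix.single j j (1 : ℂ) ⊗ₖ (1 : Matrix n n ℂ) := by
    rw [Matrix.conjTranspose_kronecker, ← Matrix.mul_kronecker_mul, Matrix.conjTranspose_single,
      Matrix.conjTranspose_one, mul_one, Matrix.single_mul_single_same, star_one, mul_one]
  have h4 : ‖Matrix.single j j (1 : ℂ) ⊗ₖ (1 : Matrix n n ℂ)‖ ≤ 1 := by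
    refine l2_proj_le ?_ ?_
    · rw [Matrix.conjTranspose_kronecker, Matrix.conjTranspose_single, Matrix.conjTranspose_one,
        star_one]
    · rw [← Matrix.mul_kronecker_mul, Matrix.single_mul_single_same, mul_one, mul_one]
  rw [h3] at h2
  rw [h2] at h4
  by_contra hlt
  push Not at hlt
  (clear * - h4 hlt; nlinarith)

theorem l2_kron_le {m : Type*} [Fintype m] [DecidableEq m] (A : Matrix m m ℂ) :
    ‖(A ⊗ₖ (1 : Matrix n n ℂ))‖ ≤ ∑ i, ∑ j, ‖A i j‖ := by
  have h : A ⊗ₖ (1 : Matrix n n ℂ) =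
      ∑ i, ∑ j, (Matrix.single i j (A i j) ⊗ₖ (1 : Matrix n n ℂ)) := by
    conv_lhs => rw [Matrix.matrix_eq_sum_single A]
    ext ⟨i, a⟩ ⟨j, b⟩
    simp only [Matrix.kroneckerMap_apply, Matrix.sum_apply, Finset.sum_mul]
  rw [h]
  refine (norm_sum_le _ _).trans (Finset.sum_le_sum fun i _ => ?_)
  exact (norm_sum_le _ _).trans (Finset.sum_le_sum fun j _ => l2_single_kron_le i j _)

theorem l2_entry_tsum {ι : Type*} {f : ι → Matrix n n ℂ} (hf : Summable f)
    (i j : n) : (∑' k, f k) i j = ∑' k, f k i j := by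
  have h := (LinearMap.toContinuousLinearMap (Matrix.entryLinearMap ℂ ℂ i j)).map_tsum hf
  exact h

end Norms

theorem exists_slow_weight {G : Type*} (n1 : G → ℝ) (h0 : ∀ g, 0 ≤ n1 g) (hs : Summable n1) :
    ∃ (S : Finset G) (δ : ℝ), 0 < δ ∧ ∀ w : G → ℝ, (∀ g ∈ S, w g ≤ δ) → (∀ g, w g ≤ 2) →
      (∀ g, 0 ≤ w g) → Summable (fun g => n1 g * w g) ∧ ∑' g, n1 g * w g < 1 := by
  classical
  set T := ∑' g, n1 g with hT
  have hT0 : 0 ≤ T := tsum_nonneg h0
  obtain ⟨S, hS⟩ : ∃ S : Finset G, T - 1 / 4 < ∑ g ∈ S, n1 g := by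
    have h1 : Filter.Tendsto (fun S : Finset G => ∑ g ∈ S, n1 g) Filter.atTop (nhds T) :=
      hs.hasSum
    have h2 := h1.eventually (lt_mem_nhds (show T - 1 / 4 < T by linarith))
    exact h2.exists
  refine ⟨S, 1 / (4 * (T + 1)), by (clear * - hT0; positivity), fun w hw hw2 hw0 => ?_⟩
  set δ := 1 / (4 * (T + 1)) with hδ
  have hδ0 : 0 < δ := by positivity
  have hle : ∀ g, n1 g * w g ≤ δ * n1 g + 2 * (n1 g - if g ∈ S then n1 g else 0) := by
    intro g
    by_cases hg : g ∈ S
    · rw [if_pos hg, sub_self, mul_zero, add_zero, mul_comm]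
      exact mul_le_mul_of_nonneg_right (hw g hg) (h0 g)
    · rw [if_neg hg, sub_zero]
      have h1 := mul_le_mul_of_nonneg_left (hw2 g) (h0 g)
      have h2 := mul_nonneg hδ0.le (h0 g)
      linarith only [h1, h2]
  have hind : HasSum (fun g => if g ∈ S then n1 g else 0) (∑ g ∈ S, n1 g) := by
    have h1 : HasSum (fun g => if g ∈ S then n1 g else 0) (∑ g ∈ S, if g ∈ S then n1 g else 0) :=
      hasSum_sum_of_ne_finset_zero fun g hg => by rw [if_neg hg]
    have h2 : ∑ g ∈ S, (if g ∈ S then n1 g else 0) = ∑ g ∈ S, n1 g :=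
      Finset.sum_congr rfl fun g hg => by rw [if_pos hg]
    rwa [h2] at h1
  have hbig : HasSum (fun g => δ * n1 g + 2 * (n1 g - if g ∈ S then n1 g else 0))
      (δ * T + 2 * (T - ∑ g ∈ S, n1 g)) :=
    (hs.hasSum.mul_left δ).add ((hs.hasSum.sub hind).mul_left 2)
  have hsum : Summable (fun g => n1 g * w g) :=
    Summable.of_nonneg_of_le (fun g => mul_nonneg (h0 g) (hw0 g)) hle hbig.summable
  refine ⟨hsum, ?_⟩
  have h1 : ∑' g, n1 g * w g ≤ δ * T + 2 * (T - ∑ g ∈ S, n1 g) := by
    rw [← hbig.tsum_eq]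
    exact hsum.tsum_le_tsum hle hbig.summable
  have h2 : δ * T ≤ 1 / 4 := by
    rw [hδ, div_mul_eq_mul_div, one_mul, div_le_div_iff₀ (by (clear * - hT0; positivity)) (by norm_num)]
    linarith only []
  linarith only [hS, h1, h2]

section Main

variable {m κ : Type*} [Fintype m] [DecidableEq m] [Fintype κ] [DecidableEq κ]

theorem kron_comm (E : Matrix m m ℂ) (X : Matrix κ κ ℂ) :
    (E ⊗ₖ (1 : Matrix κ κ ℂ)) * ((1 : Matrix m m ℂ) ⊗ₖ X) =
      ((1 : Matrix m m ℂ) ⊗ₖ X) * (E ⊗ₖ (1 : Matrix κ κ ℂ)) := by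
  rw [← Matrix.mul_kronecker_mul, ← Matrix.mul_kronecker_mul, mul_one, one_mul, one_mul, mul_one]

theorem one_kron_mul (X Y : Matrix κ κ ℂ) :
    ((1 : Matrix m m ℂ) ⊗ₖ X) * ((1 : Matrix m m ℂ) ⊗ₖ Y) = (1 : Matrix m m ℂ) ⊗ₖ (X * Y) := by
  rw [← Matrix.mul_kronecker_mul, one_mul]

theorem trace_kron3 (E : Matrix m m ℂ) (X Y : Matrix κ κ ℂ) :
    ((E ⊗ₖ (1 : Matrix κ κ ℂ)) * ((1 : Matrix m m ℂ) ⊗ₖ X) * ((1 : Matrix m m ℂ) ⊗ₖ Y)).trace =
      E.trace * (X * Y).trace := by
  rw [← Matrix.mul_kronecker_mul, ← Matrix.mul_kronecker_mul, mul_one, one_mul, mul_one,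
    Matrix.trace_kronecker]

end Main

universe v

/-- The core theorem: if `f x` has amenable centralizer in `K` and there is a sufficiently slowly
varying `f x`-equivariant map from `K` to a sphere, then the trace at the class of `x` vanishes. -/
theorem exists_slow_param {G : Type*} [Group G] {q : ℕ}
    (e : Matrix (Fin q) (Fin q) (G → ℂ)) (he : IsIdem e) :
    ∃ (S : Finset G) (δ : ℝ), 0 < δ ∧ ∀ {K : Type v} [Group K] (f : G →* K) (x : G),
      IsAmenable (Subgroup.centralizer ({f x} : Set K)) →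
      Slow (f x) (f '' (S : Set G)) δ → tau (ConjClasses.mk x) e = 0 := by
  classical
  have hn1 : Summable fun g => ∑ i, ∑ j, ‖e i j g‖ :=
    summable_sum fun i _ => summable_sum fun j _ => he.1 i j
  have hn0 : ∀ g, 0 ≤ ∑ i, ∑ j, ‖e i j g‖ := fun g =>
    Finset.sum_nonneg fun _ _ => Finset.sum_nonneg fun _ _ => norm_nonneg _
  obtain ⟨S, δ, hδ0, hSδ⟩ := exists_slow_weight _ hn0 hn1
  refine ⟨S, δ, hδ0, ?_⟩
  intro K _ f x hK hslow
  obtain ⟨ι, _, ζ, u, hζ, huy, hu1, huδ⟩ := hslow
  obtain ⟨κ, _, _, c, Γ, Λ, c1, c2, c3, c4, c5, c6, c7, c8, c9, c10, c11⟩ := cliffordFor ι ζ hζ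
  let _ : TopologicalSpace K := ⊥
  have : DiscreteTopology K := ⟨rfl⟩
  let B := Matrix (Fin q × κ) (Fin q × κ) ℂ
  have : CompleteSpace B := FiniteDimensional.complete ℂ B
  let E : G → Matrix (Fin q) (Fin q) ℂ := fun g => Matrix.of fun i j => e i j g
  let a : G → B := fun g => E g ⊗ₖ (1 : Matrix κ κ ℂ)
  let tr : B →L[ℂ] ℂ := LinearMap.toContinuousLinearMap (Matrix.traceLinearMap (Fin q × κ) ℂ ℂ)
  let I : Matrix κ κ ℂ → B := fun X => (1 : Matrix (Fin q) (Fin q) ℂ) ⊗ₖ X
  have Imul : ∀ X Y, I X * I Y = I (X * Y) := fun X Y => one_kron_mul X Y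
  have Ione : I 1 = 1 := Matrix.one_kronecker_one
  have Isub : ∀ X Y, I (X - Y) = I X - I Y := fun X Y => Matrix.ext fun _ _ => mul_sub _ _ _
  have Istar : ∀ X, (I X)ᴴ = I Xᴴ := fun X => by
    show ((1 : Matrix (Fin q) (Fin q) ℂ) ⊗ₖ X)ᴴ = _
    rw [Matrix.conjTranspose_kronecker, Matrix.conjTranspose_one]
  have Ismul : ∀ (r : ℂ) X, I (r • X) = r • I X := fun r X => Matrix.kronecker_smul _ _ _
  let P0 : Matrix κ κ ℂ := (1 / 2 : ℂ) • (1 + Γ)
  let N0 : Matrix κ κ ℂ := (1 / 2 : ℂ) • (1 - Γ)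
  have hP0 : P0 * P0 = P0 := by
    show ((1 / 2 : ℂ) • (1 + Γ)) * ((1 / 2 : ℂ) • (1 + Γ)) = (1 / 2 : ℂ) • (1 + Γ)
    rw [smul_mul_smul_comm, mul_add, add_mul, add_mul, c4, one_mul, mul_one, one_mul,
      show (1 + Γ + (Γ + 1) : Matrix κ κ ℂ) = (2 : ℂ) • (1 + Γ) by rw [two_smul]; abel, smul_smul]
    norm_num
  have hN0 : N0 * N0 = N0 := by
    show ((1 / 2 : ℂ) • (1 - Γ)) * ((1 / 2 : ℂ) • (1 - Γ)) = (1 / 2 : ℂ) • (1 - Γ)
    rw [smul_mul_smul_comm, mul_sub, sub_mul, sub_mul, c4, one_mul, mul_one, one_mul,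
      show (1 - Γ - (Γ - 1) : Matrix κ κ ℂ) = (2 : ℂ) • (1 - Γ) by rw [two_smul]; abel, smul_smul]
    norm_num
  have hN0star : N0ᴴ = N0 := by
    show ((1 / 2 : ℂ) • (1 - Γ))ᴴ = (1 / 2 : ℂ) • (1 - Γ)
    rw [Matrix.conjTranspose_smul, Matrix.conjTranspose_sub, Matrix.conjTranspose_one, c9]
    congr 1
    simp only [one_div, star_inv₀, star_ofNat]
  have hPN : P0 - N0 = Γ := by
    show (1 / 2 : ℂ) • (1 + Γ) - (1 / 2 : ℂ) • (1 - Γ) = Γ
    rw [← smul_sub, show (1 + Γ - (1 - Γ) : Matrix κ κ ℂ) = (2 : ℂ) • Γ by rw [two_smul]; abel,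
      smul_smul]
    norm_num
  have hcP0 : ∀ v, c v * P0 = N0 * c v := fun v => by
    show c v * ((1 / 2 : ℂ) • (1 + Γ)) = ((1 / 2 : ℂ) • (1 - Γ)) * c v
    rw [mul_smul_comm, smul_mul_assoc, mul_add, sub_mul, c5, mul_one, one_mul, sub_neg_eq_add]
  have hPΛ0 : P0 * Λ = Λ * P0 := by
    show ((1 / 2 : ℂ) • (1 + Γ)) * Λ = Λ * ((1 / 2 : ℂ) • (1 + Γ))
    rw [mul_smul_comm, smul_mul_assoc, mul_add, add_mul, c8, mul_one, one_mul]
  have hNΛ0 : N0 * Λ = Λ * N0 := by
    show ((1 / 2 : ℂ) • (1 - Γ)) * Λ = Λ * ((1 / 2 : ℂ) • (1 - Γ))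
    rw [mul_smul_comm, smul_mul_assoc, mul_sub, sub_mul, c8, mul_one, one_mul]
  have haI : ∀ g X, a g * I X = I X * a g := fun g X => kron_comm (E g) X
  have han : ∀ g, ‖a g‖ ≤ ∑ i, ∑ j, ‖e i j g‖ := fun g => l2_kron_le (E g)
  have has : Summable fun g => ‖a g‖ :=
    Summable.of_nonneg_of_le (fun _ => norm_nonneg _) han hn1
  have hEi : ∀ k, ∑' h, a h * a (h⁻¹ * k) = a k := by
    intro k
    have hsa : Summable fun h => a h * a (h⁻¹ * k) := by
      refine Summable.of_norm_bounded (has.mul_right (∑' g, ‖a g‖)) fun h => ?_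
      refine (norm_mul_le _ _).trans (mul_le_mul_of_nonneg_left ?_ (norm_nonneg _))
      exact has.le_tsum _ fun _ _ => norm_nonneg _
    ext ⟨i, r⟩ ⟨j, s⟩
    rw [l2_entry_tsum hsa]
    have h1 : ∀ h, (a h * a (h⁻¹ * k)) (i, r) (j, s) =
        (∑ l, e i l h * e l j (h⁻¹ * k)) * (1 : Matrix κ κ ℂ) r s := by
      intro h
      show ((E h ⊗ₖ (1 : Matrix κ κ ℂ)) * (E (h⁻¹ * k) ⊗ₖ (1 : Matrix κ κ ℂ))) (i, r) (j, s) = _
      rw [← Matrix.mul_kronecker_mul, one_mul, Matrix.kroneckerMap_apply, Matrix.mul_apply]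
      rfl
    have hsl : ∀ l, Summable fun h => e i l h * e l j (h⁻¹ * k) := fun l => by
      refine Summable.of_norm_bounded ((he.1 i l).mul_right (∑' g, ‖e l j g‖)) fun h => ?_
      rw [norm_mul]
      refine mul_le_mul_of_nonneg_left ?_ (norm_nonneg _)
      exact (he.1 l j).le_tsum _ fun _ _ => norm_nonneg _
    rw [tsum_congr h1, tsum_mul_right, Summable.tsum_finsetSum fun l _ => hsl l, he.2 i j k]
    rfl
  have hcn : ∀ k, ‖I (c (u k))‖ ≤ 1 := fun k => by
    have h1 : (I (c (u k)))ᴴ * I (c (u k)) = ((1 : ℝ) : ℂ) • 1 := by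
      rw [Istar, c2, Imul, c3, hu1, Ismul, Ione]
    have h2 := l2_le_of_sq zero_le_one h1
    rwa [Real.sqrt_one] at h2
  have hNn : ‖I N0‖ ≤ 1 := l2_proj_le (by rw [Istar, hN0star]) (by rw [Imul, hN0])
  have hdiff : ∀ k g, ‖I N0 * (I (c (u k)) * I (c (u (k * f g)))) - I N0‖ ≤
      ‖I (c (u (k * f g))) - I (c (u k))‖ := fun k g => by
    have h1 : I N0 * (I (c (u k)) * I (c (u (k * f g)))) - I N0 =
        I N0 * (I (c (u k)) * (I (c (u (k * f g))) - I (c (u k)))) := by
      rw [mul_sub (I (c (u k))), mul_sub, Imul (c (u k)) (c (u k)), c3, hu1, Complex.ofReal_one,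
        one_smul, Ione, mul_one]
    rw [h1]
    refine (norm_mul_le _ _).trans ?_
    refine (mul_le_mul hNn (norm_mul_le _ _) (norm_nonneg _) zero_le_one).trans ?_
    rw [one_mul]
    exact (mul_le_mul_of_nonneg_right (hcn k) (norm_nonneg _)).trans (one_mul _).le
  have hd2 : ∀ k g, ‖I (c (u (k * f g))) - I (c (u k))‖ ≤ 2 := fun k g => by
    refine (norm_sub_le _ _).trans ?_
    linarith only [hcn (k * f g), hcn k]
  have hdS : ∀ g ∈ S, ∀ k, ‖I (c (u (k * f g))) - I (c (u k))‖ ≤ δ := fun g hg k => by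
    rw [← Isub, ← c1]
    have h1 : (I (c (u (k * f g) - u k)))ᴴ * I (c (u (k * f g) - u k)) =
        ((∑ j, ‖(u (k * f g) - u k) j‖ ^ 2 : ℝ) : ℂ) • 1 := by
      rw [Istar, c2, Imul, c3, Ismul, Ione]
    refine (l2_le_of_sq (Finset.sum_nonneg fun _ _ => by (clear * -; positivity)) h1).trans ?_
    rw [Real.sqrt_le_left hδ0.le]
    exact huδ (f g) ⟨g, hg, rfl⟩ k
  let w : G → ℝ := fun g => if g ∈ S then min δ 2 else 2
  have hw : ∀ g k, ‖I N0 * (I (c (u k)) * I (c (u (k * f g)))) - I N0‖ ≤ w g := by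
    intro g k
    refine (hdiff k g).trans ?_
    by_cases hg : g ∈ S
    · simp only [w, if_pos hg]
      exact le_min (hdS g hg k) (hd2 k g)
    · simp only [w, if_neg hg]
      exact hd2 k g
  have hw0 : ∀ g, 0 ≤ w g := fun g => (norm_nonneg _).trans (hw g 1)
  obtain ⟨hwS, hw1⟩ := hSδ w (fun g hg => by simp only [w, if_pos hg]; exact min_le_left _ _)
    (fun g => by
      by_cases hg : g ∈ S
      · simp only [w, if_pos hg]; exact min_le_right _ _
      · simp only [w, if_neg hg]; exact le_refl _) hw0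
  have hwa : ∀ g, ‖a g‖ * w g ≤ (∑ i, ∑ j, ‖e i j g‖) * w g := fun g =>
    mul_le_mul_of_nonneg_right (han g) (hw0 g)
  have hws : Summable fun g => ‖a g‖ * w g :=
    Summable.of_nonneg_of_le (fun g => mul_nonneg (norm_nonneg _) (hw0 g)) hwa hwS
  have hwlt : ∑' g, ‖a g‖ * w g < 1 := (hws.tsum_le_tsum hwa hwS).trans_lt hw1
  have key := core_eq f x hK tr (fun a b => Matrix.trace_mul_comm a b) (I Λ) (I P0) (I N0)
    (fun k => I (c (u k))) 1 hcn
    (fun k => by rw [Imul, c3, hu1, Complex.ofReal_one, one_smul, Ione])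
    (fun k => by
      rw [Imul, Imul, c10]
      congr 3
      funext j
      exact huy k j)
    (by rw [Imul, hP0]) (by rw [Imul, hN0]) (fun k => by rw [Imul, Imul, hcP0])
    (by rw [Imul, Imul, hPΛ0]) (by rw [Imul, Imul, hNΛ0])
    a has hEi (fun g => haI g Λ) (fun g => haI g P0) (fun g => haI g N0) (fun g k => haI g _)
    w hw hws hwlt
  have htP : ∀ (Q : Matrix κ κ ℂ) g, tr (a g * I Q * I Λ) = (E g).trace * (Q * Λ).trace :=
    fun Q g => trace_kron3 (E g) Q Λ
  simp only [htP] at key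
  rw [tsum_mul_right, tsum_mul_right, ← sub_eq_zero, ← mul_sub, ← Matrix.trace_sub, ← sub_mul,
    hPN] at key
  have key2 := (mul_eq_zero.1 key).resolve_right c11
  have hset : (ConjClasses.mk x).carrier = {g | IsConj x g} := by
    ext g
    rw [ConjClasses.mem_carrier_iff_mk_eq, ConjClasses.mk_eq_mk_iff_isConj]
    exact ⟨fun h => h.symm, fun h => IsConj.symm h⟩
  unfold tau
  rw [hset]
  exact key2

end Vale.Agent.P184
end
end
end

section

section

namespace Vale.Agent.P184

/-- An isometric action on a roughly geodesic hyperbolic space. -/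
structure HypAct (G : Type*) [Group G] {X : Type*} [MulAction G X] (d : X → X → ℝ) (δ κ : ℝ) :
    Prop where
  nn : ∀ a b, 0 ≤ d a b
  self : ∀ a, d a a = 0
  comm : ∀ a b, d a b = d b a
  tri : ∀ a b c, d a c ≤ d a b + d b c
  left : ∀ (g : G) a b, d (g • a) (g • b) = d a b
  geod : ∀ a b t, 0 ≤ t → t ≤ d a b → ∃ m, |d a m - t| ≤ κ ∧ d a m + d m b ≤ d a b + κ
  four : ∀ a b c e, d a b + d c e ≤ d a c + d b e + 2 * δ ∨
    d a b + d c e ≤ d a e + d b c + 2 * δ

/-- Acylindricity of an action. -/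
def AcylAct (G : Type*) [Group G] {X : Type*} [MulAction G X] (d : X → X → ℝ) : Prop :=
  ∀ ε : ℝ, ∃ (R : ℝ) (N : ℕ), ∀ a b, R ≤ d a b →
    {g : G | d a (g • a) ≤ ε ∧ d b (g • b) ≤ ε}.Finite ∧
    {g : G | d a (g • a) ≤ ε ∧ d b (g • b) ≤ ε}.ncard ≤ N

namespace HypAct

variable {G : Type*} [Group G] {X : Type*} [MulAction G X] {d : X → X → ℝ} {δ κ : ℝ}
variable (hL : HypAct G d δ κ)
include hL

theorem delta_nonneg [Nonempty X] : 0 ≤ δ := by
  have p : X := Classical.arbitrary X
  have h := hL.four p p p p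
  simp only [hL.self] at h
  rcases h with h | h <;> linarith

theorem kappa_nonneg [Nonempty X] : 0 ≤ κ := by
  have p : X := Classical.arbitrary X
  obtain ⟨m, hm, _⟩ := hL.geod p p 0 le_rfl (hL.nn _ _)
  exact (abs_nonneg _).trans hm

theorem shift {p q w : X} {g : G} {B t D : ℝ} (H1 : d p (g • p) ≤ B) (H2 : d q (g • q) ≤ B)
    (H3 : d p w = t) (H4 : d w q ≤ D - t + κ) (H5 : d p q = D)
    (H6 : 2 * B + κ + 4 * δ < t) (H7 : 2 * B + κ + 4 * δ < D - t) :
    d w (g • w) ≤ |d p (g • w) - t| + κ + 6 * δ ∧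
      2 * |d p (g • w) - t| - 2 * δ ≤ d w (g • (g • w)) := by
  have : Nonempty X := ⟨p⟩
  have hδ := hL.delta_nonneg
  have hκ := hL.kappa_nonneg
  have hB : 0 ≤ B := (hL.nn _ _).trans H1
  set s := d p (g • w) - t with hs
  have e1 : d (g • p) (g • q) = D := by rw [hL.left, H5]
  have e2 : d (g • p) (g • w) = t := by rw [hL.left, H3]
  have e3 : d (g • q) (g • w) ≤ D - t + κ := by rw [hL.left, hL.comm]; exact H4
  have e3' : D - t ≤ d (g • q) (g • w) := by
    rw [hL.left, hL.comm]
    have := hL.tri p w q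
    linarith
  have e4 : d (g • p) p ≤ B := by rw [hL.comm]; exact H1
  have e5 : d (g • q) q ≤ B := by rw [hL.comm]; exact H2
  have t1 : t ≤ d (g • p) p + d p (g • w) := by
    rw [← e2]; exact hL.tri _ _ _
  have t2 : d p (g • w) ≤ B + t := by
    have := hL.tri p (g • p) (g • w)
    linarith only [H1, e2, this]
  have t3 : D - t ≤ B + d q (g • w) := by
    have := hL.tri (g • q) q (g • w)
    linarith only [e3', e5, this]
  have t4 : D ≤ d p (g • q) + B := by
    have := hL.tri p (g • q) q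
    linarith only [H5, e5, this]
  have i1 : D + d p (g • w) ≤ t + d (g • q) p + 2 * δ := by
    rcases hL.four (g • p) (g • q) p (g • w) with h | h
    · linarith only [H6, hδ, hκ, hB, e1, e3, e4, t1, h]
    · linarith only [e1, e2, h]
  have i2 : d p (g • q) + d q (g • w) ≤ D + (D - t) + κ + 2 * δ := by
    rcases hL.four p (g • q) q (g • w) with h | h
    · linarith only [H5, e3, h]
    · linarith only [H7, hδ, hκ, e5, t2, t3, t4, h]
  rw [hL.comm (g • q) p] at i1
  have i3 : d w (g • w) ≤ |s| + κ + 6 * δ := by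
    have hs1 : s ≤ |s| := le_abs_self s
    have hs2 : -s ≤ |s| := neg_le_abs s
    rcases hL.four w (g • w) p q with h | h
    · rw [hL.comm w p, hL.comm (g • w) q, H3, H5] at h
      linarith only [i1, i2, hs2, h]
    · rw [hL.comm (g • w) p, H5] at h
      linarith only [H4, hδ, hs1, h]
  refine ⟨i3, ?_⟩
  have hsB : |s| ≤ B := by
    rw [abs_le]
    constructor <;> linarith only [e4, t1, t2]
  have f1 : d (g⁻¹ • p) (g • w) = d p (g • (g • w)) := by
    rw [← hL.left g, smul_inv_smul]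
  have f2 : d (g⁻¹ • p) w = d p (g • w) := by
    rw [← hL.left g, smul_inv_smul]
  have f3 : d p (g⁻¹ • p) ≤ B := by
    rw [← hL.left g, smul_inv_smul, hL.comm]; exact H1
  have hs1 : s ≤ |s| := le_abs_self s
  have hs2 : -s ≤ |s| := neg_le_abs s
  have j1 : d p (g • w) + d p (g • w) ≤ t + d p (g • (g • w)) + 2 * δ := by
    rcases hL.four p (g • w) (g⁻¹ • p) w with h | h
    · rw [f2, hL.comm (g • w) w] at h
      linarith only [H6, hκ, e4, t1, i3, hsB, f3, h]
    · rw [f2, hL.comm (g • w) (g⁻¹ • p), f1, H3] at h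
      linarith only [h]
  have j2 : t + d p (g • (g • w)) ≤ d p (g • w) + d p (g • w) + 2 * δ := by
    rcases hL.four p w (g⁻¹ • p) (g • w) with h | h
    · rw [f1, H3] at h
      linarith only [h, j1, hs2, f3, hsB, i3, e3', e3, H6]
    · rw [f1, H3, hL.comm w (g⁻¹ • p), f2] at h
      linarith only [h]
  have k1 : d p (g • (g • w)) ≤ t + d w (g • (g • w)) := by
    rw [← H3]; exact hL.tri _ _ _
  have k2 : t ≤ d p (g • (g • w)) + d w (g • (g • w)) := by
    rw [← H3, hL.comm w (g • (g • w))]; exact hL.tri _ _ _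
  rcases abs_cases s with h | h
  · rw [h.1]; linarith only [j1, k1]
  · rw [h.1]; linarith only [j2, k2]

theorem pow_le (g : G) (p : X) (n : ℕ) : d p (g ^ n • p) ≤ n * d p (g • p) := by
  induction n with
  | zero => simp [hL.self]
  | succ n ih =>
    have h1 := hL.tri p (g ^ n • p) (g ^ (n + 1) • p)
    have h2 : d (g ^ n • p) (g ^ (n + 1) • p) = d p (g • p) := by
      rw [pow_succ, mul_smul, hL.left]
    push_cast
    linarith

theorem not_finOrder {x : G} {p : X} (hx : ∀ B : ℝ, ∃ n : ℕ, B < d p (x ^ n • p)) :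
    ¬ IsOfFinOrder x := by
  intro h
  obtain ⟨m, hm, hxm⟩ := isOfFinOrder_iff_pow_eq_one.mp h
  obtain ⟨n, hn⟩ := hx (m * d p (x • p))
  have h1 : x ^ n = x ^ (n % m) := by
    conv_lhs => rw [← Nat.div_add_mod n m, pow_add, pow_mul, hxm, one_pow, one_mul]
  rw [h1] at hn
  have h2 := hL.pow_le x p (n % m)
  have h3 : ((n % m : ℕ) : ℝ) ≤ m := by exact_mod_cast (Nat.mod_lt n hm).le
  have h4 := mul_le_mul_of_nonneg_right h3 (hL.nn p (x • p))
  linarith only [hn, h2, h4]

theorem exists_crit (hac : AcylAct G d) (x : G) (p : X)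
    (hx : ∀ B : ℝ, ∃ n : ℕ, B < d p (x ^ n • p)) :
    ∃ (w : X) (k : ℕ), 0 < k ∧
      d w (x ^ k • w) + 3 * δ + 1 ≤ d w (x ^ (2 * k) • w) := by
  classical
  have : Nonempty X := ⟨p⟩
  have hδ := hL.delta_nonneg
  have hκ := hL.kappa_nonneg
  obtain ⟨R', N, hRN⟩ := hac (17 * δ + 2 * κ + 1)
  set R := max R' 0 with hR
  have hR0 : 0 ≤ R := le_max_right _ _
  set B : ℝ := ((N + 1 : ℕ) : ℝ) * d p (x • p) with hB
  have hB0 : 0 ≤ B := mul_nonneg (Nat.cast_nonneg _) (hL.nn _ _)
  set T : ℝ := 2 * B + 4 * κ + 4 * δ + 1 with hT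
  obtain ⟨n, hn⟩ := hx (2 * T + R + 4 * κ)
  set q := x ^ n • p with hq
  obtain ⟨u, hu1, hu2⟩ := hL.geod p q T (by linarith only [hδ, hκ, hB0]) (by linarith only [hδ, hκ, hR0, hB0, hn])
  obtain ⟨v, hv1, hv2⟩ := hL.geod p q (T + R + 2 * κ) (by linarith only [hδ, hκ, hR0, hB0]) (by linarith only [hδ, hκ, hB0, hn])
  rw [abs_le] at hu1 hv1
  have hpow : ∀ k : ℕ, k ≤ N + 1 → d p (x ^ k • p) ≤ B := by
    intro k hk
    have h1 := hL.pow_le x p k
    have h3 : (k : ℝ) ≤ ((N + 1 : ℕ) : ℝ) := by exact_mod_cast hk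
    have h4 := mul_le_mul_of_nonneg_right h3 (hL.nn p (x • p))
    linarith only [h4, h1]
  have key : ∀ w : X, ∀ k : ℕ, k ≤ N + 1 → T - κ ≤ d p w → T - κ ≤ d p q - d p w →
      d w q ≤ d p q - d p w + κ →
      d w (x ^ k • w) ≤ |d p (x ^ k • w) - d p w| + κ + 6 * δ ∧
      2 * |d p (x ^ k • w) - d p w| - 2 * δ ≤ d w (x ^ k • (x ^ k • w)) := by
    intro w k hk h1 h2 h3
    refine hL.shift (p := p) (q := q) (w := w) (g := x ^ k) (B := B) (t := d p w) (D := d p q)
      ?_ ?_ rfl h3 rfl ?_ ?_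
    · exact hpow k hk
    · have h4 : d q (x ^ k • q) = d p (x ^ k • p) := by
        rw [hq, ← mul_smul, ← pow_add, add_comm, pow_add, mul_smul, hL.left]
      rw [h4]; exact hpow k hk
    · linarith only [hκ, h1]
    · linarith only [hκ, h2]
  have hu : T - κ ≤ d p u ∧ T - κ ≤ d p q - d p u ∧ d u q ≤ d p q - d p u + κ :=
    ⟨by linarith only [hu1], by (clear * - hκ hR0 hn hu1; linarith), by linarith only [hu2]⟩
  have hv : T - κ ≤ d p v ∧ T - κ ≤ d p q - d p v ∧ d v q ≤ d p q - d p v + κ :=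
    ⟨by linarith, by linarith only [hn, hv1], by linarith only [hv2]⟩
  have keyu := fun k hk => key u k hk hu.1 hu.2.1 hu.2.2
  have keyv := fun k hk => key v k hk hv.1 hv.2.1 hv.2.2
  -- from a large shift we get the criterion
  have fin : ∀ w : X, ∀ k : ℕ, 0 < k →
      d w (x ^ k • w) ≤ |d p (x ^ k • w) - d p w| + κ + 6 * δ →
      2 * |d p (x ^ k • w) - d p w| - 2 * δ ≤ d w (x ^ k • (x ^ k • w)) →
      11 * δ + κ + 1 ≤ |d p (x ^ k • w) - d p w| → ∃ (w : X) (k : ℕ), 0 < k ∧
      d w (x ^ k • w) + 3 * δ + 1 ≤ d w (x ^ (2 * k) • w) := by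
    intro w k hk h1 h2 h3
    refine ⟨w, k, hk, ?_⟩
    rw [two_mul, pow_add, mul_smul]
    linarith only [h1, h2, h3]
  by_contra hcon
  have hsmall : ∀ k : ℕ, 0 < k → k ≤ N + 1 → d u (x ^ k • u) ≤ 17 * δ + 2 * κ + 1 ∧
      d v (x ^ k • v) ≤ 17 * δ + 2 * κ + 1 := by
    intro k hk0 hk
    have h1 := keyu k hk
    have h2 := keyv k hk
    have h3 : |d p (x ^ k • u) - d p u| < 11 * δ + κ + 1 := by
      by_contra h
      push Not at h
      exact hcon (fin u k hk0 h1.1 h1.2 h)
    have h4 : |d p (x ^ k • v) - d p v| < 11 * δ + κ + 1 := by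
      by_contra h
      push Not at h
      exact hcon (fin v k hk0 h2.1 h2.2 h)
    exact ⟨by (clear * - h1 h3; linarith [h1.1]), by linarith only [h2, h4]⟩
  have huv : R ≤ d u v := by
    have := hL.tri p u v
    linarith only [hu1, hv1, this]
  obtain ⟨hfin, hcard⟩ := hRN u v ((le_max_left _ _).trans huv)
  have hinj : Set.InjOn (fun k : ℕ => x ^ k) (Finset.Icc 1 (N + 1) : Finset ℕ) := by
    intro a _ b _ hab
    exact (injective_pow_iff_not_isOfFinOrder.mpr (hL.not_finOrder hx)) hab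
  have hsub : (((Finset.Icc 1 (N + 1)).image fun k : ℕ => x ^ k : Finset G) : Set G) ⊆
      {g | d u (g • u) ≤ 17 * δ + 2 * κ + 1 ∧ d v (g • v) ≤ 17 * δ + 2 * κ + 1} := by
    intro g hg
    rw [Finset.mem_coe, Finset.mem_image] at hg
    obtain ⟨k, hk, rfl⟩ := hg
    rw [Finset.mem_Icc] at hk
    exact hsmall k (by (clear * - hk; omega)) hk.2
  have h1 := Set.ncard_le_ncard hsub hfin
  rw [Set.ncard_coe_finset, Finset.card_image_of_injOn hinj, Nat.card_Icc] at h1
  omega

theorem dpow (g : G) (p : X) {a b : ℕ} (h : a ≤ b) :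
    d (g ^ a • p) (g ^ b • p) = d p (g ^ (b - a) • p) := by
  have h1 : g ^ b • p = g ^ a • g ^ (b - a) • p := by
    rw [← mul_smul, ← pow_add, Nat.add_sub_cancel' h]
  rw [h1, hL.left]

theorem dpow' (g : G) (p : X) {a b : ℕ} (h : a ≤ b) :
    d (g ^ b • p) (g ^ a • p) = d p (g ^ (b - a) • p) := by
  rw [hL.comm, hL.dpow g p h]

theorem crit_mono {g : G} {p : X} (h : d p (g • p) + 3 * δ + 1 ≤ d p (g ^ 2 • p)) (n : ℕ) :
    d p (g ^ n • p) + (δ + 1) ≤ d p (g ^ (n + 1) • p) := by
  have : Nonempty X := ⟨p⟩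
  have hδ := hL.delta_nonneg
  induction n with
  | zero =>
    have h1 : d p (g ^ 2 • p) ≤ 2 * d p (g • p) := by
      have := hL.pow_le g p 2
      exact_mod_cast this
    rw [pow_zero, one_smul, hL.self, zero_add, zero_add, pow_one]
    linarith
  | succ n ih =>
    have e2 : d (g • p) (g ^ (n + 2) • p) = d p (g ^ (n + 1) • p) := by
      have := hL.dpow g p (a := 1) (b := n + 2) (by omega)
      rw [pow_one] at this
      exact this
    have e3 : d (g ^ 2 • p) (g ^ (n + 2) • p) = d p (g ^ n • p) :=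
      hL.dpow g p (a := 2) (b := n + 2) (by omega)
    have e6 : d (g ^ 2 • p) (g • p) = d p (g • p) := by
      have := hL.dpow' g p (a := 1) (b := 2) (by omega)
      rw [pow_one] at this
      simpa using this
    rcases hL.four p (g ^ 2 • p) (g • p) (g ^ (n + 2) • p) with h1 | h1
    · rw [e2, e3] at h1
      linarith only [h, hδ, ih, h1]
    · rw [e2, e6] at h1
      change d p (g ^ (n + 1) • p) + (δ + 1) ≤ d p (g ^ (n + 2) • p)
      linarith only [h, h1]

theorem crit_add {g : G} {p : X} (h : d p (g • p) + 3 * δ + 1 ≤ d p (g ^ 2 • p)) (n m : ℕ) :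
    d p (g ^ n • p) + d p (g ^ m • p) ≤ d p (g ^ (n + m) • p) + d p (g • p) + 2 * δ := by
  have : Nonempty X := ⟨p⟩
  have hδ := hL.delta_nonneg
  have hg0 := hL.nn p (g • p)
  rcases Nat.eq_zero_or_pos n with rfl | hn
  · rw [pow_zero, one_smul, hL.self, zero_add, zero_add]; linarith
  obtain ⟨n, rfl⟩ := Nat.exists_eq_add_of_le' hn
  have e1 : d (g ^ n • p) (g ^ (n + 1 + m) • p) = d p (g ^ (m + 1) • p) := by
    rw [hL.dpow g p (by omega)]
    congr 3; omega
  have e3 : d (g ^ n • p) p = d p (g ^ n • p) := hL.comm _ _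
  have e4 : d (g ^ (n + 1 + m) • p) (g ^ (n + 1) • p) = d p (g ^ m • p) := by
    rw [hL.dpow' g p (by omega)]
    congr 3; (clear * -; omega)
  have e5 : d (g ^ n • p) (g ^ (n + 1) • p) = d p (g • p) := by
    rw [hL.dpow g p (by omega), Nat.add_sub_cancel_left, pow_one]
  have e6 : d (g ^ (n + 1 + m) • p) p = d p (g ^ (n + 1 + m) • p) := hL.comm _ _
  have h1 := hL.crit_mono h n
  have h2 := hL.crit_mono h m
  rcases hL.four (g ^ n • p) (g ^ (n + 1 + m) • p) p (g ^ (n + 1) • p) with h3 | h3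
  · rw [e1, e3, e4] at h3
    linarith only [h1, h2, h3]
  · rw [e1, e5, e6] at h3
    linarith only [hδ, h2, h3]

/-- Elements commuting with `g` stay close to the orbit of `g`. -/
theorem crit_close {g z : G} {p : X} (h : d p (g • p) + 3 * δ + 1 ≤ d p (g ^ 2 • p))
    (hz : Commute z g) :
    ∃ i : ℤ, ∃ f : G, z = g ^ i * f ∧ d p (f • p) ≤ 2 * d p (g • p) + 8 * δ := by
  classical
  have : Nonempty X := ⟨p⟩
  have hδ := hL.delta_nonneg
  have hg0 := hL.nn p (g • p)
  have hlin : ∀ n : ℕ, (n : ℝ) ≤ d p (g ^ n • p) := by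
    intro n
    induction n with
    | zero => simp [hL.self]
    | succ n ih =>
      have := hL.crit_mono h n
      push_cast
      linarith only [hδ, ih, this]
  set ρ : ℝ := d p (z • p) with hρ
  have hρ0 : 0 ≤ ρ := hL.nn _ _
  obtain ⟨n, hn⟩ := exists_nat_gt (4 * ρ + d p (g • p) + 4 * δ)
  have hDn := hlin n
  have hmono : ∀ a b : ℕ, a ≤ b → d p (g ^ a • p) ≤ d p (g ^ b • p) := by
    intro a b hab
    induction b, hab using Nat.le_induction with
    | base => exact le_rfl
    | succ b _ ih =>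
      have := hL.crit_mono h b
      linarith only [hδ, ih, this]
  have hD2n : d p (g ^ n • p) ≤ d p (g ^ (2 * n) • p) := hmono _ _ (by omega)
  have hcomm : ∀ m : ℕ, z * g ^ m = g ^ m * z := fun m => (hz.pow_right m).eq
  set v := z • g ^ n • p with hv
  set C := z • g ^ (2 * n) • p with hC
  set e := g ^ (2 * n) • p with he
  have e1 : d (z • p) C = d p (g ^ (2 * n) • p) := hL.left _ _ _
  have e2 : d (z • p) v = d p (g ^ n • p) := hL.left _ _ _
  have e3 : d v C = d p (g ^ n • p) := by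
    rw [hv, hC, hL.left, he, hL.dpow g p (by (clear * -; omega))]
    congr 3; omega
  have e5 : d e C = ρ := by
    rw [hC, he, ← mul_smul, hcomm, mul_smul, hL.left]
  have t1 : d p v ≤ ρ + d p (g ^ n • p) := by
    have := hL.tri p (z • p) v
    linarith only [e2, this]
  have t2 : d p (g ^ n • p) ≤ ρ + d p v := by
    have := hL.tri (z • p) p v
    rw [hL.comm (z • p) p] at this
    linarith only [e2, this]
  have t3 : d p (g ^ n • p) ≤ ρ + d e v := by
    have := hL.tri C e v
    rw [hL.comm C e, hL.comm C v] at this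
    linarith only [e3, e5, this]
  have t4 : d p e ≤ d p C + ρ := by
    have := hL.tri p C e
    rw [hL.comm C e] at this
    linarith only [e5, this]
  have i1 : d p e + d p v ≤ d p (g ^ n • p) + d p C + 2 * δ := by
    rcases hL.four (z • p) C p v with h1 | h1
    · rw [e1, hL.comm (z • p) p, hL.comm C v, e3] at h1
      linarith only [hg0, hn, hDn, hD2n, t2, h1]
    · rw [e1, e2, hL.comm C p] at h1
      linarith only [h1]
  have i2 : d p C + d e v ≤ d p e + d p (g ^ n • p) + 2 * δ := by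
    rcases hL.four p C e v with h1 | h1
    · rw [hL.comm C v, e3] at h1
      linarith only [h1]
    · rw [hL.comm C e, e5] at h1
      linarith only [hδ, hg0, hn, hDn, hD2n, t1, h1]
  have i3 := hL.crit_add h n n
  rw [← two_mul n] at i3
  have i4 : d p v + d e v ≤ d p e + d p (g • p) + 6 * δ := by linarith only [i1, i2, i3]
  -- a nearby point of the orbit
  set β := d p v with hβ
  have hβ0 : 0 ≤ β := hL.nn _ _
  have hβ2 : β ≤ d p e := by linarith only [hδ, hρ0, hn, hDn, i3, t1]
  obtain ⟨j, hj1, hj2, hj3⟩ : ∃ j : ℕ, j ≤ 2 * n ∧ d p (g ^ j • p) ≤ β ∧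
      β ≤ d p (g ^ j • p) + d p (g • p) := by
    set j := Nat.findGreatest (fun j => d p (g ^ j • p) ≤ β) (2 * n) with hj
    have hjle : j ≤ 2 * n := Nat.findGreatest_le _
    have hP : d p (g ^ j • p) ≤ β := by
      have h0 : d p (g ^ 0 • p) ≤ β := by rw [pow_zero, one_smul, hL.self]; exact hβ0
      exact Nat.findGreatest_spec (P := fun j => d p (g ^ j • p) ≤ β) (Nat.zero_le _) h0
    refine ⟨j, hjle, hP, ?_⟩
    rcases hjle.lt_or_eq with h1 | h1
    · have h2 : ¬ d p (g ^ (j + 1) • p) ≤ β :=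
        Nat.findGreatest_is_greatest (P := fun j => d p (g ^ j • p) ≤ β) (Nat.lt_succ_self j) h1
      push Not at h2
      have h3 : d p (g ^ (j + 1) • p) ≤ d p (g ^ j • p) + d p (g • p) := by
        have := hL.tri p (g ^ j • p) (g ^ (j + 1) • p)
        rw [pow_succ, mul_smul, hL.left] at this
        rw [pow_succ, mul_smul]
        exact this
      linarith only [h2, h3]
    · rw [h1]; (clear * - hδ hg0 hρ0 hn hDn i3 t1; linarith)
  have e8 : d (g ^ j • p) e ≤ d p e - d p (g ^ j • p) + d p (g • p) + 2 * δ := by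
    rw [he, hL.dpow g p hj1]
    have := hL.crit_add h j (2 * n - j)
    rw [Nat.add_sub_cancel' hj1] at this
    linarith only [this]
  have i5 : d v (g ^ j • p) ≤ 2 * d p (g • p) + 8 * δ := by
    rcases hL.four v (g ^ j • p) p e with h1 | h1
    · rw [hL.comm v p] at h1
      linarith only [hδ, hj3, e8, h1]
    · rw [hL.comm v e, hL.comm (g ^ j • p) p] at h1
      linarith only [hg0, i2, i3, i1, hj2, h1]
  refine ⟨(j : ℤ) - n, (g ^ j)⁻¹ * (z * g ^ n), ?_, ?_⟩
  · rw [hcomm, zpow_sub, zpow_natCast, zpow_natCast]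
    have h1 : (g ^ n)⁻¹ * (g ^ j)⁻¹ = (g ^ j)⁻¹ * (g ^ n)⁻¹ := by
      rw [← mul_inv_rev, ← mul_inv_rev, ← pow_add, ← pow_add, add_comm]
    have h2 : g ^ j * (g ^ n)⁻¹ * ((g ^ j)⁻¹ * (g ^ n * z)) =
        g ^ j * ((g ^ n)⁻¹ * (g ^ j)⁻¹) * (g ^ n * z) := by group
    rw [h2, h1]
    group
  · rw [← hL.left (g ^ j), ← mul_smul, mul_inv_cancel_left, mul_smul, hL.comm]
    exact i5

/-- The criterion yields a charged element. -/
theorem charged_of_crit (hac : AcylAct G d) {x : G} {p : X} {k : ℕ} (hk : 0 < k)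
    (h : d p (x ^ k • p) + 3 * δ + 1 ≤ d p (x ^ (2 * k) • p)) : Charged x := by
  classical
  have : Nonempty X := ⟨p⟩
  have hδ := hL.delta_nonneg
  have h' : d p (x ^ k • p) + 3 * δ + 1 ≤ d p ((x ^ k) ^ 2 • p) := by
    rw [← pow_mul, mul_comm k 2]; exact h
  have hlin : ∀ n : ℕ, (n : ℝ) ≤ d p ((x ^ k) ^ n • p) := by
    intro n
    induction n with
    | zero => simp [hL.self]
    | succ n ih =>
      have := hL.crit_mono h' n
      push_cast
      linarith only [hδ, ih, this]
  have hk' : (0 : ℝ) < k := by exact_mod_cast hk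
  obtain ⟨R, N, hRN⟩ := hac (2 * d p (x ^ k • p) + 8 * δ)
  refine charged_of_virtuallyCyclic x (fun g => d p (g • p))
    (fun a b => ?_) (fun a => hL.nn _ _) (1 / k) (by (clear * - hk; positivity)) (fun n => ?_)
    {f | Commute f x ∧ d p (f • p) ≤ 2 * d p (x ^ k • p) + 8 * δ} ?_ (fun z hz => ?_)
  · have h1 := hL.tri p (a • p) ((a * b) • p)
    rw [mul_smul, hL.left] at h1
    rw [mul_smul]
    exact h1
  · have h1 := hlin n
    have h2 := hL.pow_le (x ^ n) p k
    have h3 : (x ^ k) ^ n = (x ^ n) ^ k := by rw [← pow_mul, ← pow_mul, mul_comm]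
    rw [h3] at h1
    rw [one_div_mul_eq_div, div_le_iff₀ hk']
    linarith only [h1, h2]
  · obtain ⟨m, hm⟩ := exists_nat_ge R
    have h1 : R ≤ d p ((x ^ k) ^ m • p) := hm.trans (hlin m)
    refine (hRN _ _ h1).1.subset fun f hf => ⟨hf.2, ?_⟩
    rw [← mul_smul, ((hf.1.pow_right k).pow_right m).eq, mul_smul, hL.left]
    exact hf.2
  · obtain ⟨i, f, hzf, hf⟩ := hL.crit_close h' (hz.pow_right k)
    refine ⟨k * i, f, ⟨?_, hf⟩, ?_⟩
    · have h1 : f = ((x ^ k) ^ i)⁻¹ * z := by rw [hzf]; group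
      rw [h1]
      exact (((Commute.refl x).pow_left k).zpow_left i).inv_left.mul_left hz
    · rw [hzf, zpow_mul, zpow_natCast]

/-- For an acylindrical action on a hyperbolic space, elements with unbounded orbits are
charged. -/
theorem charged_of_unbounded (hac : AcylAct G d) {x : G} {p : X}
    (hx : ∀ B : ℝ, ∃ n : ℕ, B < d p (x ^ n • p)) : Charged x := by
  obtain ⟨w, k, hk, h⟩ := hL.exists_crit hac x p hx
  exact hL.charged_of_crit hac hk h

end HypAct

end Vale.Agent.P184
end
end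

section

section

/-!
# The relative Cayley graph of a relatively hyperbolic group is acylindrical
-/

namespace Vale.Agent.P184

namespace RH

variable {G : Type*} [Group G] {ι : Type*} {X : Set G} {H : ι → Subgroup G} {δ : ℕ}
  (S : RH X H δ)
include S

/-- A geodesic passing near a coset in the middle: either it enters the coset near the middle or
its projection to the coset is almost constant. -/
theorem side {l : ι} {u : G} {v : ℕ → G} {n M r e : ℕ}
    (hv : ∀ i < n, Edge X H (v i) (v (i + 1)))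
    (vd : ∀ i j, i ≤ j → j ≤ n → rdist X H (v i) (v j) = j - i)
    (hr : 2 * δ + 3 + e ≤ r) (hM : r ≤ M) (hn : M + r ≤ n)
    (hc : ∀ a, u⁻¹ * a ∈ H l → rdist X H (v M) a ≤ e) :
    ((∃ i, M - r ≤ i ∧ i < M ∧ u⁻¹ * v i ∈ H l ∧ u⁻¹ * v (i + 1) ∈ H l) ∨
      Near X H l u (6 * δ + 5 + (6 * δ + 8) * r) (v 0) (v M)) ∧
    ((∃ i, M ≤ i ∧ i < M + r ∧ u⁻¹ * v i ∈ H l ∧ u⁻¹ * v (i + 1) ∈ H l) ∨
      Near X H l u (6 * δ + 5 + (6 * δ + 8) * r) (v n) (v M)) := by
  constructor
  · by_cases h : ∃ i, M - r ≤ i ∧ i < M ∧ u⁻¹ * v i ∈ H l ∧ u⁻¹ * v (i + 1) ∈ H l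
    · exact Or.inl h
    · right
      push Not at h
      have h1 : Near X H l u (6 * δ + 5) (v 0) (v (M - r)) := by
        apply S.near_contract
        intro a ha
        have a1 := hc a ha
        have a2 := vd 0 (M - r) (by omega) (by omega)
        have a3 := vd 0 M (by omega) (by (clear * - hr hn; omega))
        have a4 := vd (M - r) M (by omega) (by (clear * - hr hn; omega))
        have a5 := S.tri (v 0) a (v M)
        have a6 := S.tri (v (M - r)) a (v M)
        rw [rdist_symm (v 0) a, rdist_symm a (v M)] at a5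
        rw [rdist_symm (v (M - r)) a, rdist_symm a (v M)] at a6
        omega
      have h2 := S.near_walk (l := l) (u := u) (v := v) (Nat.sub_le M r)
        (fun i _ hi => hv i (by omega)) (fun i hi1 hi2 hc => h i hi1 hi2 hc.1 hc.2)
      rw [show M - (M - r) = r by (clear * - hr hM; omega)] at h2
      exact h1.trans h2
  · by_cases h : ∃ i, M ≤ i ∧ i < M + r ∧ u⁻¹ * v i ∈ H l ∧ u⁻¹ * v (i + 1) ∈ H l
    · exact Or.inl h
    · right
      push Not at h
      have h1 : Near X H l u (6 * δ + 5) (v n) (v (M + r)) := by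
        apply S.near_contract
        intro a ha
        have a1 := hc a ha
        have a2 := vd (M + r) n (by omega) (by omega)
        have a3 := vd M n (by (clear * - hr hn; omega)) (by omega)
        have a4 := vd M (M + r) (by omega) (by omega)
        have a5 := S.tri (v M) a (v n)
        have a6 := S.tri (v M) a (v (M + r))
        rw [rdist_symm (v n) (v (M + r))]
        omega
      have h2 := S.near_walk (l := l) (u := u) (v := v) (Nat.le_add_right M r)
        (fun i _ hi => hv i (by omega)) (fun i hi1 hi2 hc => h i hi1 hi2 hc.1 hc.2)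
      rw [show M + r - M = r by (clear * - hr; omega)] at h2
      exact h1.trans h2.symm

/-- Acylindricity. -/
theorem acyl [Finite ι] (ε : ℕ) : ∃ R N : ℕ, ∀ q : G, R ≤ rdist X H 1 q →
    {g : G | rdist X H 1 g ≤ ε ∧ rdist X H q (g * q) ≤ ε}.Finite ∧
    {g : G | rdist X H 1 g ≤ ε ∧ rdist X H q (g * q) ≤ ε}.ncard ≤ N := by
  classical
  have := Fintype.ofFinite ι
  set e' := ε + δ with he'
  set e := e' + 1 with he
  set r := 2 * δ + 3 + e with hr
  set M := ε + e + 1 + r with hM
  set K := 2 * (6 * δ + 5 + (6 * δ + 8) * r) + (6 * δ + 8) * ε + (6 * δ + 8) * e' with hK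
  have hF : {h : G | rdist X H 1 h ≤ e' ∧ ∀ l u, Near X H l u K 1 h}.Finite := by
    refine S.finite_of_proj e' 1 _ (fun s hs => hs.1) fun l w => ?_
    refine (S.finite_near (l := l) w K 1).subset ?_
    rintro _ ⟨s, hs, rfl⟩
    exact ⟨s, hs.2 l w, rfl⟩
  have hB : (⋃ l, {h | h ∈ H l ∧ Lnk X H l ((6 * δ + 8) * ε) 1 h}).Finite :=
    Set.finite_iUnion fun l => S.finite_lnk _
  set P : Finset (ι × ℕ × ℕ × G) :=
    Finset.univ ×ˢ (Finset.range (2 * r) ×ˢ (Finset.range (2 * r) ×ˢ hB.toFinset)) with hP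
  refine ⟨2 * M, hF.toFinset.card + P.card, fun q hq => ?_⟩
  obtain ⟨v, v0, vn, hv, vd⟩ := S.geo 1 q
  set n := rdist X H 1 q with hn
  set m := v M with hm
  set T : Finset G := hF.toFinset.image (fun f => m * f * m⁻¹) ∪
    P.image (fun z => v (M - r + z.2.1) * (proj X H z.1 (v (M - r + z.2.1))⁻¹ * z.2.2.2 *
      (proj X H z.1 (v (M - r + z.2.2.1))⁻¹)⁻¹) * (v (M - r + z.2.2.1))⁻¹) with hT
  have hsub : {g : G | rdist X H 1 g ≤ ε ∧ rdist X H q (g * q) ≤ ε} ⊆ (T : Set G) := by
    rintro g ⟨hg1, hg2⟩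
    have d1 : rdist X H 1 m = M := by
      have := vd 0 M (by (clear * -; omega)) (by omega)
      rw [v0] at this
      omega
    have d2 : rdist X H m q = n - M := by
      have := vd M n (by omega) le_rfl
      rwa [vn] at this
    -- displacement of `m`
    have d3 : rdist X H m (g * m) ≤ e' := by
      have h1 := S.hyp m (g * m) 1 q
      have h2 := S.tri (g * m) (g * q) q
      have h3 := S.tri (g * m) (g * 1) 1
      rw [rdist_smul, rdist_symm (g * q) q] at h2
      rw [rdist_smul, mul_one, rdist_symm m 1, rdist_symm g 1] at h3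
      rw [rdist_symm m 1] at h1
      rcases le_total (rdist X H 1 m + rdist X H (g * m) q)
        (rdist X H m q + rdist X H (g * m) 1) with h4 | h4
      · rw [max_eq_right h4] at h1; omega
      · rw [max_eq_left h4] at h1; omega
    rw [Finset.mem_coe, hT, Finset.mem_union]
    by_cases hdeep : ∀ l u, Near X H l u K m (g * m)
    · left
      rw [Finset.mem_image]
      refine ⟨m⁻¹ * (g * m), ?_, by group⟩
      rw [Set.Finite.mem_toFinset]
      refine ⟨?_, fun l u => ?_⟩
      · rw [← rdist_smul m, mul_one, mul_inv_cancel_left]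
        exact d3
      · rw [← Near.smul m, mul_one, mul_inv_cancel_left]
        exact hdeep l (m * u)
    · right
      push Not at hdeep
      obtain ⟨l, u, hlu⟩ := hdeep
      have hw : ∃ w, u⁻¹ * w ∈ H l ∧ rdist X H m w + rdist X H w (g * m) ≤ e' := by
        by_contra hcon
        push Not at hcon
        apply hlu
        refine (S.near_far (l := l) (u := u) (p := m) (q := g * m) fun w hw1 _ hw2 => ?_).mono ?_
        · have := hcon w hw2
          omega
        · have : (6 * δ + 8) * rdist X H m (g * m) ≤ (6 * δ + 8) * e' :=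
            Nat.mul_le_mul_left _ d3
          omega
      obtain ⟨w, hwc, hw⟩ := hw
      have c1 : ∀ a, u⁻¹ * a ∈ H l → rdist X H m a ≤ e := by
        intro a ha
        have h1 := coset_dist (X := X) (H := H) hwc ha
        have h2 := S.tri m w a
        omega
      have c2 : ∀ a, u⁻¹ * a ∈ H l → rdist X H (g * m) a ≤ e := by
        intro a ha
        have h1 := coset_dist (X := X) (H := H) hwc ha
        have h2 := S.tri (g * m) w a
        rw [rdist_symm (g * m) w] at h2
        omega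
      have n1 : Near X H l u ((6 * δ + 8) * ε) 1 g := by
        refine (S.near_far (l := l) (u := u) (p := 1) (q := g) fun a ha1 ha2 ha3 => ?_).mono
          (Nat.mul_le_mul_left _ hg1)
        have h1 := c1 a ha3
        have h2 := S.tri 1 a m
        rw [rdist_symm a m] at h2
        omega
      have n2 : Near X H l u ((6 * δ + 8) * ε) q (g * q) := by
        refine (S.near_far (l := l) (u := u) (p := q) (q := g * q) fun a ha1 ha2 ha3 => ?_).mono
          (Nat.mul_le_mul_left _ hg2)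
        have h1 := c1 a ha3
        have h2 := S.tri m a q
        rw [rdist_symm a q] at h2
        omega
      have s1 := S.side (l := l) (u := u) (v := v) (n := n) (M := M) (r := r) (e := e)
        hv vd le_rfl (by (clear * - hg1; omega)) (by omega) c1
      have s2 := S.side (l := l) (u := u) (v := fun i => g * v i) (n := n) (M := M) (r := r)
        (e := e) (fun i hi => (hv i hi).smul g) (fun i j hij hj => by
          rw [rdist_smul]; exact vd i j hij hj) le_rfl (by (clear * - hg1; omega)) (by (clear * - hq hg1 d3; omega)) c2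
      simp only [v0, vn, mul_one] at s1 s2
      have hKl : ∀ {a b : G}, Near X H l u ((6 * δ + 8) * ε) a b →
          Near X H l u (6 * δ + 5 + (6 * δ + 8) * r) a m →
          ¬ Near X H l u (6 * δ + 5 + (6 * δ + 8) * r) b (g * m) := by
        intro a b h1 h2 h3
        apply hlu
        refine ((h2.symm.trans h1).trans h3).mono ?_
        (clear * -; omega)
      have hij : ∃ i j, M - r ≤ i ∧ i < M + r ∧ M - r ≤ j ∧ j < M + r ∧
          u⁻¹ * v i ∈ H l ∧ u⁻¹ * (g * v j) ∈ H l := by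
        rcases s1.1 with ⟨i, i1, i2, i3, i4⟩ | s11
        · rcases s1.2 with ⟨i', j1, j2, j3, j4⟩ | s12
          · exfalso
            have h1 := coset_dist (X := X) (H := H) i3 j4
            have h2 := vd i (i' + 1) (by (clear * - i2 j1; omega)) (by omega)
            (clear * - i2 j1 h1 h2; omega)
          · rcases s2.2 with ⟨j, j1, j2, j3, j4⟩ | s22
            · exact ⟨i, j, i1, by omega, by omega, j2, i3, j3⟩
            · exact absurd s22 (hKl n2 s12)
        · rcases s2.1 with ⟨j, j1, j2, j3, j4⟩ | s21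
          · rcases s1.2 with ⟨i, i1, i2, i3, i4⟩ | s12
            · exact ⟨i, j, by omega, i2, j1, by (clear * - j2 i1 i2; omega), i3, j3⟩
            · rcases s2.2 with ⟨j', k1, k2, k3, k4⟩ | s22
              · exfalso
                have h1 := coset_dist (X := X) (H := H) j3 k4
                rw [rdist_smul] at h1
                have h2 := vd j (j' + 1) (by (clear * - j2 k1; omega)) (by omega)
                (clear * - j2 k1 h1 h2; omega)
              · exact absurd s22 (hKl n2 s12)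
          · exact absurd s21 (hKl n1 s11)
      obtain ⟨i, j, i1, i2, j1, j2, hi, hj⟩ := hij
      rw [Finset.mem_image]
      set h := (v i)⁻¹ * g * v j with hh
      have hhl : h ∈ H l := by
        have := (H l).mul_mem ((H l).inv_mem hi) hj
        have e1 : (u⁻¹ * v i)⁻¹ * (u⁻¹ * (g * v j)) = h := by rw [hh]; group
        rwa [e1] at this
      have n3 : Near X H l (v i) ((6 * δ + 8) * ε) 1 g := n1.coset' hi
      have e2 : (v i)⁻¹ * g = h * (v j)⁻¹ := by rw [hh]; group
      unfold Near at n3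
      rw [mul_one, e2, proj_smul hhl] at n3
      refine ⟨(l, i - (M - r), j - (M - r),
        (proj X H l (v i)⁻¹)⁻¹ * (h * proj X H l (v j)⁻¹)), ?_, ?_⟩
      · rw [hP]
        simp only [Finset.mem_product, Finset.mem_univ, Finset.mem_range, true_and,
          Set.Finite.mem_toFinset, Set.mem_iUnion]
        refine ⟨by omega, by (clear * - j1 j2; omega), l, ?_, n3.inv_mul (proj_mem l _)⟩
        exact (H l).mul_mem ((H l).inv_mem (proj_mem l _)) ((H l).mul_mem hhl (proj_mem l _))
      · simp only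
        rw [show M - r + (i - (M - r)) = i by (clear * - i1; omega), show M - r + (j - (M - r)) = j by (clear * - j1; omega), hh]
        group
  refine ⟨T.finite_toSet.subset hsub, ?_⟩
  calc _ ≤ (T : Set G).ncard := Set.ncard_le_ncard hsub T.finite_toSet
    _ = T.card := Set.ncard_coe_finset T
    _ ≤ _ := (Finset.card_union_le _ _).trans
      (Nat.add_le_add Finset.card_image_le Finset.card_image_le)

end RH

end Vale.Agent.P184
end
end

section

section

/-!
# Elements of infinite order of a relatively hyperbolic group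
-/

namespace Vale.Agent.P184

namespace RH

variable {G : Type*} [Group G] {ι : Type*} {X : Set G} {H : ι → Subgroup G} {δ : ℕ}
  (S : RH X H δ)
include S

theorem hypAct : HypAct G (fun a b : G => (rdist X H a b : ℝ)) ((δ : ℝ) / 2) 1 where
  nn _ _ := Nat.cast_nonneg _
  self a := by simp [rdist_self]
  comm a b := by simp only [rdist_symm a b]
  tri a b c := by exact_mod_cast S.tri a b c
  left g a b := by simp only [smul_eq_mul, rdist_smul]
  geod a b t ht htb := by
    obtain ⟨v, v0, vn, hv, vd⟩ := S.geo a b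
    have h1 : ⌊t⌋₊ ≤ rdist X H a b := by
      have := Nat.floor_le ht
      exact_mod_cast this.trans htb
    refine ⟨v ⌊t⌋₊, ?_, ?_⟩
    · have h2 := vd 0 ⌊t⌋₊ (Nat.zero_le _) h1
      rw [v0, Nat.sub_zero] at h2
      simp only [h2]
      rw [abs_sub_le_iff]
      constructor
      · have := Nat.floor_le ht; linarith only [this]
      · have := Nat.lt_floor_add_one t; linarith only [this]
    · have h2 := vd 0 ⌊t⌋₊ (Nat.zero_le _) h1
      have h3 := vd ⌊t⌋₊ _ h1 le_rfl
      rw [v0] at h2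
      rw [vn] at h3
      have h4 : rdist X H a (v ⌊t⌋₊) + rdist X H (v ⌊t⌋₊) b = rdist X H a b := by (clear * - h1 h2 h3; omega)
      have h5 : ((rdist X H a (v ⌊t⌋₊) + rdist X H (v ⌊t⌋₊) b : ℕ) : ℝ) =
        (rdist X H a b : ℕ) := by rw [h4]
      push_cast at h5
      linarith only [h5]
  four a b c e := by
    have h := S.hyp a b c e
    rcases le_total (rdist X H a c + rdist X H b e) (rdist X H a e + rdist X H b c) with h1 | h1
    · right
      rw [max_eq_right h1] at h
      have : ((rdist X H a b + rdist X H c e : ℕ) : ℝ) ≤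
        ((rdist X H a e + rdist X H b c + δ : ℕ) : ℝ) := by exact_mod_cast h
      push_cast at this
      linarith only [this]
    · left
      rw [max_eq_left h1] at h
      have : ((rdist X H a b + rdist X H c e : ℕ) : ℝ) ≤
        ((rdist X H a c + rdist X H b e + δ : ℕ) : ℝ) := by exact_mod_cast h
      push_cast at this
      linarith only [this]

theorem acylAct [Finite ι] : AcylAct G (fun a b : G => (rdist X H a b : ℝ)) := by
  intro ε
  obtain ⟨R, N, hRN⟩ := S.acyl ⌊ε⌋₊
  refine ⟨R, N, fun a b hab => ?_⟩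
  have h1 : R ≤ rdist X H 1 (a⁻¹ * b) := by
    have h2 : rdist X H 1 (a⁻¹ * b) = rdist X H a b := by
      rw [← rdist_smul a, mul_one, mul_inv_cancel_left]
    rw [h2]
    have hab' : (R : ℝ) ≤ (rdist X H a b : ℝ) := hab
    exact_mod_cast hab'
  obtain ⟨hf, hc⟩ := hRN _ h1
  have hsub : {g : G | (rdist X H a (g • a) : ℝ) ≤ ε ∧ (rdist X H b (g • b) : ℝ) ≤ ε} ⊆
      (fun g => a * g * a⁻¹) '' {g : G | rdist X H 1 g ≤ ⌊ε⌋₊ ∧
        rdist X H (a⁻¹ * b) (g * (a⁻¹ * b)) ≤ ⌊ε⌋₊} := by
    rintro g ⟨hg1, hg2⟩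
    refine ⟨a⁻¹ * g * a, ⟨?_, ?_⟩, by group⟩
    · apply Nat.le_floor
      rw [← rdist_smul a, mul_one, show a * (a⁻¹ * g * a) = g * a by group]
      exact hg1
    · apply Nat.le_floor
      rw [← rdist_smul a, mul_inv_cancel_left,
        show a * (a⁻¹ * g * a * (a⁻¹ * b)) = g * b by group]
      exact hg2
  refine ⟨(hf.image _).subset hsub, ?_⟩
  calc _ ≤ _ := Set.ncard_le_ncard hsub (hf.image _)
    _ ≤ _ := Set.ncard_image_le hf
    _ ≤ N := hc

/-- Elements of infinite order are charged or parabolic. -/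
theorem charged_or_parabolic [Finite ι] {x : G} (hx : ¬ IsOfFinOrder x) :
    Charged x ∨ ∃ (l : ι) (w : G), w⁻¹ * x * w ∈ H l := by
  by_cases h : ∃ D : ℕ, ∀ n : ℕ, rdist X H 1 (x ^ n) ≤ D
  · right
    obtain ⟨D, hD⟩ := h
    refine S.exists_conj_of_bounded hx (D := D) fun k => ?_
    obtain ⟨n, rfl | rfl⟩ := k.eq_nat_or_neg
    · rw [zpow_natCast]; exact hD n
    · rw [zpow_neg, zpow_natCast, ← rdist_smul (x ^ n), mul_one, mul_inv_cancel, rdist_symm]
      exact hD n
  · left
    push Not at h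
    refine S.hypAct.charged_of_unbounded S.acylAct (x := x) (p := 1) fun B => ?_
    obtain ⟨n, hn⟩ := h ⌈B⌉₊
    refine ⟨n, ?_⟩
    have h1 : B ≤ ⌈B⌉₊ := Nat.le_ceil B
    have h2 : ((⌈B⌉₊ : ℕ) : ℝ) < (rdist X H 1 (x ^ n) : ℕ) := by exact_mod_cast hn
    simp only [smul_eq_mul, mul_one]
    linarith only [h1, h2]

end RH

theorem RelHyperbolic.exists_rh {G : Type*} [Group G] {ι : Type*} {H : ι → Subgroup G}
    (h : RelHyperbolic H) : Finite ι ∧ ∃ (X : Set G) (δ : ℕ), RH X H δ := by
  obtain ⟨h1, X, h2, h3, ⟨δ, h4⟩, h5⟩ := h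
  exact ⟨h1, X, δ, ⟨h2, h3, h4, h5⟩⟩

end Vale.Agent.P184
end
end

section

section

noncomputable section
open scoped Topology

namespace Vale.Agent.P184

/-! ### Weighted convolution operators -/

section Weighted

variable {G : Type*} [Group G] {D : Type*} [NormedRing D] [NormedAlgebra ℂ D]
  (u : G → ℝ) (hu : ∀ g h, u (g * h) ≤ u g + u h)

/-- the complex exponential of a real number -/
def ex (t : ℝ) : ℂ := (Real.exp t : ℝ)

theorem ex_norm (t : ℝ) : ‖ex t‖ = Real.exp t := by
  unfold ex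
  rw [Complex.norm_real, Real.norm_eq_abs, abs_of_pos (Real.exp_pos t)]

theorem ex_add (s t : ℝ) : ex (s + t) = ex s * ex t := by
  unfold ex
  rw [Real.exp_add]; push_cast; rfl

theorem ex_zero : ex 0 = 1 := by
  unfold ex; simp

include hu in
theorem pw_bound (g : G) (m : D) (v : L1 G D) (k : G) :
    ‖ex (u k - u (g⁻¹ * k)) • (m * v.co (g⁻¹ * k))‖ ≤
      (Real.exp (u g) * ‖m‖) * ‖v.co (g⁻¹ * k)‖ := by
  rw [norm_smul, ex_norm, mul_assoc]
  refine mul_le_mul ?_ (norm_mul_le _ _) (norm_nonneg _) (Real.exp_pos _).le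
  rw [Real.exp_le_exp]
  have h1 := hu g (g⁻¹ * k)
  rw [mul_inv_cancel_left] at h1
  linarith

include hu in
theorem pw_summable (g : G) (m : D) (v : L1 G D) :
    Summable fun k => ‖ex (u k - u (g⁻¹ * k)) • (m * v.co (g⁻¹ * k))‖ :=
  Summable.of_nonneg_of_le (fun _ => norm_nonneg _) (pw_bound u hu g m v)
    ((CrossedData.summable_shift v g).mul_left _)

/-- weighted convolution operator -/
def pw (g : G) (m : D) : L1 G D →L[ℂ] L1 G D :=
  LinearMap.mkContinuous
    { toFun := fun v => L1.mk (fun k => ex (u k - u (g⁻¹ * k)) • (m * v.co (g⁻¹ * k)))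
        (pw_summable u hu g m v)
      map_add' := fun v w => L1.ext fun k => by
        rw [L1.co_add, L1.co_mk, L1.co_mk, L1.co_mk, L1.co_add, mul_add]
        exact smul_add _ _ _
      map_smul' := fun c v => L1.ext fun k => by
        simp only [L1.co_mk, L1.co_smul, RingHom.id_apply, mul_smul_comm]
        rw [smul_comm] } (Real.exp (u g) * ‖m‖) (fun v => by
      rw [L1.norm_eq, ← CrossedData.tsum_shift v g, ← tsum_mul_left]
      exact Summable.tsum_le_tsum (pw_bound u hu g m v) (pw_summable u hu g m v)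
        ((CrossedData.summable_shift v g).mul_left _))

theorem pw_co (g : G) (m : D) (v : L1 G D) (k : G) :
    (pw u hu g m v).co k = ex (u k - u (g⁻¹ * k)) • (m * v.co (g⁻¹ * k)) := rfl

theorem pw_norm (g : G) (m : D) : ‖pw u hu g m‖ ≤ Real.exp (u g) * ‖m‖ :=
  LinearMap.mkContinuous_norm_le _ (by (clear * -; positivity)) _

theorem pw_mul (g h : G) (m n : D) :
    pw u hu g m * pw u hu h n = pw u hu (g * h) (m * n) := by
  refine CrossedData.op_ext fun v k => ?_
  rw [CrossedData.mul_app, pw_co, pw_co, pw_co, mul_smul_comm, smul_smul, ← ex_add, mul_assoc,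
    mul_inv_rev, mul_assoc]
  congr 2
  ring

/-- linear in the coefficient -/
def pwL (g : G) : D →ₗ[ℂ] (L1 G D →L[ℂ] L1 G D) where
  toFun m := pw u hu g m
  map_add' m n := CrossedData.op_ext fun v k => by
    rw [add_apply, L1.co_add, pw_co, pw_co, pw_co, add_mul, smul_add]
  map_smul' c m := CrossedData.op_ext fun v k => by
    rw [RingHom.id_apply, smul_apply, L1.co_smul, pw_co, pw_co, smul_mul_assoc, smul_comm]

theorem pwL_apply (g : G) (m : D) : pwL u hu g m = pw u hu g m := rfl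

/-- the closed span of the weighted convolution operators -/
def wclos : Submodule ℂ (L1 G D →L[ℂ] L1 G D) :=
  (Submodule.span ℂ (Set.range fun p : G × D => pw u hu p.1 p.2)).topologicalClosure

theorem pw_mem (g : G) (m : D) : pw u hu g m ∈ wclos u hu :=
  Submodule.le_topologicalClosure _ (Submodule.subset_span ⟨(g, m), rfl⟩)

theorem wclos_closed :
    IsClosed ((wclos u hu : Submodule ℂ (L1 G D →L[ℂ] L1 G D)) : Set (L1 G D →L[ℂ] L1 G D)) :=
  Submodule.isClosed_topologicalClosure _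

theorem wclos_induction {P : (L1 G D →L[ℂ] L1 G D) → Prop}
    (hc : IsClosed {a | P a}) (h0 : P 0) (hp : ∀ g m, P (pw u hu g m))
    (ha : ∀ a b, P a → P b → P (a + b)) (hs : ∀ (c : ℂ) a, P a → P (c • a))
    {a : L1 G D →L[ℂ] L1 G D} (h : a ∈ wclos u hu) : P a := by
  have h1 : ((Submodule.span ℂ (Set.range fun p : G × D => pw u hu p.1 p.2)) : Set _) ⊆
      {a | P a} := by
    intro b hb
    refine Submodule.span_induction (p := fun x _ => P x) ?_ h0 (fun x y _ _ => ha x y)
      (fun c x _ => hs c x) hb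
    rintro _ ⟨⟨g, m⟩, rfl⟩
    exact hp g m
  exact closure_minimal h1 hc h

theorem mul_mem_wclos {a b : L1 G D →L[ℂ] L1 G D}
    (ha : a ∈ wclos u hu) (hb : b ∈ wclos u hu) : a * b ∈ wclos u hu := by
  refine wclos_induction u hu (P := fun a => a * b ∈ wclos u hu) ?_ ?_ ?_ ?_ ?_ ha
  · exact (wclos_closed u hu).preimage (continuous_mul_const b)
  · rw [zero_mul]; exact Submodule.zero_mem _
  · intro g m
    refine wclos_induction u hu (P := fun b => pw u hu g m * b ∈ wclos u hu) ?_ ?_ ?_ ?_ ?_ hb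
    · exact (wclos_closed u hu).preimage (continuous_const_mul _)
    · rw [mul_zero]; exact Submodule.zero_mem _
    · intro h n
      rw [pw_mul]; exact pw_mem u hu _ _
    · intro x y hx hy
      rw [mul_add]; exact Submodule.add_mem _ hx hy
    · intro c x hx
      rw [mul_smul_comm]; exact Submodule.smul_mem _ c hx
  · intro x y hx hy
    rw [add_mul]; exact Submodule.add_mem _ hx hy
  · intro c x hx
    rw [smul_mul_assoc]; exact Submodule.smul_mem _ c hx

/-- the coefficients of an operator -/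
def cf (a : L1 G D →L[ℂ] L1 G D) (k : G) : D := ex (u 1 - u k) • (a CrossedData.del).co k

open Classical in
theorem cf_pw (g : G) (m : D) (k : G) : cf u (pw u hu g m) k = if k = g then m else 0 := by
  unfold cf
  rw [pw_co]
  by_cases h : k = g
  · rw [if_pos h, h, inv_mul_cancel, CrossedData.del_one, mul_one, smul_smul, ← ex_add]
    have : u 1 - u g + (u g - u 1) = 0 := by ring
    rw [this, ex_zero, one_smul]
  · have h1 : g⁻¹ * k ≠ 1 := fun h2 => h (by rw [inv_mul_eq_one] at h2; exact h2.symm)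
    rw [if_neg h, CrossedData.del_ne h1, mul_zero, smul_zero, smul_zero]

theorem cf_add (a b : L1 G D →L[ℂ] L1 G D) (k : G) : cf u (a + b) k = cf u a k + cf u b k := by
  unfold cf
  rw [add_apply, L1.co_add, smul_add]

theorem cf_smul (c : ℂ) (a : L1 G D →L[ℂ] L1 G D) (k : G) : cf u (c • a) k = c • cf u a k := by
  unfold cf
  rw [smul_apply, L1.co_smul, smul_comm]

theorem cf_zero (k : G) : cf u (0 : L1 G D →L[ℂ] L1 G D) k = 0 := by
  have := cf_smul u (0 : ℂ) (0 : L1 G D →L[ℂ] L1 G D) k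
  rwa [zero_smul, zero_smul] at this

theorem cf_norm (a : L1 G D →L[ℂ] L1 G D) (k : G) :
    ‖cf u a k‖ * Real.exp (u k) = Real.exp (u 1) * ‖(a CrossedData.del).co k‖ := by
  unfold cf
  rw [norm_smul, ex_norm, mul_right_comm, ← Real.exp_add]
  congr 2
  ring

include hu in
theorem term_bound (w v : L1 G D) (k h : G) :
    ‖ex (u k - u (h⁻¹ * k) + (u 1 - u h)) • (w.co h * v.co (h⁻¹ * k))‖ ≤
      (Real.exp (u 1) * ‖v‖) * ‖w.co h‖ := by
  rw [norm_smul, ex_norm]
  have h1 := hu h (h⁻¹ * k)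
  rw [mul_inv_cancel_left] at h1
  have h2 : Real.exp (u k - u (h⁻¹ * k) + (u 1 - u h)) ≤ Real.exp (u 1) := by
    rw [Real.exp_le_exp]; linarith
  have h3 : ‖v.co (h⁻¹ * k)‖ ≤ ‖v‖ := by
    rw [L1.norm_eq]
    exact v.summable_norm.le_tsum _ fun _ _ => norm_nonneg _
  calc _ ≤ Real.exp (u 1) * (‖w.co h‖ * ‖v‖) := by
        refine mul_le_mul h2 ((norm_mul_le _ _).trans ?_) (norm_nonneg _) (Real.exp_pos _).le
        exact mul_le_mul_of_nonneg_left h3 (norm_nonneg _)
    _ = _ := by ring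

include hu in
theorem term_summable [CompleteSpace D] (w v : L1 G D) (k : G) : Summable fun h =>
    ex (u k - u (h⁻¹ * k) + (u 1 - u h)) • (w.co h * v.co (h⁻¹ * k)) :=
  Summable.of_norm_bounded (w.summable_norm.mul_left _) (term_bound u hu w v k)

/-- evaluation of the convolution as a continuous map of the left factor -/
def evL [CompleteSpace D] (v : L1 G D) (k : G) : L1 G D →L[ℂ] D :=
  LinearMap.mkContinuous
    { toFun := fun w => ∑' h, ex (u k - u (h⁻¹ * k) + (u 1 - u h)) • (w.co h * v.co (h⁻¹ * k))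
      map_add' := fun w w' => by
        rw [← (term_summable u hu w v k).tsum_add (term_summable u hu w' v k)]
        refine tsum_congr fun h => ?_
        rw [L1.co_add, add_mul, smul_add]
      map_smul' := fun c w => by
        rw [RingHom.id_apply, ← tsum_const_smul'']
        refine tsum_congr fun h => ?_
        rw [L1.co_smul, smul_mul_assoc, smul_comm] } (Real.exp (u 1) * ‖v‖) (fun w => by
      change ‖∑' h, ex (u k - u (h⁻¹ * k) + (u 1 - u h)) • (w.co h * v.co (h⁻¹ * k))‖ ≤ _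
      conv_rhs => rw [L1.norm_eq w, ← tsum_mul_left]
      exact tsum_of_norm_bounded (w.summable_norm.mul_left _).hasSum (term_bound u hu w v k))

theorem evL_apply [CompleteSpace D] (v w : L1 G D) (k : G) : evL u hu v k w =
    ∑' h, ex (u k - u (h⁻¹ * k) + (u 1 - u h)) • (w.co h * v.co (h⁻¹ * k)) := rfl

theorem apply_co [CompleteSpace D] {a : L1 G D →L[ℂ] L1 G D} (ha : a ∈ wclos u hu) (v : L1 G D)
    (k : G) : (a v).co k = evL u hu v k (a CrossedData.del) := by
  refine wclos_induction u hu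
    (P := fun a => (a v).co k = evL u hu v k (a CrossedData.del)) ?_ ?_ ?_ ?_ ?_ ha
  · refine isClosed_eq ?_ ?_
    · exact (L1.coL k).continuous.comp (ContinuousLinearMap.apply ℂ (L1 G D) v).continuous
    · exact (evL u hu v k).continuous.comp
        (ContinuousLinearMap.apply ℂ (L1 G D) (CrossedData.del : L1 G D)).continuous
  · rw [zero_apply, zero_apply, map_zero]; rfl
  · intro g m
    rw [evL_apply, tsum_eq_single g]
    · have h1 := cf_pw u hu g m g
      rw [if_pos rfl] at h1
      unfold cf at h1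
      rw [pw_co, ex_add, ← smul_smul]
      congr 1
      rw [← smul_mul_assoc, h1]
    · intro h hh
      have h1 := cf_pw u hu g m h
      rw [if_neg hh] at h1
      unfold cf at h1
      rw [ex_add, ← smul_smul, ← smul_mul_assoc, h1, zero_mul, smul_zero]
  · intro a b h1 h2
    rw [add_apply, add_apply, L1.co_add, map_add, h1, h2]
  · intro c a h1
    rw [smul_apply, smul_apply, L1.co_smul, map_smul, h1]

theorem cf_mul [CompleteSpace D] {a : L1 G D →L[ℂ] L1 G D} (ha : a ∈ wclos u hu)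
    (b : L1 G D →L[ℂ] L1 G D) (k : G) :
    cf u (a * b) k = ∑' h, cf u a h * cf u b (h⁻¹ * k) := by
  have h1 : cf u (a * b) k = ex (u 1 - u k) • (a (b CrossedData.del)).co k := rfl
  rw [h1, apply_co u hu ha, evL_apply, ← tsum_const_smul'']
  refine tsum_congr fun h => ?_
  unfold cf
  rw [smul_smul, smul_mul_smul_comm, ← ex_add, ← ex_add]
  congr 2
  ring

end Weighted

section Trunc

variable {G : Type*} [Group G] {D : Type*} [NormedRing D] [NormedAlgebra ℂ D] [CompleteSpace D]

/-- Truncation of an idempotent function to a finite set. -/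
theorem exists_trunc (E : G → D) (hEs : Summable fun g => ‖E g‖)
    (hEc : ∀ k, ∑' h, E h * E (h⁻¹ * k) = E k) (δ : ℝ) (hδ : 0 < δ) :
    ∃ (S0 : Finset G) (aF : G → D), (∀ g ∉ S0, aF g = 0) ∧ (Summable fun g => ‖aF g‖) ∧
      (∑' g, ‖aF g - E g‖ < δ) ∧ (∑ g ∈ S0, ‖aF g‖ ≤ ∑' g, ‖E g‖) ∧
      ∀ S : Finset G, ∑ z ∈ S, ‖(∑ x ∈ S0, aF x * aF (x⁻¹ * z)) - aF z‖ ≤
        (2 * (∑' g, ‖E g‖) + 1) * δ := by
  classical
  set N := ∑' g, ‖E g‖ with hN
  have hN0 : 0 ≤ N := tsum_nonneg fun _ => norm_nonneg _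
  obtain ⟨S0, hS0⟩ : ∃ S0 : Finset G, N - δ < ∑ g ∈ S0, ‖E g‖ := by
    have h1 := hEs.hasSum.eventually (lt_mem_nhds (show N - δ < ∑' g, ‖E g‖ by linarith only [hδ]))
    obtain ⟨S0, hS0⟩ := Filter.eventually_atTop.mp h1
    exact ⟨S0, hS0 S0 le_rfl⟩
  set aF : G → D := fun g => if g ∈ S0 then E g else 0 with haF
  have haF_le : ∀ g, ‖aF g‖ ≤ ‖E g‖ := by
    intro g
    simp only [haF]
    split_ifs
    · exact le_rfl
    · rw [norm_zero]; exact norm_nonneg _
  have haFs : Summable fun g => ‖aF g‖ :=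
    Summable.of_nonneg_of_le (fun _ => norm_nonneg _) haF_le hEs
  set ve : L1 G D := L1.mk E hEs with hve
  set va : L1 G D := L1.mk aF haFs with hva
  have hdiff0 : ∑' g, ‖aF g - E g‖ < δ := by
    have h1 : ∀ g, ‖aF g - E g‖ = ‖E g‖ - ‖aF g‖ := by
      intro g
      simp only [haF]
      split_ifs
      · simp only [sub_self, norm_zero]
      · simp
    simp only [h1]
    rw [hEs.tsum_sub haFs, tsum_eq_sum (s := S0) (f := fun g => ‖aF g‖)]
    · have h2 : ∑ g ∈ S0, ‖aF g‖ = ∑ g ∈ S0, ‖E g‖ :=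
        Finset.sum_congr rfl fun g hg => by simp [haF, hg]
      rw [h2]; linarith only [hS0]
    · intro g hg
      simp only [haF, hg, ↓reduceIte, norm_zero]
  have hdiff : ‖va - ve‖ < δ := by
    rw [L1.norm_eq]
    exact hdiff0
  have hve_norm : ‖ve‖ = N := by rw [L1.norm_eq]; rfl
  have hva_norm : ‖va‖ ≤ N := by
    rw [L1.norm_eq]
    exact haFs.tsum_le_tsum haF_le hEs
  let A0 : CrossedData G D :=
    trivData (0 : D →L[ℂ] ℂ) (fun _ _ => rfl) (fun _ => False) (fun _ _ h => h)
  have hA0 : ∀ g a, A0.act g a = a := fun g a => rfl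
  set opa := theta A0 (MonoidHom.id G) va with hopa
  set ope := theta A0 (MonoidHom.id G) ve with hope
  have hope_ve : ope ve = ve := L1.ext fun z => by
    rw [hope, theta_co A0 hA0]
    exact hEc z
  have hdefect : ‖opa va - va‖ ≤ (2 * N + 1) * δ := by
    have h1 : opa va - va = (opa - ope) va + ope (va - ve) - (va - ve) := by
      rw [map_sub, hope_ve, sub_apply]
      abel
    have h2 : ‖(opa - ope) va‖ ≤ δ * N := by
      have h3 : opa - ope = theta A0 (MonoidHom.id G) (va - ve) := by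
        rw [hopa, hope, map_sub]
      refine ((opa - ope).le_opNorm va).trans ?_
      refine mul_le_mul ?_ hva_norm (norm_nonneg _) hδ.le
      rw [h3]
      exact (theta_norm A0 _ _).trans hdiff.le
    have h4 : ‖ope (va - ve)‖ ≤ N * δ := by
      refine (ope.le_opNorm _).trans ?_
      refine mul_le_mul ?_ hdiff.le (norm_nonneg _) hN0
      rw [← hve_norm]
      exact theta_norm A0 _ _
    rw [h1]
    refine (norm_sub_le _ _).trans ?_
    have h5 := norm_add_le ((opa - ope) va) (ope (va - ve))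
    linarith only [hdiff, h2, h4, h5]
  refine ⟨S0, aF, fun g hg => by simp [haF, hg], haFs, hdiff0, ?_, fun S => ?_⟩
  · refine (Finset.sum_le_sum fun g _ => haF_le g).trans ?_
    exact hEs.sum_le_tsum S0 fun _ _ => norm_nonneg _
  · refine le_trans ?_ hdefect
    have h1 := sum_norm_le (opa va - va) S
    refine le_trans (le_of_eq ?_) h1
    refine Finset.sum_congr rfl fun z _ => ?_
    congr 1
    have h2 : (opa va - va).co z = (opa va).co z - va.co z := rfl
    rw [h2, hopa, theta_co A0 hA0, tsum_eq_sum (s := S0)]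
    · rfl
    · intro x hx
      change aF x * aF (x⁻¹ * z) = 0
      simp [haF, hx]

end Trunc

section Mat

attribute [local instance] Matrix.linftyOpNormedRing Matrix.linftyOpNormedAlgebra

/-- Close idempotents have the same traces. -/
theorem tau_eq_of_close {G : Type*} [Group G] {q : ℕ} {e f : Matrix (Fin q) (Fin q) (G → ℂ)}
    (he : IsIdem e) (hf : IsIdem f) (h : ∑' g, ‖toFn e g - toFn f g‖ < 1) (C : ConjClasses G) :
    tau C e = tau C f := by
  classical
  have hP : ∀ g h : G, ConjClasses.mk (g * h) = C → ConjClasses.mk (h * g) = C := by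
    intro g h hgh
    rw [← hgh, ConjClasses.mk_eq_mk_iff_isConj]
    exact isConj_iff.2 ⟨g, by group⟩
  let A : CrossedData G (Matrix (Fin q) (Fin q) ℂ) :=
    trivData (mtr q) (mtr_comm q) (fun g => ConjClasses.mk g = C) hP
  have hA : ∀ g a, A.act g a = a := fun g a => rfl
  set ve := L1.mk (toFn e) (toFn_summable he) with hve
  set vf := L1.mk (toFn f) (toFn_summable hf) with hvf
  have hclose : ‖theta A (MonoidHom.id G) ve - theta A (MonoidHom.id G) vf‖ < 1 := by
    rw [← map_sub]
    refine (theta_norm A _ _).trans_lt ?_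
    rw [L1.norm_eq]
    exact h
  have key := trace_eq_of_close (T := A.tr) A.one_mem_clos A.mul_mem_clos A.tr_comm
    (theta_idem A hA ve (toFn_conv he)) (theta_idem A hA vf (toFn_conv hf))
    (theta_mem A _ ve) (theta_mem A _ vf) hclose
  rw [tr_theta, tr_theta] at key
  have h1 : ∀ {d : Matrix (Fin q) (Fin q) (G → ℂ)} (hd : IsIdem d),
      ∑' h, A.fn ((MonoidHom.id G) h) ((L1.mk (toFn d) (toFn_summable hd)).co h) = tau C d := by
    intro d hd
    unfold tau
    have hset : C.carrier = {g | ConjClasses.mk g = C} := by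
      ext g
      exact ConjClasses.mem_carrier_iff_mk_eq
    rw [hset, tsum_subtype {g | ConjClasses.mk g = C} (fun g => ∑ i, d i i g)]
    refine tsum_congr fun g => ?_
    by_cases hg : ConjClasses.mk g = C
    · rw [Set.indicator_of_mem (by exact hg)]
      exact trivData_fn_pos (mtr q) (mtr_comm q) (fun g => ConjClasses.mk g = C) hP
        (g := g) hg _
    · rw [Set.indicator_of_notMem (by exact hg)]
      exact trivData_fn_neg (mtr q) (mtr_comm q) (fun g => ConjClasses.mk g = C) hP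
        (g := g) hg _
  rw [h1 he, h1 hf] at key
  exact key

/-- Every idempotent matrix over `ℓ¹(G)` can be replaced, without changing traces, by one with
exponential decay. -/
theorem exists_decay {G : Type*} [Group G] (L : G → ℝ) (hL0 : ∀ g, 0 ≤ L g)
    (hL : ∀ g h, L (g * h) ≤ L g + L h) {q : ℕ} (e : Matrix (Fin q) (Fin q) (G → ℂ))
    (he : IsIdem e) : ∃ ε : ℝ, 0 < ε ∧ ∃ f : Matrix (Fin q) (Fin q) (G → ℂ), IsIdem f ∧
      (Summable fun g => ‖toFn f g‖ * Real.exp (ε * L g)) ∧ ∀ C, tau C f = tau C e := by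
  classical
  rcases Nat.eq_zero_or_pos q with hq | hq
  · subst hq
    refine ⟨1, one_pos, e, he, ?_, fun C => rfl⟩
    have h1 : ∀ g, ‖toFn e g‖ * Real.exp (1 * L g) = 0 := by
      intro g
      have : toFn e g = 0 := Subsingleton.elim _ _
      rw [this, norm_zero, zero_mul]
    simp only [h1]
    exact summable_zero
  have hne : Nonempty (Fin q) := ⟨⟨0, hq⟩⟩
  set N := ∑' g, ‖toFn e g‖ with hN
  have hN0 : 0 ≤ N := tsum_nonneg fun _ => norm_nonneg _
  set K := (4 * N + 1) * (2 * N + 1) with hK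
  have hK1 : 1 ≤ K := by rw [hK]; linarith only [mul_nonneg (sub_nonneg.2 hN0) (sub_nonneg.2 hN0), hN0]
  set δ : ℝ := 1 / (64 * K) with hδ
  have hδ0 : 0 < δ := by (clear * -; positivity)
  have hδK : K * δ = 1 / 64 := by rw [hδ]; (clear * - hK1; field_simp)
  have hδ1 : (2 * N + 1) * δ ≤ 1 / 64 := by
    rw [← hδK]
    refine mul_le_mul_of_nonneg_right ?_ hδ0.le
    rw [hK]; (by_contra nlg; linarith only [mul_nonneg (sub_nonneg.2 hN0) (sub_nonneg.2 hK1), mul_nonneg (le_of_lt (sub_pos.2 (not_le.1 nlg))) (sub_nonneg.2 hK1), mul_pos (sub_pos.2 (not_le.1 nlg)) (sub_pos.2 (not_le.1 nlg)), mul_nonneg (mul_self_nonneg (1 : ℝ)) (sub_nonneg.2 hN0), mul_nonneg (mul_self_nonneg (1 : ℝ)) (le_of_lt (sub_pos.2 (not_le.1 nlg)))])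
  have hδ2 : δ ≤ 1 / 64 := by
    rw [← hδK]; linarith only [mul_nonneg (sub_nonneg.2 hK1) (le_of_lt (sub_pos.2 hδ0))]
  obtain ⟨S0, aF, hoff, haFs, hnear, hnorm, hdef⟩ :=
    exists_trunc (toFn e) (toFn_summable he) (toFn_conv he) δ hδ0
  rw [← hN] at hnorm
  let S : Finset G := insert 1 (S0 ∪ (S0 ×ˢ S0).image (fun p => p.1 * p.2))
  have h1S : (1 : G) ∈ S := Finset.mem_insert_self _ _
  have hS0S : ∀ x ∈ S0, x ∈ S := fun x hx =>
    Finset.mem_insert_of_mem (Finset.mem_union_left _ hx)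
  have hSS : ∀ x ∈ S0, ∀ y ∈ S0, x * y ∈ S := fun x hx y hy =>
    Finset.mem_insert_of_mem (Finset.mem_union_right _
      (Finset.mem_image.mpr ⟨(x, y), Finset.mem_product.mpr ⟨hx, hy⟩, rfl⟩))
  set M := 1 + ∑ z ∈ S, L z with hM
  have hM0 : 0 < M := by
    have : 0 ≤ ∑ z ∈ S, L z := Finset.sum_nonneg fun z _ => hL0 z
    rw [hM]; linarith only [this]
  have hLM : ∀ z ∈ S, L z ≤ M := by
    intro z hz
    have h1 := Finset.single_le_sum (f := L) (fun z _ => hL0 z) hz
    rw [hM]; linarith only [h1]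
  set ε := Real.log 2 / M with hε
  have hε0 : 0 < ε := div_pos (Real.log_pos (by norm_num)) hM0
  set u : G → ℝ := fun g => ε * L g with hu_def
  have hu : ∀ g h, u (g * h) ≤ u g + u h := by
    intro g h
    simp only [hu_def]
    rw [← mul_add]
    exact mul_le_mul_of_nonneg_left (hL g h) hε0.le
  have hu0 : ∀ g, 0 ≤ u g := fun g => mul_nonneg hε0.le (hL0 g)
  have hu2 : ∀ z ∈ S, Real.exp (u z) ≤ 2 := by
    intro z hz
    have h1 : u z ≤ Real.log 2 := by
      simp only [hu_def]
      calc ε * L z ≤ ε * M := mul_le_mul_of_nonneg_left (hLM z hz) hε0.le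
        _ = Real.log 2 := by rw [hε]; (clear * - hM0; field_simp)
    calc Real.exp (u z) ≤ Real.exp (Real.log 2) := Real.exp_le_exp.mpr h1
      _ = 2 := Real.exp_log (by norm_num)
  set pt := ∑ x ∈ S0, pw u hu x (aF x) with hpt
  have hpt_mem : pt ∈ wclos u hu := Submodule.sum_mem _ fun x _ => pw_mem u hu _ _
  have hpt_norm : ‖pt‖ ≤ 2 * N := by
    refine (norm_sum_le _ _).trans ?_
    have h1 : ∑ x ∈ S0, ‖pw u hu x (aF x)‖ ≤ ∑ x ∈ S0, 2 * ‖aF x‖ := by
      refine Finset.sum_le_sum fun x hx => (pw_norm u hu x (aF x)).trans ?_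
      exact mul_le_mul_of_nonneg_right (hu2 x (hS0S x hx)) (norm_nonneg _)
    refine h1.trans ?_
    rw [← Finset.mul_sum]
    linarith only [hnorm]
  set dz : G → Matrix (Fin q) (Fin q) ℂ := fun z =>
    (∑ x ∈ S0, aF x * aF (x⁻¹ * z)) - aF z with hdz
  have hpt_def : pt * pt - pt = ∑ z ∈ S, pw u hu z (dz z) := by
    have h1 : pt * pt = ∑ z ∈ S, pw u hu z (∑ x ∈ S0, aF x * aF (x⁻¹ * z)) := by
      have h2 : ∀ z, pw u hu z (∑ x ∈ S0, aF x * aF (x⁻¹ * z)) =
          ∑ x ∈ S0, pw u hu z (aF x * aF (x⁻¹ * z)) := fun z => by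
        have := map_sum (pwL u hu z) (fun x => aF x * aF (x⁻¹ * z)) S0
        exact this
      simp only [h2]
      rw [Finset.sum_comm, hpt, Finset.sum_mul]
      refine Finset.sum_congr rfl fun x hx => ?_
      rw [Finset.mul_sum]
      have h3 : ∑ y ∈ S0, pw u hu x (aF x) * pw u hu y (aF y) =
          ∑ y ∈ S0, pw u hu (x * y) (aF x * aF (x⁻¹ * (x * y))) := by
        refine Finset.sum_congr rfl fun y hy => ?_
        rw [pw_mul, inv_mul_cancel_left]
      rw [h3]
      have h4 : ∑ y ∈ S0, pw u hu (x * y) (aF x * aF (x⁻¹ * (x * y))) =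
          ∑ z ∈ S0.image (fun y => x * y), pw u hu z (aF x * aF (x⁻¹ * z)) := by
        rw [Finset.sum_image]
        intro y _ y' _ h
        exact mul_left_cancel h
      rw [h4]
      refine Finset.sum_subset ?_ ?_
      · intro z hz
        obtain ⟨y, hy, rfl⟩ := Finset.mem_image.mp hz
        exact hSS x hx y hy
      · intro z _ hz
        have h5 : x⁻¹ * z ∉ S0 := fun h => hz (Finset.mem_image.mpr ⟨x⁻¹ * z, h, by group⟩)
        rw [hoff _ h5, mul_zero]
        exact (pwL u hu z).map_zero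
    have h7 : pt = ∑ z ∈ S, pw u hu z (aF z) := by
      rw [hpt]
      refine Finset.sum_subset (fun x hx => hS0S x hx) ?_
      intro z _ hz
      rw [hoff _ hz]
      exact (pwL u hu z).map_zero
    rw [h1]
    conv_lhs => rw [h7]
    rw [← Finset.sum_sub_distrib]
    refine Finset.sum_congr rfl fun z _ => ?_
    exact ((pwL u hu z).map_sub _ _).symm
  have hpt_small : ‖pt * pt - pt‖ ≤ 2 * ((2 * N + 1) * δ) := by
    rw [hpt_def]
    refine (norm_sum_le _ _).trans ?_
    have h1 : ∑ z ∈ S, ‖pw u hu z (dz z)‖ ≤ ∑ z ∈ S, 2 * ‖dz z‖ := by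
      refine Finset.sum_le_sum fun z hz => (pw_norm u hu z (dz z)).trans ?_
      exact mul_le_mul_of_nonneg_right (hu2 z hz) (norm_nonneg _)
    refine h1.trans ?_
    rw [← Finset.mul_sum]
    have := hdef S
    linarith only [this]
  have hnt : Nontrivial (L1 G (Matrix (Fin q) (Fin q) ℂ)) := by
    refine ⟨⟨CrossedData.del, 0, fun h => ?_⟩⟩
    have h1 : (CrossedData.del : L1 G (Matrix (Fin q) (Fin q) ℂ)).co 1 = 0 := by rw [h]; rfl
    rw [CrossedData.del_one] at h1
    exact one_ne_zero h1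
  obtain ⟨ft, hft_mem, hft_idem, hft_near⟩ := exists_idempotent_near
    (R := L1 G (Matrix (Fin q) (Fin q) ℂ) →L[ℂ] L1 G (Matrix (Fin q) (Fin q) ℂ))
    (S := ((wclos u hu : Submodule ℂ (L1 G (Matrix (Fin q) (Fin q) ℂ) →L[ℂ]
      L1 G (Matrix (Fin q) (Fin q) ℂ))) : Set _)) (wclos_closed u hu)
    (fun a ha b hb => mul_mem_wclos u hu ha hb)
    (fun a ha b hb => Submodule.add_mem _ ha hb)
    (fun a ha => Submodule.neg_mem _ ha) pt hpt_mem (hpt_small.trans (by linarith only [hδ1]))
  have hft_near' : ‖ft - pt‖ ≤ 1 / 8 := by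
    refine hft_near.trans ?_
    have h1 : 0 ≤ ‖pt‖ := norm_nonneg _
    have h2 : 0 ≤ ‖pt * pt - pt‖ := norm_nonneg _
    calc 3 * (2 * ‖pt‖ + 1) * ‖pt * pt - pt‖
        ≤ 3 * (4 * N + 1) * (2 * ((2 * N + 1) * δ)) := by
          refine mul_le_mul ?_ hpt_small h2 (by (clear * -; (clear * -; positivity)))
          linarith only [hpt_norm]
      _ = 6 * (K * δ) := by rw [hK]; ring
      _ ≤ 1 / 8 := by rw [hδK]; norm_num
  set c : G → Matrix (Fin q) (Fin q) ℂ := fun k => cf u ft k with hc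
  have hcs1 : Summable fun k => ‖c k‖ * Real.exp (u k) := by
    have h1 : ∀ k, ‖c k‖ * Real.exp (u k) = Real.exp (u 1) * ‖(ft CrossedData.del).co k‖ :=
      fun k => cf_norm u ft k
    simp only [h1]
    exact (ft CrossedData.del).summable_norm.mul_left _
  have hexp1 : ∀ k, 1 ≤ Real.exp (u k) := fun k => Real.one_le_exp (hu0 k)
  have hcs : Summable fun k => ‖c k‖ := by
    refine Summable.of_nonneg_of_le (fun _ => norm_nonneg _) (fun k => ?_) hcs1
    exact le_mul_of_one_le_right (norm_nonneg _) (hexp1 k)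
  have hcc : ∀ k, ∑' h, c h * c (h⁻¹ * k) = c k := by
    intro k
    have := cf_mul u hu hft_mem ft k
    rw [hft_idem] at this
    exact this.symm
  have hcpt : ∀ k, cf u pt k = aF k := by
    intro k
    have h1 : ∀ T : Finset G, cf u (∑ x ∈ T, pw u hu x (aF x)) k =
        ∑ x ∈ T, if k = x then aF x else 0 := by
      intro T
      induction T using Finset.induction_on with
      | empty => rw [Finset.sum_empty, Finset.sum_empty, cf_zero]
      | insert a T ha ih =>
        rw [Finset.sum_insert ha, Finset.sum_insert ha, cf_add, ih, cf_pw]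
    rw [hpt, h1, Finset.sum_ite_eq]
    split_ifs with h2
    · rfl
    · exact (hoff k h2).symm
  have hsub : ∀ k, ‖c k - aF k‖ ≤ 2 * ‖((ft - pt) CrossedData.del).co k‖ := by
    intro k
    have h1 : c k - aF k = cf u (ft - pt) k := by
      rw [sub_eq_add_neg ft pt, cf_add]
      have h2 : -pt = (-1 : ℂ) • pt := by rw [neg_one_smul]
      rw [h2, cf_smul, hcpt, neg_one_smul, sub_eq_add_neg]
    rw [h1]
    have h3 := cf_norm u (ft - pt) k
    have h4 : ‖cf u (ft - pt) k‖ ≤ ‖cf u (ft - pt) k‖ * Real.exp (u k) :=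
      le_mul_of_one_le_right (norm_nonneg _) (hexp1 k)
    refine h4.trans (h3.le.trans ?_)
    exact mul_le_mul_of_nonneg_right (hu2 1 h1S) (norm_nonneg _)
  have hdel : ‖(CrossedData.del : L1 G (Matrix (Fin q) (Fin q) ℂ))‖ = 1 := by
    rw [L1.norm_eq, tsum_eq_single (1 : G)]
    · rw [CrossedData.del_one, norm_one]
    · intro k hk
      rw [CrossedData.del_ne hk, norm_zero]
  have hsum1 : Summable fun k => ‖c k - aF k‖ :=
    Summable.of_nonneg_of_le (fun _ => norm_nonneg _) hsub
      (((ft - pt) CrossedData.del).summable_norm.mul_left 2)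
  have hclose1 : ∑' k, ‖c k - aF k‖ ≤ 1 / 4 := by
    refine (hsum1.tsum_le_tsum hsub
      (((ft - pt) CrossedData.del).summable_norm.mul_left 2)).trans ?_
    rw [tsum_mul_left, ← L1.norm_eq]
    have := (ft - pt).le_opNorm (CrossedData.del : L1 G (Matrix (Fin q) (Fin q) ℂ))
    rw [hdel, mul_one] at this
    linarith only [this, hft_near']
  have hidem : IsIdem (Matrix.of fun i j => fun g => c g i j) := isIdem_of_conv hcs hcc
  have htoFn : toFn (Matrix.of fun i j => fun g => c g i j) = c := by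
    funext g
    ext i j
    rfl
  refine ⟨ε, hε0, Matrix.of fun i j => fun g => c g i j, hidem, ?_, fun C => ?_⟩
  · rw [htoFn]
    exact hcs1
  · refine tau_eq_of_close hidem he ?_ C
    rw [htoFn]
    have hsum2 : Summable fun k => ‖aF k - toFn e k‖ := by
      refine Summable.of_nonneg_of_le (fun _ => norm_nonneg _) (fun k => norm_sub_le _ _) ?_
      exact haFs.add (toFn_summable he)
    have hsum3 : Summable fun k => ‖c k - toFn e k‖ := by
      refine Summable.of_nonneg_of_le (fun _ => norm_nonneg _) (fun k => norm_sub_le _ _) ?_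
      exact hcs.add (toFn_summable he)
    have h1 : ∑' k, ‖c k - toFn e k‖ ≤ ∑' k, (‖c k - aF k‖ + ‖aF k - toFn e k‖) := by
      refine hsum3.tsum_le_tsum (fun k => ?_) (hsum1.add hsum2)
      exact norm_sub_le_norm_sub_add_norm_sub _ _ _
    rw [hsum1.tsum_add hsum2] at h1
    linarith only [hδ2, hnear, hclose1, h1]

end Mat

end Vale.Agent.P184
end
end
end

section

section

noncomputable section
open scoped Topology

namespace Vale.Agent.P184

open Equiv (Perm)

section Cup

variable {G : Type*} [Group G]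

/-- coboundary of a function of two points -/
def dee (α : G → G → ℝ) (p q r : G) : ℝ := α p q + α q r - α p r

/-- the `n`-th cup power of the coboundary of `α` -/
def cupPow (α : G → G → ℝ) (n : ℕ) (p : Fin (2 * n + 1) → G) : ℝ :=
  ∏ k : Fin n, dee α (p ⟨2 * k, by omega⟩) (p ⟨2 * k + 1, by omega⟩) (p ⟨2 * k + 2, by omega⟩)

theorem cupPow_succ (α : G → G → ℝ) (n : ℕ) (p : Fin (2 * n + 1 + 2) → G) :
    cupPow α (n + 1) p = dee α (p 0) (p 1) (p 2) * cupPow α n fun i => p i.succ.succ := by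
  unfold cupPow
  rw [Fin.prod_univ_succ]
  congr 1

/-- cup product with the coboundary -/
def cupw {m : ℕ} (α : G → G → ℝ) (F : (Fin (m + 1) → G) → ℝ) (p : Fin (m + 3) → G) : ℝ :=
  dee α (p 0) (p 1) (p 2) * F fun i => p i.succ.succ

theorem closed_aux {m : ℕ} {F : (Fin (m + 1) → G) → ℝ} (hF : ∀ p, DData.cob F p = 0)
    (q : Fin (m + 2) → G) :
    ∑ i : Fin (m + 1), (-1) ^ (i : ℕ) * F (fun k => q (i.succ.succAbove k)) =
      F fun k => q k.succ := by
  have h1 := hF q
  unfold DData.cob at h1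
  rw [Fin.sum_univ_succ] at h1
  simp only [Fin.val_zero, pow_zero, one_mul, Fin.zero_succAbove, Fin.val_succ, pow_succ,
    mul_neg, mul_one, neg_mul, Finset.sum_neg_distrib] at h1
  linarith only [h1]

theorem cupw_eq_cob {m : ℕ} (α : G → G → ℝ) {F : (Fin (m + 1) → G) → ℝ}
    (hF : ∀ p, DData.cob F p = 0) (p : Fin (m + 3) → G) :
    DData.cob (fun p : Fin (m + 2) → G => α (p 0) (p 1) * F fun i => p i.succ) p =
      cupw α F p := by
  have h1 := closed_aux hF (fun k => p k.succ)
  unfold DData.cob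
  rw [Fin.sum_univ_succ, Fin.sum_univ_succ]
  have h2 : ∀ i : Fin (m + 1), (-1 : ℝ) ^ ((i.succ.succ : Fin (m + 3)) : ℕ) *
      (α (p (i.succ.succ.succAbove 0)) (p (i.succ.succ.succAbove 1)) *
        F fun k => p (i.succ.succ.succAbove k.succ)) =
      α (p 0) (p 1) * ((-1) ^ (i : ℕ) * F (fun k => p (i.succ.succAbove k).succ)) := by
    intro i
    have h3 : i.succ.succ.succAbove 1 = (1 : Fin (m + 3)) := by
      have : (1 : Fin (m + 2)) = Fin.succ 0 := rfl
      rw [this, Fin.succ_succAbove_succ, Fin.succ_succAbove_zero]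
      rfl
    rw [Fin.succ_succAbove_zero, h3]
    simp only [Fin.succ_succAbove_succ, Fin.val_succ, pow_succ]
    ring
  rw [Finset.sum_congr rfl fun i _ => h2 i, ← Finset.mul_sum, h1]
  have h4 : (Fin.succ 0 : Fin (m + 3)).succAbove 0 = 0 := Fin.succ_succAbove_zero _
  have h5 : (Fin.succ 0 : Fin (m + 3)).succAbove 1 = 2 := rfl
  have h6 : ∀ k : Fin (m + 1), (Fin.succ 0 : Fin (m + 3)).succAbove k.succ = k.succ.succ := by
    intro k
    rw [Fin.succ_succAbove_succ, Fin.zero_succAbove]
  have h7 : (Fin.succ 0 : Fin (m + 2)) = 1 := rfl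
  have h8 : (Fin.succ 1 : Fin (m + 3)) = 2 := rfl
  simp only [Fin.val_zero, pow_zero, Fin.zero_succAbove, one_mul, Fin.val_succ, zero_add, pow_one, h4, h5, h6, cupw, dee]
  have h9 : (Fin.succ 0 : Fin (m + 3)) = 1 := rfl
  rw [h9, h8]
  ring

theorem cupw_closed {m : ℕ} (α : G → G → ℝ) {F : (Fin (m + 1) → G) → ℝ}
    (hF : ∀ p, DData.cob F p = 0) (p : Fin (m + 4) → G) : DData.cob (cupw α F) p = 0 := by
  have h1 := closed_aux hF (fun k => p k.succ.succ)
  unfold DData.cob
  rw [Fin.sum_univ_succ, Fin.sum_univ_succ, Fin.sum_univ_succ]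
  have h2 : ∀ i : Fin (m + 1), (-1 : ℝ) ^ ((i.succ.succ.succ : Fin (m + 4)) : ℕ) *
      cupw α F (fun k => p (i.succ.succ.succ.succAbove k)) =
      - dee α (p 0) (p 1) (p 2) * ((-1) ^ (i : ℕ) *
        F (fun k => p (i.succ.succAbove k).succ.succ)) := by
    intro i
    have h3 : i.succ.succ.succ.succAbove 1 = (1 : Fin (m + 4)) := by
      have : (1 : Fin (m + 3)) = Fin.succ 0 := rfl
      rw [this, Fin.succ_succAbove_succ, Fin.succ_succAbove_zero]
      rfl
    have h3' : i.succ.succ.succ.succAbove 2 = (2 : Fin (m + 4)) := by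
      have : (2 : Fin (m + 3)) = Fin.succ (Fin.succ 0) := rfl
      rw [this, Fin.succ_succAbove_succ, Fin.succ_succAbove_succ, Fin.succ_succAbove_zero]
      rfl
    simp only [cupw, Fin.succ_succAbove_zero, h3, h3', Fin.succ_succAbove_succ, Fin.val_succ,
      pow_succ]
    ring
  rw [Finset.sum_congr rfl fun i _ => h2 i, ← Finset.mul_sum, h1]
  have a1 : (Fin.succ 0 : Fin (m + 4)).succAbove 0 = 0 := Fin.succ_succAbove_zero _
  have a2 : (Fin.succ 0 : Fin (m + 4)).succAbove 1 = 2 := rfl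
  have a3 : (Fin.succ 0 : Fin (m + 4)).succAbove 2 = 3 := rfl
  have a4 : ∀ k : Fin (m + 1), (Fin.succ 0 : Fin (m + 4)).succAbove k.succ.succ =
      k.succ.succ.succ := by
    intro k
    rw [Fin.succ_succAbove_succ, Fin.zero_succAbove]
  have b1 : (Fin.succ (Fin.succ 0) : Fin (m + 4)).succAbove 0 = 0 := Fin.succ_succAbove_zero _
  have b2 : (Fin.succ (Fin.succ 0) : Fin (m + 4)).succAbove 1 = 1 := rfl
  have b3 : (Fin.succ (Fin.succ 0) : Fin (m + 4)).succAbove 2 = 3 := rfl
  have b4 : ∀ k : Fin (m + 1), (Fin.succ (Fin.succ 0) : Fin (m + 4)).succAbove k.succ.succ =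
      k.succ.succ.succ := by
    intro k
    rw [Fin.succ_succAbove_succ, Fin.succ_succAbove_succ, Fin.zero_succAbove]
  have c1 : (Fin.succ 0 : Fin (m + 4)) = 1 := rfl
  have c2 : (Fin.succ 1 : Fin (m + 4)) = 2 := rfl
  have c3 : (Fin.succ 2 : Fin (m + 4)) = 3 := rfl
  simp only [cupw, dee, Fin.zero_succAbove, a1, a2, a3, a4, b1, b2, b3, b4, Fin.val_zero,
    Fin.val_succ, pow_zero, one_mul, zero_add, pow_one]
  simp only [c1, c2, c3]
  ring

end Cup

namespace DData

variable {G : Type*} [Group G] {D : Type*} [NormedRing D] [NormedAlgebra ℂ D] {A : DData G D}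

theorem alpha_zpow (α : G → G → ℝ)
    (hα : A.Good fun p : Fin 2 → G => α (p 0) (p 1))
    (hαx : ∀ p q, α p (A.x * q) = α p q + 1) (k l : ℤ) (p q : G) :
    α (A.x ^ k * p) (A.x ^ l * q) = α p q + (l - k) := by
  have h1 : ∀ (n : ℕ) (p q : G), α p (A.x ^ n * q) = α p q + n := by
    intro n
    induction n with
    | zero => intro p q; simp
    | succ n ih =>
      intro p q
      rw [pow_succ', mul_assoc, hαx, ih]
      push_cast; ring
  have h2 : ∀ (n : ℤ) (p q : G), α p (A.x ^ n * q) = α p q + n := by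
    intro n p q
    obtain ⟨m, rfl | rfl⟩ := n.eq_nat_or_neg
    · rw [zpow_natCast, h1]; simp
    · have h3 := h1 m p (A.x ^ (-(m : ℤ)) * q)
      rw [← zpow_natCast, ← mul_assoc, ← zpow_add, add_neg_cancel, zpow_zero, one_mul] at h3
      push_cast
      linarith
  have h3 : ∀ (n : ℤ) (p q : G), α (A.x ^ n * p) (A.x ^ n * q) = α p q := by
    intro n p q
    have h4 := hα.inv (A.x ^ n) ((Commute.refl A.x).zpow_left n) ![p, q]
    simpa [tra] using h4
  have h4 : A.x ^ l * q = A.x ^ k * (A.x ^ (l - k) * q) := by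
    rw [← mul_assoc, ← zpow_add]
    congr 2
    ring
  rw [h4, h3, h2]
  push_cast
  ring

theorem good_dee (α : G → G → ℝ) (hα : A.Good fun p : Fin 2 → G => α (p 0) (p 1))
    {m : ℕ} (a b c : Fin m) : A.Good fun p : Fin m → G => dee α (p a) (p b) (p c) := by
  have h1 := hα.comp (m := m) ![a, b]
  have h2 := hα.comp (m := m) ![b, c]
  have h3 := (hα.comp (m := m) ![a, c]).smul (-1)
  simp at h1 h2 h3
  have h4 := (h1.add h2).add h3
  refine ⟨fun h hh p => ?_, fun ε hε => ?_⟩
  · have := h4.inv h hh p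
    unfold dee
    linarith
  · obtain ⟨C, hC⟩ := h4.sub ε hε
    refine ⟨C, fun p => ?_⟩
    have h5 := hC p
    have h6 : dee α (p a) (p b) (p c) = α (p a) (p b) + α (p b) (p c) + -α (p a) (p c) := by
      unfold dee; ring
    rw [h6]
    exact h5

theorem good_cupw (α : G → G → ℝ) (hα : A.Good fun p : Fin 2 → G => α (p 0) (p 1))
    {m : ℕ} {F : (Fin (m + 1) → G) → ℝ} (hF : A.Good F) : A.Good (cupw α F) :=
  (good_dee α hα 0 1 2).mul (hF.comp fun i => i.succ.succ)

theorem xinv_cupw (α : G → G → ℝ) (hα : A.Good fun p : Fin 2 → G => α (p 0) (p 1))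
    (hαx : ∀ p q, α p (A.x * q) = α p q + 1)
    {m : ℕ} {F : (Fin (m + 1) → G) → ℝ} (hF : XInv A.x F) : XInv A.x (cupw α F) := by
  intro k p
  unfold cupw
  have h1 := hF (fun i => k i.succ.succ) (fun i => p i.succ.succ)
  rw [h1]
  congr 1
  unfold dee
  rw [alpha_zpow α hα hαx, alpha_zpow α hα hαx, alpha_zpow α hα hαx]
  ring

variable [CompleteSpace D]

theorem alt_cupw (α : G → G → ℝ) (hα : A.Good fun p : Fin 2 → G => α (p 0) (p 1))
    (hαx : ∀ p q, α p (A.x * q) = α p q + 1)
    {m : ℕ} (hm : Even m) {F : (Fin (m + 1) → G) → ℝ} (hF : A.Good F) (hX : XInv A.x F)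
    (hcl : ∀ p, cob F p = 0) :
    2 * (m + 1) * A.alt (cupw α F) = (m + 3) * (m + 2) * A.alt F := by
  have h1 := alt_conn hm hF hX α hα hαx
  have hγG : A.Good fun p : Fin (m + 2) → G => α (p 0) (p 1) * F fun i => p i.succ := by
    have h1 := hα.comp (m := m + 2) ![0, 1]
    simp at h1
    exact h1.mul (hF.comp Fin.succ)
  have h2 := alt_cob hm.add_one hγG
  have h3 : cob (fun p : Fin (m + 2) → G => α (p 0) (p 1) * F fun i => p i.succ) = cupw α F :=
    funext fun p => cupw_eq_cob α hcl p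
  rw [h3] at h2
  rw [h2]
  push_cast
  linear_combination (m + 3 : ℂ) * h1

/-- The alternating evaluation of the powers of the curvature. -/
theorem alt_cupPow (α : G → G → ℝ) (hα : A.Good fun p : Fin 2 → G => α (p 0) (p 1))
    (hαx : ∀ p q, α p (A.x * q) = α p q + 1) (n : ℕ) :
    A.Good (cupPow α n) ∧ XInv A.x (cupPow α n) ∧ (∀ p, cob (cupPow α n) p = 0) ∧
      ∃ c : ℂ, c ≠ 0 ∧ A.alt (cupPow α n) = c * A.pr (fun _ : Fin 1 → G => 1) := by
  induction n with
  | zero =>
    have h0 : cupPow α 0 = fun _ : Fin (2 * 0 + 1) → G => (1 : ℝ) := by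
      funext p
      simp [cupPow]
    rw [h0]
    refine ⟨Good.const 1, fun _ _ => rfl, fun p => ?_, 1, one_ne_zero, ?_⟩
    · unfold cob
      rw [Fin.sum_univ_succ, Fin.sum_univ_succ]
      simp only [Nat.mul_zero, Nat.reduceAdd, Fin.isValue, Fin.coe_ofNat_eq_mod, Nat.zero_mod, pow_zero, mul_one, Fin.succ_zero_eq_one, Nat.mod_succ, pow_one, Finset.univ_eq_empty, Fin.val_succ, Fin.val_eq_zero, zero_add, Finset.sum_neg_distrib, Finset.sum_const, Finset.card_empty, zero_nsmul, neg_zero, add_zero, add_neg_cancel]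
    · unfold alt
      rw [one_mul]
      have : (Finset.univ : Finset (Perm (Fin (2 * 0 + 1)))) = {1} := by
        apply Finset.eq_singleton_iff_unique_mem.2
        refine ⟨Finset.mem_univ _, fun σ _ => ?_⟩
        ext i
        have h1 := (σ i).isLt
        have h2 := ((1 : Perm (Fin (2 * 0 + 1))) i).isLt
        omega
      rw [this, Finset.sum_singleton]
      simp only [Nat.mul_zero, Nat.reduceAdd, Perm.sign_one, Units.val_one, Int.cast_one, one_mul]
  | succ n ih =>
    obtain ⟨h1, h2, h3, c, hc, h4⟩ := ih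
    have h0 : cupPow α (n + 1) = cupw α (cupPow α n) := by
      funext p
      exact cupPow_succ α n p
    have h5 := alt_cupw α hα hαx (m := 2 * n) (even_two_mul n) h1 h2 h3
    rw [h4] at h5
    refine ⟨?_, ?_, ?_, ?_⟩
    · rw [h0]; exact good_cupw α hα h1
    · rw [h0]; exact xinv_cupw α hα hαx h2
    · intro p
      have h6 := cupw_closed α h3 p
      rw [h0]
      exact h6
    · have h6 : (2 * ((2 * n : ℕ) + 1) : ℂ) ≠ 0 := by
        have : (2 * ((2 * n : ℕ) + 1) : ℂ) = ((2 * (2 * n + 1) : ℕ) : ℂ) := by push_cast; ring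
        rw [this]
        exact_mod_cast (by omega : 2 * (2 * n + 1) ≠ 0)
      have h7 : ((((2 * n : ℕ) : ℂ) + 3) * (((2 * n : ℕ) : ℂ) + 2)) ≠ 0 := by
        have : ((((2 * n : ℕ) : ℂ) + 3) * (((2 * n : ℕ) : ℂ) + 2)) =
            (((2 * n + 3) * (2 * n + 2) : ℕ) : ℂ) := by push_cast; ring
        rw [this]
        exact_mod_cast (by (clear * -; (clear * -; positivity)) : (2 * n + 3) * (2 * n + 2) ≠ 0)
      refine ⟨((((2 * n : ℕ) : ℂ) + 3) * (((2 * n : ℕ) : ℂ) + 2)) * c / (2 * ((2 * n : ℕ) + 1)),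
        div_ne_zero (mul_ne_zero h7 hc) h6, ?_⟩
      have h8 : A.alt (cupPow α (n + 1)) = A.alt (cupw α (cupPow α n)) := congrArg _ h0
      rw [h8, div_mul_eq_mul_div, eq_div_iff h6]
      linear_combination h5

end DData

section Final

attribute [local instance] Matrix.linftyOpNormedRing Matrix.linftyOpNormedAlgebra

/-- If some positive power of the Euler class of the extension of `C_G(x)/⟨x⟩` by `⟨x⟩` vanishes,
with real coefficients and subexponential growth, then `x` carries no trace. -/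
theorem vanishesAt_of_nilpotent {G : Type*} [Group G] (x : G) (L : G → ℝ) (hL : IsLength L)
    (α : G → G → ℝ) (hα1 : ∀ h p q, Commute h x → α (h * p) (h * q) = α p q)
    (hα2 : ∀ p q, α p (x * q) = α p q + 1)
    (hα3 : SubExp x L fun p : Fin 2 → G => α (p 0) (p 1))
    (n : ℕ) (hn : 0 < n) (β : (Fin (2 * n) → G) → ℝ) (hβ1 : CInv x β) (hβ2 : XInv x β)
    (hβ3 : SubExp x L β) (hβ : ∀ p, DData.cob β p = cupPow α n p) : VanishesAt x := by
  intro q e he
  obtain ⟨ε, hε, f, hf, hdec, htau⟩ := exists_decay L hL.nonneg hL.2.2 e he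
  let A : DData G (Matrix (Fin q) (Fin q) ℂ) :=
    { x := x
      tr := mtr q
      E := toFn f
      L := L
      eps := ε
      htr := mtr_comm q
      hE := toFn_conv hf
      hL := hL
      heps := hε
      hdec := hdec }
  have hα : A.Good fun p : Fin 2 → G => α (p 0) (p 1) :=
    ⟨fun h hh p => hα1 h (p 0) (p 1) hh, hα3⟩
  have hβG : A.Good β := ⟨hβ1, hβ3⟩
  obtain ⟨_, _, _, c, hc, h4⟩ := DData.alt_cupPow (A := A) α hα hα2 n
  obtain ⟨k, rfl⟩ : ∃ k, n = k + 1 := ⟨n - 1, by omega⟩
  have h5 : A.alt (m := 2 * k + 2) (DData.cob β) = 0 := by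
    have h6 := DData.alt_cob (A := A) (m := 2 * k + 1) (by exact ⟨k, by ring⟩) hβG
    have h7 := DData.alt_even (A := A) (m := 2 * k + 1) (by exact ⟨k, by ring⟩) hβG hβ2
    rw [h6, h7, mul_zero]
  have h6 : DData.cob β = cupPow α (k + 1) := funext hβ
  have h7 : A.alt (cupPow α (k + 1)) = 0 := by
    rw [← h6]
    exact h5
  rw [h7] at h4
  have h8 : A.pr (fun _ : Fin 1 → G => 1) = 0 := by
    rcases mul_eq_zero.mp h4.symm with h | h
    · exact absurd h hc
    · exact h
  rw [DData.pr_one] at h8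
  rw [← htau]
  have hset : (ConjClasses.mk x).carrier = {g | IsConj x g} := by
    ext g
    rw [ConjClasses.mem_carrier_iff_mk_eq, ConjClasses.mk_eq_mk_iff_isConj]
    exact ⟨fun h => h.symm, fun h => IsConj.symm h⟩
  unfold tau
  rw [hset]
  exact h8

end Final

end Vale.Agent.P184
end
end
end

section

section

noncomputable section
open scoped Topology

namespace Vale.Agent.P184

open Equiv (Perm)

section Alternation

/-- an alternating sum of a function invariant under a transposition vanishes -/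
theorem sum_sign_eq_zero {N : ℕ} {R : Type*} [CommRing R] [IsDomain R] [CharZero R]
    (Φ : Perm (Fin N) → R) (u v : Fin N) (huv : u ≠ v)
    (h : ∀ σ, Φ (σ * Equiv.swap u v) = Φ σ) :
    ∑ σ : Perm (Fin N), ((Equiv.Perm.sign σ : ℤ) : R) * Φ σ = 0 := by
  have h1 : ∑ σ : Perm (Fin N), ((Equiv.Perm.sign σ : ℤ) : R) * Φ σ =
      - ∑ σ : Perm (Fin N), ((Equiv.Perm.sign σ : ℤ) : R) * Φ σ := by
    conv_lhs => rw [← Equiv.sum_comp (Equiv.mulRight (Equiv.swap u v))]
    rw [← Finset.sum_neg_distrib]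
    refine Finset.sum_congr rfl fun σ _ => ?_
    rw [Equiv.coe_mulRight, h, Equiv.Perm.sign_mul, Equiv.Perm.sign_swap huv]
    push_cast
    ring
  have h2 : (2 : R) * ∑ σ : Perm (Fin N), ((Equiv.Perm.sign σ : ℤ) : R) * Φ σ = 0 := by
    linear_combination h1
  exact (mul_eq_zero.mp h2).resolve_left two_ne_zero

theorem exists_two_notMem {m : ℕ} (S : Finset (Fin (m + 1))) (hS : S.card < m) :
    ∃ u v : Fin (m + 1), u ≠ v ∧ u ∉ S ∧ v ∉ S := by
  have h1 : 1 < (Sᶜ).card := by
    rw [Finset.card_compl, Fintype.card_fin]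
    omega
  obtain ⟨u, hu, v, hv, huv⟩ := Finset.one_lt_card.mp h1
  exact ⟨u, v, huv, Finset.mem_compl.mp hu, Finset.mem_compl.mp hv⟩

/-- monomials with a repeated factor have vanishing alternation -/
theorem alt_monomial {m : ℕ} {ι X : Type*} [Fintype ι] (hι : Fintype.card ι ≤ m)
    (h : ι → Fin (m + 1)) (c : ι → X → ℝ) {a b : ι} (hab : a ≠ b) (hc : c a = c b)
    (p : Fin (m + 1) → X) :
    ∑ σ : Perm (Fin (m + 1)), ((Equiv.Perm.sign σ : ℤ) : ℝ) * ∏ k, c k (p (σ (h k))) = 0 := by
  classical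
  by_cases hinj : Function.Injective h
  · refine sum_sign_eq_zero _ (h a) (h b) (fun hh => hab (hinj hh)) fun σ => ?_
    have h1 : ∀ k, c k (p ((σ * Equiv.swap (h a) (h b)) (h k))) =
        c (Equiv.swap a b k) (p (σ (h (Equiv.swap a b k)))) := by
      intro k
      rw [Equiv.Perm.mul_apply]
      by_cases hka : k = a
      · subst hka
        rw [Equiv.swap_apply_left, Equiv.swap_apply_left, hc]
      · by_cases hkb : k = b
        · subst hkb
          rw [Equiv.swap_apply_right, Equiv.swap_apply_right, hc]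
        · rw [Equiv.swap_apply_of_ne_of_ne (fun hh => hka (hinj hh)) (fun hh => hkb (hinj hh)),
            Equiv.swap_apply_of_ne_of_ne hka hkb]
    rw [Finset.prod_congr rfl fun k _ => h1 k]
    exact Equiv.prod_comp (Equiv.swap a b) (fun k => c k (p (σ (h k))))
  · have h1 : (Finset.univ.image h).card < m := by
      have h2 : (Finset.univ.image h).card ≠ Fintype.card ι := by
        intro h3
        rw [← Finset.card_univ] at h3
        have h4 := Finset.card_image_iff.mp h3
        exact hinj (by simpa only [Finset.coe_univ, Set.injOn_univ] using h4)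
      have h3 : (Finset.univ.image h).card ≤ Fintype.card ι := by
        rw [← Finset.card_univ]
        exact Finset.card_image_le
      omega
    obtain ⟨u, v, huv, hu, hv⟩ := exists_two_notMem _ h1
    refine sum_sign_eq_zero _ u v huv fun σ => ?_
    refine Finset.prod_congr rfl fun k _ => ?_
    have hk : h k ∈ Finset.univ.image h := Finset.mem_image_of_mem _ (Finset.mem_univ _)
    have hku : h k ≠ u := fun hh => hu (by rw [← hh]; exact hk)
    have hkv : h k ≠ v := fun hh => hv (by rw [← hh]; exact hk)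
    rw [Equiv.Perm.mul_apply, Equiv.swap_apply_of_ne_of_ne hku hkv]

/-- products of differences with a repeated factor have vanishing alternation -/
theorem alt_differences {m : ℕ} {ι X : Type*} [Fintype ι] (hι : Fintype.card ι ≤ m)
    (s t : ι → Fin (m + 1)) (c : ι → X → ℝ) {a b : ι} (hab : a ≠ b) (hc : c a = c b)
    (p : Fin (m + 1) → X) :
    ∑ σ : Perm (Fin (m + 1)), ((Equiv.Perm.sign σ : ℤ) : ℝ) *
      ∏ k, (c k (p (σ (s k))) - c k (p (σ (t k)))) = 0 := by
  classical
  have h1 : ∀ σ : Perm (Fin (m + 1)), ∏ k, (c k (p (σ (s k))) - c k (p (σ (t k)))) =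
      ∑ ε : ι → Bool, (∏ k, (if ε k then (1 : ℝ) else -1)) *
        ∏ k, c k (p (σ (if ε k then s k else t k))) := by
    intro σ
    have h2 : ∀ k, c k (p (σ (s k))) - c k (p (σ (t k))) =
        ∑ b : Bool, (if b then (1 : ℝ) else -1) * c k (p (σ (if b then s k else t k))) := by
      intro k
      rw [Fintype.sum_bool]
      simp only [↓reduceIte, one_mul, Bool.false_eq_true, neg_mul]
      ring
    simp only [h2]
    rw [Finset.prod_univ_sum]
    simp only [Fintype.piFinset_univ]
    refine Finset.sum_congr rfl fun ε _ => ?_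
    rw [Finset.prod_mul_distrib]
  simp only [h1, Finset.mul_sum]
  rw [Finset.sum_comm]
  refine Finset.sum_eq_zero fun ε _ => ?_
  have h3 := alt_monomial hι (fun k => if ε k then s k else t k) c hab hc p
  have h4 : ∀ σ : Perm (Fin (m + 1)), ((Equiv.Perm.sign σ : ℤ) : ℝ) *
      ((∏ k, (if ε k then (1 : ℝ) else -1)) * ∏ k, c k (p (σ (if ε k then s k else t k)))) =
      (∏ k, (if ε k then (1 : ℝ) else -1)) * (((Equiv.Perm.sign σ : ℤ) : ℝ) *
        ∏ k, c k (p (σ (if ε k then s k else t k)))) := fun σ => by ring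
  rw [Finset.sum_congr rfl fun σ _ => h4 σ, ← Finset.mul_sum, h3, mul_zero]

/-- For a kernel of finite rank vanishing on the diagonal, the alternation of a large cup power
of the coboundary vanishes. -/
theorem alt_cupPow_finite_rank {X : Type*} (α : X → X → ℝ) {r : ℕ} (a b : Fin r → X → ℝ)
    (hα : ∀ p q, α p q = ∑ i, a i p * b i q) (h0 : ∀ p, α p p = 0)
    (p : Fin (2 * (r + 1) + 1) → X) :
    ∑ σ : Perm (Fin (2 * (r + 1) + 1)), ((Equiv.Perm.sign σ : ℤ) : ℝ) *
      cupPow α (r + 1) (fun i => p (σ i)) = 0 := by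
  classical
  have hω : ∀ p q r' : X, dee α p q r' =
      ∑ i, (a i q - a i p) * (b i r' - b i q) := by
    intro p q r'
    have h1 := h0 q
    rw [hα] at h1
    unfold dee
    rw [hα, hα, hα, ← Finset.sum_add_distrib, ← Finset.sum_sub_distrib, ← sub_eq_zero,
      ← Finset.sum_sub_distrib]
    have h2 : ∀ i, a i p * b i q + a i q * b i r' - a i p * b i r' -
        (a i q - a i p) * (b i r' - b i q) = a i q * b i q := fun i => by ring
    rw [Finset.sum_congr rfl fun i _ => h2 i, h1]
  have h1 : ∀ σ : Perm (Fin (2 * (r + 1) + 1)), cupPow α (r + 1) (fun i => p (σ i)) =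
      ∑ I : Fin (r + 1) → Fin r, ∏ k : Fin (r + 1) × Bool,
        ((if k.2 then a (I k.1) else b (I k.1))
          (p (σ (if k.2 then ⟨2 * k.1 + 1, by (clear * -; omega)⟩ else ⟨2 * k.1 + 2, by omega⟩))) -
        (if k.2 then a (I k.1) else b (I k.1))
          (p (σ (if k.2 then ⟨2 * k.1, by omega⟩ else ⟨2 * k.1 + 1, by (clear * -; omega)⟩)))) := by
    intro σ
    unfold cupPow
    simp only [hω]
    rw [Finset.prod_univ_sum]
    simp only [Fintype.piFinset_univ]
    refine Finset.sum_congr rfl fun I _ => ?_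
    rw [Fintype.prod_prod_type]
    refine Finset.prod_congr rfl fun k _ => ?_
    rw [Fintype.prod_bool]
    simp
  simp only [h1, Finset.mul_sum]
  rw [Finset.sum_comm]
  refine Finset.sum_eq_zero fun I _ => ?_
  obtain ⟨k, l, hkl, hI⟩ := Fintype.exists_ne_map_eq_of_card_lt I (by simp only [Fintype.card_fin, lt_add_iff_pos_right, Order.lt_one_iff])
  refine alt_differences (ι := Fin (r + 1) × Bool) (by simp only [Fintype.card_prod, Fintype.card_fin, Fintype.card_bool, mul_comm, Std.le_refl])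
    (fun k => if k.2 then ⟨2 * k.1 + 1, by omega⟩ else ⟨2 * k.1 + 2, by omega⟩)
    (fun k => if k.2 then ⟨2 * k.1, by omega⟩ else ⟨2 * k.1 + 1, by (clear * -; omega)⟩)
    (fun k => if k.2 then a (I k.1) else b (I k.1)) (a := (k, true)) (b := (l, true))
    (fun h => hkl (congrArg Prod.fst h)) ?_ p
  simp [hI]

end Alternation

namespace DData

variable {G : Type*} [Group G] {D : Type*} [NormedRing D] [NormedAlgebra ℂ D] {A : DData G D}

theorem alt_eq_zero_of_pointwise {m : ℕ} {F : (Fin (m + 1) → G) → ℝ} (hF : A.Good F)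
    (h : ∀ p : Fin (m + 1) → G,
      ∑ σ : Perm (Fin (m + 1)), ((Equiv.Perm.sign σ : ℤ) : ℝ) * F (fun i => p (σ i)) = 0) :
    A.alt F = 0 := by
  unfold alt
  have h1 : ∀ σ : Perm (Fin (m + 1)), ((Equiv.Perm.sign σ : ℤ) : ℂ) *
      A.pr (fun p => F fun i => p (σ i)) =
      A.pr (fun p => ((Equiv.Perm.sign σ : ℤ) : ℝ) * F fun i => p (σ i)) := by
    intro σ
    rw [pr_smul]
    push_cast
    rfl
  rw [Finset.sum_congr rfl fun σ _ => h1 σ, ← pr_sum (A := A) Finset.univ
    (F := fun (σ : Perm (Fin (m + 1))) p => ((Equiv.Perm.sign σ : ℤ) : ℝ) * F fun i => p (σ i))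
    (fun σ => (hF.comp σ).smul _)]
  simp only [h]
  exact pr_zero

end DData

section Final

attribute [local instance] Matrix.linftyOpNormedRing Matrix.linftyOpNormedAlgebra

/-- The element `x` carries a connection of finite rank and subexponential growth. -/
def FinRank {G : Type*} [Group G] (L : G → ℝ) (x : G) : Prop :=
  ∃ α : G → G → ℝ, (∀ h p q, Commute h x → α (h * p) (h * q) = α p q) ∧
    (∀ p q, α p (x * q) = α p q + 1) ∧ SubExp x L (fun p : Fin 2 → G => α (p 0) (p 1)) ∧
    ∃ (r : ℕ) (a b : Fin r → G → ℝ), ∀ p q, α p q = ∑ i, a i p * b i q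

theorem vanishesAt_of_finRank {G : Type*} [Group G] {x : G} {L : G → ℝ} (hL : IsLength L)
    (hx : FinRank L x) : VanishesAt x := by
  obtain ⟨α₀, h1, h2, h3, r₀, a₀, b₀, h4⟩ := hx
  -- normalize on the diagonal
  set α : G → G → ℝ := fun p q => α₀ p q - α₀ q q with hα
  have hxx : ∀ q, α₀ (x * q) (x * q) = α₀ q q := fun q => h1 x q q (Commute.refl x)
  have g1 : ∀ h p q, Commute h x → α (h * p) (h * q) = α p q := by
    intro h p q hh
    simp only [hα]
    rw [h1 h p q hh, h1 h q q hh]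
  have g2 : ∀ p q, α p (x * q) = α p q + 1 := by
    intro p q
    simp only [hα]
    rw [h2, hxx]
    ring
  have g3 : SubExp x L (fun p : Fin 2 → G => α (p 0) (p 1)) := by
    have h5 := h3.comp hL (m := 2) ![1, 1]
    have h6 := h3.add (h5.smul hL (-1))
    intro ε hε
    obtain ⟨C, hC⟩ := h6 ε hε
    refine ⟨C, fun p => ?_⟩
    have h7 := hC p
    simp only [Matrix.cons_val_zero, Matrix.cons_val_one] at h7
    have h8 : α (p 0) (p 1) = α₀ (p 0) (p 1) + -1 * α₀ (p 1) (p 1) := by
      simp only [hα]; ring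
    change |α (p 0) (p 1)| ≤ _
    rw [h8]
    exact h7
  set r := r₀ + 1 with hr
  set a : Fin r → G → ℝ := Fin.cons (fun _ => -1) a₀ with ha
  set b : Fin r → G → ℝ := Fin.cons (fun q => α₀ q q) b₀ with hb
  have g4 : ∀ p q, α p q = ∑ i, a i p * b i q := by
    intro p q
    rw [Fin.sum_univ_succ]
    simp only [ha, hb, Fin.cons_zero, Fin.cons_succ, hα, h4 p q]
    ring
  have g5 : ∀ p, α p p = 0 := fun p => sub_self _
  intro q e he
  obtain ⟨ε, hε, f, hf, hdec, htau⟩ := exists_decay L hL.nonneg hL.2.2 e he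
  let A : DData G (Matrix (Fin q) (Fin q) ℂ) :=
    { x := x
      tr := mtr q
      E := toFn f
      L := L
      eps := ε
      htr := mtr_comm q
      hE := toFn_conv hf
      hL := hL
      heps := hε
      hdec := hdec }
  have hαG : A.Good fun p : Fin 2 → G => α (p 0) (p 1) :=
    ⟨fun h hh p => g1 h (p 0) (p 1) hh, g3⟩
  obtain ⟨k1, _, _, c, hc, k4⟩ := DData.alt_cupPow (A := A) α hαG g2 (r + 1)
  have h7 : A.alt (cupPow α (r + 1)) = 0 :=
    DData.alt_eq_zero_of_pointwise k1 fun p => alt_cupPow_finite_rank α a b g4 g5 p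
  rw [h7] at k4
  have h8 : A.pr (fun _ : Fin 1 → G => 1) = 0 := by
    rcases mul_eq_zero.mp k4.symm with h | h
    · exact absurd h hc
    · exact h
  rw [DData.pr_one] at h8
  rw [← htau]
  have hset : (ConjClasses.mk x).carrier = {g | IsConj x g} := by
    ext g
    rw [ConjClasses.mem_carrier_iff_mk_eq, ConjClasses.mk_eq_mk_iff_isConj]
    exact ⟨fun h => h.symm, fun h => IsConj.symm h⟩
  unfold tau
  rw [hset]
  exact h8

end Final

end Vale.Agent.P184
end
end
end

section

section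

/-!
# Nilpotency of the Euler class with subexponential growth: definition and stability
-/

noncomputable section
open scoped Topology

namespace Vale.Agent.P184

open Equiv (Perm)

/-- A positive power of the real Euler class of the central extension of `C_G(x)/⟨x⟩` by `⟨x⟩`
vanishes with subexponential growth: `α` is a connection, i.e. a `C_G(x)`-invariant kernel with
`α p (x * q) = α p q + 1`, of subexponential growth, `cupPow α n` is the `n`-th cup power of its
coboundary, `β` is a cochain of the quotient of subexponential growth, and the coboundary of `β`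
agrees with `cupPow α n` after alternation. -/
def EulerNil {G : Type*} [Group G] (L : G → ℝ) (x : G) : Prop :=
  ∃ (α : G → G → ℝ) (n : ℕ) (β : (Fin (2 * n) → G) → ℝ), 0 < n ∧
    (∀ h p q, Commute h x → α (h * p) (h * q) = α p q) ∧
    (∀ p q, α p (x * q) = α p q + 1) ∧ SubExp x L (fun p : Fin 2 → G => α (p 0) (p 1)) ∧
    CInv x β ∧ XInv x β ∧ SubExp x L β ∧
    ∀ p : Fin (2 * n + 1) → G, ∑ σ : Perm (Fin (2 * n + 1)), ((Equiv.Perm.sign σ : ℤ) : ℝ) *
      (cupPow α n (fun i => p (σ i)) - DData.cob β (fun i => p (σ i))) = 0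

section Final

attribute [local instance] Matrix.linftyOpNormedRing Matrix.linftyOpNormedAlgebra

theorem vanishesAt_of_eulerNil {G : Type*} [Group G] {x : G} {L : G → ℝ} (hL : IsLength L)
    (hx : EulerNil L x) : VanishesAt x := by
  obtain ⟨α, n, β, hn, hα1, hα2, hα3, hβ1, hβ2, hβ3, hβ⟩ := hx
  intro q e he
  obtain ⟨ε, hε, f, hf, hdec, htau⟩ := exists_decay L hL.nonneg hL.2.2 e he
  let A : DData G (Matrix (Fin q) (Fin q) ℂ) :=
    { x := x
      tr := mtr q
      E := toFn f
      L := L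
      eps := ε
      htr := mtr_comm q
      hE := toFn_conv hf
      hL := hL
      heps := hε
      hdec := hdec }
  have hα : A.Good fun p : Fin 2 → G => α (p 0) (p 1) :=
    ⟨fun h hh p => hα1 h (p 0) (p 1) hh, hα3⟩
  have hβG : A.Good β := ⟨hβ1, hβ3⟩
  obtain ⟨k1, _, _, c, hc, h4⟩ := DData.alt_cupPow (A := A) α hα hα2 n
  obtain ⟨k, rfl⟩ : ∃ k, n = k + 1 := ⟨n - 1, by omega⟩
  have h5 : A.alt (m := 2 * k + 2) (DData.cob β) = 0 := by
    have h6 := DData.alt_cob (A := A) (m := 2 * k + 1) (by exact ⟨k, by ring⟩) hβG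
    have h7 := DData.alt_even (A := A) (m := 2 * k + 1) (by exact ⟨k, by ring⟩) hβG hβ2
    rw [h6, h7, mul_zero]
  have hcobG : A.Good (DData.cob β) :=
    DData.Good.sum (A := A) Finset.univ (F := fun (j : Fin (2 * (k + 1) + 1))
      (p : Fin (2 * (k + 1) + 1) → G) => (-1) ^ (j : ℕ) * β fun i => p (j.succAbove i))
      (fun j => (hβG.comp j.succAbove).smul _)
  have h6 : A.alt (fun p => cupPow α (k + 1) p + (-1) * DData.cob β p) = 0 := by
    refine DData.alt_eq_zero_of_pointwise (k1.add (hcobG.smul (-1))) fun p => ?_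
    rw [← hβ p]
    refine Finset.sum_congr rfl fun σ _ => ?_
    ring
  have h7 : A.alt (cupPow α (k + 1)) = 0 := by
    have h8 := DData.alt_add (A := A) k1 (hcobG.smul (-1))
    have h9 := DData.alt_smul (A := A) (-1) (F := DData.cob β)
    rw [h6] at h8
    rw [h9, h5, mul_zero, add_zero] at h8
    exact h8.symm
  rw [h7] at h4
  have h8 : A.pr (fun _ : Fin 1 → G => 1) = 0 := by
    rcases mul_eq_zero.mp h4.symm with h | h
    · exact absurd h hc
    · exact h
  rw [DData.pr_one] at h8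
  rw [← htau]
  have hset : (ConjClasses.mk x).carrier = {g | IsConj x g} := by
    ext g
    rw [ConjClasses.mem_carrier_iff_mk_eq, ConjClasses.mk_eq_mk_iff_isConj]
    exact ⟨fun h => h.symm, fun h => IsConj.symm h⟩
  unfold tau
  rw [hset]
  exact h8

end Final

theorem eulerNil_of_finRank {G : Type*} [Group G] {x : G} {L : G → ℝ} (hL : IsLength L)
    (hx : FinRank L x) : EulerNil L x := by
  obtain ⟨α₀, h1, h2, h3, r₀, a₀, b₀, h4⟩ := hx
  -- normalize on the diagonal
  set α : G → G → ℝ := fun p q => α₀ p q - α₀ q q with hα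
  have hxx : ∀ q, α₀ (x * q) (x * q) = α₀ q q := fun q => h1 x q q (Commute.refl x)
  have g1 : ∀ h p q, Commute h x → α (h * p) (h * q) = α p q := by
    intro h p q hh
    simp only [hα]
    rw [h1 h p q hh, h1 h q q hh]
  have g2 : ∀ p q, α p (x * q) = α p q + 1 := by
    intro p q
    simp only [hα]
    rw [h2, hxx]
    ring
  have g3 : SubExp x L (fun p : Fin 2 → G => α (p 0) (p 1)) := by
    have h5 := h3.comp hL (m := 2) ![1, 1]
    have h6 := h3.add (h5.smul hL (-1))
    intro ε hε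
    obtain ⟨C, hC⟩ := h6 ε hε
    refine ⟨C, fun p => ?_⟩
    have h7 := hC p
    simp only [Matrix.cons_val_zero, Matrix.cons_val_one] at h7
    have h8 : α (p 0) (p 1) = α₀ (p 0) (p 1) + -1 * α₀ (p 1) (p 1) := by
      simp only [hα]; ring
    change |α (p 0) (p 1)| ≤ _
    rw [h8]
    exact h7
  set r := r₀ + 1 with hr
  set a : Fin r → G → ℝ := Fin.cons (fun _ => -1) a₀ with ha
  set b : Fin r → G → ℝ := Fin.cons (fun q => α₀ q q) b₀ with hb
  have g4 : ∀ p q, α p q = ∑ i, a i p * b i q := by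
    intro p q
    rw [Fin.sum_univ_succ]
    simp only [ha, hb, Fin.cons_zero, Fin.cons_succ, hα, h4 p q]
    ring
  have g5 : ∀ p, α p p = 0 := fun p => sub_self _
  refine ⟨α, r + 1, fun _ => 0, Nat.succ_pos _, g1, g2, g3, fun _ _ _ => rfl, fun _ _ => rfl,
    SubExp.const hL 0, fun p => ?_⟩
  refine Eq.trans ?_ (alt_cupPow_finite_rank α a b g4 g5 p)
  refine Finset.sum_congr rfl fun σ _ => ?_
  simp only [DData.cob, mul_zero, Finset.sum_const_zero, sub_zero]

/-- A Lipschitz function extending a character of the centralizer. -/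
theorem exists_lipschitz {G : Type*} [Group G] {x : G} (h : Charged x) :
    ∃ (L f : G → ℝ) (c : ℝ), IsLength L ∧ c ≠ 0 ∧ (∀ p, f (x * p) = c + f p) ∧
      (∀ h p q, Commute h x → f (h * q) - f (h * p) = f q - f p) ∧
      ∀ p q, f q - f p ≤ L (p⁻¹ * q) := by
  classical
  obtain ⟨L₀, φ, hL₀, hφ, hφL, hφx⟩ := h
  set L : G → ℝ := fun g => if g = 1 then 0 else max (L₀ g) (L₀ g⁻¹) with hLdef
  have h1 : 0 ≤ L₀ 1 := by
    have := hL₀ 1 1
    rw [mul_one] at this
    linarith only [this]
  have hnn : ∀ g, 0 ≤ max (L₀ g) (L₀ g⁻¹) := by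
    intro g
    have := hL₀ g g⁻¹
    rw [mul_inv_cancel] at this
    rcases le_total (L₀ g) (L₀ g⁻¹) with h | h
    · rw [max_eq_right h]; linarith only [h1, this, h]
    · rw [max_eq_left h]; linarith
  have hLen : IsLength L := by
    refine ⟨by simp only [hLdef, ↓reduceIte], fun g => ?_, fun g k => ?_⟩
    · simp only [hLdef, inv_eq_one, inv_inv]
      rw [max_comm]
    · simp only [hLdef]
      by_cases hg : g = 1
      · subst hg; simp only [one_mul, ↓reduceIte, zero_add, Std.le_refl]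
      by_cases hk : k = 1
      · subst hk; simp only [mul_one, hg, ↓reduceIte, add_zero, Std.le_refl]
      rw [if_neg hg, if_neg hk]
      split_ifs with hgk
      · exact add_nonneg (hnn g) (hnn k)
      · apply max_le
        · exact (hL₀ g k).trans (add_le_add (le_max_left _ _) (le_max_left _ _))
        · rw [mul_inv_rev, add_comm]
          exact (hL₀ k⁻¹ g⁻¹).trans (add_le_add (le_max_right _ _) (le_max_right _ _))
  have hφ1 : φ 1 = 0 := by
    have := hφ 1 1 (Commute.one_left x) (Commute.one_left x)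
    rw [mul_one] at this
    linarith only [this]
  have hφL' : ∀ g, Commute g x → -L g ≤ φ g := by
    intro g hg
    by_cases hg1 : g = 1
    · subst hg1
      rw [hφ1]
      simp only [hLdef, ↓reduceIte, neg_zero, Std.le_refl]
    · have h2 := hφ g g⁻¹ hg hg.inv_left
      rw [mul_inv_cancel, hφ1] at h2
      have h3 := hφL g⁻¹ hg.inv_left
      have h4 : L₀ g⁻¹ ≤ L g := by
        simp only [hLdef]
        rw [if_neg hg1]
        exact le_max_right _ _
      linarith
  let Z := {h : G // Commute h x}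
  have : Nonempty Z := ⟨⟨1, Commute.one_left x⟩⟩
  set F : G → Z → ℝ := fun p h => φ h.1 + L (h.1⁻¹ * p) with hF
  have hbdd : ∀ p, BddBelow (Set.range (F p)) := by
    intro p
    refine ⟨-L p, ?_⟩
    rintro _ ⟨h, rfl⟩
    have h2 := hφL' h.1 h.2
    have h3 := hLen.2.2 p (h.1⁻¹ * p)⁻¹
    rw [hLen.2.1 (h.1⁻¹ * p)] at h3
    have h4 : p * (h.1⁻¹ * p)⁻¹ = h.1 := by group
    rw [h4] at h3
    simp only [hF]
    linarith only [h2, h3]
  set f : G → ℝ := fun p => ⨅ h, F p h with hf
  have hequiv : ∀ k p, Commute k x → f (k * p) ≤ φ k + f p := by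
    intro k p hk
    simp only [hf]
    rw [← sub_le_iff_le_add']
    refine le_ciInf fun h => ?_
    rw [sub_le_iff_le_add']
    refine (ciInf_le (hbdd (k * p)) ⟨k * h.1, hk.mul_left h.2⟩).trans (le_of_eq ?_)
    simp only [hF]
    rw [hφ k h.1 hk h.2, show (k * h.1)⁻¹ * (k * p) = h.1⁻¹ * p by group]
    ring
  have hequiv' : ∀ k p, Commute k x → f (k * p) = φ k + f p := by
    intro k p hk
    refine le_antisymm (hequiv k p hk) ?_
    have h2 := hequiv k⁻¹ (k * p) hk.inv_left
    rw [inv_mul_cancel_left] at h2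
    have h3 := hφ k k⁻¹ hk hk.inv_left
    rw [mul_inv_cancel, hφ1] at h3
    linarith only [h2, h3]
  refine ⟨L, f, φ x, hLen, hφx, fun p => hequiv' x p (Commute.refl x), fun k p q hk => ?_,
    fun p q => ?_⟩
  · rw [hequiv' k q hk, hequiv' k p hk]
    ring
  · have h2 : f q ≤ f p + L (p⁻¹ * q) := by
      simp only [hf]
      rw [← sub_le_iff_le_add]
      refine le_ciInf fun h => ?_
      rw [sub_le_iff_le_add]
      refine (ciInf_le (hbdd q) h).trans ?_
      have h3 := hLen.2.2 (h.1⁻¹ * p) (p⁻¹ * q)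
      rw [show h.1⁻¹ * p * (p⁻¹ * q) = h.1⁻¹ * q by group] at h3
      simp only [hF]
      linarith only [h3]
    linarith only [h2]

theorem single_le_siz {G : Type*} [Group G] {x : G} {L : G → ℝ} (hL : IsLength L) {n : ℕ}
    (p : Fin n → G) (i j : Fin n) : L ((p i)⁻¹ * p j) ≤ siz x L p := by
  have h2 : L ((p i)⁻¹ * p j) ≤ ∑ j, L ((p i)⁻¹ * p j) :=
    Finset.single_le_sum (f := fun j => L ((p i)⁻¹ * p j)) (fun _ _ => hL.nonneg _)
      (Finset.mem_univ j)
  have h3 : ∑ j, L ((p i)⁻¹ * p j) ≤ ∑ i, ∑ j, L ((p i)⁻¹ * p j) :=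
    Finset.single_le_sum (f := fun i => ∑ j, L ((p i)⁻¹ * p j))
      (fun _ _ => Finset.sum_nonneg fun _ _ => hL.nonneg _) (Finset.mem_univ i)
  have h4 : 0 ≤ ∑ i, L ((p i)⁻¹ * x * p i) := Finset.sum_nonneg fun _ _ => hL.nonneg _
  unfold siz
  linarith only [h2, h3, h4]

/-- Polynomially (here: linearly) bounded functions have subexponential growth. -/
theorem SubExp.of_linear {G : Type*} [Group G] {x : G} {L : G → ℝ} {n : ℕ}
    {F : (Fin n → G) → ℝ} (c : ℝ) (hc : 0 ≤ c) (hF : ∀ p, |F p| ≤ c * siz x L p) :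
    SubExp x L F := by
  intro ε hε
  refine ⟨c / ε, fun p => (hF p).trans ?_⟩
  have h1 : ε * siz x L p ≤ Real.exp (ε * siz x L p) := by
    have := Real.add_one_le_exp (ε * siz x L p)
    linarith only [this]
  have h2 : c * siz x L p = c / ε * (ε * siz x L p) := by
    field_simp
  rw [h2]
  exact mul_le_mul_of_nonneg_left h1 (div_nonneg hc hε.le)

theorem eulerNil_of_charged {G : Type*} [Group G] {x : G} (h : Charged x) :
    ∃ L : G → ℝ, IsLength L ∧ EulerNil L x := by
  obtain ⟨L, f, c, hL, hc, h1, h2, h3⟩ := exists_lipschitz h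
  refine ⟨L, hL, fun p q => (f q - f p) / c, 1, fun _ => 0, Nat.one_pos, ?_, ?_, ?_,
    fun _ _ _ => rfl, fun _ _ => rfl, SubExp.const hL 0, fun p => ?_⟩
  · intro k p q hk
    simp only [h2 k p q hk]
  · intro p q
    simp only [h1]
    field_simp
    ring
  · refine SubExp.of_linear |c|⁻¹ (by (clear * - hc; positivity)) fun p => ?_
    rw [abs_div, div_eq_inv_mul]
    refine mul_le_mul_of_nonneg_left ?_ (by positivity)
    rw [abs_le]
    have h4 := h3 (p 0) (p 1)
    have h5 := h3 (p 1) (p 0)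
    have h6 := single_le_siz (x := x) hL p 0 1
    have h7 := single_le_siz (x := x) hL p 1 0
    constructor <;> linarith only [h4, h6, h5, h7]
  · refine Finset.sum_eq_zero fun σ _ => ?_
    have h4 : cupPow (fun p q => (f q - f p) / c) 1 (fun i => p (σ i)) = 0 := by
      unfold cupPow
      rw [Fin.prod_univ_one]
      unfold dee
      ring
    rw [h4]
    simp only [Nat.reduceMul, Nat.reduceAdd, DData.cob, mul_zero, Finset.sum_const_zero, sub_self]

/-! ### Pulling back -/

theorem SubExp.pull {G K : Type*} [Group G] [Group K] {x : G} {y : K} {L : G → ℝ} {l : K → ℝ}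
    (r : G → K) (hr : ∀ p, r (x * p) = y * r p) {c d : ℝ} (hc : 0 < c)
    (hlip : ∀ p q, l ((r p)⁻¹ * r q) ≤ c * L (p⁻¹ * q) + d) {n : ℕ} {F : (Fin n → K) → ℝ}
    (hF : SubExp y l F) : SubExp x L fun p : Fin n → G => F fun i => r (p i) := by
  intro ε hε
  obtain ⟨C, hC⟩ := hF (ε / c) (by (clear * - hε hc; positivity))
  refine ⟨|C| * Real.exp (ε / c * ((n * n + n) * d)), fun p => (hC _).trans ?_⟩
  have h1 : siz y l (fun i => r (p i)) ≤ c * siz x L p + (n * n + n) * d := by
    unfold siz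
    have e1 : ∀ i j, l ((r (p i))⁻¹ * r (p j)) ≤ c * L ((p i)⁻¹ * p j) + d :=
      fun i j => hlip _ _
    have e2 : ∀ i, l ((r (p i))⁻¹ * y * r (p i)) ≤ c * L ((p i)⁻¹ * x * p i) + d := by
      intro i
      have := hlip (p i) (x * p i)
      rw [hr, ← mul_assoc, ← mul_assoc] at this
      exact this
    have e3 : ∑ i, ∑ j, l ((r (p i))⁻¹ * r (p j)) ≤
        c * (∑ i, ∑ j, L ((p i)⁻¹ * p j)) + (n * n) * d := by
      calc ∑ i, ∑ j, l ((r (p i))⁻¹ * r (p j)) ≤ ∑ i : Fin n, ∑ j : Fin n,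
            (c * L ((p i)⁻¹ * p j) + d) :=
            Finset.sum_le_sum fun i _ => Finset.sum_le_sum fun j _ => e1 i j
        _ = _ := by
          simp only [Finset.sum_add_distrib, ← Finset.mul_sum, Finset.sum_const,
            Finset.card_univ, Fintype.card_fin, nsmul_eq_mul]
          ring
    have e4 : ∑ i, l ((r (p i))⁻¹ * y * r (p i)) ≤
        c * (∑ i, L ((p i)⁻¹ * x * p i)) + n * d := by
      calc ∑ i, l ((r (p i))⁻¹ * y * r (p i)) ≤ ∑ i : Fin n, (c * L ((p i)⁻¹ * x * p i) + d) :=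
            Finset.sum_le_sum fun i _ => e2 i
        _ = _ := by
          simp only [Finset.sum_add_distrib, ← Finset.mul_sum, Finset.sum_const, Finset.card_univ, Fintype.card_fin, nsmul_eq_mul]
    linarith only [e4, e3]
  have h2 : Real.exp (ε / c * siz y l (fun i => r (p i))) ≤
      Real.exp (ε / c * ((n * n + n) * d)) * Real.exp (ε * siz x L p) := by
    rw [← Real.exp_add]
    apply Real.exp_le_exp.2
    have h3 : ε / c * siz y l (fun i => r (p i)) ≤
        ε / c * (c * siz x L p + (n * n + n) * d) :=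
      mul_le_mul_of_nonneg_left h1 (by (clear * - hε hc; positivity))
    refine h3.trans (le_of_eq ?_)
    field_simp
    ring
  calc C * Real.exp (ε / c * siz y l fun i => r (p i))
      ≤ |C| * Real.exp (ε / c * siz y l fun i => r (p i)) :=
        mul_le_mul_of_nonneg_right (le_abs_self C) (Real.exp_pos _).le
    _ ≤ |C| * (Real.exp (ε / c * ((n * n + n) * d)) * Real.exp (ε * siz x L p)) :=
        mul_le_mul_of_nonneg_left h2 (abs_nonneg C)
    _ = _ := by ring

/-- `EulerNil` pulls back along an equivariant coarsely Lipschitz map. -/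
theorem EulerNil.pull {G K : Type*} [Group G] [Group K] {x : G} {y : K} {L : G → ℝ} {l : K → ℝ}
    (r : G → K) (hr : ∀ p, r (x * p) = y * r p)
    (hz : ∀ h, Commute h x → ∃ k, Commute k y ∧ ∀ p, r (h * p) = k * r p) {c d : ℝ} (hc : 0 < c)
    (hlip : ∀ p q, l ((r p)⁻¹ * r q) ≤ c * L (p⁻¹ * q) + d) (h : EulerNil l y) :
    EulerNil L x := by
  obtain ⟨α, n, β, hn, hα1, hα2, hα3, hβ1, hβ2, hβ3, hβ⟩ := h
  refine ⟨fun p q => α (r p) (r q), n, fun p => β fun i => r (p i), hn, ?_, ?_, ?_, ?_, ?_, ?_,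
    fun p => hβ fun i => r (p i)⟩
  · intro g p q hg
    obtain ⟨k, hk, hkr⟩ := hz g hg
    simp only [hkr]
    exact hα1 k _ _ hk
  · intro p q
    simp only [hr]
    exact hα2 _ _
  · exact hα3.pull r hr hc hlip
  · intro g hg p
    obtain ⟨k, hk, hkr⟩ := hz g hg
    have := hβ1 k hk fun i => r (p i)
    unfold tra at *
    simp only [hkr]
    exact this
  · have hrz : ∀ (k : ℤ) p, r (x ^ k * p) = y ^ k * r p := by
      have hrn : ∀ (k : ℕ) p, r (x ^ k * p) = y ^ k * r p := by
        intro k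
        induction k with
        | zero => intro p; simp
        | succ k ih => intro p; rw [pow_succ, mul_assoc, ih, hr, pow_succ, mul_assoc]
      intro k p
      obtain ⟨n, rfl | rfl⟩ := k.eq_nat_or_neg
      · simpa using hrn n p
      · have h1 := hrn n (x ^ (-(n : ℤ)) * p)
        rw [zpow_neg, zpow_natCast, mul_inv_cancel_left] at h1
        rw [zpow_neg, zpow_natCast, zpow_neg, zpow_natCast, h1, inv_mul_cancel_left]
    intro k p
    have := hβ2 k fun i => r (p i)
    simp only [hrz]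
    exact this
  · exact hβ3.pull r hr hc hlip

/-- `x` is tame: some length function of `G` makes the Euler class of `x` nilpotent with
subexponential growth. -/
def Tame {G : Type*} [Group G] (x : G) : Prop := ∃ L : G → ℝ, IsLength L ∧ EulerNil L x

theorem vanishesAt_of_tame {G : Type*} [Group G] {x : G} (h : Tame x) : VanishesAt x := by
  obtain ⟨L, hL, hx⟩ := h
  exact vanishesAt_of_eulerNil hL hx

/-- Induced length functions along maps with finitely many steps. -/
theorem exists_pull_length {G K : Type*} [Group G] [Group K] {l : K → ℝ} (hl : IsLength l)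
    (r : G → K) (hr : ∀ g, (Set.range fun p => (r p)⁻¹ * r (p * g)).Finite) :
    ∃ L : G → ℝ, IsLength L ∧ ∀ p q, l ((r p)⁻¹ * r q) ≤ L (p⁻¹ * q) := by
  set F : G → G → ℝ := fun g p => l ((r p)⁻¹ * r (p * g)) with hF
  have hb : ∀ g, BddAbove (Set.range (F g)) := by
    intro g
    have h1 : Set.range (F g) = l '' (Set.range fun p => (r p)⁻¹ * r (p * g)) := by
      rw [← Set.range_comp]
      rfl
    rw [h1]
    exact ((hr g).image l).bddAbove
  have hle : ∀ g p, F g p ≤ ⨆ p, F g p := fun g p => le_ciSup (hb g) p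
  have hinv : ∀ g, (⨆ p, F g⁻¹ p) ≤ ⨆ p, F g p := by
    intro g
    refine ciSup_le fun p => ?_
    refine le_trans (le_of_eq ?_) (hle g (p * g⁻¹))
    simp only [hF]
    rw [inv_mul_cancel_right, ← hl.2.1 ((r p)⁻¹ * r (p * g⁻¹))]
    congr 1
    group
  refine ⟨fun g => ⨆ p, F g p, ⟨?_, fun g => ?_, fun g h => ?_⟩, fun p q => ?_⟩
  · simp only [hF, mul_one, inv_mul_cancel, hl.1]
    exact ciSup_const
  · refine le_antisymm (hinv g) ?_
    have := hinv g⁻¹
    rwa [inv_inv] at this
  · refine ciSup_le fun p => ?_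
    have h1 := hl.2.2 ((r p)⁻¹ * r (p * g)) ((r (p * g))⁻¹ * r (p * g * h))
    rw [show (r p)⁻¹ * r (p * g) * ((r (p * g))⁻¹ * r (p * g * h)) =
      (r p)⁻¹ * r (p * (g * h)) by rw [mul_assoc p g h]; group] at h1
    exact h1.trans (add_le_add (hle g p) (hle h (p * g)))
  · have := hle (p⁻¹ * q) p
    simp only [hF, mul_inv_cancel_left] at this
    exact this

/-- Tameness pulls back along equivariant maps with finitely many steps. -/
theorem Tame.pull {G K : Type*} [Group G] [Group K] {x : G} {y : K}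
    (r : G → K) (hr : ∀ p, r (x * p) = y * r p)
    (hz : ∀ h, Commute h x → ∃ k, Commute k y ∧ ∀ p, r (h * p) = k * r p)
    (hfin : ∀ g, (Set.range fun p => (r p)⁻¹ * r (p * g)).Finite) (h : Tame y) : Tame x := by
  obtain ⟨l, hl, h⟩ := h
  obtain ⟨L, hL, hlip⟩ := exists_pull_length hl r hfin
  refine ⟨L, hL, h.pull r hr hz (c := 1) (d := 0) one_pos fun p q => ?_⟩
  rw [one_mul, add_zero]
  exact hlip p q

theorem Tame.map {G K : Type*} [Group G] [Group K] (f : G →* K) {x : G} (h : Tame (f x)) :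
    Tame x := by
  refine Tame.pull f (fun p => map_mul f x p) (fun g hg => ⟨f g, hg.map f, fun p => map_mul f g p⟩)
    (fun g => ?_) h
  refine (Set.finite_singleton (f g)).subset ?_
  rintro _ ⟨p, rfl⟩
  simp

theorem Tame.conj {G : Type*} [Group G] {x : G} (w : G) (h : Tame (w⁻¹ * x * w)) : Tame x := by
  have h1 : Tame (MulAut.conj w⁻¹ x) := by
    rw [MulAut.conj_apply, inv_inv]
    exact h
  exact Tame.map (MulAut.conj w⁻¹).toMonoidHom h1

theorem tame_of_charged {G : Type*} [Group G] {x : G} (h : Charged x) : Tame x :=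
  eulerNil_of_charged h

end Vale.Agent.P184
end
end
end

section

section

/-!
# Tameness of the elements of infinite order of a relatively hyperbolic group
-/

namespace Vale.Agent.P184

namespace RH

variable {G : Type*} [Group G] {ι : Type*} {X : Set G} {H : ι → Subgroup G} {δ : ℕ}
  (S : RH X H δ)
include S

/-- The projection to `H l` with values in the subgroup. -/
noncomputable def prj (_ : RH X H δ) (l : ι) (p : G) : H l := ⟨proj X H l p, proj_mem l p⟩

theorem finite_edge_steps (l : ι) {s : G} (hs : Edge X H 1 s) :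
    (Set.range fun p => (S.prj l p)⁻¹ * S.prj l (p * s)).Finite := by
  have h1 : (Subtype.val '' (Set.range fun p => (S.prj l p)⁻¹ * S.prj l (p * s))) ⊆
      {h | h ∈ H l ∧ Lnk X H l (6 * δ + 8) 1 h} ∪ {s} := by
    rintro _ ⟨_, ⟨p, rfl⟩, rfl⟩
    have hE : Edge X H p (p * s) := by
      have := hs.smul p
      rwa [mul_one] at this
    by_cases h : p ∈ H l ∧ p * s ∈ H l
    · right
      change (proj X H l p)⁻¹ * proj X H l (p * s) = s
      rw [S.proj_self h.1, S.proj_self h.2]
      group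
    · left
      have h2 := S.proj_step (hE.oedge h)
      exact ⟨(H l).mul_mem ((H l).inv_mem (proj_mem l p)) (proj_mem l (p * s)),
        h2.inv_mul (proj_mem l p)⟩
  exact Set.Finite.of_finite_image (((S.finite_lnk _).union (Set.finite_singleton s)).subset h1)
    Subtype.val_injective.injOn

theorem finite_steps (l : ι) (g : G) :
    (Set.range fun p => (S.prj l p)⁻¹ * S.prj l (p * g)).Finite := by
  have key : ∀ (n : ℕ) (a : G), Walk (Edge X H) n 1 a →
      (Set.range fun p => (S.prj l p)⁻¹ * S.prj l (p * a)).Finite := by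
    intro n
    induction n with
    | zero =>
      intro a ha
      have h1 : (1 : G) = a := ha
      subst h1
      refine (Set.finite_singleton 1).subset ?_
      rintro _ ⟨p, rfl⟩
      simp only [mul_one, inv_mul_cancel, Set.mem_singleton_iff]
    | succ n ih =>
      intro a ha
      obtain ⟨s, hs, hw⟩ := ha
      have h1 : Walk (Edge X H) n 1 (s⁻¹ * a) := by
        have := Walk.map (S := Edge X H) (fun x => s⁻¹ * x) (fun _ _ => Edge.smul s⁻¹) hw
        simpa using this
      refine (((S.finite_edge_steps l hs).prod (ih _ h1)).image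
        fun z : H l × H l => z.1 * z.2).subset ?_
      rintro _ ⟨p, rfl⟩
      refine ⟨((S.prj l p)⁻¹ * S.prj l (p * s), (S.prj l (p * s))⁻¹ * S.prj l (p * s * (s⁻¹ * a))),
        ⟨⟨p, rfl⟩, ⟨p * s, rfl⟩⟩, ?_⟩
      simp only
      rw [show p * s * (s⁻¹ * a) = p * a by group]
      group
  exact key _ g (S.walk 1 g)

/-- Tameness in a peripheral subgroup implies tameness in `G`. -/
theorem tame_of_peripheral {l : ι} {y : H l} (hy : ¬ IsOfFinOrder y) (h : Tame y) :
    Tame (y : G) := by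
  have hy' : ¬ IsOfFinOrder (y : G) := by
    rwa [Submonoid.isOfFinOrder_coe (H := (H l).toSubmonoid)]
  refine Tame.pull (S.prj l) (fun p => Subtype.ext (proj_smul y.2 p)) (fun g hg => ?_)
    (S.finite_steps l) h
  have hgl : g ∈ H l := S.mem_of_commute y.2 hy' hg
  exact ⟨⟨g, hgl⟩, Subtype.ext hg, fun p => Subtype.ext (proj_smul hgl p)⟩

end RH

/-- The elements of infinite order of a relatively hyperbolic group are tame if those of the
peripheral subgroups are. -/
theorem RelHyperbolic.tame {G : Type*} [Group G] {ι : Type*} {H : ι → Subgroup G}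
    (hG : RelHyperbolic H) (hH : ∀ l (y : H l), ¬ IsOfFinOrder y → Tame y) (x : G)
    (hx : ¬ IsOfFinOrder x) : Tame x := by
  obtain ⟨hfin, X, δ, S⟩ := hG.exists_rh
  rcases S.charged_or_parabolic hx with h | ⟨l, w, h⟩
  · exact tame_of_charged h
  · apply Tame.conj w
    have hx' : ¬ IsOfFinOrder (w⁻¹ * x * w) := by
      intro h'
      apply hx
      refine IsConj.isOfFinOrder (isConj_iff.2 ⟨w, ?_⟩) h'
      group
    have h3 : ¬ IsOfFinOrder (⟨w⁻¹ * x * w, h⟩ : H l) := by
      rwa [← Submonoid.isOfFinOrder_coe (H := (H l).toSubmonoid)]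
    exact S.tame_of_peripheral h3 (hH l _ h3)

end Vale.Agent.P184
end
end

section

section

namespace Vale.Agent.P184

namespace HypAct

variable {G : Type*} [Group G] {X : Type*} [MulAction G X] {d : X → X → ℝ} {δ κ : ℝ}
variable (hL : HypAct G d δ κ)
include hL

/-- An element with bounded orbits moves some point, under all its powers, by a bounded amount
that only depends on the space. -/
theorem quasiCentre {x : G} {p : X} {B : ℝ} (hx : ∀ n : ℕ, d p (x ^ n • p) ≤ B) :
    ∃ w : X, ∀ n : ℤ, d w (x ^ n • w) ≤ 4 * δ + 4 * κ + 2 := by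
  have hxz : ∀ n : ℤ, d p (x ^ n • p) ≤ B := by
    intro n
    obtain ⟨m, rfl | rfl⟩ := n.eq_nat_or_neg
    · rw [zpow_natCast]; exact hx m
    · rw [← hL.left (x ^ (m : ℤ)), ← mul_smul, ← zpow_add, add_neg_cancel, zpow_zero, one_smul,
        hL.comm, zpow_natCast]
      exact hx m
  let r : X → ℝ := fun w => ⨆ n : ℤ, d w (x ^ n • p)
  have hbdd : ∀ w, BddAbove (Set.range fun n : ℤ => d w (x ^ n • p)) := by
    intro w
    refine ⟨d w p + B, ?_⟩
    rintro _ ⟨n, rfl⟩
    have := hL.tri w p (x ^ n • p)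
    have := hxz n
    linarith
  have hr : ∀ w (n : ℤ), d w (x ^ n • p) ≤ r w := fun w n => le_ciSup (hbdd w) n
  have hr0 : ∀ w, 0 ≤ r w := fun w => (hL.nn _ _).trans (hr w 0)
  have : Nonempty X := ⟨p⟩
  have hbelow : BddBelow (Set.range r) := ⟨0, by rintro _ ⟨w, rfl⟩; exact hr0 w⟩
  obtain ⟨w, hw⟩ := exists_lt_of_ciInf_lt (lt_add_one (⨅ w, r w))
  have hinf : ∀ m, (⨅ w, r w) ≤ r m := fun m => ciInf_le hbelow m
  refine ⟨w, fun k => ?_⟩
  obtain ⟨m, hm1, hm2⟩ := hL.geod w (x ^ k • w) (d w (x ^ k • w) / 2)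
    (by have := hL.nn w (x ^ k • w); linarith only [this]) (by have := hL.nn w (x ^ k • w); linarith)
  rw [abs_le] at hm1
  have key : r m ≤ r w - d w (x ^ k • w) / 2 + 2 * κ + 2 * δ := by
    refine ciSup_le fun n => ?_
    have h1 : d (x ^ n • p) (x ^ k • w) ≤ r w := by
      have h2 : d (x ^ n • p) (x ^ k • w) = d w (x ^ (n - k) • p) := by
        have h3 : x ^ n • p = x ^ k • x ^ (n - k) • p := by
          rw [← mul_smul, ← zpow_add, add_sub_cancel]
        rw [h3, hL.left, hL.comm]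
      rw [h2]
      exact hr w _
    have h4 : d (x ^ n • p) w ≤ r w := by rw [hL.comm]; exact hr w n
    rcases hL.four (x ^ n • p) m w (x ^ k • w) with h | h
    · rw [hL.comm m (x ^ n • p)]
      linarith
    · rw [hL.comm m (x ^ n • p)]
      rw [hL.comm m w] at h
      linarith
  have := hinf m
  linarith

end HypAct

end Vale.Agent.P184
end
end

section

section

/-!
# Elements with bounded orbits in relatively hyperbolic groups
-/

namespace Vale.Agent.P184

section path

variable {G : Type*} [Group G] {ι : Type*} {X : Set G} {H : ι → Subgroup G}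

/-- the concatenation of the translates of a path from `1` to `z` -/
def wpath (z : G) (v : ℕ → G) (l : ℕ) (t : ℕ) : G := z ^ (t / l) * v (t % l)

theorem wpath_add {z : G} {v : ℕ → G} {l : ℕ} (hl : 0 < l) (t : ℕ) :
    wpath z v l (t + l) = z * wpath z v l t := by
  unfold wpath
  rw [Nat.add_div_right _ hl, Nat.add_mod_right, pow_succ', mul_assoc]

theorem wpath_lt {z : G} {v : ℕ → G} {l : ℕ} {t : ℕ} (ht : t < l) :
    wpath z v l t = v t := by
  unfold wpath
  rw [Nat.div_eq_of_lt ht, Nat.mod_eq_of_lt ht, pow_zero, one_mul]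

theorem wpath_edge {z : G} {v : ℕ → G} {l : ℕ} (hl : 0 < l) (v0 : v 0 = 1) (vl : v l = z)
    (hv : ∀ i < l, Edge X H (v i) (v (i + 1))) (t : ℕ) :
    Edge X H (wpath z v l t) (wpath z v l (t + 1)) := by
  have h1 := hv (t % l) (Nat.mod_lt _ hl)
  have h2 := h1.smul (z ^ (t / l))
  have h3 : wpath z v l (t + 1) = z ^ (t / l) * v (t % l + 1) := by
    unfold wpath
    by_cases h : t % l + 1 < l
    · have e1 : (t + 1) / l = t / l := by
        conv_lhs => rw [← Nat.div_add_mod t l]
        rw [add_assoc, Nat.mul_add_div hl, Nat.div_eq_of_lt h, add_zero]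
      have e2 : (t + 1) % l = t % l + 1 := by
        conv_lhs => rw [← Nat.div_add_mod t l]
        rw [add_assoc, Nat.mul_add_mod, Nat.mod_eq_of_lt h]
      rw [e1, e2]
    · have h4 : t % l + 1 = l := by
        have := Nat.mod_lt t hl
        omega
      have e1 : (t + 1) / l = t / l + 1 := by
        conv_lhs => rw [← Nat.div_add_mod t l]
        rw [add_assoc, h4, Nat.mul_add_div hl, Nat.div_self hl]
      have e2 : (t + 1) % l = 0 := by
        conv_lhs => rw [← Nat.div_add_mod t l]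
        rw [add_assoc, h4, Nat.mul_add_mod, Nat.mod_self]
      rw [e1, e2, v0, h4, vl, mul_one, pow_succ]
  rw [h3]
  exact h2

theorem wpath_mul {z : G} {v : ℕ → G} {l : ℕ} (hl : 0 < l) (v0 : v 0 = 1) (n : ℕ) :
    wpath z v l (n * l) = z ^ n := by
  unfold wpath
  rw [Nat.mul_div_cancel _ hl, Nat.mul_mod_left, v0, mul_one]

end path

namespace RH

variable {G : Type*} [Group G] {ι : Type*} {X : Set G} {H : ι → Subgroup G} {δ : ℕ}
  (S : RH X H δ)
include S

section ray

variable {z : G} {w : ℕ → G} {l : ℕ} (w1 : ∀ t, w (t + l) = z * w t)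
  (w2 : ∀ t, Edge X H (w t) (w (t + 1)))
  (w3 : ∀ t, l ≤ rdist X H (w t) (z * w t))
  (hz : ∀ k u, u⁻¹ * z * u ∉ H k)
include w1 w2 w3

omit S w1 w3 in
theorem ray_le {a b : ℕ} (hab : a ≤ b) : rdist X H (w a) (w b) ≤ b - a :=
  rdist_le (walk_of_fun hab fun k _ _ => w2 k)

theorem ray_dist {a b : ℕ} (hab : a ≤ b) (hb : b ≤ a + l) : rdist X H (w a) (w b) = b - a := by
  refine le_antisymm (ray_le w2 hab) ?_
  have h1 := w3 a
  rw [← w1] at h1
  have h2 := S.tri (w a) (w b) (w (a + l))
  have h3 := ray_le (w := w) (X := X) (H := H) w2 hb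
  omega

include hz in
/-- Two edges of the path in the same coset are far apart. -/
theorem ray_far {s t : ℕ} (hst : s < t) {k : ι} {u : G} (h1 : u⁻¹ * w s ∈ H k)
    (h2 : u⁻¹ * w (s + 1) ∈ H k) (h3 : u⁻¹ * w t ∈ H k) (h4 : u⁻¹ * w (t + 1) ∈ H k) :
    s + 2 * l ≤ t := by
  by_contra hcon
  rcases lt_trichotomy t (s + l) with h | h | h
  · have d1 := S.ray_dist w1 w2 w3 (a := s) (b := t + 1) (by omega) (by omega)
    have d2 := coset_dist (X := X) (H := H) h1 h4
    omega
  · refine hz k (w s) ?_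
    rw [h, w1] at h3
    have := (H k).mul_mem ((H k).inv_mem h1) h3
    have e : (u⁻¹ * w s)⁻¹ * (u⁻¹ * (z * w s)) = (w s)⁻¹ * z * w s := by group
    rwa [e] at this
  · have d1 := w3 (t - l)
    rw [← w1, show t - l + l = t by omega] at d1
    have d2 := S.tri (w (t - l)) (w (s + 1)) (w t)
    have d3 := coset_dist (X := X) (H := H) h2 h3
    have d4 := ray_le (w := w) (X := X) (H := H) w2 (a := s + 1) (b := t - l) (by (clear * - h; omega))
    rw [rdist_symm] at d4
    omega

omit S w1 w3 in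
theorem ray_lnk {a b : ℕ} (hab : a ≤ b) {k : ι} {u : G}
    (h : ∀ r, a ≤ r → r < b → ¬ (u⁻¹ * w r ∈ H k ∧ u⁻¹ * w (r + 1) ∈ H k)) :
    Lnk X H k (b - a) (u⁻¹ * w a) (u⁻¹ * w b) := by
  refine ⟨b - a, le_rfl, ?_⟩
  exact walk_of_fun (v := fun i => u⁻¹ * w i) hab fun i h1 h2 => ((w2 i).smul u⁻¹).oedge (h i h1 h2)

include hz in
/-- A coset which is crossed deeply is not crossed again soon. -/
theorem ray_once {K : ℕ} (D : ℕ) : 0 < D → D ≤ K → ∀ (s : ℕ) (k : ι) (u : G),
    u⁻¹ * w s ∈ H k → u⁻¹ * w (s + 1) ∈ H k → u⁻¹ * w (s + D) ∈ H k →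
    u⁻¹ * w (s + D + 1) ∈ H k →
    Lnk X H k K 1 ((w s)⁻¹ * w (s + 1)) ∧ Lnk X H k K 1 ((w (s + D))⁻¹ * w (s + D + 1)) := by
  induction D using Nat.strong_induction_on with
  | _ D ih =>
  intro hD hDK s k u c1 c2 c3 c4
  have hfar := S.ray_far w1 w2 w3 hz (by omega) c1 c2 c3 c4
  have hl : 0 < l := by
    rcases Nat.eq_zero_or_pos l with h | h
    · exfalso
      have h1 := w1 s
      rw [h, add_zero] at h1
      have h2 : z = 1 := by
        have := mul_right_cancel (a := z) (b := w s) (c := 1) (by rw [one_mul]; exact h1.symm)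
        exact this
      exact hz k 1 (by rw [h2]; simp)
    · exact h
  have he : Edge X H (w (s + D)) (w (s + 1)) := by
    refine Or.inr (Or.inr ⟨k, ?_⟩)
    have := (H k).mul_mem ((H k).inv_mem c3) c2
    have e : (u⁻¹ * w (s + D))⁻¹ * (u⁻¹ * w (s + 1)) = (w (s + D))⁻¹ * w (s + 1) := by group
    rwa [e] at this
  constructor
  · by_contra hdeep
    apply hdeep
    set u' := w (s + l) with hu'
    have hu1 : u' = z * w s := w1 s
    have e1 : u'⁻¹ * w (s + l + 1) = (w s)⁻¹ * w (s + 1) := by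
      rw [show s + l + 1 = s + 1 + l by omega, w1, hu1]; group
    have hmem : u'⁻¹ * w (s + l + 1) ∈ H k := by
      rw [e1]
      have := (H k).mul_mem ((H k).inv_mem c1) c2
      have e : (u⁻¹ * w s)⁻¹ * (u⁻¹ * w (s + 1)) = (w s)⁻¹ * w (s + 1) := by group
      rwa [e] at this
    have hone : u'⁻¹ * w (s + l) ∈ H k := by
      rw [hu', inv_mul_cancel]; exact (H k).one_mem
    have l1 : Lnk X H k (s + l - (s + 1)) (u'⁻¹ * w (s + 1)) (u'⁻¹ * w (s + l)) := by
      refine ray_lnk w2 (by omega) fun r hr1 hr2 hc => ?_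
      have := S.ray_far w1 w2 w3 hz hr2 hc.1 hc.2 hone hmem
      omega
    have l2 : Lnk X H k (s + D - (s + l + 1)) (u'⁻¹ * w (s + l + 1)) (u'⁻¹ * w (s + D)) := by
      refine ray_lnk w2 (by (clear * - hfar hl; omega)) fun r hr1 hr2 hc => hdeep ?_
      have := (ih (r - (s + l)) (by omega) (by omega) (by omega) (s + l) k u' hone hmem
        (by rw [show s + l + (r - (s + l)) = r by (clear * - hr1; omega)]; exact hc.1)
        (by rw [show s + l + (r - (s + l)) = r by omega]; exact hc.2)).1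
      rwa [← hu', e1] at this
    have l3 : Lnk X H k 1 (u'⁻¹ * w (s + D)) (u'⁻¹ * w (s + 1)) := by
      refine ⟨1, le_rfl, Walk.single ((he.smul u'⁻¹).oedge fun hc => ?_)⟩
      refine hz k (w s) ?_
      have h5 := (H k).mul_mem ((H k).inv_mem c1) c2
      have h6 := (H k).mul_mem h5 ((H k).inv_mem hc.2)
      have e : (u⁻¹ * w s)⁻¹ * (u⁻¹ * w (s + 1)) * (u'⁻¹ * w (s + 1))⁻¹ = (w s)⁻¹ * z * w s := by
        rw [hu1]; group
      rwa [e] at h6
    have l4 := ((l2.trans l3).trans l1).symm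
    rw [e1, ← hu', inv_mul_cancel] at l4
    exact l4.mono (by omega)
  · by_contra hdeep
    apply hdeep
    set t := s + D with ht
    set u' := w (t - l) with hu'
    have hu1 : w t = z * u' := by
      have := w1 (t - l)
      rwa [show t - l + l = t by omega] at this
    have hu2 : w (t + 1) = z * w (t - l + 1) := by
      have := w1 (t - l + 1)
      rwa [show t - l + 1 + l = t + 1 by omega] at this
    have e1 : u'⁻¹ * w (t - l + 1) = (w t)⁻¹ * w (t + 1) := by
      rw [hu1, hu2]; group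
    have hmem : u'⁻¹ * w (t - l + 1) ∈ H k := by
      rw [e1]
      have := (H k).mul_mem ((H k).inv_mem c3) c4
      have e : (u⁻¹ * w t)⁻¹ * (u⁻¹ * w (t + 1)) = (w t)⁻¹ * w (t + 1) := by group
      rwa [e] at this
    have hone : u'⁻¹ * w (t - l) ∈ H k := by
      rw [hu', inv_mul_cancel]; exact (H k).one_mem
    have l1 : Lnk X H k (t - l - (s + 1)) (u'⁻¹ * w (s + 1)) (u'⁻¹ * w (t - l)) := by
      refine ray_lnk w2 (by omega) fun r hr1 hr2 hc => hdeep ?_
      have := (ih (t - l - r) (by omega) (by (clear * - hl hfar hr2; omega)) (by (clear * - hDK hl hfar hr1; omega)) r k u' hc.1 hc.2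
        (by rw [show r + (t - l - r) = t - l by (clear * - hl hfar hr2; omega)]; exact hone)
        (by rw [show r + (t - l - r) = t - l by (clear * - hl hfar hr2; omega)]; exact hmem)).2
      rw [show r + (t - l - r) = t - l by (clear * - hl hfar hr2; omega)] at this
      rwa [← hu', e1] at this
    have l2 : Lnk X H k (t - (t - l + 1)) (u'⁻¹ * w (t - l + 1)) (u'⁻¹ * w t) := by
      refine ray_lnk w2 (by omega) fun r hr1 hr2 hc => ?_
      have := S.ray_far w1 w2 w3 hz (s := t - l) (t := r) (by omega) hone hmem hc.1 hc.2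
      omega
    have l3 : Lnk X H k 1 (u'⁻¹ * w t) (u'⁻¹ * w (s + 1)) := by
      refine ⟨1, le_rfl, Walk.single ((he.smul u'⁻¹).oedge fun hc => ?_)⟩
      refine hz k u' ?_
      have e : u'⁻¹ * w t = u'⁻¹ * z * u' := by
        rw [hu1, mul_assoc]
      rw [← e]
      exact hc.1
    have l4 := ((l2.trans l3).trans l1).symm
    rw [e1, ← hu', inv_mul_cancel] at l4
    exact l4.mono (by omega)

include hz in
/-- No coset is crossed deeply. -/
theorem ray_shallow {M : ℕ} (hM : ∀ n : ℕ, rdist X H (w 0) (z ^ n * w 0) ≤ M) {s : ℕ}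
    (hs : s < l) {k : ι} (hk : (w s)⁻¹ * w (s + 1) ∈ H k) :
    Lnk X H k ((M + 1) * l + M) 1 ((w s)⁻¹ * w (s + 1)) := by
  by_contra hdeep
  have hl : 0 < l := by omega
  have wn : ∀ n t : ℕ, w (t + n * l) = z ^ n * w t := by
    intro n
    induction n with
    | zero => intro t; simp
    | succ n ih =>
      intro t
      rw [show t + (n + 1) * l = (t + n * l) + l by ring, w1, ih, pow_succ', mul_assoc]
  obtain ⟨y, y0, yn, hy, yd⟩ := S.geo (w (0 + (M + 1) * l)) (w 0)
  set n' := rdist X H (w (0 + (M + 1) * l)) (w 0) with hn'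
  have hn'M : n' ≤ M := by
    rw [hn', wn, rdist_symm]
    exact hM _
  -- the deep edges
  have hedge : ∀ j, (w (s + j * l))⁻¹ * w (s + j * l + 1) = (w s)⁻¹ * w (s + 1) := by
    intro j
    rw [wn, show s + j * l + 1 = (s + 1) + j * l by ring, wn]
    group
  have hmem : ∀ j, (w (s + j * l))⁻¹ * w (s + j * l + 1) ∈ H k := by
    intro j
    rw [hedge]; exact hk
  have hone : ∀ j, (w (s + j * l))⁻¹ * w (s + j * l) ∈ H k := by
    intro j
    rw [inv_mul_cancel]; exact (H k).one_mem
  have hjl : ∀ j, j ≤ M → s + j * l < (M + 1) * l := by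
    intro j hj
    have : j * l ≤ M * l := Nat.mul_le_mul_right _ hj
    have e : (M + 1) * l = M * l + l := by ring
    omega
  have key : ∀ j : Fin (M + 1), ∃ i : Fin M, (w (s + (j : ℕ) * l))⁻¹ * y i ∈ H k := by
    intro j
    have hj := hjl j (by have := j.2; omega)
    set u := w (s + (j : ℕ) * l) with hu
    by_contra hcon
    push Not at hcon
    apply hdeep
    have l1 : Lnk X H k (s + (j : ℕ) * l - 0) (u⁻¹ * w 0) (u⁻¹ * w (s + (j : ℕ) * l)) := by
      refine ray_lnk w2 (by omega) fun r hr1 hr2 hc => hdeep ?_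
      have := (S.ray_once w1 w2 w3 hz (K := (M + 1) * l + M) (s + (j : ℕ) * l - r)
        (by omega) (by omega) r k u hc.1 hc.2
        (by rw [show r + (s + (j : ℕ) * l - r) = s + (j : ℕ) * l by omega]; exact hone j)
        (by rw [show r + (s + (j : ℕ) * l - r) = s + (j : ℕ) * l by omega]; exact hmem j)).2
      rw [show r + (s + (j : ℕ) * l - r) = s + (j : ℕ) * l by omega] at this
      rwa [hedge] at this
    have l2 : Lnk X H k ((M + 1) * l - (s + (j : ℕ) * l + 1)) (u⁻¹ * w (s + (j : ℕ) * l + 1))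
        (u⁻¹ * w ((M + 1) * l)) := by
      refine ray_lnk w2 (by (clear * - hj; omega)) fun r hr1 hr2 hc => hdeep ?_
      have := (S.ray_once w1 w2 w3 hz (K := (M + 1) * l + M) (r - (s + (j : ℕ) * l))
        (by omega) (by omega) (s + (j : ℕ) * l) k u (hone j) (hmem j)
        (by rw [show s + (j : ℕ) * l + (r - (s + (j : ℕ) * l)) = r by (clear * - hr1; omega)]; exact hc.1)
        (by rw [show s + (j : ℕ) * l + (r - (s + (j : ℕ) * l)) = r by omega]; exact hc.2)).1
      rwa [hedge] at this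
    have l3 : Lnk X H k n' (u⁻¹ * w ((M + 1) * l)) (u⁻¹ * w 0) := by
      have hw : Walk (OEdge X H k) (n' - 0) (u⁻¹ * y 0) (u⁻¹ * y n') := by
        refine walk_of_fun (v := fun i => u⁻¹ * y i) (Nat.zero_le _) fun i _ hi => ?_
        refine ((hy i hi).smul u⁻¹).oedge fun hc => ?_
        exact hcon ⟨i, by omega⟩ hc.1
      rw [y0, yn, zero_add, Nat.sub_zero] at hw
      exact ⟨n', le_rfl, hw⟩
    have l4 := ((l2.trans l3).trans l1).symm
    rw [hedge, hu, inv_mul_cancel] at l4
    exact l4.mono (by omega)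
  choose i hi using key
  obtain ⟨j, j', hjj, hij⟩ := Fintype.exists_ne_map_eq_of_card_lt i (by simp only [Fintype.card_fin, lt_add_iff_pos_right, Order.lt_one_iff])
  wlog hlt : j < j' generalizing j j'
  · exact this j' j hjj.symm hij.symm (lt_of_le_of_ne (not_lt.1 hlt) hjj.symm)
  set u := w (s + (j : ℕ) * l) with hu
  have h1 := hi j
  have h2 := hi j'
  rw [← hij] at h2
  have h3 : u⁻¹ * w (s + (j' : ℕ) * l) ∈ H k := by
    have := (H k).mul_mem h1 ((H k).inv_mem h2)
    have e : u⁻¹ * y (i j) * ((w (s + (j' : ℕ) * l))⁻¹ * y (i j))⁻¹ =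
        u⁻¹ * w (s + (j' : ℕ) * l) := by group
    rwa [e] at this
  have h4 : u⁻¹ * w (s + (j' : ℕ) * l + 1) ∈ H k := by
    have := (H k).mul_mem h3 (hmem j')
    have e : u⁻¹ * w (s + (j' : ℕ) * l) * ((w (s + (j' : ℕ) * l))⁻¹ *
        w (s + (j' : ℕ) * l + 1)) = u⁻¹ * w (s + (j' : ℕ) * l + 1) := by group
    rwa [e] at this
  apply hdeep
  have hlt' : (j : ℕ) < (j' : ℕ) := hlt
  have h5 : (j : ℕ) * l < (j' : ℕ) * l := Nat.mul_lt_mul_of_pos_right hlt' hl
  have h6 := hjl j' (by have := j'.2; omega)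
  have := (S.ray_once w1 w2 w3 hz (K := (M + 1) * l + M) ((j' : ℕ) * l - (j : ℕ) * l)
    (by omega) (by (clear * - h5 h6; omega)) (s + (j : ℕ) * l) k u (hone j) (hmem j)
    (by rw [show s + (j : ℕ) * l + ((j' : ℕ) * l - (j : ℕ) * l) = s + (j' : ℕ) * l by omega]
        exact h3)
    (by rw [show s + (j : ℕ) * l + ((j' : ℕ) * l - (j : ℕ) * l) = s + (j' : ℕ) * l by omega]
        exact h4)).1
  rwa [hedge] at this

end ray

omit S in
theorem finite_walk {F : Set G} (hF : F.Finite) (n : ℕ) :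
    ∀ p, {q | Walk (fun p q : G => p⁻¹ * q ∈ F) n p q}.Finite := by
  induction n with
  | zero =>
    intro p
    exact (Set.finite_singleton p).subset fun q hq => (show p = q from hq).symm
  | succ n ih =>
    intro p
    refine ((hF.image fun f => p * f).biUnion fun r _ => ih r).subset ?_
    rintro q ⟨r, hr, hq⟩
    exact Set.mem_biUnion (x := r) ⟨p⁻¹ * r, hr, by simp⟩ hq

/-- An element with bounded orbits is conjugate into one of the subgroups or into a fixed
finite set. -/
theorem exists_finite_conj [Finite ι] : ∃ A : Set G, A.Finite ∧ ∀ x : G,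
    (∃ B : ℕ, ∀ n : ℕ, rdist X H 1 (x ^ n) ≤ B) →
    (∃ k u, u⁻¹ * x * u ∈ H k) ∨ ∃ u, u⁻¹ * x * u ∈ A := by
  classical
  set C := 2 * δ + 6 with hC
  set M := C + 2 * C * C with hM
  set K := (M + 1) * C + M with hK
  set F : Set G := X ∪ X⁻¹ ∪ ⋃ k, {h | h ∈ H k ∧ Lnk X H k K 1 h} with hF
  have hFfin : F.Finite := (S.fin.union S.fin.inv).union
    (Set.finite_iUnion fun k => S.finite_lnk K)
  refine ⟨⋃ n ∈ Set.Iic C, {q | Walk (fun p q : G => p⁻¹ * q ∈ F) n 1 q},
    (Set.finite_Iic C).biUnion fun n _ => finite_walk hFfin n 1, ?_⟩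
  rintro x ⟨B, hB⟩
  by_cases hpar : ∃ k u, u⁻¹ * x * u ∈ H k
  · exact Or.inl hpar
  right
  push Not at hpar
  obtain ⟨w₀, hw₀⟩ := S.hypAct.quasiCentre (x := x) (p := 1) (B := B) (fun n => by
    simpa only [smul_eq_mul, mul_one, Nat.cast_le] using hB n)
  have hconj : ∀ (u : G) (n : ℕ), (u⁻¹ * x * u) ^ n = u⁻¹ * x ^ n * u := by
    intro u n
    have := conj_pow (a := u⁻¹) (b := x) (i := n)
    rwa [inv_inv] at this
  let P : ℕ → Prop := fun l => ∃ u, rdist X H 1 (u⁻¹ * x * u) ≤ l ∧
    ∀ n : ℕ, rdist X H 1 ((u⁻¹ * x * u) ^ n) ≤ C + 2 * C * (C - l)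
  have hPC : P C := by
    have h1 : ∀ n : ℕ, rdist X H 1 ((w₀⁻¹ * x * w₀) ^ n) ≤ C := by
      intro n
      have h2 := hw₀ n
      rw [zpow_natCast, smul_eq_mul] at h2
      rw [hconj, ← rdist_smul w₀]
      have h3 : w₀ * (w₀⁻¹ * x ^ n * w₀) = x ^ n * w₀ := by group
      rw [h3, mul_one]
      have h4 : (rdist X H w₀ (x ^ n * w₀) : ℝ) ≤ (C : ℝ) := by
        rw [hC]; push_cast; linarith only [h2]
      exact_mod_cast h4
    refine ⟨w₀, ?_, fun n => (h1 n).trans (Nat.le_add_right _ _)⟩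
    have := h1 1
    rwa [pow_one] at this
  have hex : ∃ l, P l := ⟨C, hPC⟩
  set l := Nat.find hex with hl
  have hlC : l ≤ C := Nat.find_min' hex hPC
  obtain ⟨u, hu1, hu2⟩ := Nat.find_spec hex
  rw [← hl] at hu1 hu2
  have hmin : ∀ u' : G, l ≤ C → 0 < l → rdist X H 1 (u'⁻¹ * x * u') < l →
      (∀ n : ℕ, rdist X H 1 ((u'⁻¹ * x * u') ^ n) ≤ C + 2 * C * (C - l) + 2 * C) → False := by
    intro u' _ hl0 h1 h2
    refine Nat.find_min hex (m := l - 1) (by (clear * - hex hPC hl0; omega)) ⟨u', by omega, fun n => (h2 n).trans ?_⟩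
    have h3 : C - (l - 1) = C - l + 1 := by omega
    rw [h3]
    exact le_of_eq (by ring)
  set z := u⁻¹ * x * u with hz
  have hzl : rdist X H 1 z = l := by
    by_contra hne
    refine hmin u hlC (by omega) ?_ fun n => (hu2 n).trans (Nat.le_add_right _ _)
    rw [← hz]
    omega
  have hzpar : ∀ k u', u'⁻¹ * z * u' ∉ H k := by
    intro k u' h
    apply hpar k (u * u')
    have : (u * u')⁻¹ * x * (u * u') = u'⁻¹ * z * u' := by rw [hz]; group
    rwa [this]
  refine ⟨u, ?_⟩
  refine Set.mem_biUnion (x := l) hlC ?_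
  rcases Nat.eq_zero_or_pos l with h0 | hl0
  · rw [h0] at hzl ⊢
    exact S.eq_of_zero hzl
  obtain ⟨v, v0, vn, hv, vd⟩ := S.geo 1 z
  rw [hzl] at vn hv vd
  have w1 : ∀ t, wpath z v l (t + l) = z * wpath z v l t := wpath_add hl0
  have w2 : ∀ t, Edge X H (wpath z v l t) (wpath z v l (t + 1)) := wpath_edge hl0 v0 vn hv
  have hw0 : wpath z v l 0 = 1 := by rw [wpath_lt hl0, v0]
  have hwt : ∀ t, t ≤ l → wpath z v l t = v t := by
    intro t ht
    rcases Nat.lt_or_ge t l with h | h
    · exact wpath_lt h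
    · have : t = 0 + l := by (clear * - hPC hex hzl ht h; omega)
      rw [this, w1, hw0, zero_add, vn, mul_one]
  have w3 : ∀ t, l ≤ rdist X H (wpath z v l t) (z * wpath z v l t) := by
    intro t
    by_contra hlt
    set j := t % l with hj
    have hjl : j < l := Nat.mod_lt _ hl0
    have e1 : rdist X H (wpath z v l t) (z * wpath z v l t) = rdist X H (v j) (z * v j) := by
      unfold wpath
      rw [← hj, show z * (z ^ (t / l) * v j) = z ^ (t / l) * (z * v j) by
        rw [← mul_assoc, ← mul_assoc, ← pow_succ, ← pow_succ'], rdist_smul]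
    rw [e1] at hlt
    have e2 : (u * v j)⁻¹ * x * (u * v j) = (v j)⁻¹ * z * v j := by rw [hz]; group
    refine hmin (u * v j) hlC hl0 ?_ fun n => ?_
    · rw [e2, ← rdist_smul (v j)]
      have e3 : v j * ((v j)⁻¹ * z * v j) = z * v j := by group
      rw [e3, mul_one]
      omega
    · have e4 : ((u * v j)⁻¹ * x * (u * v j)) ^ n = (v j)⁻¹ * z ^ n * v j := by
        rw [e2]
        have := conj_pow (a := (v j)⁻¹) (b := z) (i := n)
        rwa [inv_inv] at this
      rw [e4, ← rdist_smul (v j)]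
      have e3 : v j * ((v j)⁻¹ * z ^ n * v j) = z ^ n * v j := by group
      rw [e3, mul_one]
      have t1 := S.tri (v j) 1 (z ^ n * v j)
      have t2 := S.tri 1 (z ^ n) (z ^ n * v j)
      have t3 : rdist X H (z ^ n) (z ^ n * v j) = rdist X H 1 (v j) := by
        conv_lhs => rw [← mul_one (z ^ n), mul_assoc, one_mul]
        exact rdist_smul _ _ _
      have t4 : rdist X H 1 (v j) = j := by
        have := vd 0 j (Nat.zero_le _) hjl.le
        rwa [v0] at this
      rw [rdist_symm (v j) 1] at t1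
      have := hu2 n
      omega
  have hMM : ∀ n : ℕ, rdist X H (wpath z v l 0) (z ^ n * wpath z v l 0) ≤ M := by
    intro n
    rw [hw0, mul_one]
    refine (hu2 n).trans ?_
    rw [hM]
    have : 2 * C * (C - l) ≤ 2 * C * C := Nat.mul_le_mul_left _ (by omega)
    omega
  have hstep : ∀ i, 0 ≤ i → i < l → (v i)⁻¹ * v (i + 1) ∈ F := by
    intro i _ hi
    rcases hv i hi with h | h | ⟨k, h⟩
    · exact Or.inl (Or.inl h)
    · refine Or.inl (Or.inr ?_)
      rw [Set.mem_inv]
      have : ((v i)⁻¹ * v (i + 1))⁻¹ = (v (i + 1))⁻¹ * v i := by group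
      rwa [this]
    · refine Or.inr (Set.mem_iUnion.2 ⟨k, h, ?_⟩)
      have h1 := S.ray_shallow w1 w2 w3 hzpar hMM (s := i) hi (k := k)
      rw [hwt i hi.le, hwt (i + 1) hi] at h1
      refine (h1 h).mono ?_
      rw [hK]
      have : (M + 1) * l ≤ (M + 1) * C := Nat.mul_le_mul_left _ hlC
      (clear * - hPC hex this; omega)
  have hfin := walk_of_fun (R := fun p q : G => p⁻¹ * q ∈ F) (v := v) (Nat.zero_le l) hstep
  rw [v0, vn, Nat.sub_zero] at hfin
  exact hfin

end RH

end Vale.Agent.P184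
end
end

section

section

/-!
# Relatively hyperbolic groups: torsion classes and the full conjecture
-/

namespace Vale.Agent.P184

namespace RH

variable {G : Type*} [Group G] {ι : Type*} {X : Set G} {H : ι → Subgroup G} {δ : ℕ}
  (S : RH X H δ)
include S

/-- If the peripheral subgroups have finitely many conjugacy classes of elements of finite order
so has the group. -/
theorem finite_torsion [Finite ι]
    (hH : ∀ k, {C : ConjClasses (H k) | IsTorsionClass C}.Finite) :
    {C : ConjClasses G | IsTorsionClass C}.Finite := by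
  obtain ⟨A, hA, h⟩ := S.exists_finite_conj
  refine ((hA.image ConjClasses.mk).union (Set.finite_iUnion fun k =>
    (hH k).image (ConjClasses.map (H k).subtype))).subset ?_
  intro C hC
  obtain ⟨x, rfl⟩ := ConjClasses.mk_surjective C
  have hx : IsOfFinOrder x := hC x ConjClasses.mem_carrier_mk
  have hconj : ∀ u : G, ConjClasses.mk (u⁻¹ * x * u) = ConjClasses.mk x := by
    intro u
    rw [ConjClasses.mk_eq_mk_iff_isConj]
    exact (isConj_iff.mpr ⟨u⁻¹, by group⟩ : IsConj x (u⁻¹ * x * u)).symm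
  have hb : ∃ B : ℕ, ∀ n : ℕ, rdist X H 1 (x ^ n) ≤ B := by
    have hfin : (Set.range fun n : ℕ => x ^ n).Finite := by
      refine hx.finite_powers.subset ?_
      rintro _ ⟨n, rfl⟩
      exact ⟨n, rfl⟩
    obtain ⟨B, hB⟩ := (hfin.image fun g => rdist X H 1 g).bddAbove
    exact ⟨B, fun n => hB ⟨_, ⟨n, rfl⟩, rfl⟩⟩
  rcases h x hb with ⟨k, u, hu⟩ | ⟨u, hu⟩
  · right
    refine Set.mem_iUnion.2 ⟨k, ConjClasses.mk ⟨_, hu⟩, ?_, ?_⟩
    · refine isTorsionClass_mk.mpr ?_
      refine (Submonoid.isOfFinOrder_coe (H := (H k).toSubmonoid) (x := ⟨_, hu⟩)).mp ?_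
      exact isTorsionClass_mk.mp (by rw [hconj u]; exact hC)
    · rw [← hconj u]
      rfl
  · left
    exact ⟨_, hu, hconj u⟩

end RH

/-- Relatively hyperbolic groups whose peripheral subgroups have finitely many classes of
elements of finite order, and in which all elements of infinite order are tame. -/
theorem RelHyperbolic.finite_torsion {G : Type*} [Group G] {ι : Type*} {H : ι → Subgroup G}
    (hG : RelHyperbolic H) (hH : ∀ k, {C : ConjClasses (H k) | IsTorsionClass C}.Finite) :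
    {C : ConjClasses G | IsTorsionClass C}.Finite := by
  obtain ⟨hfin, X, δ, S⟩ := hG.exists_rh
  exact S.finite_torsion hH

theorem RelHyperbolic.l1Bass {G : Type*} [Group G] {ι : Type*} {H : ι → Subgroup G}
    (hG : RelHyperbolic H) (hH : ∀ l (y : H l), ¬ IsOfFinOrder y → Tame y)
    (hT : ∀ k, {C : ConjClasses (H k) | IsTorsionClass C}.Finite) : L1Bass G :=
  l1Bass_of_finite_torsion (fun x hx => vanishesAt_of_tame (hG.tame hH x hx))
    (hG.finite_torsion hT)

end Vale.Agent.P184
end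
end

section

section

/-!
# Relatively hyperbolic groups whose peripheral subgroups have slow maps
-/

noncomputable section

namespace Vale.Agent.P184

theorem IsAmenable.of_surjective {A B : Type*} [Group A] [Group B] (f : A →* B)
    (hf : Function.Surjective f) (h : IsAmenable A) : IsAmenable B := by
  obtain ⟨m, h1, h2, h3, h4⟩ := h
  refine ⟨fun φ => m fun a => φ (f a), ?_, ?_, ?_, ?_⟩
  · rintro φ ψ ⟨K, hK⟩ ⟨L, hL⟩
    exact h1 _ _ ⟨K, fun a => hK _⟩ ⟨L, fun a => hL _⟩
  · rintro φ ⟨K, hK⟩ h0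
    exact h2 _ ⟨K, fun a => hK _⟩ fun a => h0 _
  · intro c
    exact h3 c
  · rintro φ k ⟨K, hK⟩
    obtain ⟨a, rfl⟩ := hf k
    have := h4 (fun b => φ (f b)) a ⟨K, fun a => hK _⟩
    simpa only [map_mul] using this

/-- Slow maps pull back. -/
theorem slow_pull {G K : Type*} [Group G] [Group K] {x : G} {y : K} (π : G → K)
    (h : ∀ p, π (x * p) = y * π p) {S : Set G} {T : Set K}
    (hT : ∀ s ∈ S, ∀ p, (π p)⁻¹ * π (p * s) ∈ T) {δ : ℝ} (hs : Slow y T δ) : Slow x S δ := by
  obtain ⟨ι, _, ζ, u, h1, h2, h3, h4⟩ := hs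
  refine ⟨ι, inferInstance, ζ, fun p => u (π p), h1, fun p j => ?_, fun p => h3 _,
    fun s hs p => ?_⟩
  · simp only
    rw [h, h2]
  · have h5 := h4 _ (hT s hs p) (π p)
    rwa [mul_inv_cancel_left] at h5

/-- Conjugation. -/
theorem slow_conj {K : Type*} [Group K] {x y : K} (h : IsConj x y) {S : Set K} {δ : ℝ}
    (hs : Slow x S δ) : Slow y S δ := by
  obtain ⟨c, rfl⟩ := isConj_iff.mp h
  refine slow_pull (fun p => c⁻¹ * p) (fun p => by group) (T := S) (fun s hs p => ?_) hs
  have : (c⁻¹ * p)⁻¹ * (c⁻¹ * (p * s)) = s := by group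
  rwa [this]

theorem amenable_centralizer_conj {K : Type*} [Group K] {x y : K} (h : IsConj x y)
    (hx : IsAmenable (Subgroup.centralizer ({x} : Set K))) :
    IsAmenable (Subgroup.centralizer ({y} : Set K)) := by
  obtain ⟨c, rfl⟩ := isConj_iff.mp h
  let f : Subgroup.centralizer ({x} : Set K) →* Subgroup.centralizer ({c * x * c⁻¹} : Set K) :=
    { toFun := fun g => ⟨c * g * c⁻¹, by
        rw [Subgroup.mem_centralizer_singleton_iff]
        have := Subgroup.mem_centralizer_singleton_iff.mp g.2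
        calc c * g * c⁻¹ * (c * x * c⁻¹) = c * (g * x) * c⁻¹ := by group
          _ = c * (x * g) * c⁻¹ := by rw [this]
          _ = c * x * c⁻¹ * (c * g * c⁻¹) := by group⟩
      map_one' := Subtype.ext (by simp only [OneMemClass.coe_one, mul_one, mul_inv_cancel])
      map_mul' := fun _ _ => Subtype.ext (by simp only [Subgroup.coe_mul, mul_assoc, MulMemClass.mk_mul_mk, inv_mul_cancel_left]) }
  refine IsAmenable.of_surjective f ?_ hx
  rintro ⟨g, hg⟩
  have hg2 := Subgroup.mem_centralizer_singleton_iff.mp hg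
  refine ⟨⟨c⁻¹ * g * c, ?_⟩, Subtype.ext ?_⟩
  · rw [Subgroup.mem_centralizer_singleton_iff]
    calc c⁻¹ * g * c * x = c⁻¹ * (g * (c * x * c⁻¹)) * c := by group
      _ = c⁻¹ * ((c * x * c⁻¹) * g) * c := by rw [hg2]
      _ = x * (c⁻¹ * g * c) := by group
  · change c * (c⁻¹ * g * c) * c⁻¹ = g
    group

theorem slowPair_conj {K : Type*} [Group K] {x y : K} (h : IsConj x y) {S : Set K} {δ : ℝ}
    (hs : IsAmenable (Subgroup.centralizer ({x} : Set K)) ∧ Slow x S δ) :
    IsAmenable (Subgroup.centralizer ({y} : Set K)) ∧ Slow y S δ :=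
  ⟨amenable_centralizer_conj h hs.1, slow_conj h hs.2⟩

/-- Amenable centralizer and arbitrarily slow maps. -/
def Good {K : Type*} [Group K] (y : K) : Prop :=
  IsAmenable (Subgroup.centralizer ({y} : Set K)) ∧
    ∀ S : Set K, S.Finite → ∀ δ : ℝ, 0 < δ → Slow y S δ

/-- For every finite set and every `δ`, all torsion elements outside finitely many classes have
amenable centralizers and slow maps. -/
def TGood (K : Type*) [Group K] : Prop :=
  ∀ S : Set K, S.Finite → ∀ δ : ℝ, 0 < δ → ∃ B : Set K, B.Finite ∧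
    ∀ y, IsOfFinOrder y → (∀ b ∈ B, ¬ IsConj b y) →
      IsAmenable (Subgroup.centralizer ({y} : Set K)) ∧ Slow y S δ

theorem vanishesAt_of_good {G : Type*} [Group G] {x : G} (hx : Good x) : VanishesAt x := by
  intro q e he
  obtain ⟨S, δ, hδ, h⟩ := exists_slow_param e he
  exact h (MonoidHom.id G) x hx.1 (hx.2 _ (S.finite_toSet.image _) δ hδ)

/-- The conjecture for `G`, if its torsion is good and the elements of infinite order satisfy
the vanishing statement. -/
theorem l1Bass_of_tgood {G : Type*} [Group G] (h0 : ∀ x : G, ¬ IsOfFinOrder x → VanishesAt x)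
    (hT : TGood G) : L1Bass G := by
  classical
  intro q e he
  obtain ⟨S, δ, hδ, h⟩ := exists_slow_param e he
  obtain ⟨B, hB, hB2⟩ := hT (MonoidHom.id G '' (S : Set G)) (S.finite_toSet.image _) δ hδ
  refine ⟨(hB.image ConjClasses.mk).toFinset.filter fun C => IsTorsionClass C,
    fun C hC => (Finset.mem_filter.mp hC).2, fun C hC => ?_⟩
  obtain ⟨x, rfl⟩ := ConjClasses.mk_surjective C
  by_cases hx : IsOfFinOrder x
  · have hconj : ∀ b ∈ B, ¬ IsConj b x := by
      intro b hb hbx
      apply hC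
      rw [Finset.mem_filter, Set.Finite.mem_toFinset]
      refine ⟨⟨b, hb, ConjClasses.mk_eq_mk_iff_isConj.mpr hbx⟩, ?_⟩
      intro g hg
      rw [ConjClasses.mem_carrier_iff_mk_eq, ConjClasses.mk_eq_mk_iff_isConj] at hg
      exact hg.symm.isOfFinOrder hx
    obtain ⟨h1, h2⟩ := hB2 x hx hconj
    exact h (MonoidHom.id G) x h1 h2
  · exact h0 x hx q e he

/-- The centralizer of an element of `H l` is amenable if it is contained in `H l` and the
centralizer in `H l` is amenable. -/
theorem amenable_centralizer_of_le {G : Type*} [Group G] {H : Subgroup G}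
    {y : H} (h : ∀ g : G, Commute g y → g ∈ H)
    (hy : IsAmenable (Subgroup.centralizer ({y} : Set H))) :
    IsAmenable (Subgroup.centralizer ({(y : G)} : Set G)) := by
  let f : Subgroup.centralizer ({y} : Set H) →* Subgroup.centralizer ({(y : G)} : Set G) :=
    { toFun := fun g => ⟨(g : H), by
        rw [Subgroup.mem_centralizer_singleton_iff]
        have := Subgroup.mem_centralizer_singleton_iff.mp g.2
        exact congrArg Subtype.val this⟩
      map_one' := rfl
      map_mul' := fun _ _ => rfl }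
  refine IsAmenable.of_surjective f ?_ hy
  rintro ⟨g, hg⟩
  have hg2 := Subgroup.mem_centralizer_singleton_iff.mp hg
  have hgH : g ∈ H := h g hg2
  exact ⟨⟨⟨g, hgH⟩, Subgroup.mem_centralizer_singleton_iff.mpr (Subtype.ext hg2)⟩, rfl⟩

namespace RH

variable {G : Type*} [Group G] {ι : Type*} {X : Set G} {H : ι → Subgroup G} {δ : ℕ}
  (S : RH X H δ)
include S

/-- All steps of the projection along a finite set. -/
theorem finite_all_steps (l : ι) {T : Set G} (hT : T.Finite) :
    {h : H l | ∃ s ∈ T, ∃ p, (S.prj l p)⁻¹ * S.prj l (p * s) = h}.Finite := by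
  have h1 : {h : H l | ∃ s ∈ T, ∃ p, (S.prj l p)⁻¹ * S.prj l (p * s) = h} =
      ⋃ s ∈ T, Set.range fun p => (S.prj l p)⁻¹ * S.prj l (p * s) := by
    ext h
    simp only [Set.mem_ofPred_eq, Set.mem_iUnion, Set.mem_range, exists_prop]
  rw [h1]
  exact hT.biUnion fun s _ => S.finite_steps l s

theorem slow_of_peripheral {l : ι} {y : H l} {T : Set G} {ε : ℝ}
    (h : Slow y {h : H l | ∃ s ∈ T, ∃ p, (S.prj l p)⁻¹ * S.prj l (p * s) = h} ε) :
    Slow (y : G) T ε :=
  slow_pull (y := y) (S.prj l) (fun p => Subtype.ext (proj_smul y.2 p))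
    (T := {h : H l | ∃ s ∈ T, ∃ p, (S.prj l p)⁻¹ * S.prj l (p * s) = h})
    (fun s hs p => ⟨s, hs, p, rfl⟩) h

theorem good_of_peripheral {l : ι} {y : H l} (hy : ¬ IsOfFinOrder y) (h : Good y) :
    Good (y : G) := by
  have hy' : ¬ IsOfFinOrder (y : G) := by
    rwa [Submonoid.isOfFinOrder_coe (H := (H l).toSubmonoid)]
  refine ⟨amenable_centralizer_of_le (fun g hg => S.mem_of_commute y.2 hy' hg) h.1,
    fun T hT ε hε => S.slow_of_peripheral (h.2 _ (S.finite_all_steps l hT) ε hε)⟩

/-- An element of `H l` commuting with an element outside of `H l` is conjugate in `H l` to an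
element of a fixed finite set. -/
theorem exists_conj_of_commute {l : ι} {y g : G} (hy : y ∈ H l) (hg : Commute g y)
    (hgl : g ∉ H l) : ∃ a ∈ H l, a⁻¹ * (y * a) ∈ {h | h ∈ H l ∧ Lnk X H l (6 * δ + 8) 1 h} := by
  refine ⟨proj X H l g, proj_mem l g, (H l).mul_mem ((H l).inv_mem (proj_mem l g))
    ((H l).mul_mem hy (proj_mem l g)), ?_⟩
  have h1 : OEdge X H l g (y * g) := by
    refine Or.inr (Or.inr ⟨l, ?_, fun h => hgl h.2⟩)
    rw [← hg.eq, inv_mul_cancel_left]
    exact hy
  have h2 := S.proj_step h1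
  rw [proj_smul hy] at h2
  exact h2.inv_mul (proj_mem l g)

theorem tgood [Finite ι] (hH : ∀ k, TGood (H k)) : TGood G := by
  intro T hT ε hε
  obtain ⟨A, hA, hA2⟩ := S.exists_finite_conj
  choose B hB hB2 using fun k => hH k _ (S.finite_all_steps k hT) ε hε
  refine ⟨A ∪ ((⋃ k, ((↑) '' B k : Set G)) ∪ ⋃ k, {h | h ∈ H k ∧ Lnk X H k (6 * δ + 8) 1 h}),
    hA.union ((Set.finite_iUnion fun k => (hB k).image _).union
      (Set.finite_iUnion fun k => S.finite_lnk _)), ?_⟩
  intro x hx hconj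
  have hb : ∃ B : ℕ, ∀ n : ℕ, rdist X H 1 (x ^ n) ≤ B := by
    have hfin : (Set.range fun n : ℕ => x ^ n).Finite := by
      refine hx.finite_powers.subset ?_
      rintro _ ⟨n, rfl⟩
      exact ⟨n, rfl⟩
    obtain ⟨B, hB⟩ := (hfin.image fun g => rdist X H 1 g).bddAbove
    exact ⟨B, fun n => hB ⟨_, ⟨n, rfl⟩, rfl⟩⟩
  rcases hA2 x hb with ⟨k, u, hu⟩ | ⟨u, hu⟩
  · set y : H k := ⟨u⁻¹ * x * u, hu⟩ with hy
    have hxy : IsConj (y : G) x := isConj_iff.mpr ⟨u, by rw [hy]; group⟩
    have hyfin : IsOfFinOrder y := by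
      refine (Submonoid.isOfFinOrder_coe (H := (H k).toSubmonoid) (x := y)).mp ?_
      exact hxy.symm.isOfFinOrder hx
    have h1 : ∀ b ∈ B k, ¬ IsConj b y := by
      intro b hb hby
      refine hconj b (Or.inr (Or.inl (Set.mem_iUnion.2 ⟨k, b, hb, rfl⟩))) ?_
      exact ((H k).subtype.map_isConj hby).trans hxy
    have h2 : ∀ g : G, Commute g y → g ∈ H k := by
      intro g hg
      by_contra hgk
      obtain ⟨a, ha, hay⟩ := S.exists_conj_of_commute y.2 hg hgk
      refine hconj _ (Or.inr (Or.inr (Set.mem_iUnion.2 ⟨k, hay⟩))) (IsConj.trans ?_ hxy)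
      exact isConj_iff.mpr ⟨a, by group⟩
    obtain ⟨h3, h4⟩ := hB2 k y hyfin h1
    exact slowPair_conj hxy ⟨amenable_centralizer_of_le h2 h3, S.slow_of_peripheral h4⟩
  · exact absurd (isConj_iff.mpr ⟨u, by group⟩ : IsConj (u⁻¹ * x * u) x) (hconj _ (Or.inl hu))

end RH

theorem RelHyperbolic.tgood {G : Type*} [Group G] {ι : Type*} {H : ι → Subgroup G}
    (hG : RelHyperbolic H) (hH : ∀ k, TGood (H k)) : TGood G := by
  obtain ⟨hfin, X, δ, S⟩ := hG.exists_rh
  exact S.tgood hH

theorem good_conj {K : Type*} [Group K] {x y : K} (h : IsConj x y) (hx : Good x) : Good y :=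
  ⟨amenable_centralizer_conj h hx.1, fun S hS δ hδ => slow_conj h (hx.2 S hS δ hδ)⟩

/-- The elements of infinite order of a relatively hyperbolic group are tame or good if those of
the peripheral subgroups are. -/
theorem RelHyperbolic.tame_or_good {G : Type*} [Group G] {ι : Type*} {H : ι → Subgroup G}
    (hG : RelHyperbolic H) (hH : ∀ l (y : H l), ¬ IsOfFinOrder y → Tame y ∨ Good y) (x : G)
    (hx : ¬ IsOfFinOrder x) : Tame x ∨ Good x := by
  obtain ⟨hfin, X, δ, S⟩ := hG.exists_rh
  rcases S.charged_or_parabolic hx with h | ⟨l, w, h⟩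
  · exact Or.inl (tame_of_charged h)
  · have hx' : ¬ IsOfFinOrder (w⁻¹ * x * w) := by
      intro h'
      apply hx
      refine IsConj.isOfFinOrder (isConj_iff.2 ⟨w, ?_⟩) h'
      group
    have h3 : ¬ IsOfFinOrder (⟨w⁻¹ * x * w, h⟩ : H l) := by
      rwa [← Submonoid.isOfFinOrder_coe (H := (H l).toSubmonoid)]
    rcases hH l _ h3 with h4 | h4
    · exact Or.inl (Tame.conj w (S.tame_of_peripheral h3 h4))
    · exact Or.inr (good_conj (isConj_iff.2 ⟨w, by group⟩) (S.good_of_peripheral h3 h4))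

theorem vanishesAt_of_tame_or_good {G : Type*} [Group G] {x : G} (h : Tame x ∨ Good x) :
    VanishesAt x :=
  h.elim vanishesAt_of_tame vanishesAt_of_good

/-- The full conjecture for relatively hyperbolic groups whose peripheral subgroups are such that
all elements of infinite order are tame or good, and the elements of finite order are good up to
finitely many classes. -/
theorem RelHyperbolic.l1Bass_of_good {G : Type*} [Group G] {ι : Type*} {H : ι → Subgroup G}
    (hG : RelHyperbolic H) (hH : ∀ l (y : H l), ¬ IsOfFinOrder y → Tame y ∨ Good y)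
    (hT : ∀ k, TGood (H k)) : L1Bass G :=
  l1Bass_of_tgood (fun x hx => vanishesAt_of_tame_or_good (hG.tame_or_good hH x hx))
    (hG.tgood hT)

/-- Groups satisfying Følner's condition. -/
theorem tgood_of_folner {K : Type*} [Group K] (hK : Folner K)
    (hA : ∀ y : K, IsAmenable (Subgroup.centralizer ({y} : Set K))) : TGood K := by
  intro S hS δ hδ
  obtain ⟨B, hB, hB2⟩ := finite_exceptions hK hS hδ
  exact ⟨B, hB, fun y _ hy => ⟨hA y, hB2 y hy⟩⟩

theorem good_of_folner {K : Type*} [Group K] (hK : Folner K)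
    (hA : ∀ y : K, IsAmenable (Subgroup.centralizer ({y} : Set K))) {y : K}
    (hy : ¬ IsOfFinOrder y) : Good y :=
  ⟨hA y, fun _ hS _ hδ => slow_of_infinite hK (orderOf_eq_zero hy) hS hδ⟩

end Vale.Agent.P184
end
end
end

section

section

/-!
# Local tameness
-/

noncomputable section

namespace Vale.Agent.P184

universe u v w

/-- `x` is tame in every finitely generated subgroup containing it. -/
def LocTame {G : Type*} [Group G] (x : G) : Prop :=
  ∀ (S : Finset G) (h : x ∈ Subgroup.closure (S : Set G)),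
    Tame (⟨x, h⟩ : Subgroup.closure (S : Set G))

theorem tame_conj {G : Type*} [Group G] {x y : G} (h : IsConj x y) (hx : Tame x) :
    Tame y := by
  obtain ⟨c, hc⟩ := isConj_iff.mp h
  refine Tame.conj c ?_
  have h1 : c⁻¹ * y * c = x := by
    rw [← hc]
    group
  rw [h1]
  exact hx

theorem locTame_of_tame {G : Type*} [Group G] {x : G} (hx : Tame x) : LocTame x :=
  fun S h => Tame.map (x := (⟨x, h⟩ : Subgroup.closure (S : Set G)))
    (Subgroup.closure (S : Set G)).subtype hx

theorem locTame_of_locCharged {G : Type*} [Group G] {x : G} (hx : LocCharged x) : LocTame x :=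
  fun S h => tame_of_charged (hx S h)

theorem locTame_of_map {G : Type*} {H : Type*} [Group G] [Group H] (f : G →* H) {x : G}
    (hx : LocTame (f x)) : LocTame x := by
  classical
  intro S h
  have h1 : ∀ g ∈ Subgroup.closure (S : Set G), f g ∈ Subgroup.closure ((S.image f : Finset H) : Set H) := by
    intro g hg
    rw [Finset.coe_image, ← MonoidHom.map_closure]
    exact Subgroup.mem_map_of_mem f hg
  let π : Subgroup.closure (S : Set G) →* Subgroup.closure ((S.image f : Finset H) : Set H) :=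
    { toFun := fun g => ⟨f (g : G), h1 g g.2⟩
      map_one' := Subtype.ext (map_one f)
      map_mul' := fun a b => Subtype.ext (map_mul f (a : G) (b : G)) }
  exact Tame.map π (x := ⟨x, h⟩) (hx (S.image f) (h1 x h))

theorem locTame_conj {G : Type*} [Group G] {x : G} (w : G) (h : LocTame (w⁻¹ * x * w)) :
    LocTame x := by
  have h1 : LocTame (MulAut.conj w⁻¹ x) := by
    rw [MulAut.conj_apply, inv_inv]
    exact h
  exact locTame_of_map (MulAut.conj w⁻¹).toMonoidHom h1

theorem vanishesAt_of_locTame {G : Type u} [Group G] {x : G} (hx : LocTame x) :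
    VanishesAt x := by
  classical
  refine vanishesAt_of_local.{u, u} x fun S => ?_
  obtain ⟨s, hs⟩ := liftsTo_closure S
  refine ⟨Subgroup.closure (S : Set G), inferInstance, _, s, hs, fun y hy => ?_⟩
  refine vanishesAt_of_tame ?_
  obtain ⟨c, hc⟩ := isConj_iff.mp hy
  have hc' : c * x * c⁻¹ = (y : G) := hc
  let S' : Finset G := insert c S
  have hSS : Subgroup.closure (S : Set G) ≤ Subgroup.closure (S' : Set G) :=
    Subgroup.closure_mono (by simp only [Finset.coe_insert, Set.subset_insert, S'])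
  have hcS : c ∈ Subgroup.closure (S' : Set G) := Subgroup.subset_closure (by simp [S'])
  have hyS : (y : G) ∈ Subgroup.closure (S' : Set G) := hSS y.2
  have hxS : x ∈ Subgroup.closure (S' : Set G) := by
    have h1 : x = c⁻¹ * y * c := by rw [← hc']; group
    rw [h1]
    exact Subgroup.mul_mem _ (Subgroup.mul_mem _ (Subgroup.inv_mem _ hcS) hyS) hcS
  have h2 := hx S' hxS
  refine Tame.map (Subgroup.inclusion hSS) (x := y) ?_
  refine tame_conj ?_ h2
  refine isConj_iff.mpr ⟨⟨c, hcS⟩, ?_⟩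
  exact Subtype.ext hc'

theorem l1Bass_of_locTame {G : Type u} [Group G]
    (hG : ∀ x : G, ¬ IsOfFinOrder x → LocTame x) (hfin : LocFinTorsion G) : L1Bass G := by
  refine l1Bass_of_local.{u, u} fun S => ?_
  obtain ⟨s, hs⟩ := liftsTo_closure S
  refine ⟨Subgroup.closure (S : Set G), inferInstance, _, s, hs, ?_⟩
  refine l1Bass_of_finite_torsion (fun x hx => ?_) (hfin S)
  refine vanishesAt_of_tame ?_
  refine hG (x : G) (fun h => hx ?_) S x.2
  exact (Submonoid.isOfFinOrder_coe (H := (Subgroup.closure (S : Set G)).toSubmonoid)).mp h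

namespace RH

variable {G : Type*} [Group G] {ι : Type*} {X : Set G} {H : ι → Subgroup G} {δ : ℕ}
  (S : RH X H δ)
include S

theorem prj_one (l : ι) : S.prj l 1 = 1 := Subtype.ext (S.proj_self (H l).one_mem)

theorem locTame_of_peripheral {l : ι} {y : H l} (hy : ¬ IsOfFinOrder y) (h : LocTame y) :
    LocTame (y : G) := by
  classical
  intro Q hyQ
  have hy' : ¬ IsOfFinOrder (y : G) := by
    rwa [Submonoid.isOfFinOrder_coe (H := (H l).toSubmonoid)]
  have hfin : (⋃ s ∈ Q, Set.range fun p => (S.prj l p)⁻¹ * S.prj l (p * s)).Finite :=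
    Q.finite_toSet.biUnion fun s _ => S.finite_steps l s
  set T : Finset (H l) := hfin.toFinset with hT
  have hK : ∀ g ∈ Subgroup.closure (Q : Set G), ∀ p,
      (S.prj l p)⁻¹ * S.prj l (p * g) ∈ Subgroup.closure (T : Set (H l)) := by
    intro g hg
    induction hg using Subgroup.closure_induction with
    | mem s hs =>
      intro p
      apply Subgroup.subset_closure
      rw [Finset.mem_coe, hT, Set.Finite.mem_toFinset]
      exact Set.mem_biUnion (x := s) hs ⟨p, rfl⟩
    | one =>
      intro p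
      rw [mul_one, inv_mul_cancel]
      exact Subgroup.one_mem _
    | mul a b _ _ ha hb =>
      intro p
      have h1 := Subgroup.mul_mem _ (ha p) (hb (p * a))
      rwa [show (S.prj l p)⁻¹ * S.prj l (p * a) * ((S.prj l (p * a))⁻¹ * S.prj l (p * a * b)) =
        (S.prj l p)⁻¹ * S.prj l (p * (a * b)) by rw [mul_assoc p a b]; group] at h1
    | inv a _ ha =>
      intro p
      have h1 := Subgroup.inv_mem _ (ha (p * a⁻¹))
      rwa [inv_mul_cancel_right, mul_inv_rev, inv_inv] at h1
  have hR : ∀ g ∈ Subgroup.closure (Q : Set G),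
      S.prj l g ∈ Subgroup.closure (T : Set (H l)) := by
    intro g hg
    have := hK g hg 1
    rwa [S.prj_one, inv_one, one_mul, one_mul] at this
  have hself : ∀ z : H l, S.prj l (z : G) = z := fun z => Subtype.ext (S.proj_self z.2)
  have hyT : y ∈ Subgroup.closure (T : Set (H l)) := by
    have := hR _ hyQ
    rwa [hself] at this
  let r : Subgroup.closure (Q : Set G) → Subgroup.closure (T : Set (H l)) :=
    fun g => ⟨S.prj l (g : G), hR g g.2⟩
  have hmul : ∀ (z : H l) (p : G), S.prj l ((z : G) * p) = z * S.prj l p :=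
    fun z p => Subtype.ext (proj_smul z.2 p)
  refine Tame.pull r (y := ⟨y, hyT⟩) (fun p => Subtype.ext (hmul y p)) (fun g hg => ?_)
    (fun g => ?_) (h T hyT)
  · have hg' : Commute (g : G) (y : G) := congrArg Subtype.val hg
    have hgl : (g : G) ∈ H l := S.mem_of_commute y.2 hy' hg'
    have hgT : (⟨(g : G), hgl⟩ : H l) ∈ Subgroup.closure (T : Set (H l)) := by
      have := hR _ g.2
      rwa [hself ⟨(g : G), hgl⟩] at this
    refine ⟨⟨⟨(g : G), hgl⟩, hgT⟩, ?_, fun p => Subtype.ext (hmul ⟨(g : G), hgl⟩ p)⟩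
    exact Subtype.ext (Subtype.ext hg')
  · refine Set.Finite.of_finite_image ((S.finite_steps l (g : G)).subset ?_)
      (Subtype.val_injective.injOn (s := Set.range fun p => (r p)⁻¹ * r (p * g)))
    rintro _ ⟨_, ⟨p, rfl⟩, rfl⟩
    exact ⟨(p : G), rfl⟩

end RH

/-- The elements of infinite order of a relatively hyperbolic group are locally tame if those of
the peripheral subgroups are. -/
theorem RelHyperbolic.locTame {G : Type*} [Group G] {ι : Type*} {H : ι → Subgroup G}
    (hG : RelHyperbolic H) (hH : ∀ l (y : H l), ¬ IsOfFinOrder y → LocTame y) (x : G)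
    (hx : ¬ IsOfFinOrder x) : LocTame x := by
  obtain ⟨hfin, X, δ, S⟩ := hG.exists_rh
  rcases S.charged_or_parabolic hx with h | ⟨l, w, h⟩
  · exact locTame_of_tame (tame_of_charged h)
  · apply locTame_conj w
    have hx' : ¬ IsOfFinOrder (w⁻¹ * x * w) := by
      intro h'
      apply hx
      refine IsConj.isOfFinOrder (isConj_iff.2 ⟨w, ?_⟩) h'
      group
    have h3 : ¬ IsOfFinOrder (⟨w⁻¹ * x * w, h⟩ : H l) := by
      rwa [← Submonoid.isOfFinOrder_coe (H := (H l).toSubmonoid)]
    exact S.locTame_of_peripheral h3 (hH l _ h3)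

end Vale.Agent.P184
end
end
end

section

/-!
# Equivalence of the definitions of the combined statement with the earlier ones
-/

namespace Vale.Agent.P184.U

theorem cupd_eq {G : Type*} (α : G → G → ℝ) (n : ℕ) (p : Fin (2 * n + 1) → G) :
    cupd α n (fun j => p (Fin.ofNat _ j)) = Vale.Agent.P184.cupd α n p := by
  unfold cupd Vale.Agent.P184.cupd
  rw [Finset.prod_range]
  refine Finset.prod_congr rfl fun k _ => ?_
  have h : ∀ m (hm : m < 2 * n + 1), Fin.ofNat (2 * n + 1) m = ⟨m, hm⟩ := fun m hm =>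
    Fin.ext (Nat.mod_eq_of_lt hm)
  beta_reduce
  rw [h (2 * k) (by (clear * -; omega)), h (2 * k + 1) (by omega), h (2 * k + 2) (by omega)]

theorem nilEuler_iff {G : Type*} [Group G] {x : G} {gr : ∀ n : ℕ, ((Fin n → G) → ℝ) → Prop} :
    NilEuler x gr ↔ Vale.Agent.P184.NilEuler x gr := by
  unfold NilEuler Vale.Agent.P184.NilEuler
  have h : ∀ (α : G → G → ℝ) n (p : Fin (2 * n + 1) → G) (σ : Equiv.Perm (Fin (2 * n + 1))),
      cupd α n (fun j => p (σ (Fin.ofNat _ j))) =
        Vale.Agent.P184.cupd α n (fun i => p (σ i)) := fun α n p σ =>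
    cupd_eq α n (fun i => p (σ i))
  simp only [h]
  rfl

theorem tameAt_iff {G : Type*} [Group G] {x : G} : TameAt x ↔ Vale.Agent.P184.TameAt x :=
  exists_congr fun _ => and_congr Iff.rfl nilEuler_iff

theorem locallyTame_iff {G : Type*} [Group G] {x : G} :
    LocallyTame x ↔ Vale.Agent.P184.LocallyTame x :=
  forall_congr' fun _ => forall_congr' fun _ => tameAt_iff

theorem polyNilpotent_iff {G : Type*} [Group G] {x : G} :
    PolyNilpotent x ↔ Vale.Agent.P184.PolyNilpotent x :=
  exists_congr fun _ => and_congr Iff.rfl (and_congr Iff.rfl (exists_congr fun _ =>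
    and_congr Iff.rfl nilEuler_iff))

theorem nice_iff {G : Type*} [Group G] : Nice G ↔ Vale.Agent.P184.Nice G := by
  unfold Nice Vale.Agent.P184.Nice
  simp only [locallyTame_iff]
  rfl

theorem joined_iff {G : Type*} {R : G → G → Prop} {n : ℕ} {p q : G} :
    Joined R n p q ↔ Vale.Agent.P184.Joined R n p q := by
  induction n generalizing p with
  | zero =>
    constructor
    · rintro ⟨w, h0, h1, _⟩
      exact h0.symm.trans h1
    · intro h
      exact ⟨fun _ => p, rfl, h, fun i hi => absurd hi (Nat.not_lt_zero i)⟩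
  | succ n ih =>
    constructor
    · rintro ⟨w, h0, h1, h2⟩
      refine ⟨w 1, ?_, ih.1 ⟨fun i => w (i + 1), rfl, h1, fun i hi => h2 (i + 1) (by omega)⟩⟩
      rw [← h0]
      exact h2 0 (Nat.succ_pos n)
    · rintro ⟨r, hr, hj⟩
      obtain ⟨w, h0, h1, h2⟩ := ih.2 hj
      refine ⟨fun i => if i = 0 then p else w (i - 1), if_pos rfl, ?_, fun i hi => ?_⟩
      · exact (if_neg (Nat.succ_ne_zero n)).trans h1
      · beta_reduce
        rcases Nat.eq_zero_or_pos i with h | h
        · subst h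
          rw [if_pos rfl, if_neg (Nat.succ_ne_zero 0)]
          change R p (w 0)
          rw [h0]
          exact hr
        · rw [if_neg (by omega), if_neg (by omega)]
          have h3 := h2 (i - 1) (by (clear * - hi h; omega))
          have h4 : i - 1 + 1 = i := by omega
          rw [h4] at h3
          exact h3

theorem isRelHyp_iff {G : Type*} [Group G] {ι : Type*} {H : ι → Subgroup G} :
    IsRelHyp H ↔ Vale.Agent.P184.IsRelHyp H := by
  unfold IsRelHyp Vale.Agent.P184.IsRelHyp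
  simp only [joined_iff]
  rfl

theorem isAmenable_iff {H : Type*} [Group H] :
    IsAmenable H ↔ Vale.Agent.P184.IsAmenable H := Iff.rfl

theorem virtUnipotent_iff {G : Type*} [Group G] {x : G} :
    VirtUnipotent x ↔ Vale.Agent.P184.VirtUnipotent x := Iff.rfl

end Vale.Agent.P184.U
end

section

end

section

/-!
# Cyclic cochains with constant coboundary
-/

noncomputable section

namespace Vale.Agent.P184

/-- `ψ` changes its sign under the cyclic shift which closes up tuples with `x`. -/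
def CycAnti {G : Type*} [Group G] (x : G) {n : ℕ} (ψ : (Fin n → G) → ℝ) : Prop :=
  ∀ p : ℕ → G, p n = x * p 0 → ψ (fun i => p (i + 1)) = - ψ fun i => p i

/-- For some length function the `n`-th power of the periodicity operator annihilates the trace
at `x`, with subexponential growth: there is an invariant cyclic cochain with coboundary `1`. -/
def CycTame {G : Type*} [Group G] (x : G) : Prop :=
  ∃ L : G → ℝ, IsLength L ∧ ∃ (n : ℕ) (ψ : (Fin (2 * n) → G) → ℝ), 0 < n ∧
    CInv x ψ ∧ SubExp x L ψ ∧ CycAnti x ψ ∧ ∀ p, DData.cob ψ p = 1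

/-- `x` is tame in this sense in all finitely generated subgroups containing it. -/
def LocCyc {G : Type*} [Group G] (x : G) : Prop :=
  ∀ (S : Finset G) (h : x ∈ Subgroup.closure (S : Set G)),
    CycTame (⟨x, h⟩ : Subgroup.closure (S : Set G))

theorem cycAnti_iff {G : Type*} [Group G] {x : G} {m : ℕ} {ψ : (Fin (m + 1) → G) → ℝ} :
    CycAnti x ψ ↔ ∀ p, ψ (shf x p) = - ψ p := by
  constructor
  · intro h p
    have h1 := h (fun i => if hi : i < m + 1 then p ⟨i, hi⟩ else x * p 0) (by simp only [lt_self_iff_false, ↓reduceDIte, lt_add_iff_pos_left, Order.lt_add_one_iff, zero_le, Fin.zero_eta])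
    have h2 : (fun i : Fin (m + 1) => if hi : (i : ℕ) < m + 1 then p ⟨i, hi⟩ else x * p 0) = p := by
      funext i
      rw [dif_pos i.2]
    have h3 : (fun i : Fin (m + 1) => if hi : (i : ℕ) + 1 < m + 1 then p ⟨i + 1, hi⟩ else
        x * p 0) = shf x p := by
      funext i
      refine Fin.lastCases ?_ (fun k => ?_) i
      · rw [shf_last, dif_neg (by simp)]
      · rw [shf_castSucc, dif_pos (by simp only [Fin.val_castSucc, Order.lt_add_one_iff, Order.add_one_le_iff, Fin.is_lt])]
        rfl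
    rw [h2, h3] at h1
    exact h1
  · intro h p hp
    rw [← h]
    congr 1
    funext i
    refine Fin.lastCases ?_ (fun k => ?_) i
    · rw [shf_last]
      simpa only [Fin.val_last, Fin.coe_ofNat_eq_mod, Nat.zero_mod] using hp
    · rw [shf_castSucc]
      simp

end Vale.Agent.P184
end
end

section

end

section

/-!
# Vanishing of the trace from cyclic cochains with coboundary `1`, and stability
-/

noncomputable section
open scoped Topology

namespace Vale.Agent.P184

namespace DData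

variable {G : Type*} [Group G] {D : Type*} [NormedRing D] [NormedAlgebra ℂ D] {A : DData G D}
variable [CompleteSpace D]

theorem pr_one_eq (m : ℕ) : A.pr (fun _ : Fin (m + 1) → G => 1) = A.pr (fun _ : Fin 1 → G => 1) := by
  induction m with
  | zero => rfl
  | succ m ih =>
    rw [← ih]
    exact pr_castSucc (A := A) (F := fun _ : Fin (m + 1) → G => 1) (Good.const 1)

theorem pr_cob {m : ℕ} (hm : Odd m) {F : (Fin (m + 1) → G) → ℝ} (hF : A.Good F) :
    A.pr (cob F) = A.pr F := by
  unfold cob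
  refine (pr_sum (A := A) Finset.univ (F := fun (j : Fin (m + 2)) (p : Fin (m + 2) → G) =>
    (-1) ^ (j : ℕ) * F fun i => p (j.succAbove i))
    (fun j => (hF.comp j.succAbove).smul _)).trans ?_
  have h1 : ∀ j : Fin (m + 2), A.pr (fun p : Fin (m + 2) → G => (-1) ^ (j : ℕ) *
      F fun i => p (j.succAbove i)) = (-1) ^ (j : ℕ) * A.pr F := by
    intro j
    rw [pr_smul, pr_del j hF]
    push_cast
    rfl
  rw [Finset.sum_congr rfl fun j _ => h1 j, ← Finset.sum_mul]
  have h2 := sum_sign_odd (m := m + 1) hm.add_one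
  rw [h2, one_mul]

theorem pr_one_of_cyc {m : ℕ} (hm : Odd m) {ψ : (Fin (m + 1) → G) → ℝ} (hψ : A.Good ψ)
    (h1 : ∀ p, ψ (Vale.Agent.P184.shf A.x p) = - ψ p) (h2 : ∀ p, cob ψ p = 1) :
    A.pr (fun _ : Fin 1 → G => 1) = 0 := by
  have h3 : A.pr ψ = 0 := by
    have h4 := pr_shf (A := A) hψ.inv
    have h5 : (fun p => ψ (Vale.Agent.P184.shf A.x p)) = fun p => (-1) * ψ p := by
      funext p
      rw [h1]
      ring
    rw [h5, pr_smul] at h4
    push_cast at h4
    have h6 : (2 : ℂ) * A.pr ψ = 0 := by linear_combination -h4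
    exact (mul_eq_zero.mp h6).resolve_left two_ne_zero
  have h4 : cob ψ = fun _ : Fin (m + 2) → G => 1 := funext h2
  have h5 := pr_cob hm hψ
  rw [h4, h3] at h5
  rw [← pr_one_eq (A := A) (m + 1)]
  exact h5

end DData

section Final

attribute [local instance] Matrix.linftyOpNormedRing Matrix.linftyOpNormedAlgebra

theorem vanishesAt_of_cyc {G : Type*} [Group G] {x : G} (h : CycTame x) : VanishesAt x := by
  obtain ⟨L, hL, n, ψ, hn, hψ1, hψ2, hψ3, hψ4⟩ := h
  intro q e he
  obtain ⟨ε, hε, f, hf, hdec, htau⟩ := exists_decay L hL.nonneg hL.2.2 e he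
  let A : DData G (Matrix (Fin q) (Fin q) ℂ) :=
    { x := x
      tr := mtr q
      E := toFn f
      L := L
      eps := ε
      htr := mtr_comm q
      hE := toFn_conv hf
      hL := hL
      heps := hε
      hdec := hdec }
  obtain ⟨k, rfl⟩ : ∃ k, n = k + 1 := ⟨n - 1, by (clear * - hn; omega)⟩
  have h8 : A.pr (fun _ : Fin 1 → G => 1) = 0 :=
    DData.pr_one_of_cyc (A := A) (m := 2 * k + 1) ⟨k, rfl⟩ ⟨hψ1, hψ2⟩ (cycAnti_iff.1 hψ3) hψ4
  rw [DData.pr_one] at h8
  rw [← htau]
  have hset : (ConjClasses.mk x).carrier = {g | IsConj x g} := by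
    ext g
    rw [ConjClasses.mem_carrier_iff_mk_eq, ConjClasses.mk_eq_mk_iff_isConj]
    exact ⟨fun h => h.symm, fun h => IsConj.symm h⟩
  unfold tau
  rw [hset]
  exact h8

end Final

/-! ### Pulling back -/

/-- Cyclic cochains pull back along equivariant coarsely Lipschitz maps. -/
theorem cycTame_of_pull {G K : Type*} [Group G] [Group K] {x : G} {y : K} {L : G → ℝ} {l : K → ℝ}
    (hL : IsLength L) (r : G → K) (hr : ∀ p, r (x * p) = y * r p)
    (hz : ∀ h, Commute h x → ∃ k, Commute k y ∧ ∀ p, r (h * p) = k * r p) {c d : ℝ} (hc : 0 < c)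
    (hlip : ∀ p q, l ((r p)⁻¹ * r q) ≤ c * L (p⁻¹ * q) + d) {n : ℕ}
    {ψ : (Fin (2 * n) → K) → ℝ} (hn : 0 < n) (h1 : CInv y ψ) (h2 : SubExp y l ψ)
    (h3 : CycAnti y ψ) (h4 : ∀ p, DData.cob ψ p = 1) : CycTame x := by
  refine ⟨L, hL, n, fun p => ψ fun i => r (p i), hn, ?_, h2.pull r hr hc hlip, ?_,
    fun p => h4 fun i => r (p i)⟩
  · intro g hg p
    obtain ⟨k, hk, hkr⟩ := hz g hg
    have := h1 k hk fun i => r (p i)
    unfold tra at *
    simp only [hkr]
    exact this
  · intro p hp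
    exact h3 (fun i => r (p i)) (by rw [hp, hr])

theorem CycTame.pull {G K : Type*} [Group G] [Group K] {x : G} {y : K}
    (r : G → K) (hr : ∀ p, r (x * p) = y * r p)
    (hz : ∀ h, Commute h x → ∃ k, Commute k y ∧ ∀ p, r (h * p) = k * r p)
    (hfin : ∀ g, (Set.range fun p => (r p)⁻¹ * r (p * g)).Finite) (h : CycTame y) :
    CycTame x := by
  obtain ⟨l, hl, n, ψ, hn, h1, h2, h3, h4⟩ := h
  obtain ⟨L, hL, hlip⟩ := exists_pull_length hl r hfin
  refine cycTame_of_pull hL r hr hz (c := 1) (d := 0) one_pos (fun p q => ?_) hn h1 h2 h3 h4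
  rw [one_mul, add_zero]
  exact hlip p q

theorem CycTame.map {G K : Type*} [Group G] [Group K] (f : G →* K) {x : G}
    (h : CycTame (f x)) : CycTame x := by
  refine CycTame.pull f (fun p => map_mul f x p)
    (fun g hg => ⟨f g, hg.map f, fun p => map_mul f g p⟩) (fun g => ?_) h
  refine (Set.finite_singleton (f g)).subset ?_
  rintro _ ⟨p, rfl⟩
  simp

theorem CycTame.conj {G : Type*} [Group G] {x : G} (w : G) (h : CycTame (w⁻¹ * x * w)) :
    CycTame x := by
  have h1 : CycTame (MulAut.conj w⁻¹ x) := by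
    rw [MulAut.conj_apply, inv_inv]
    exact h
  exact CycTame.map (MulAut.conj w⁻¹).toMonoidHom h1

theorem cycTame_conj {G : Type*} [Group G] {x y : G} (h : IsConj x y) (hx : CycTame x) :
    CycTame y := by
  obtain ⟨c, hc⟩ := isConj_iff.mp h
  refine CycTame.conj c ?_
  have h1 : c⁻¹ * y * c = x := by
    rw [← hc]
    group
  rw [h1]
  exact hx

end Vale.Agent.P184
end
end
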