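import Mathlib
import Vale.Agent.P184.Bdl.B3
import Vale.Agent.P184.Bdl.B1
import Vale.Agent.P184.TDefs
import Vale.Agent.P184.Bdl.B2
import Vale.Agent.P184.WDefs

set_option linter.all false

namespace AFast6dadc6x9a
@[reducible] def a0.{u1, u2} {x1 : Type u1} [x2 : Group x1] {x3 : Type u2} {x4 : x3 → Subgroup x1} {x5 : x3} : Monoid ↥(x4 x5) := inferInstance
@[reducible] def a1.{u1} {x1 : Type u1} [x2 : Group x1] {x3 : Subgroup x1} : Monoid ↥x3 := inferInstance
@[reducible] def a2.{u1} {x1 : Type u1} [x2 : Group x1] {x3 : Subgroup x1} : MulOneClass ↥x3 := inferInstance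
@[reducible] def a3.{u1} {x1 : Type u1} [x2 : Group x1] {x3 : Subgroup x1} : MulOne ↥x3 := inferInstance
theorem a4 : CovariantClass ℝ ℝ (Function.swap fun x1 x2 => x1 + x2) fun x1 x2 => x1 ≤ x2 := inferInstance
theorem a5 : AddLeftMono ℝ := inferInstance
theorem a6 : CharZero ℝ := inferInstance
theorem a7.{u1, u2} {x1 : Type u1} {x2 : Type u2} [x3 : Group x1] [x4 : Group x2] : MulHomClass (x1 →* x2) x1 x2 := inferInstance
@[reducible] def a8.{u1, u2} {x1 : Type u1} [x2 : Group x1] {x3 : Type u2} {x4 : x3 → Subgroup x1} {x5 : x3} : MulOne ↥(x4 x5) := inferInstance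
@[reducible] def a9.{u1, u2} {x1 : Type u1} [x2 : Group x1] {x3 : Type u2} {x4 : x3 → Subgroup x1} {x5 : x3} : MulOneClass ↥(x4 x5) := inferInstance
@[reducible] def a10.{u1, u2} {x1 : Type u1} {x2 : Type u2} [x3 : Group x2] [x4 : Group x1] : Monoid (x1 × x2) := inferInstance
@[reducible] def a11.{u1, u2} {x1 : Type u1} {x2 : Type u2} [x3 : Group x2] [x4 : Group x1] : MulOneClass (x1 × x2) := inferInstance
@[reducible] def a12 {x1 : ℕ} : MulOne (Equiv.Perm (Fin (2 * x1 + 1))) := inferInstance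
@[reducible] def a13 {x1 : ℕ} : MulOneClass (Equiv.Perm (Fin (2 * x1 + 1))) := inferInstance
@[reducible] def a14 {x1 : ℕ} : Monoid (Equiv.Perm (Fin (2 * x1 + 1))) := inferInstance
@[reducible] def a15.{u1, u2} {x1 : Type u1} {x2 : Type u2} [x3 : Group x2] [x4 : Group x1] : MulOne (x1 × x2) := inferInstance
@[reducible] def a16.{u1} {x1 : Type u1} [x2 : Group x1] {x3 : Subgroup x1} : InvOneClass ↥x3 := inferInstance
@[reducible] def a17.{u1} {x1 : Type u1} [x2 : Group x1] {x3 : Subgroup x1} : DivInvOneMonoid ↥x3 := inferInstance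
@[reducible] def a18.{u1} {x1 : Type u1} [x2 : Group x1] {x3 : Subgroup x1} : DivisionMonoid ↥x3 := inferInstance
theorem a19 : PosMulStrictMono ℝ := inferInstance
@[reducible] def a20.{u1, u2} {x1 : Type u1} [x2 : Group x1] {x3 : Type u2} {x4 : x3 → Subgroup x1} {x5 : x3} : Monoid ↥(x4 x5).toSubmonoid := inferInstance
theorem a21 : ContinuousSMul ℂ ℂ := inferInstance
@[reducible] def a22.{u1} {x1 : Type u1} [x2 : Group x1] {x3 : Subgroup x1} : DivInvMonoid ↥x3 := inferInstance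
@[reducible] def a23.{u1, u2} {x1 : Type u1} [x2 : Group x1] {x3 : Type u2} {x4 : x3 → Subgroup x1} {x5 : x3} : DivInvMonoid ↥(x4 x5) := inferInstance
@[reducible] def a24.{u1, u2} {x1 : Type u1} [x2 : Group x1] {x3 : Type u2} [x4 : Group x3] {x5 : x3 →* x1} : MulOneClass ↥x5.range := inferInstance
@[reducible] def a25.{u1, u2} {x1 : Type u1} [x2 : Group x1] {x3 : Type u2} [x4 : Group x3] {x5 : x3 →* x1} : Monoid ↥x5.range := inferInstance
theorem a26 : PosMulReflectLT ℝ := inferInstance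
theorem a27.{u1} {x1 : Type u1} {x2 : ℕ} [x3 : Group x1] : MulHomClass (x1 →* Matrix (Fin x2) (Fin x2) ℝ) x1 (Matrix (Fin x2) (Fin x2) ℝ) := inferInstance
@[reducible] def a28.{u1} {x1 : Type u1} [x2 : Group x1] {x3 : Finset x1} : DivInvMonoid ↥(@Subgroup.closure x1 x2 (@SetLike.coe (Finset x1) x1 (@Finset.instSetLike x1) x3)) := inferInstance
theorem a29 : IsCancelMulZero ℝ := inferInstance
theorem a30 : PosMulReflectLE ℝ := inferInstance
theorem a31 : IsLeftCancelMulZero ℝ := inferInstance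
@[reducible] def a32 {x1 : ℕ} : MulOneClass (Equiv.Perm (Fin (x1 + 1))) := inferInstance
@[reducible] def a33 {x1 : ℕ} : MulOne (Equiv.Perm (Fin x1)) := inferInstance
@[reducible] def a34 {x1 : ℕ} : MulOne (Equiv.Perm (Fin (x1 + 1))) := inferInstance
@[reducible] def a35 {x1 : ℕ} : MulOneClass (Equiv.Perm (Fin x1)) := inferInstance
@[reducible] def a36.{u1, u2} {x1 : Type u1} [x2 : Group x1] {x3 : Type u2} {x4 : x3 → Subgroup x1} {x5 : x3} : InvOneClass ↥(x4 x5) := inferInstance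
@[reducible] def a37.{u1} {x1 : Type u1} [x2 : Group x1] {x3 : x1} : DivInvMonoid ↥(Subgroup.centralizer {x3}) := inferInstance
@[reducible] def a38.{u1, u2} {x1 : Type u1} [x2 : Group x1] {x3 : Type u2} {x4 : x3 → Subgroup x1} {x5 : x3} : DivInvOneMonoid ↥(x4 x5) := inferInstance
@[reducible] def a39.{u1, u2} {x1 : Type u1} [x2 : Group x1] {x3 : Type u2} {x4 : x3 → Subgroup x1} {x5 : x3} : DivisionMonoid ↥(x4 x5) := inferInstance
@[reducible] def a40 {x1 : ℕ} : Monoid (Equiv.Perm (Fin (x1 + 1))) := inferInstance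
@[reducible] def a41 {x1 : ℕ} : Monoid (Equiv.Perm (Fin x1)) := inferInstance
@[reducible] def a42.{u1, u2} {x1 : Type u1} [x2 : Group x1] {x3 : Type u2} {x4 : x3 → Subgroup x1} {x5 : x3} : Semigroup ↥(x4 x5) := inferInstance
theorem a43.{u1} {x1 : Type u1} [x2 : Group x1] : MulMemClass (Subgroup x1) x1 := inferInstance
theorem a44 {x1 : ℕ} {x2 : Type} : ContinuousSMul ℂ (Matrix (Fin x1 × x2) (Fin x1 × x2) ℂ) := inferInstance
end AFast6dadc6x9a
attribute [local instance] AFast6dadc6x9a.a0 AFast6dadc6x9a.a1 AFast6dadc6x9a.a2 AFast6dadc6x9a.a3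
  AFast6dadc6x9a.a4 AFast6dadc6x9a.a5 AFast6dadc6x9a.a6 AFast6dadc6x9a.a7 AFast6dadc6x9a.a8
  AFast6dadc6x9a.a9 AFast6dadc6x9a.a10 AFast6dadc6x9a.a11 AFast6dadc6x9a.a12 AFast6dadc6x9a.a13
  AFast6dadc6x9a.a14 AFast6dadc6x9a.a15 AFast6dadc6x9a.a16 AFast6dadc6x9a.a17 AFast6dadc6x9a.a18
  AFast6dadc6x9a.a19 AFast6dadc6x9a.a20 AFast6dadc6x9a.a21 AFast6dadc6x9a.a22 AFast6dadc6x9a.a23
  AFast6dadc6x9a.a24 AFast6dadc6x9a.a25 AFast6dadc6x9a.a26 AFast6dadc6x9a.a27 AFast6dadc6x9a.a28
  AFast6dadc6x9a.a29 AFast6dadc6x9a.a30 AFast6dadc6x9a.a31 AFast6dadc6x9a.a32 AFast6dadc6x9a.a33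
  AFast6dadc6x9a.a34 AFast6dadc6x9a.a35 AFast6dadc6x9a.a36 AFast6dadc6x9a.a37 AFast6dadc6x9a.a38
  AFast6dadc6x9a.a39 AFast6dadc6x9a.a40 AFast6dadc6x9a.a41 AFast6dadc6x9a.a42 AFast6dadc6x9a.a43
  AFast6dadc6x9a.a44
namespace AFast6dadc6x9b
@[reducible] def a0.{u1} {x1 : Type u1} [x2 : Group x1] {x3 : Finset x1} : MulOne ↥(@Subgroup.closure x1 x2 (@SetLike.coe (Finset x1) x1 (@Finset.instSetLike x1) x3)) := inferInstance
@[reducible] def a1.{u1} {x1 : Type u1} [x2 : Group x1] {x3 : Finset x1} : MulOneClass ↥(@Subgroup.closure x1 x2 (@SetLike.coe (Finset x1) x1 (@Finset.instSetLike x1) x3)) := inferInstance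
@[reducible] def a2.{u1} {x1 : Type u1} [x2 : Group x1] {x3 : Finset x1} : Monoid ↥(@Subgroup.closure x1 x2 (@SetLike.coe (Finset x1) x1 (@Finset.instSetLike x1) x3)) := inferInstance
@[reducible] def a3.{u1} {x1 : Type u1} [x2 : Group x1] {x3 : x1} : MulOne ↥(Subgroup.centralizer {x3}) := inferInstance
@[reducible] def a4.{u1} {x1 : Type u1} [x2 : Group x1] {x3 : x1} : MulOneClass ↥(Subgroup.centralizer {x3}) := inferInstance
@[reducible] def a5.{u1} {x1 : Type u1} [x2 : Group x1] {x3 : x1} : Monoid ↥(Subgroup.centralizer {x3}) := inferInstance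
@[reducible] def a6.{u1} {x1 : Type u1} [x2 : Group x1] {x3 : @Subgroup x1 x2} {x4 : Finset ↥x3} : MulOne ↥(@Subgroup.closure (↥x3) (@Subgroup.toGroup x1 x2 x3) (@SetLike.coe (Finset ↥x3) (↥x3) (@Finset.instSetLike ↥x3) x4)) := inferInstance
@[reducible] def a7.{u1} {x1 : Type u1} [x2 : Group x1] {x3 : @Subgroup x1 x2} {x4 : Finset ↥x3} : MulOneClass ↥(@Subgroup.closure (↥x3) (@Subgroup.toGroup x1 x2 x3) (@SetLike.coe (Finset ↥x3) (↥x3) (@Finset.instSetLike ↥x3) x4)) := inferInstance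
@[reducible] def a8.{u1} {x1 : Type u1} [x2 : Group x1] {x3 : @Subgroup x1 x2} {x4 : Finset ↥x3} : Monoid ↥(@Subgroup.closure (↥x3) (@Subgroup.toGroup x1 x2 x3) (@SetLike.coe (Finset ↥x3) (↥x3) (@Finset.instSetLike ↥x3) x4)) := inferInstance
@[reducible] def a9.{u1, u2} {x1 : Type u1} [x2 : Group x1] {x3 : Type u2} [x4 : Group x3] {x5 : @MonoidHom x3 x1 (@MulOneClass.toMulOne x3 (@Monoid.toMulOneClass x3 (@DivInvMonoid.toMonoid x3 (@Group.toDivInvMonoid x3 x4)))) (@MulOneClass.toMulOne x1 (@Monoid.toMulOneClass x1 (@DivInvMonoid.toMonoid x1 (@Group.toDivInvMonoid x1 x2))))} {x6 : Finset x3} : MulOne ↥(@Subgroup.closure x1 x2 (@SetLike.coe (Finset x1) x1 (@Finset.instSetLike x1) (@Finset.image x3 x1 (fun a b => Classical.propDecidable (@Eq x1 a b)) (@DFunLike.coe (@MonoidHom x3 x1 (@MulOneClass.toMulOne x3 (@Monoid.toMulOneClass x3 (@DivInvMonoid.toMonoid x3 (@Group.toDivInvMonoid x3 x4)))) (@MulOneClass.toMulOne x1 (@Monoid.toMulOneClass x1 (@DivInvMonoid.toMonoid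 x1 (@Group.toDivInvMonoid x1 x2))))) x3 (fun x => x1) (@MonoidHom.instFunLike x3 x1 (@MulOneClass.toMulOne x3 (@Monoid.toMulOneClass x3 (@DivInvMonoid.toMonoid x3 (@Group.toDivInvMonoid x3 x4)))) (@MulOneClass.toMulOne x1 (@Monoid.toMulOneClass x1 (@DivInvMonoid.toMonoid x1 (@Group.toDivInvMonoid x1 x2))))) x5) x6))) := inferInstance
@[reducible] def a10.{u1, u2} {x1 : Type u1} [x2 : Group x1] {x3 : Type u2} [x4 : Group x3] {x5 : @MonoidHom x3 x1 (@MulOneClass.toMulOne x3 (@Monoid.toMulOneClass x3 (@DivInvMonoid.toMonoid x3 (@Group.toDivInvMonoid x3 x4)))) (@MulOneClass.toMulOne x1 (@Monoid.toMulOneClass x1 (@DivInvMonoid.toMonoid x1 (@Group.toDivInvMonoid x1 x2))))} {x6 : Finset x3} : MulOneClass ↥(@Subgroup.closure x1 x2 (@SetLike.coe (Finset x1) x1 (@Finset.instSetLike x1) (@Finset.image x3 x1 (fun a b => Classical.propDecidable (@Eq x1 a b)) (@DFunLike.coe (@MonoidHom x3 x1 (@MulOneClass.toMulOne x3 (@Monoid.toMulOneClass x3 (@DivInvMonoid.toMonoid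 x3 (@Group.toDivInvMonoid x3 x4)))) (@MulOneClass.toMulOne x1 (@Monoid.toMulOneClass x1 (@DivInvMonoid.toMonoid x1 (@Group.toDivInvMonoid x1 x2))))) x3 (fun x => x1) (@MonoidHom.instFunLike x3 x1 (@MulOneClass.toMulOne x3 (@Monoid.toMulOneClass x3 (@DivInvMonoid.toMonoid x3 (@Group.toDivInvMonoid x3 x4)))) (@MulOneClass.toMulOne x1 (@Monoid.toMulOneClass x1 (@DivInvMonoid.toMonoid x1 (@Group.toDivInvMonoid x1 x2))))) x5) x6))) := inferInstance
@[reducible] def a11.{u1, u2} {x1 : Type u1} [x2 : Group x1] {x3 : Type u2} [x4 : Group x3] {x5 : @MonoidHom x3 x1 (@MulOneClass.toMulOne x3 (@Monoid.toMulOneClass x3 (@DivInvMonoid.toMonoid x3 (@Group.toDivInvMonoid x3 x4)))) (@MulOneClass.toMulOne x1 (@Monoid.toMulOneClass x1 (@DivInvMonoid.toMonoid x1 (@Group.toDivInvMonoid x1 x2))))} {x6 : Finset x3} : Monoid ↥(@Subgroup.closure x1 x2 (@SetLike.coe (Finset x1) x1 (@Finset.instSetLike x1) (@Finset.image x3 x1 (fun a b => Classical.propDecidable (@Eq x1 a b))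 (@DFunLike.coe (@MonoidHom x3 x1 (@MulOneClass.toMulOne x3 (@Monoid.toMulOneClass x3 (@DivInvMonoid.toMonoid x3 (@Group.toDivInvMonoid x3 x4)))) (@MulOneClass.toMulOne x1 (@Monoid.toMulOneClass x1 (@DivInvMonoid.toMonoid x1 (@Group.toDivInvMonoid x1 x2))))) x3 (fun x => x1) (@MonoidHom.instFunLike x3 x1 (@MulOneClass.toMulOne x3 (@Monoid.toMulOneClass x3 (@DivInvMonoid.toMonoid x3 (@Group.toDivInvMonoid x3 x4)))) (@MulOneClass.toMulOne x1 (@Monoid.toMulOneClass x1 (@DivInvMonoid.toMonoid x1 (@Group.toDivInvMonoid x1 x2))))) x5) x6))) := inferInstance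
end AFast6dadc6x9b
attribute [local instance] AFast6dadc6x9b.a0 AFast6dadc6x9b.a1 AFast6dadc6x9b.a2 AFast6dadc6x9b.a3
  AFast6dadc6x9b.a4 AFast6dadc6x9b.a5 AFast6dadc6x9b.a6 AFast6dadc6x9b.a7 AFast6dadc6x9b.a8
  AFast6dadc6x9b.a9 AFast6dadc6x9b.a10 AFast6dadc6x9b.a11
section

section

noncomputable section

namespace Vale.Agent.P184

universe u v w

theorem charged_conj {G : Type*} [Group G] {x y : G} (h : IsConj x y) (hx : Charged x) :
    Charged y := by
  obtain ⟨c, hc⟩ := isConj_iff.mp h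
  refine charged_of_map (MulAut.conj c⁻¹).toMonoidHom (x := y) ?_
  have h1 : (MulAut.conj c⁻¹).toMonoidHom y = x := by
    rw [← hc]
    simp only [map_inv, MulEquiv.toMonoidHom_eq_coe, mul_assoc, MonoidHom.coe_coe, MulAut.inv_apply, MulAut.conj_symm_apply, inv_mul_cancel_left, inv_mul_cancel, mul_one]
  rw [h1]
  exact hx

theorem locCharged_of_charged {G : Type*} [Group G] {x : G} (hx : Charged x) : LocCharged x :=
  fun S h => charged_of_map (x := (⟨x, h⟩ : Subgroup.closure (S : Set G)))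
    (Subgroup.closure (S : Set G)).subtype hx

theorem locCharged_of_map {G : Type*} {H : Type*} [Group G] [Group H] (f : G →* H) {x : G}
    (hx : LocCharged (f x)) : LocCharged x := by
  classical
  intro S h
  have h1 : ∀ g ∈ Subgroup.closure (S : Set G), f g ∈ Subgroup.closure ((S.image f : Finset H) : Set H) := by
    intro g hg
    rw [Finset.coe_image, ← MonoidHom.map_closure]
    exact Subgroup.mem_map_of_mem f hg
  let π : Subgroup.closure (S : Set G) →* Subgroup.closure ((S.image f : Finset H) : Set H) :=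
    { toFun := fun g => ⟨f (g : G), h1 g g.2⟩
      map_one' := Subtype.ext (map_one f)
      map_mul' := fun a b => Subtype.ext (map_mul f (a : G) (b : G)) }
  exact charged_of_map π (x := ⟨x, h⟩) (hx (S.image f) (h1 x h))

theorem locCharged_of_pow {G : Type*} [Group G] {x : G} (m : ℕ) (hx : LocCharged (x ^ m)) :
    LocCharged x := by
  intro S h
  refine charged_of_pow m ?_
  exact hx S (Subgroup.pow_mem _ h m)

theorem vanishesAt_of_locCharged {G : Type u} [Group G] {x : G} (hx : LocCharged x) :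
    VanishesAt x := by
  classical
  refine vanishesAt_of_local.{u, u} x fun S => ?_
  obtain ⟨s, hs⟩ := liftsTo_closure S
  refine ⟨Subgroup.closure (S : Set G), inferInstance, _, s, hs, fun y hy => ?_⟩
  refine vanishesAt_of_charged ?_
  obtain ⟨c, hc⟩ := isConj_iff.mp hy
  have hc' : c * x * c⁻¹ = (y : G) := hc
  let S' : Finset G := insert c S
  have hSS : Subgroup.closure (S : Set G) ≤ Subgroup.closure (S' : Set G) :=
    Subgroup.closure_mono (by simp [S'])
  have hcS : c ∈ Subgroup.closure (S' : Set G) := Subgroup.subset_closure (by simp [S'])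
  have hyS : (y : G) ∈ Subgroup.closure (S' : Set G) := hSS y.2
  have hxS : x ∈ Subgroup.closure (S' : Set G) := by
    have h1 : x = c⁻¹ * y * c := by rw [← hc']; group
    rw [h1]
    exact Subgroup.mul_mem _ (Subgroup.mul_mem _ (Subgroup.inv_mem _ hcS) hyS) hcS
  have h2 := hx S' hxS
  refine charged_of_map (Subgroup.inclusion hSS) (x := y) ?_
  refine charged_conj ?_ h2
  refine isConj_iff.mpr ⟨⟨c, hcS⟩, ?_⟩
  exact Subtype.ext hc'

theorem locCharged_of_linDetected {G : Type u} [Group G] {K : Type w} [Field K] {x : G}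
    (hx : LinDetected x K) : LocCharged x := by
  obtain ⟨n, ρ, hx⟩ := hx
  obtain ⟨lam, hlam, hdet⟩ := exists_eigenvalue_of_not_quasiunipotent (ρ x) hx
  intro S h
  have hfg : Group.FG (Subgroup.closure (S : Set G)) :=
    (Group.fg_iff_subgroup_fg _).mpr ⟨S, rfl⟩
  let ρ' : Subgroup.closure (S : Set G) →* Matrix (Fin n) (Fin n) (AlgebraicClosure K) :=
    ((algebraMap K (AlgebraicClosure K)).mapMatrix.toMonoidHom.comp ρ).comp
      (Subgroup.closure (S : Set G)).subtype
  exact charged_of_fg ρ' ⟨x, h⟩ lam hdet hlam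

theorem linDetected_charP {G : Type u} [Group G] {K : Type w} [Field K] (p : ℕ)
    [Fact p.Prime] [CharP K p] (hG : LinearOver G K) {x : G} (hx : ¬ IsOfFinOrder x) :
    LinDetected x K := by
  obtain ⟨n, ρ, hρ⟩ := hG
  refine ⟨n, ρ, fun m hm hnil => hx ?_⟩
  obtain ⟨k, hk⟩ := hnil
  rcases Nat.eq_zero_or_pos n with hn | hn
  · subst hn
    have h1 : x = 1 := hρ (Subsingleton.elim _ _)
    rw [h1]
    exact IsOfFinOrder.one
  have : Nonempty (Fin n) := ⟨⟨0, hn⟩⟩
  have hchar : CharP (Matrix (Fin n) (Fin n) K) p := inferInstance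
  obtain ⟨r, hr⟩ : ∃ r : ℕ, k ≤ p ^ r := by
    obtain ⟨r, hr⟩ := pow_unbounded_of_one_lt k (Fact.out : p.Prime).one_lt
    exact ⟨r, hr.le⟩
  have h1 : (ρ x ^ m - 1) ^ (p ^ r) = 0 := pow_eq_zero_of_le hr hk
  have h2 : (ρ x ^ m) ^ (p ^ r) = 1 := by
    rw [sub_pow_char_pow_of_commute p r (Commute.one_right _), one_pow, sub_eq_zero] at h1
    exact h1
  rw [isOfFinOrder_iff_pow_eq_one]
  refine ⟨m * p ^ r, Nat.mul_pos hm (pow_pos (Fact.out : p.Prime).pos r), hρ ?_⟩
  rw [map_pow, map_one, pow_mul, h2]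

theorem l1Bass_of_locCharged {G : Type u} [Group G]
    (hG : ∀ x : G, ¬ IsOfFinOrder x → LocCharged x) (hfin : LocFinTorsion G) : L1Bass G := by
  refine l1Bass_of_local.{u, u} fun S => ?_
  obtain ⟨s, hs⟩ := liftsTo_closure S
  refine ⟨Subgroup.closure (S : Set G), inferInstance, _, s, hs, ?_⟩
  refine l1Bass_of_finite_torsion (fun x hx => ?_) (hfin S)
  refine vanishesAt_of_charged ?_
  refine hG (x : G) (fun h => hx ?_) S x.2
  exact (Submonoid.isOfFinOrder_coe (H := (Subgroup.closure (S : Set G)).toSubmonoid)).mp h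

end Vale.Agent.P184
end
end
end

section

section

/-!
# Amenability: subgroups and Reiter's condition
-/

noncomputable section
open scoped ENNReal

namespace Vale.Agent.P184

/-- Subgroups of amenable groups are amenable. -/
theorem IsAmenable.subgroup {K : Type*} [Group K] (h : IsAmenable K) (H : Subgroup K) :
    IsAmenable H := by
  obtain ⟨m, h1, h2, h3, h4⟩ := h
  set r : K → K := fun p => (Quotient.mk (QuotientGroup.rightRel H) p).out with hr
  have hrel : ∀ p, p * (r p)⁻¹ ∈ H := by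
    intro p
    have h5 : QuotientGroup.rightRel H (r p) p := Quotient.mk_out p
    rwa [QuotientGroup.rightRel_apply] at h5
  have hmul : ∀ (k : H) p, r (k * p) = r p := by
    intro k p
    rw [hr]
    simp only
    congr 1
    refine Quotient.sound ?_
    change QuotientGroup.rightRel H _ _
    rw [QuotientGroup.rightRel_apply]
    have : p * ((k : K) * p)⁻¹ = ((k⁻¹ : H) : K) := by
      rw [Subgroup.coe_inv]; group
    rw [this]
    exact (k⁻¹).2
  set t : K → H := fun p => ⟨p * (r p)⁻¹, hrel p⟩ with ht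
  have htm : ∀ (k : H) p, t (k * p) = k * t p := by
    intro k p
    apply Subtype.ext
    rw [Subgroup.coe_mul]
    change (k : K) * p * (r (k * p))⁻¹ = k * (p * (r p)⁻¹)
    rw [hmul, mul_assoc]
  refine ⟨fun f => m fun p => f (t p), ?_, ?_, ?_, ?_⟩
  · rintro f g ⟨A, hA⟩ ⟨B, hB⟩
    exact h1 _ _ ⟨A, fun p => hA _⟩ ⟨B, fun p => hB _⟩
  · rintro f ⟨A, hA⟩ h0
    exact h2 _ ⟨A, fun p => hA _⟩ fun p => h0 _
  · intro c
    exact h3 c
  · rintro f k ⟨A, hA⟩
    have h5 := h4 (fun p => f (t p)) k ⟨A, fun p => hA _⟩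
    simp only [htm] at h5
    exact h5

/-- additive and positive functionals on bounded functions are monotone -/
theorem mean_mono {X : Type*} {m : (X → ℝ) → ℝ}
    (h1 : ∀ f g : X → ℝ, (∃ K, ∀ h, |f h| ≤ K) → (∃ K, ∀ h, |g h| ≤ K) → m (f + g) = m f + m g)
    (h2 : ∀ f : X → ℝ, (∃ K, ∀ h, |f h| ≤ K) → (∀ h, 0 ≤ f h) → 0 ≤ m f) {f g : X → ℝ}
    (hf : ∃ K, ∀ h, |f h| ≤ K) (hg : ∃ K, ∀ h, |g h| ≤ K) (h : ∀ x, f x ≤ g x) : m f ≤ m g := by
  obtain ⟨A, hA⟩ := hf
  obtain ⟨B, hB⟩ := hg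
  have hb : ∃ K, ∀ h, |(g - f) h| ≤ K := ⟨B + A, fun x => by
    rw [Pi.sub_apply]
    exact (abs_sub _ _).trans (add_le_add (hB x) (hA x))⟩
  have e1 := h1 f (g - f) ⟨A, hA⟩ hb
  have e2 := h2 (g - f) hb (fun x => sub_nonneg.2 (h x))
  rw [add_sub_cancel] at e1
  linarith only [e1, e2]

theorem mean_sum {X ι : Type*} {m : (X → ℝ) → ℝ}
    (h1 : ∀ f g : X → ℝ, (∃ K, ∀ h, |f h| ≤ K) → (∃ K, ∀ h, |g h| ≤ K) → m (f + g) = m f + m g)
    (h3 : ∀ c : ℝ, m (fun _ => c) = c) (s : Finset ι) (f : ι → X → ℝ)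
    (hf : ∀ i ∈ s, ∃ K, ∀ h, |f i h| ≤ K) : m (fun x => ∑ i ∈ s, f i x) = ∑ i ∈ s, m (f i) := by
  classical
  induction s using Finset.induction_on with
  | empty => simp only [Finset.sum_empty]; exact h3 0
  | insert a s ha ih =>
    have hb : ∃ K, ∀ x, |∑ i ∈ s, f i x| ≤ K := by
      choose! A hA using fun i (hi : i ∈ s) => hf i (Finset.mem_insert_of_mem hi)
      exact ⟨∑ i ∈ s, A i, fun x => (Finset.abs_sum_le_sum_abs _ _).trans
        (Finset.sum_le_sum fun i hi => hA i hi x)⟩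
    rw [Finset.sum_insert ha, ← ih fun i hi => hf i (Finset.mem_insert_of_mem hi),
      ← h1 _ _ (hf a (Finset.mem_insert_self _ _)) hb]
    congr 1
    funext x
    rw [Finset.sum_insert ha]
    rfl

/-- Reiter's condition. -/
theorem reiter {K : Type*} [Group K] (h : IsAmenable K) (S : Finset K) {ε : ℝ} (hε : 0 < ε) :
    ∃ (E : Finset K) (μ : K → ℝ), (∀ k, 0 ≤ μ k) ∧ (∀ k, μ k ≠ 0 → k ∈ E) ∧ ∑ k ∈ E, μ k = 1 ∧
      ∀ s ∈ S, ∑' q, |μ (s⁻¹ * q) - μ q| ≤ ε := by
  classical
  obtain ⟨m, h1, h2, h3, h4⟩ := h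
  let L := lp (fun _ : K => ℝ) 1
  let v : K → (S → L) := fun g s => lp.single 1 ((s : K) * g) (1 : ℝ) - lp.single 1 g (1 : ℝ)
  have hmem : (0 : S → L) ∈ closure (convexHull ℝ (Set.range v)) := by
    by_contra h0
    obtain ⟨f, u, hf0, hfu⟩ := geometric_hahn_banach_point_closed
      (convex_convexHull ℝ (Set.range v)).closure isClosed_closure h0
    rw [map_zero] at hf0
    let F : S → K → ℝ := fun s g => f (Pi.single s (lp.single 1 g (1 : ℝ)))
    have hFb : ∀ s g, |F s g| ≤ ‖f‖ := by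
      intro s g
      have h5 : ‖(Pi.single s (lp.single 1 g (1 : ℝ)) : S → L)‖ ≤ 1 := by
        refine (pi_norm_le_iff_of_nonneg zero_le_one).2 fun s' => ?_
        by_cases hs : s' = s
        · subst hs
          rw [Pi.single_eq_same, lp.norm_single one_pos, norm_one]
        · rw [Pi.single_eq_of_ne hs, norm_zero]
          exact zero_le_one
      calc |F s g| = ‖F s g‖ := rfl
        _ ≤ ‖f‖ * ‖(Pi.single s (lp.single 1 g (1 : ℝ)) : S → L)‖ := f.le_opNorm _
        _ ≤ ‖f‖ * 1 := mul_le_mul_of_nonneg_left h5 (norm_nonneg _)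
        _ = ‖f‖ := mul_one _
    have hfv : ∀ g, f (v g) = ∑ s : S, (F s (s * g) - F s g) := by
      intro g
      have h5 : v g = ∑ s : S, (Pi.single s (v g s) : S → L) :=
        (Finset.univ_sum_single (v g)).symm
      rw [h5, map_sum]
      refine Finset.sum_congr rfl fun s _ => ?_
      change f (Pi.single s (lp.single 1 ((s : K) * g) (1 : ℝ) - lp.single 1 g (1 : ℝ))) = _
      rw [Pi.single_sub, map_sub]
    have hm : m (fun g => f (v g)) = 0 := by
      have h5 : (fun g => f (v g)) = fun g => ∑ s : S, (F s (s * g) - F s g) := funext hfv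
      have hb : ∀ s : S, ∃ A, ∀ g, |F s g| ≤ A := fun s => ⟨‖f‖, hFb s⟩
      rw [h5, mean_sum h1 h3 Finset.univ (fun s g => F s (s * g) - F s g)
        (fun s _ => ⟨‖f‖ + ‖f‖, fun g => (abs_sub _ _).trans (add_le_add (hFb _ _) (hFb _ _))⟩)]
      refine Finset.sum_eq_zero fun s _ => ?_
      have h6 := h1 (fun g => F s (s * g) - F s g) (F s)
        ⟨‖f‖ + ‖f‖, fun g => (abs_sub _ _).trans (add_le_add (hFb _ _) (hFb _ _))⟩ (hb s)
      have h7 : (fun g => F s (s * g) - F s g) + F s = fun g => F s (s * g) := by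
        funext g
        simp only [Pi.add_apply, sub_add_cancel]
      rw [h7, h4 (F s) s (hb s)] at h6
      linarith
    have hge : u ≤ m (fun g => f (v g)) := by
      have h5 := mean_mono h1 h2 (f := fun _ => u) (g := fun g => f (v g)) ⟨|u|, fun _ => le_rfl⟩
        ⟨∑ s : S, (‖f‖ + ‖f‖), fun g => by
          rw [hfv]
          exact (Finset.abs_sum_le_sum_abs _ _).trans (Finset.sum_le_sum fun s _ =>
            (abs_sub _ _).trans (add_le_add (hFb _ _) (hFb _ _)))⟩
        (fun g => (hfu _ (subset_closure (subset_convexHull ℝ _ ⟨g, rfl⟩))).le)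
      rwa [h3] at h5
    linarith only [hf0, hm, hge]
  obtain ⟨w, hw, hwε⟩ := Metric.mem_closure_iff.1 hmem ε hε
  rw [dist_zero_left] at hwε
  rw [convexHull_eq] at hw
  obtain ⟨ι, t, c, z, hc0, hc1, hz, rfl⟩ := hw
  choose! g hg using hz
  refine ⟨t.image g, fun k => ∑ i ∈ t, if g i = k then c i else 0, ?_, ?_, ?_, ?_⟩
  · intro k
    exact Finset.sum_nonneg fun i hi => by split_ifs; exacts [hc0 i hi, le_rfl]
  · intro k hk
    obtain ⟨i, hi, hi2⟩ := Finset.exists_ne_zero_of_sum_ne_zero hk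
    rw [Finset.mem_image]
    refine ⟨i, hi, ?_⟩
    by_contra hne
    exact hi2 (if_neg hne)
  · rw [Finset.sum_comm]
    rw [← hc1]
    refine Finset.sum_congr rfl fun i hi => ?_
    rw [Finset.sum_ite_eq, if_pos (Finset.mem_image_of_mem g hi)]
  · intro s hs
    set s' : S := ⟨s, hs⟩
    have h5 : ‖(t.centerMass c z) s'‖ ≤ ε := (norm_le_pi_norm _ s').trans hwε.le
    have h6 : ∀ q, (t.centerMass c z s') q = (∑ i ∈ t, if g i = s⁻¹ * q then c i else 0) -
        ∑ i ∈ t, if g i = q then c i else 0 := by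
      intro q
      rw [Finset.centerMass_eq_of_sum_1 _ _ hc1, Finset.sum_apply, lp.coeFn_sum, Finset.sum_apply,
        ← Finset.sum_sub_distrib]
      refine Finset.sum_congr rfl fun i hi => ?_
      rw [← hg i hi]
      change (c i • (lp.single 1 (s * g i) (1 : ℝ) - lp.single 1 (g i) (1 : ℝ)) : L) q = _
      rw [lp.coeFn_smul, Pi.smul_apply, lp.coeFn_sub, Pi.sub_apply, lp.single_apply,
        lp.single_apply, smul_eq_mul, mul_sub]
      congr 1
      · by_cases hq : g i = s⁻¹ * q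
        · rw [if_pos hq]
          have : q = s * g i := by rw [hq]; group
          rw [this, Pi.single_eq_same, mul_one]
        · rw [if_neg hq, Pi.single_eq_of_ne, mul_zero]
          rintro rfl
          exact hq (by group)
      · by_cases hq : g i = q
        · rw [if_pos hq, hq, Pi.single_eq_same, mul_one]
        · rw [if_neg hq, Pi.single_eq_of_ne (Ne.symm hq), mul_zero]
    rw [lp.norm_eq_tsum_rpow (by norm_num)] at h5
    simp only [ENNReal.toReal_one, Real.rpow_one, div_one, one_div, inv_one] at h5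
    refine le_trans (le_of_eq ?_) h5
    refine tsum_congr fun q => ?_
    rw [h6, Real.norm_eq_abs]

end Vale.Agent.P184
end
end
end

section

section

/-!
# Slow maps on exact groups
-/

noncomputable section

namespace Vale.Agent.P184

/-- Yu's property A of a group (equivalently, exactness). -/
def PropA (G : Type*) [Group G] : Prop :=
  ∀ (S : Finset G) (ε : ℝ), 0 < ε → ∃ (E : Finset G) (a : G → G → ℝ),
    (∀ p q, 0 ≤ a p q) ∧ (∀ p q, a p q ≠ 0 → p⁻¹ * q ∈ E) ∧ (∀ p, ∑ t ∈ E, a p (p * t) = 1) ∧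
    ∀ s ∈ S, ∀ p, ∑' q, |a (p * s) q - a p q| ≤ ε

theorem propA_of_amenable {K : Type*} [Group K] (h : IsAmenable K) : PropA K := by
  intro S ε hε
  obtain ⟨E, μ, h0, h1, h2, h3⟩ := reiter h S hε
  refine ⟨E, fun p q => μ (p⁻¹ * q), fun p q => h0 _, fun p q hpq => h1 _ hpq, fun p => ?_,
    fun s hs p => ?_⟩
  · rw [← h2]
    exact Finset.sum_congr rfl fun t _ => by simp only [inv_mul_cancel_left]
  · refine le_trans (le_of_eq ?_) (h3 s hs)
    rw [← (Equiv.mulLeft p).tsum_eq (fun q => |μ ((p * s)⁻¹ * q) - μ (p⁻¹ * q)|)]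
    refine tsum_congr fun q => ?_
    rw [Equiv.coe_mulLeft, inv_mul_cancel_left, mul_inv_rev, mul_assoc, inv_mul_cancel_left]

/-- An invariant mean on the integers. -/
theorem exists_zmean : ∃ m : (ℤ → ℝ) → ℝ,
    (∀ f g : ℤ → ℝ, (∃ K, ∀ h, |f h| ≤ K) → (∃ K, ∀ h, |g h| ≤ K) → m (f + g) = m f + m g) ∧
    (∀ f : ℤ → ℝ, (∃ K, ∀ h, |f h| ≤ K) → (∀ h, 0 ≤ f h) → 0 ≤ m f) ∧
    (∀ c : ℝ, m (fun _ => c) = c) ∧
    ∀ f : ℤ → ℝ, (∃ K, ∀ h, |f h| ≤ K) → m (fun n => f (n + 1)) = m f := by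
  let U : Filter ℕ := (Filter.hyperfilter ℕ : Filter ℕ)
  let A : (ℤ → ℝ) → ℕ → ℝ := fun f N => (∑ i ∈ Finset.range (N + 1), f i) / ((N : ℝ) + 1)
  have hA : ∀ f : ℤ → ℝ, (∃ K, ∀ h, |f h| ≤ K) → ∃ x, Filter.Tendsto (A f) U (nhds x) := by
    rintro f ⟨K, hK⟩
    have h1 : ∀ N, A f N ∈ Set.Icc (-K) K := by
      intro N
      rw [Set.mem_Icc, ← abs_le]
      simp only [A]
      rw [abs_div, abs_of_pos (by (clear * -; positivity) : (0 : ℝ) < (N : ℝ) + 1), div_le_iff₀ (by positivity)]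
      refine (Finset.abs_sum_le_sum_abs _ _).trans ?_
      refine (Finset.sum_le_sum fun (i : ℕ) _ => hK (i : ℤ)).trans ?_
      rw [Finset.sum_const, Finset.card_range, nsmul_eq_mul]
      push_cast
      rw [mul_comm]
    obtain ⟨x, _, hx⟩ := (isCompact_Icc (a := -K) (b := K)).ultrafilter_le_nhds
      ((Filter.hyperfilter ℕ).map (A f)) (by
        rw [Filter.le_principal_iff]
        exact Filter.mem_map.2 (Filter.univ_mem' h1))
    exact ⟨x, hx⟩
  have hlim : ∀ f : ℤ → ℝ, (∃ K, ∀ h, |f h| ≤ K) →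
      Filter.Tendsto (A f) U (nhds (Filter.limUnder U (A f))) := fun f hf =>
    tendsto_nhds_limUnder (hA f hf)
  refine ⟨fun f => Filter.limUnder U (A f), ?_, ?_, ?_, ?_⟩
  · rintro f g hf hg
    refine Filter.Tendsto.limUnder_eq ?_
    have h1 := (hlim f hf).add (hlim g hg)
    refine h1.congr fun N => ?_
    simp only [A, Pi.add_apply, Finset.sum_add_distrib, add_div]
  · intro f hf h0
    refine ge_of_tendsto' (hlim f hf) fun N => ?_
    exact div_nonneg (Finset.sum_nonneg fun i _ => h0 _) (by (clear * -; positivity))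
  · intro c
    refine Filter.Tendsto.limUnder_eq ?_
    refine tendsto_const_nhds.congr fun N => ?_
    simp only [A, Finset.sum_const, Finset.card_range, nsmul_eq_mul]
    push_cast
    rw [mul_comm, mul_div_assoc, div_self (by (clear * -; positivity)), mul_one]
  · rintro f ⟨K, hK⟩
    refine Filter.Tendsto.limUnder_eq ?_
    have h1 : Filter.Tendsto (fun N : ℕ => (f ((N : ℤ) + 1) - f 0) / ((N : ℝ) + 1)) U
        (nhds 0) := by
      refine Filter.Tendsto.mono_left ?_ Nat.hyperfilter_le_atTop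
      refine squeeze_zero_norm (a := fun N : ℕ => (2 * K) * (1 / ((N : ℝ) + 1))) (fun N => ?_) ?_
      · rw [Real.norm_eq_abs, abs_div, abs_of_pos (by positivity : (0 : ℝ) < (N : ℝ) + 1),
          div_eq_mul_one_div]
        refine mul_le_mul_of_nonneg_right ?_ (by positivity)
        refine (abs_sub _ _).trans ?_
        linarith only [hK ((N : ℤ) + 1), hK 0]
      · have := (tendsto_one_div_add_atTop_nhds_zero_nat (𝕜 := ℝ)).const_mul (2 * K)
        rwa [mul_zero] at this
    have h2 := (hlim f ⟨K, hK⟩).add h1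
    rw [add_zero] at h2
    refine h2.congr fun N => ?_
    simp only [A]
    rw [← add_div]
    congr 1
    have h3 : ∀ N : ℕ, ∑ i ∈ Finset.range (N + 1), f i + (f ((N : ℤ) + 1) - f 0) =
        ∑ i ∈ Finset.range (N + 1), f ((i : ℤ) + 1) := by
      intro N
      induction N with
      | zero => simp only [zero_add, Finset.range_one, Finset.sum_singleton, CharP.cast_eq_zero, add_sub_cancel]
      | succ N ih =>
        rw [Finset.sum_range_succ, Finset.sum_range_succ (fun i => f ((i : ℤ) + 1)), ← ih]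
        push_cast
        ring
    exact h3 N

/-- Averaging over a cyclic group. -/
theorem exists_equivariant {K : Type*} [Group K] (y : K) {S : Set K} {ε : ℝ} (E : Finset K)
    (a : K → K → ℝ) (h0 : ∀ p q, 0 ≤ a p q) (hE : ∀ p q, a p q ≠ 0 → p⁻¹ * q ∈ E)
    (h1 : ∀ p, ∑ t ∈ E, a p (p * t) = 1)
    (hS : ∀ s ∈ S, ∀ p, ∑' q, |a (p * s) q - a p q| ≤ ε) :
    ∃ b : K → K → ℝ, (∀ p q, 0 ≤ b p q) ∧ (∀ p q, b p q ≠ 0 → p⁻¹ * q ∈ E) ∧
      (∀ p, ∑ t ∈ E, b p (p * t) = 1) ∧ (∀ s ∈ S, ∀ p, ∑' q, |b (p * s) q - b p q| ≤ ε) ∧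
      ∀ p q, b (y * p) (y * q) = b p q := by
  classical
  obtain ⟨m, m1, m2, m3, m4⟩ := exists_zmean
  have hle : ∀ p q, |a p q| ≤ 1 := by
    intro p q
    rw [abs_of_nonneg (h0 p q)]
    by_cases hpq : a p q = 0
    · rw [hpq]; exact zero_le_one
    · rw [← h1 p]
      have h2 := Finset.single_le_sum (f := fun t => a p (p * t)) (fun t _ => h0 _ _) (hE p q hpq)
      simpa only [mul_inv_cancel_left] using h2
  let fn : K → K → ℤ → ℝ := fun p q n => a (y ^ n * p) (y ^ n * q)
  have hfb : ∀ p q, ∃ A, ∀ n, |fn p q n| ≤ A := fun p q => ⟨1, fun n => hle _ _⟩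
  have mabs : ∀ f : ℤ → ℝ, (∃ A, ∀ n, |f n| ≤ A) → |m f| ≤ m fun n => |f n| := by
    rintro f ⟨A, hA⟩
    have hA' : ∀ n, |(|f n|)| ≤ A := fun n => by rw [abs_abs]; exact hA n
    rw [abs_le]
    constructor
    · have h2 := m1 f (fun n => |f n|) ⟨A, hA⟩ ⟨A, hA'⟩
      have h3 := m2 (f + fun n => |f n|) ⟨A + A, fun n =>
        (abs_add_le _ _).trans (add_le_add (hA n) (hA' n))⟩ fun n => by
          rw [Pi.add_apply]
          linarith [neg_abs_le (f n)]
      linarith only [h2, h3]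
    · exact mean_mono m1 m2 ⟨A, hA⟩ ⟨A, hA'⟩ fun n => le_abs_self _
  have hfin : ∀ p s (n : ℤ) q, q ∉ (E.image fun t => p * t) ∪ (E.image fun t => p * s * t) →
      fn (p * s) q n - fn p q n = 0 := by
    intro p s n q hq
    rw [Finset.mem_union, not_or, Finset.mem_image, Finset.mem_image] at hq
    have e1 : fn p q n = 0 := by
      by_contra h
      have := hE _ _ h
      refine hq.1 ⟨p⁻¹ * q, ?_, by group⟩
      have e : (y ^ n * p)⁻¹ * (y ^ n * q) = p⁻¹ * q := by group
      rwa [e] at this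
    have e2 : fn (p * s) q n = 0 := by
      by_contra h
      have := hE _ _ h
      refine hq.2 ⟨(p * s)⁻¹ * q, ?_, by group⟩
      have e : (y ^ n * (p * s))⁻¹ * (y ^ n * q) = (p * s)⁻¹ * q := by group
      rwa [e] at this
    rw [e1, e2, sub_zero]
  refine ⟨fun p q => m (fn p q), fun p q => m2 _ (hfb p q) fun n => h0 _ _, fun p q hpq => ?_,
    fun p => ?_, fun s hs p => ?_, fun p q => ?_⟩
  · by_contra hne
    apply hpq
    have h2 : fn p q = fun _ => 0 := by
      funext n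
      by_contra h
      have := hE _ _ h
      have e : (y ^ n * p)⁻¹ * (y ^ n * q) = p⁻¹ * q := by group
      rw [e] at this
      exact hne this
    simp only [h2]
    exact m3 0
  · rw [← mean_sum m1 m3 E (fun t => fn p (p * t)) fun t _ => hfb _ _]
    have h2 : (fun n => ∑ t ∈ E, fn p (p * t) n) = fun _ => 1 := by
      funext n
      rw [← h1 (y ^ n * p)]
      exact Finset.sum_congr rfl fun t _ => by simp only [fn, mul_assoc]
    rw [h2]
    exact m3 1
  · set U := (E.image fun t => p * t) ∪ (E.image fun t => p * s * t) with hU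
    have hm : ∀ q, m (fn (p * s) q) - m (fn p q) = m fun n => fn (p * s) q n - fn p q n := by
      intro q
      have hb : ∃ A, ∀ n, |fn (p * s) q n - fn p q n| ≤ A :=
        ⟨1 + 1, fun n => (abs_sub _ _).trans (add_le_add (hle _ _) (hle _ _))⟩
      have h2 := m1 (fun n => fn (p * s) q n - fn p q n) (fn p q) hb (hfb p q)
      have h3 : (fun n => fn (p * s) q n - fn p q n) + fn p q = fn (p * s) q := by
        funext n; simp
      rw [h3] at h2
      rw [h2, add_sub_cancel_right]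
    have hz : ∀ q ∉ U, |m (fn (p * s) q) - m (fn p q)| = 0 := by
      intro q hq
      rw [hm]
      have h2 : (fun n => fn (p * s) q n - fn p q n) = fun _ => 0 :=
        funext fun n => hfin p s n q hq
      rw [h2, m3, abs_zero]
    rw [tsum_eq_sum hz]
    have hb : ∀ q, ∃ A, ∀ n, |(|fn (p * s) q n - fn p q n|)| ≤ A := fun q =>
      ⟨1 + 1, fun n => by
        rw [abs_abs]
        exact (abs_sub _ _).trans (add_le_add (hle _ _) (hle _ _))⟩
    calc ∑ q ∈ U, |m (fn (p * s) q) - m (fn p q)|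
        ≤ ∑ q ∈ U, m fun n => |fn (p * s) q n - fn p q n| := by
          refine Finset.sum_le_sum fun q _ => ?_
          rw [hm]
          exact mabs _ ⟨1 + 1, fun n => (abs_sub _ _).trans (add_le_add (hle _ _) (hle _ _))⟩
      _ = m fun n => ∑ q ∈ U, |fn (p * s) q n - fn p q n| :=
          (mean_sum m1 m3 U (fun q n => |fn (p * s) q n - fn p q n|) fun q _ => hb q).symm
      _ ≤ m fun _ => ε := by
          refine mean_mono m1 m2 ?_ ⟨|ε|, fun _ => le_rfl⟩ fun n => ?_
          · refine ⟨∑ q ∈ U, (1 + 1), fun n => (Finset.abs_sum_le_sum_abs _ _).trans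
              (Finset.sum_le_sum fun q _ => ?_)⟩
            rw [abs_abs]
            exact (abs_sub _ _).trans (add_le_add (hle _ _) (hle _ _))
          · refine le_trans (le_of_eq ?_) (hS s hs (y ^ n * p))
            rw [← (Equiv.mulLeft (y ^ n)).tsum_eq
              (fun q => |a (y ^ n * p * s) q - a (y ^ n * p) q|)]
            rw [tsum_eq_sum (s := U)]
            · refine Finset.sum_congr rfl fun q _ => ?_
              simp only [fn, Equiv.coe_mulLeft, mul_assoc]
            · intro q hq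
              have h2 := hfin p s n q hq
              simp only [fn] at h2
              rw [Equiv.coe_mulLeft, mul_assoc, h2, abs_zero]
      _ = ε := m3 ε
  · have h2 : fn (y * p) (y * q) = fun n => fn p q (n + 1) := by
      funext n
      simp only [fn, zpow_add_one, mul_assoc]
    simp only [h2]
    exact m4 _ (hfb p q)

/-- Slow maps from equivariant fields of probability measures. -/
theorem slow_of_field {K : Type*} [Group K] {y : K} {S : Set K} {ε δ : ℝ} (E : Finset K)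
    (a : K → K → ℝ) (h0 : ∀ p q, 0 ≤ a p q) (hE : ∀ p q, a p q ≠ 0 → p⁻¹ * q ∈ E)
    (h1 : ∀ p, ∑ t ∈ E, a p (p * t) = 1)
    (hS : ∀ s ∈ S, ∀ p, ∑' q, |a (p * s) q - a p q| ≤ ε)
    (hy : ∀ p q, a (y * p) (y * q) = a p q) (M : ℕ) [NeZero M] {C : Type} [Fintype C]
    (κ : K → ZMod M) (hκ : ∀ p, κ (y * p) = κ p + 1) (col : K → C)
    (hcol : ∀ p, col (y * p) = col p)
    (hM : ∀ p c, 2 * Set.ncard {j | ∃ f ∈ E, col (p * f) = c ∧ κ (p * f) = j} ≤ M)
    (hδ : 2 * ε ≤ δ ^ 2) : Slow y S δ := by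
  classical
  let b : K → ZMod M → C → ℝ := fun p j c => ∑' q, if κ q = j ∧ col q = c then a p q else 0
  have hb : ∀ p (U : Finset K), (∀ q ∉ U, a p q = 0) → ∀ j c, b p j c =
      ∑ q ∈ U, if κ q = j ∧ col q = c then a p q else 0 := by
    intro p U hU j c
    refine tsum_eq_sum fun q hq => ?_
    rw [hU q hq, ite_self]
  have hsup : ∀ p q, q ∉ E.image (fun t => p * t) → a p q = 0 := by
    intro p q hq
    by_contra h
    exact hq (Finset.mem_image.2 ⟨p⁻¹ * q, hE p q h, by group⟩)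
  refine slow_of_law (ε := ε) M b (fun p j c => tsum_nonneg fun q => ?_) (fun p => ?_)
    (fun p j c => ?_) (fun s hs p => ?_) (fun p c => ?_) hδ
  · split_ifs
    · exact h0 p q
    · exact le_rfl
  · rw [Finset.sum_congr rfl fun j _ => Finset.sum_congr rfl fun c _ => hb p _ (hsup p) j c]
    rw [← Fintype.sum_prod_type' (f := fun j c => ∑ q ∈ E.image (fun t => p * t),
      if κ q = j ∧ col q = c then a p q else 0), Finset.sum_comm]
    have h2 : ∀ q, ∑ x : ZMod M × C, (if κ q = x.1 ∧ col q = x.2 then a p q else 0) = a p q := by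
      intro q
      rw [Finset.sum_eq_single (κ q, col q)]
      · rw [if_pos ⟨rfl, rfl⟩]
      · rintro ⟨j, c⟩ _ hne
        rw [if_neg]
        rintro ⟨rfl, rfl⟩
        exact hne rfl
      · intro h; exact absurd (Finset.mem_univ _) h
    rw [Finset.sum_congr rfl fun q _ => h2 q, Finset.sum_image (fun t _ t' _ h => mul_left_cancel h)]
    exact h1 p
  · change (∑' q, if κ q = j + 1 ∧ col q = c then a (y * p) q else 0) = _
    rw [← (Equiv.mulLeft y).tsum_eq
      (fun q => if κ q = j + 1 ∧ col q = c then a (y * p) q else 0)]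
    refine tsum_congr fun q => ?_
    simp only [Equiv.coe_mulLeft, hκ, hcol, hy, add_left_inj]
  · set U := E.image (fun t => p * t) ∪ E.image (fun t => p * s * t) with hU
    have hU1 : ∀ q ∉ U, a p q = 0 := fun q hq =>
      hsup p q fun h => hq (Finset.mem_union_left _ h)
    have hU2 : ∀ q ∉ U, a (p * s) q = 0 := fun q hq =>
      hsup (p * s) q fun h => hq (Finset.mem_union_right _ h)
    refine le_trans ?_ (hS s hs p)
    rw [tsum_eq_sum (s := U) (fun q hq => by rw [hU1 q hq, hU2 q hq, sub_zero, abs_zero])]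
    have h2 : ∀ q, ∑ x : ZMod M × C, (if κ q = x.1 ∧ col q = x.2 then |a (p * s) q - a p q| else 0)
        = |a (p * s) q - a p q| := by
      intro q
      rw [Finset.sum_eq_single (κ q, col q)]
      · rw [if_pos ⟨rfl, rfl⟩]
      · rintro ⟨j, c⟩ _ hne
        rw [if_neg]
        rintro ⟨rfl, rfl⟩
        exact hne rfl
      · intro h; exact absurd (Finset.mem_univ _) h
    have h3 : ∑ q ∈ U, |a (p * s) q - a p q| = ∑ j, ∑ c, ∑ q ∈ U,
        (if κ q = j ∧ col q = c then |a (p * s) q - a p q| else 0) := by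
      rw [← Fintype.sum_prod_type' (f := fun j c => ∑ q ∈ U,
        (if κ q = j ∧ col q = c then |a (p * s) q - a p q| else 0)), Finset.sum_comm]
      exact Finset.sum_congr rfl fun q _ => (h2 q).symm
    rw [h3]
    refine Finset.sum_le_sum fun j _ => Finset.sum_le_sum fun c _ => ?_
    rw [hb _ U hU1, hb _ U hU2, ← Finset.sum_sub_distrib]
    refine (Finset.abs_sum_le_sum_abs _ _).trans (Finset.sum_le_sum fun q _ => ?_)
    split_ifs
    · exact le_rfl
    · rw [sub_zero, abs_zero]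
  · refine le_trans (Nat.mul_le_mul_left 2 (Set.ncard_le_ncard ?_ (Set.toFinite _))) (hM p c)
    intro j hj
    change b p j c ≠ 0 at hj
    rw [hb p _ (hsup p)] at hj
    obtain ⟨q, hq, hq2⟩ := Finset.exists_ne_zero_of_sum_ne_zero hj
    obtain ⟨t, ht, rfl⟩ := Finset.mem_image.1 hq
    have h2 : κ (p * t) = j ∧ col (p * t) = c := by
      by_contra h
      exact hq2 (if_neg h)
    exact ⟨t, ht, h2.2, h2.1⟩

/-- Coordinates for a torsion element. -/
theorem coords_of_torsion {K : Type*} [Group K] {y : K} (F : Finset K) (hy : 0 < orderOf y)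
    (hQ : ∀ p, y ∉ Subgroup.closure
      {z | z ∈ Subgroup.zpowers y ∧ ∃ f ∈ F, ∃ f' ∈ F, z = p * f' * f⁻¹ * p⁻¹}) :
    ∃ (M : ℕ) (_ : NeZero M) (κ : K → ZMod M) (n : ℕ) (col : K → Fin n),
      (∀ p, κ (y * p) = κ p + 1) ∧ (∀ p, col (y * p) = col p) ∧
      ∀ p c, 2 * Set.ncard {j | ∃ f ∈ F, col (p * f) = c ∧ κ (p * f) = j} ≤ M := by
  have : NeZero (orderOf y) := ⟨hy.ne'⟩
  obtain ⟨κ, hκ⟩ := exists_kappa y (orderOf y) dvd_rfl
  have hκn : ∀ (n : ℕ) p, κ (y ^ n * p) = κ p + n := by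
    intro n
    induction n with
    | zero => intro p; simp only [pow_zero, one_mul, Nat.cast_zero, add_zero]
    | succ n ih =>
      intro p
      rw [pow_succ, mul_assoc, ih, hκ]
      push_cast
      ring
  have hκz : ∀ (k : ℤ) p, κ (y ^ k * p) = κ p + k := by
    intro k p
    obtain ⟨n, rfl | rfl⟩ := k.eq_nat_or_neg
    · rw [zpow_natCast, hκn]
      push_cast
      rfl
    · have h1 := hκn n (y ^ (-(n : ℤ)) * p)
      have h2 : y ^ n * (y ^ (-(n : ℤ)) * p) = p := by
        rw [← mul_assoc, zpow_neg, zpow_natCast, mul_inv_cancel, one_mul]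
      rw [h2] at h1
      rw [h1]
      push_cast
      ring
  obtain ⟨n, col, hcol, hcol2⟩ := exists_col y F
  refine ⟨orderOf y, inferInstance, κ, n, col, hκ, hcol, fun p c => ?_⟩
  rcases Set.eq_empty_or_nonempty {j | ∃ f ∈ F, col (p * f) = c ∧ κ (p * f) = j} with he | he
  · rw [he, Set.ncard_empty]
    exact Nat.zero_le _
  · obtain ⟨_, f₀, hf₀, hc₀, rfl⟩ := he
    set Q := Subgroup.closure
      {z | z ∈ Subgroup.zpowers y ∧ ∃ f ∈ F, ∃ f' ∈ F, z = p * f' * f⁻¹ * p⁻¹} with hQdef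
    let H : AddSubgroup (ZMod (orderOf y)) :=
      { carrier := {j | ∃ k : ℤ, (k : ZMod (orderOf y)) = j ∧ y ^ k ∈ Q}
        zero_mem' := ⟨0, by simp, by rw [zpow_zero]; exact Q.one_mem⟩
        add_mem' := by
          rintro _ _ ⟨k, rfl, hk⟩ ⟨l, rfl, hl⟩
          exact ⟨k + l, by push_cast; rfl, by rw [zpow_add]; exact Q.mul_mem hk hl⟩
        neg_mem' := by
          rintro _ ⟨k, rfl, hk⟩
          exact ⟨-k, by push_cast; rfl, by rw [zpow_neg]; exact Q.inv_mem hk⟩ }
    have hH1 : (1 : ZMod (orderOf y)) ∉ H := by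
      rintro ⟨k, hk, hk2⟩
      have h1 : (k : ZMod (orderOf y)) = ((1 : ℤ) : ZMod (orderOf y)) := by
        rw [hk]; simp
      rw [ZMod.intCast_eq_intCast_iff] at h1
      have h2 : y ^ k = y ^ (1 : ℤ) := zpow_eq_zpow_iff_modEq.mpr h1
      rw [h2, zpow_one] at hk2
      exact hQ p hk2
    have hHne : H ≠ ⊤ := fun h => hH1 (h ▸ AddSubgroup.mem_top _)
    have h1 : {j | ∃ f ∈ F, col (p * f) = c ∧ κ (p * f) = j} ⊆
        (fun j => κ (p * f₀) + j) '' (H : Set (ZMod (orderOf y))) := by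
      rintro _ ⟨f, hf, hc, rfl⟩
      obtain ⟨k, hk⟩ := hcol2 p f₀ hf₀ f hf (hc₀.trans hc.symm)
      refine ⟨(k : ZMod (orderOf y)), ⟨k, rfl, Subgroup.subset_closure ⟨⟨k, rfl⟩, f₀, hf₀, f,
        hf, ?_⟩⟩, ?_⟩
      · have h2 : y ^ k = (p * f) * (p * f₀)⁻¹ := by rw [hk]; group
        rw [h2]
        group
      · simp only
        rw [hk, hκz]
    have h2 : Set.ncard {j | ∃ f ∈ F, col (p * f) = c ∧ κ (p * f) = j} ≤ Nat.card H :=
      (Set.ncard_le_ncard h1 (Set.toFinite _)).trans (Set.ncard_image_le (Set.toFinite _))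
    have h3 := H.card_mul_index
    rw [Nat.card_zmod] at h3
    have h4 : H.index ≠ 1 := fun h => hHne (AddSubgroup.index_eq_one.mp h)
    have h5 : H.index ≠ 0 := fun h => by rw [h, mul_zero] at h3; omega
    have h6 : 2 ≤ H.index := by omega
    calc 2 * _ ≤ 2 * Nat.card H := Nat.mul_le_mul_left 2 h2
      _ ≤ Nat.card H * H.index := by rw [mul_comm]; exact Nat.mul_le_mul_left _ h6
      _ = orderOf y := h3

/-- Coordinates for an element of infinite order. -/
theorem coords_of_infinite {K : Type*} [Group K] {y : K} (F : Finset K) (hy : orderOf y = 0) :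
    ∃ (M : ℕ) (_ : NeZero M) (κ : K → ZMod M) (n : ℕ) (col : K → Fin n),
      (∀ p, κ (y * p) = κ p + 1) ∧ (∀ p, col (y * p) = col p) ∧
      ∀ p c, 2 * Set.ncard {j | ∃ f ∈ F, col (p * f) = c ∧ κ (p * f) = j} ≤ M := by
  obtain ⟨κ, hκ⟩ := exists_kappa y (2 * F.card + 1) (by rw [hy]; exact dvd_zero _)
  refine ⟨2 * F.card + 1, inferInstance, κ, 1, fun _ => 0, hκ, fun _ => rfl, fun p c => ?_⟩
  refine (Nat.mul_le_mul_left 2 ?_).trans (Nat.le_succ _)
  have h1 : {j | ∃ f ∈ F, (0 : Fin 1) = c ∧ κ (p * f) = j} ⊆ (fun f => κ (p * f)) '' (F : Set K) := by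
    rintro j ⟨f, hf, _, h⟩
    exact ⟨f, hf, h⟩
  refine (Set.ncard_le_ncard h1 (Set.toFinite _)).trans ?_
  refine (Set.ncard_image_le (Finset.finite_toSet F)).trans ?_
  rw [Set.ncard_coe_finset]

/-- Coordinates exist outside finitely many classes of finite order. -/
theorem finite_exceptions_coords {K : Type*} [Group K] (F : Finset K) :
    ∃ B : Set K, B.Finite ∧ (∀ b ∈ B, IsOfFinOrder b) ∧ ∀ y : K, (∀ b ∈ B, ¬ IsConj b y) →
      ∃ (M : ℕ) (_ : NeZero M) (κ : K → ZMod M) (n : ℕ) (col : K → Fin n),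
      (∀ p, κ (y * p) = κ p + 1) ∧ (∀ p, col (y * p) = col p) ∧
      ∀ p c, 2 * Set.ncard {j | ∃ f ∈ F, col (p * f) = c ∧ κ (p * f) = j} ≤ M := by
  classical
  set D : Finset K := (F ×ˢ F).image fun z => z.1 * z.2⁻¹ with hD
  refine ⟨⋃ A ∈ D.powerset, {z | IsOfFinOrder z ∧
    Subgroup.zpowers z = Subgroup.closure (A : Set K)}, ?_, ?_, fun y hy => ?_⟩
  · refine Set.Finite.biUnion (Finset.finite_toSet _) fun A _ => ?_
    rcases Set.eq_empty_or_nonempty {z | IsOfFinOrder z ∧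
      Subgroup.zpowers z = Subgroup.closure (A : Set K)} with he | ⟨z, hz, hz2⟩
    · rw [he]; exact Set.finite_empty
    · have h1 : (Subgroup.zpowers z : Set K).Finite := by
        rw [finite_zpowers]
        exact hz
      refine h1.subset fun w hw => ?_
      have h2 : w ∈ Subgroup.zpowers w := Subgroup.mem_zpowers w
      rw [hw.2, ← hz2] at h2
      exact h2
  · intro b hb
    simp only [Set.mem_iUnion] at hb
    obtain ⟨A, _, hb, _⟩ := hb
    exact hb
  · rcases Nat.eq_zero_or_pos (orderOf y) with h0 | h0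
    · exact coords_of_infinite F h0
    · refine coords_of_torsion F h0 fun p hp => ?_
      -- the exceptional case
      set y' := p⁻¹ * y * p with hy'
      set A : Finset K := D.filter fun z => z ∈ Subgroup.zpowers y' with hA
      have hconj : IsConj y' y := isConj_iff.mpr ⟨p, by rw [hy']; group⟩
      have hfin : IsOfFinOrder y' := by
        have h1 : IsOfFinOrder y := orderOf_pos_iff.mp h0
        have h2 : y' = MulAut.conj p⁻¹ y := by rw [MulAut.conj_apply, inv_inv]
        rw [h2]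
        exact MonoidHom.isOfFinOrder (MulAut.conj p⁻¹).toMonoidHom h1
      have hle : Subgroup.closure (A : Set K) ≤ Subgroup.zpowers y' := by
        rw [Subgroup.closure_le]
        intro z hz
        rw [Finset.mem_coe, hA, Finset.mem_filter] at hz
        exact hz.2
      have hmem : y' ∈ Subgroup.closure (A : Set K) := by
        have h1 : (MulAut.conj p⁻¹).toMonoidHom y ∈ (Subgroup.closure
            {z | z ∈ Subgroup.zpowers y ∧ ∃ f ∈ F, ∃ f' ∈ F, z = p * f' * f⁻¹ * p⁻¹}).map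
            (MulAut.conj p⁻¹).toMonoidHom := Subgroup.mem_map_of_mem _ hp
        rw [MonoidHom.map_closure] at h1
        have h2 : (MulAut.conj p⁻¹).toMonoidHom y = y' := by
          change MulAut.conj p⁻¹ y = y'
          rw [MulAut.conj_apply, inv_inv]
        rw [h2] at h1
        refine Subgroup.closure_mono ?_ h1
        rintro _ ⟨z, ⟨⟨k, hk⟩, f, hf, f', hf', hz⟩, rfl⟩
        rw [hA, Finset.coe_filter]
        refine ⟨?_, ?_⟩
        · rw [hD]
          refine Finset.mem_image.mpr ⟨(f', f), Finset.mk_mem_product hf' hf, ?_⟩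
          change f' * f⁻¹ = MulAut.conj p⁻¹ z
          rw [MulAut.conj_apply, hz]
          group
        · refine ⟨k, ?_⟩
          simp only at hk ⊢
          rw [← hk, ← h2, ← map_zpow]
      refine hy y' (Set.mem_biUnion (x := A) ?_ ⟨hfin, ?_⟩) hconj
      · rw [Finset.mem_coe, Finset.mem_powerset]
        exact Finset.filter_subset _ _
      · refine le_antisymm ?_ hle
        rw [Subgroup.zpowers_le]
        exact hmem

/-- In a group with property A, all elements outside finitely many classes of finite order have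
slow maps. -/
theorem slow_of_propA {K : Type*} [Group K] (hK : PropA K) {S : Set K} (hS : S.Finite)
    {δ : ℝ} (hδ : 0 < δ) :
    ∃ B : Set K, B.Finite ∧ (∀ b ∈ B, IsOfFinOrder b) ∧
      ∀ y : K, (∀ b ∈ B, ¬ IsConj b y) → Slow y S δ := by
  obtain ⟨E, a, h0, hE, h1, h2⟩ := hK hS.toFinset (δ ^ 2 / 2) (by (clear * - hδ; positivity))
  obtain ⟨B, hB, hB1, hB2⟩ := finite_exceptions_coords E
  refine ⟨B, hB, hB1, fun y hy => ?_⟩
  obtain ⟨M, _, κ, n, col, hκ, hcol, hM⟩ := hB2 y hy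
  obtain ⟨b, b0, bE, b1, b2, b3⟩ := exists_equivariant y (S := S) (ε := δ ^ 2 / 2) E a h0 hE h1
    fun s hs p => h2 s (by simpa using hs) p
  exact slow_of_field E b b0 bE b1 b2 b3 M κ hκ col hcol hM (by linarith)

end Vale.Agent.P184
end
end
end

section

section

/-!
# Connections of finite rank: finite index, roots, unitriangular groups
-/

noncomputable section
open scoped Topology

namespace Vale.Agent.P184

section general

variable {G : Type*} [Group G] {L : G → ℝ} {x : G}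

theorem SubExp.sum (hL : IsLength L) {n : ℕ} {κ : Type*} (s : Finset κ)
    {F : κ → (Fin n → G) → ℝ} (hF : ∀ k ∈ s, SubExp x L (F k)) :
    SubExp x L fun p => ∑ k ∈ s, F k p := by
  classical
  induction s using Finset.induction_on with
  | empty => simpa using SubExp.const hL 0
  | insert k s hk ih =>
    have h1 := (hF k (Finset.mem_insert_self k s)).add
      (ih fun j hj => hF j (Finset.mem_insert_of_mem hj))
    simpa only [Finset.sum_insert hk] using h1

theorem siz_tra {n : ℕ} {h : G} (hh : Commute h x) (p : Fin n → G) :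
    siz x L (tra h p) = siz x L p := by
  unfold siz tra
  congr 1
  · refine Finset.sum_congr rfl fun i _ => Finset.sum_congr rfl fun j _ => ?_
    congr 1
    group
  · refine Finset.sum_congr rfl fun i _ => ?_
    congr 1
    have h1 : h⁻¹ * x * h = x := by
      rw [mul_assoc, ← hh.eq, inv_mul_cancel_left]
    calc (h * p i)⁻¹ * x * (h * p i) = (p i)⁻¹ * (h⁻¹ * x * h) * p i := by group
      _ = _ := by rw [h1]

theorem SubExp.tra {n : ℕ} {F : (Fin n → G) → ℝ} (hF : SubExp x L F) {h : G}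
    (hh : Commute h x) : SubExp x L fun p => F (tra h p) := by
  intro ε hε
  obtain ⟨C, hC⟩ := hF ε hε
  refine ⟨C, fun p => ?_⟩
  have := hC (Vale.Agent.P184.tra h p)
  rwa [siz_tra hh] at this

/-- Polynomially bounded functions have subexponential growth. -/
theorem SubExp.of_poly (hL : IsLength L) {n : ℕ} {F : (Fin n → G) → ℝ} (c : ℝ) (d : ℕ)
    (hF : ∀ p, |F p| ≤ c * (1 + siz x L p) ^ d) : SubExp x L F := by
  intro ε hε
  refine ⟨|c| * (d.factorial / ε ^ d * Real.exp ε), fun p => (hF p).trans ?_⟩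
  have h0 : 0 ≤ siz x L p := siz_nonneg hL p
  have h1 := Real.pow_div_factorial_le_exp (ε * (1 + siz x L p)) (by positivity) d
  have h2 : (1 + siz x L p) ^ d ≤ d.factorial / ε ^ d * Real.exp (ε * (1 + siz x L p)) := by
    rw [div_le_iff₀ (by positivity)] at h1
    rw [mul_pow] at h1
    rw [div_mul_eq_mul_div, le_div_iff₀ (by positivity)]
    (clear * - h1; linarith)
  calc c * (1 + siz x L p) ^ d ≤ |c| * (1 + siz x L p) ^ d :=
        mul_le_mul_of_nonneg_right (le_abs_self c) (by (clear * - h0; positivity))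
    _ ≤ |c| * (d.factorial / ε ^ d * Real.exp (ε * (1 + siz x L p))) :=
        mul_le_mul_of_nonneg_left h2 (abs_nonneg c)
    _ = _ := by
        rw [mul_add, mul_one, Real.exp_add]
        ring

theorem exists_fin_rank {A B : Type*} {κ : Type*} [Fintype κ] (α : A → B → ℝ) (a : κ → A → ℝ)
    (b : κ → B → ℝ) (h : ∀ p q, α p q = ∑ k, a k p * b k q) :
    ∃ (r : ℕ) (a : Fin r → A → ℝ) (b : Fin r → B → ℝ), ∀ p q, α p q = ∑ i, a i p * b i q := by
  refine ⟨Fintype.card κ, fun i => a ((Fintype.equivFin κ).symm i),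
    fun i => b ((Fintype.equivFin κ).symm i), fun p q => ?_⟩
  rw [h, ← Equiv.sum_comp (Fintype.equivFin κ).symm]

/-- Averaging over the cosets of a finite index subgroup of the centralizer. -/
theorem finRank_average (hL : IsLength L) (K : Subgroup G) [K.FiniteIndex]
    (α : G → G → ℝ) (h1 : ∀ h ∈ K, Commute h x → ∀ p q, α (h * p) (h * q) = α p q)
    (h2 : ∀ p q, α p (x * q) = α p q + 1)
    (h3 : SubExp x L (fun p : Fin 2 → G => α (p 0) (p 1)))
    (h4 : ∃ (r : ℕ) (a b : Fin r → G → ℝ), ∀ p q, α p q = ∑ i, a i p * b i q) :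
    FinRank L x := by
  classical
  set Z : Subgroup G := Subgroup.centralizer {x} with hZ
  have hZc : ∀ t : Z, Commute (t : G) x := fun t =>
    (Subgroup.mem_centralizer_singleton_iff.1 t.2)
  set N : Subgroup Z := K.subgroupOf Z with hN
  have : Finite (Z ⧸ N) := inferInstance
  have := Fintype.ofFinite (Z ⧸ N)
  set F : G → G → Z → ℝ := fun p q t => α ((t : G)⁻¹ * p) ((t : G)⁻¹ * q) with hF
  have hconst : ∀ p q (t : Z) (k : N), F p q (t * k) = F p q t := by
    intro p q t k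
    simp only [hF, Subgroup.coe_mul, mul_inv_rev, mul_assoc]
    exact h1 _ (K.inv_mem (Subgroup.mem_subgroupOf.1 k.2)) (hZc k).inv_left _ _
  have hout : ∀ p q (t : Z), F p q (Quotient.out (t : Z ⧸ N)) = F p q t := by
    intro p q t
    obtain ⟨k, hk⟩ := QuotientGroup.mk_out_eq_mul N t
    rw [hk, hconst]
  set c : ℝ := (Fintype.card (Z ⧸ N) : ℝ)⁻¹ with hc
  have hc0 : (Fintype.card (Z ⧸ N) : ℝ) ≠ 0 := by
    have : 0 < Fintype.card (Z ⧸ N) := Fintype.card_pos_iff.2 ⟨((1 : Z) : Z ⧸ N)⟩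
    positivity
  refine ⟨fun p q => c * ∑ s : Z ⧸ N, F p q s.out, ?_, ?_, ?_, ?_⟩
  · intro h p q hh
    have hhZ : h ∈ Z := Subgroup.mem_centralizer_singleton_iff.2 hh
    change c * ∑ s : Z ⧸ N, F (h * p) (h * q) s.out = c * ∑ s : Z ⧸ N, F p q s.out
    rw [← Equiv.sum_comp (MulAction.toPerm (⟨h, hhZ⟩⁻¹ : Z)) fun s : Z ⧸ N => F p q s.out]
    congr 1
    refine Finset.sum_congr rfl fun s _ => ?_
    rw [MulAction.toPerm_apply]
    have e1 : ((⟨h, hhZ⟩⁻¹ : Z) • s : Z ⧸ N) = (((⟨h, hhZ⟩⁻¹ : Z) * s.out : Z) : Z ⧸ N) := by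
      conv_lhs => rw [← Quotient.out_eq' s]
      rfl
    rw [e1, hout]
    simp only [hF, Subgroup.coe_mul, Subgroup.coe_inv, mul_inv_rev, inv_inv, mul_assoc]
  · intro p q
    have e1 : ∀ s : Z ⧸ N, F p (x * q) s.out = F p q s.out + 1 := by
      intro s
      simp only [hF]
      have h5 := (hZc (Quotient.out s)).inv_left
      rw [← mul_assoc, h5.eq, mul_assoc, h2]
    simp only [e1]
    rw [Finset.sum_add_distrib, Finset.sum_const, nsmul_eq_mul, mul_one, mul_add, hc,
      Finset.card_univ, inv_mul_cancel₀ hc0]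
  · refine SubExp.smul hL c (SubExp.sum hL Finset.univ fun s _ => ?_)
    exact h3.tra (hZc (Quotient.out s)).inv_left
  · obtain ⟨r, a, b, hab⟩ := h4
    refine exists_fin_rank (κ := (Z ⧸ N) × Fin r) _
      (fun k p => c * a k.2 ((k.1.out : G)⁻¹ * p)) (fun k q => b k.2 ((k.1.out : G)⁻¹ * q)) ?_
    intro p q
    rw [Fintype.sum_prod_type, Finset.mul_sum]
    refine Finset.sum_congr rfl fun s _ => ?_
    simp only [hF, hab, Finset.mul_sum]
    refine Finset.sum_congr rfl fun i _ => ?_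
    ring

theorem length_pow (hL : IsLength L) (g : G) (j : ℕ) : L (g ^ j) ≤ j * L g := by
  induction j with
  | zero => simp only [pow_zero, hL.1, CharP.cast_eq_zero, zero_mul, Std.le_refl]
  | succ j ih =>
    have := hL.2.2 (g ^ j) g
    rw [pow_succ]
    push_cast
    linarith only [ih, this]

/-- Roots. -/
theorem finRank_of_pow (hL : IsLength L) {m : ℕ} (h : FinRank L (x ^ m)) :
    FinRank L x := by
  obtain ⟨α, h1, h2, h3, r, a, b, h4⟩ := h
  have hcx : ∀ {h : G}, Commute h x → Commute h (x ^ m) := fun hh => hh.pow_right m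
  refine ⟨fun p q => ∑ j ∈ Finset.range m, α p (x ^ j * q), ?_, ?_, ?_, ?_⟩
  · intro h p q hh
    refine Finset.sum_congr rfl fun j _ => ?_
    have h5 := (hh.pow_right j).eq
    rw [← mul_assoc, ← h5, mul_assoc]
    exact h1 h _ _ (hcx hh)
  · intro p q
    have h5 := Finset.sum_range_succ (fun j => α p (x ^ j * q)) m
    have h6 := Finset.sum_range_succ' (fun j => α p (x ^ j * q)) m
    simp only [pow_zero, one_mul] at h6
    rw [h5, h2] at h6
    have h7 : ∑ j ∈ Finset.range m, α p (x ^ j * (x * q)) =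
        ∑ j ∈ Finset.range m, α p (x ^ (j + 1) * q) := by
      refine Finset.sum_congr rfl fun j _ => ?_
      rw [pow_succ, mul_assoc]
    change ∑ j ∈ Finset.range m, α p (x ^ j * (x * q)) =
      ∑ j ∈ Finset.range m, α p (x ^ j * q) + 1
    rw [h7]
    linarith only [h6]
  · refine SubExp.sum hL _ fun j _ => ?_
    intro ε hε
    obtain ⟨C, hC0, hC⟩ := h3.pos (ε := ε / (2 * (j + 1) + m)) (by positivity)
    refine ⟨C, fun p => (hC ![p 0, x ^ j * p 1]).trans ?_⟩
    refine mul_le_mul_of_nonneg_left (Real.exp_le_exp.2 ?_) hC0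
    rw [div_mul_eq_mul_div, div_le_iff₀ (by (clear * -; positivity)), mul_assoc]
    refine mul_le_mul_of_nonneg_left ?_ hε.le
    -- estimate the size
    have e0 : siz x L p = L ((p 0)⁻¹ * p 1) + L ((p 1)⁻¹ * p 0) + L ((p 0)⁻¹ * x * p 0) +
        L ((p 1)⁻¹ * x * p 1) := by
      unfold siz
      simp only [Fin.sum_univ_two, inv_mul_cancel, hL.1]
      ring
    have e1 : siz (x ^ m) L ![p 0, x ^ j * p 1] = L ((p 0)⁻¹ * (x ^ j * p 1)) +
        L ((x ^ j * p 1)⁻¹ * p 0) + L ((p 0)⁻¹ * x ^ m * p 0) +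
        L ((x ^ j * p 1)⁻¹ * x ^ m * (x ^ j * p 1)) := by
      unfold siz
      simp only [Fin.sum_univ_two, inv_mul_cancel, hL.1, Matrix.cons_val_zero, Matrix.cons_val_one]
      ring
    have e2 : ∀ (k : ℕ) (g : G), L (g⁻¹ * x ^ k * g) ≤ k * L (g⁻¹ * x * g) := by
      intro k g
      have h5 := length_pow hL (g⁻¹ * x * g) k
      have h6 : (g⁻¹ * x * g) ^ k = g⁻¹ * x ^ k * g := by
        have := conj_pow (a := g⁻¹) (b := x) (i := k)
        rw [inv_inv] at this
        exact this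
      rwa [h6] at h5
    have e3 : L ((p 0)⁻¹ * (x ^ j * p 1)) ≤ j * L ((p 0)⁻¹ * x * p 0) + L ((p 0)⁻¹ * p 1) := by
      have h5 := hL.2.2 ((p 0)⁻¹ * x ^ j * p 0) ((p 0)⁻¹ * p 1)
      rw [show (p 0)⁻¹ * x ^ j * p 0 * ((p 0)⁻¹ * p 1) = (p 0)⁻¹ * (x ^ j * p 1) by group] at h5
      linarith only [e2 j (p 0), h5]
    have e4 : L ((x ^ j * p 1)⁻¹ * p 0) ≤ j * L ((p 0)⁻¹ * x * p 0) + L ((p 0)⁻¹ * p 1) := by
      rw [← hL.2.1]
      rwa [show ((x ^ j * p 1)⁻¹ * p 0)⁻¹ = (p 0)⁻¹ * (x ^ j * p 1) by group]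
    have e5 : L ((x ^ j * p 1)⁻¹ * x ^ m * (x ^ j * p 1)) ≤ m * L ((p 1)⁻¹ * x * p 1) := by
      rw [show (x ^ j * p 1)⁻¹ * x ^ m * (x ^ j * p 1) = (p 1)⁻¹ * x ^ m * p 1 by
        have h5 : x ^ m * x ^ j = x ^ j * x ^ m := by rw [← pow_add, ← pow_add, add_comm]
        calc (x ^ j * p 1)⁻¹ * x ^ m * (x ^ j * p 1)
            = (p 1)⁻¹ * (x ^ j)⁻¹ * (x ^ m * x ^ j) * p 1 := by group
          _ = (p 1)⁻¹ * x ^ m * p 1 := by rw [h5]; group]
      exact e2 m (p 1)
    have n1 := hL.nonneg ((p 0)⁻¹ * p 1)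
    have n2 := hL.nonneg ((p 1)⁻¹ * p 0)
    have n3 := hL.nonneg ((p 0)⁻¹ * x * p 0)
    have n4 := hL.nonneg ((p 1)⁻¹ * x * p 1)
    have e6 := e2 m (p 0)
    rw [e0, e1]
    have hj : (0 : ℝ) ≤ j := Nat.cast_nonneg j
    have hm : (0 : ℝ) ≤ m := Nat.cast_nonneg m
    linarith only [mul_nonneg hm n2, mul_nonneg hm n1, mul_nonneg hj n4, mul_nonneg hj n2, mul_nonneg hj n1, e6, n4, n3, n2, e5, e4, e3]
  · refine exists_fin_rank (κ := Finset.range m × Fin r) _ (fun k p => a k.2 p)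
      (fun k q => b k.2 (x ^ (k.1 : ℕ) * q)) ?_
    intro p q
    rw [Fintype.sum_prod_type, ← Finset.sum_coe_sort]
    refine Finset.sum_congr rfl fun j _ => ?_
    exact h4 _ _

end general

end Vale.Agent.P184
end
end
end

section

section

/-!
# Elements detected by unitriangular representations of finite index subgroups are tame
-/

noncomputable section
open scoped Topology

namespace Vale.Agent.P184

/-- Some power of `x` lies in a subgroup `K` of finite index and has nontrivial image under a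
homomorphism from `K` to real upper unitriangular matrices. -/
def UniDetected {G : Type*} [Group G] (x : G) : Prop :=
  ∃ (K : Subgroup G) (m n : ℕ) (ρ : K →* Matrix (Fin n) (Fin n) ℝ) (h : x ^ m ∈ K),
    K.FiniteIndex ∧ (∀ g i j, j ≤ i → ρ g i j = (1 : Matrix (Fin n) (Fin n) ℝ) i j) ∧
      ρ ⟨x ^ m, h⟩ ≠ 1

section norm

variable {K : Type*} [Group K] {n : ℕ} (ρ : K →* Matrix (Fin n) (Fin n) ℝ)

/-- Weighted entry bound. -/
def Bd (g : K) (s : ℝ) : Prop :=
  ∀ i j : Fin n, i ≤ j → ((j : ℕ) - (i : ℕ)).factorial * |ρ g i j| ≤ s ^ ((j : ℕ) - (i : ℕ))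

variable {ρ} (hρ : ∀ g i j, j ≤ i → ρ g i j = (1 : Matrix (Fin n) (Fin n) ℝ) i j)
include hρ

theorem Bd.mul {g h : K} {s t : ℝ} (hs : 0 ≤ s) (ht : 0 ≤ t) (hg : Bd ρ g s) (hh : Bd ρ h t) :
    Bd ρ (g * h) (s + t) := by
  intro i j hij
  set d := (j : ℕ) - (i : ℕ) with hd
  set f : ℕ → ℝ := fun k => s ^ k * t ^ (d - k) * (d.choose k) with hf
  have h0 : ∀ g : K, ∀ a b : Fin n, b < a → ρ g a b = 0 := by
    intro g a b hab
    rw [hρ g a b hab.le, Matrix.one_apply_ne hab.ne']
  have key : ∀ k : Fin n, d.factorial * |ρ g i k * ρ h k j| ≤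
      if i ≤ k ∧ k ≤ j then f ((k : ℕ) - (i : ℕ)) else 0 := by
    intro k
    split_ifs with hk
    · have h1 := hg i k hk.1
      have h2 := hh k j hk.2
      have hik : (i : ℕ) ≤ k := hk.1
      have hkj : (k : ℕ) ≤ j := hk.2
      have e1 : d - ((k : ℕ) - (i : ℕ)) = (j : ℕ) - (k : ℕ) := by omega
      have e2 : (d.factorial : ℝ) = (d.choose ((k : ℕ) - (i : ℕ))) *
          (((k : ℕ) - (i : ℕ)).factorial * ((j : ℕ) - (k : ℕ)).factorial) := by
        have := Nat.choose_mul_factorial_mul_factorial (n := d) (k := (k : ℕ) - (i : ℕ))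
          (by (clear * - hk e1; omega))
        rw [e1] at this
        rw [← this]
        push_cast
        ring
      simp only [hf]
      rw [e1, e2, abs_mul]
      have h3 : ((((k : ℕ) - (i : ℕ)).factorial : ℝ) * |ρ g i k|) *
          ((((j : ℕ) - (k : ℕ)).factorial : ℝ) * |ρ h k j|) ≤
          s ^ ((k : ℕ) - (i : ℕ)) * t ^ ((j : ℕ) - (k : ℕ)) :=
        mul_le_mul h1 h2 (by (clear * -; positivity)) (by (clear * - hs; positivity))
      have h4 := mul_le_mul_of_nonneg_left h3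
        (Nat.cast_nonneg (α := ℝ) (d.choose ((k : ℕ) - (i : ℕ))))
      linarith only [h4]
    · rw [not_and_or, not_le, not_le] at hk
      rcases hk with hk | hk
      · rw [h0 g i k hk]; simp
      · rw [h0 h k j hk]; simp only [mul_zero, abs_zero, Std.le_refl]
  rw [map_mul, Matrix.mul_apply]
  calc (d.factorial : ℝ) * |∑ k, ρ g i k * ρ h k j|
      ≤ d.factorial * ∑ k, |ρ g i k * ρ h k j| :=
        mul_le_mul_of_nonneg_left (Finset.abs_sum_le_sum_abs _ _) (Nat.cast_nonneg _)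
    _ = ∑ k, d.factorial * |ρ g i k * ρ h k j| := Finset.mul_sum _ _ _
    _ ≤ ∑ k : Fin n, if i ≤ k ∧ k ≤ j then f ((k : ℕ) - (i : ℕ)) else 0 :=
        Finset.sum_le_sum fun k _ => key k
    _ = ∑ k ∈ Finset.univ.filter (fun k : Fin n => i ≤ k ∧ k ≤ j), f ((k : ℕ) - (i : ℕ)) :=
        (Finset.sum_filter _ _).symm
    _ = ∑ m ∈ (Finset.univ.filter (fun k : Fin n => i ≤ k ∧ k ≤ j)).image
          (fun k : Fin n => (k : ℕ) - (i : ℕ)), f m := by
        rw [Finset.sum_image]
        intro a ha b hb hab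
        simp only [Finset.coe_filter, Finset.mem_univ, true_and, Set.mem_ofPred_eq] at ha hb
        have h1 : (i : ℕ) ≤ a := ha.1
        have h2 : (i : ℕ) ≤ b := hb.1
        have h3 : (a : ℕ) - (i : ℕ) = (b : ℕ) - (i : ℕ) := hab
        exact Fin.ext (by omega)
    _ ≤ ∑ m ∈ Finset.range (d + 1), f m := by
        refine Finset.sum_le_sum_of_subset_of_nonneg ?_ fun m _ _ => by (clear * - hs ht; (clear * - hs ht; positivity))
        intro m hm
        rw [Finset.mem_image] at hm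
        obtain ⟨k, hk, rfl⟩ := hm
        rw [Finset.mem_filter] at hk
        have h1 : (i : ℕ) ≤ k := hk.2.1
        have h2 : (k : ℕ) ≤ j := hk.2.2
        rw [Finset.mem_range]
        omega
    _ = (s + t) ^ d := (add_pow s t d).symm

theorem exists_bd (g : K) : ∃ s, 0 ≤ s ∧ Bd ρ g s := by
  refine ⟨1 + ∑ i, ∑ j, n.factorial * |ρ g i j|, by (clear * -; positivity), fun i j hij => ?_⟩
  have h0 : 0 ≤ ∑ i, ∑ j, n.factorial * |ρ g i j| := by (clear * -; positivity)
  rcases hij.eq_or_lt with rfl | hlt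
  · rw [Nat.sub_self, hρ g i i le_rfl]
    simp only [Nat.factorial_zero, Nat.cast_one, Matrix.one_apply_eq, abs_one, mul_one, pow_zero, Std.le_refl]
  · have hlt' : (i : ℕ) < j := hlt
    have h1 : n.factorial * |ρ g i j| ≤ ∑ i, ∑ j, n.factorial * |ρ g i j| :=
      (Finset.single_le_sum (f := fun j => (n.factorial : ℝ) * |ρ g i j|)
        (fun _ _ => by (clear * -; positivity)) (Finset.mem_univ j)).trans
      (Finset.single_le_sum (f := fun i => ∑ j, (n.factorial : ℝ) * |ρ g i j|)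
        (fun _ _ => by (clear * -; positivity)) (Finset.mem_univ i))
    have h2 : (((j : ℕ) - (i : ℕ)).factorial : ℝ) ≤ n.factorial := by
      exact_mod_cast Nat.factorial_le (by omega)
    have h3 : (((j : ℕ) - (i : ℕ)).factorial : ℝ) * |ρ g i j| ≤ n.factorial * |ρ g i j| :=
      mul_le_mul_of_nonneg_right h2 (abs_nonneg _)
    have h4 : 1 + ∑ i, ∑ j, n.factorial * |ρ g i j| ≤
        (1 + ∑ i, ∑ j, n.factorial * |ρ g i j|) ^ ((j : ℕ) - (i : ℕ)) :=
      le_self_pow₀ (by linarith only [h0]) (by omega)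
    linarith only [h1, h3, h4]

omit hρ in
/-- The homogeneous norm. -/
def hnorm (ρ : K →* Matrix (Fin n) (Fin n) ℝ) (g : K) : ℝ := sInf {s : ℝ | 0 ≤ s ∧ Bd ρ g s}

omit hρ in
theorem hnorm_nonneg (g : K) : 0 ≤ hnorm ρ g := Real.sInf_nonneg fun _ hs => hs.1

omit hρ in
theorem hnorm_le {g : K} {s : ℝ} (hs : 0 ≤ s) (h : Bd ρ g s) : hnorm ρ g ≤ s :=
  csInf_le ⟨0, fun _ ht => ht.1⟩ ⟨hs, h⟩

theorem exists_lt_hnorm (g : K) {ε : ℝ} (hε : 0 < ε) :
    ∃ s, 0 ≤ s ∧ Bd ρ g s ∧ s < hnorm ρ g + ε := by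
  obtain ⟨s, ⟨h1, h2⟩, h3⟩ := exists_lt_of_csInf_lt (s := {s : ℝ | 0 ≤ s ∧ Bd ρ g s})
    (exists_bd hρ g) (b := hnorm ρ g + ε) (by unfold hnorm; linarith only [hε])
  exact ⟨s, h1, h2, h3⟩

theorem hnorm_mul (g h : K) : hnorm ρ (g * h) ≤ hnorm ρ g + hnorm ρ h := by
  refine le_of_forall_pos_lt_add fun ε hε => ?_
  obtain ⟨s, s0, s1, s2⟩ := exists_lt_hnorm hρ g (half_pos hε)
  obtain ⟨t, t0, t1, t2⟩ := exists_lt_hnorm hρ h (half_pos hε)
  have := hnorm_le (add_nonneg s0 t0) (Bd.mul hρ s0 t0 s1 t1)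
  linarith only [this, t2, s2]

theorem hnorm_one : hnorm ρ 1 = 0 := by
  refine le_antisymm (hnorm_le le_rfl fun i j hij => ?_) (hnorm_nonneg 1)
  rcases hij.eq_or_lt with rfl | hlt
  · rw [Nat.sub_self, hρ 1 i i le_rfl]
    simp
  · have hlt' : (i : ℕ) < j := hlt
    rw [map_one, Matrix.one_apply_ne hlt.ne, zero_pow (by omega)]
    simp only [abs_zero, mul_zero, Std.le_refl]

/-- The symmetrized homogeneous norm is a length function. -/
theorem isLength_hnorm : IsLength fun g => max (hnorm ρ g) (hnorm ρ g⁻¹) := by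
  refine ⟨?_, fun g => ?_, fun g h => ?_⟩
  · simp [hnorm_one hρ]
  · simp only [inv_inv]
    rw [max_comm]
  · simp only [mul_inv_rev]
    apply max_le
    · exact (hnorm_mul hρ g h).trans (add_le_add (le_max_left _ _) (le_max_left _ _))
    · rw [add_comm]
      exact (hnorm_mul hρ h⁻¹ g⁻¹).trans (add_le_add (le_max_right _ _) (le_max_right _ _))

theorem abs_entry_le (g : K) (i j : Fin n) : |ρ g i j| ≤ (1 + max (hnorm ρ g) (hnorm ρ g⁻¹)) ^ n := by
  have h0 : 0 ≤ max (hnorm ρ g) (hnorm ρ g⁻¹) := (hnorm_nonneg g).trans (le_max_left _ _)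
  rcases le_or_gt i j with hij | hij
  · obtain ⟨s, s0, s1, s2⟩ := exists_lt_hnorm hρ g one_pos
    have h1 := s1 i j hij
    have h2 : |ρ g i j| ≤ ((j : ℕ) - (i : ℕ)).factorial * |ρ g i j| := by
      refine le_mul_of_one_le_left (abs_nonneg _) ?_
      exact_mod_cast Nat.succ_le_of_lt (Nat.factorial_pos _)
    calc |ρ g i j| ≤ s ^ ((j : ℕ) - (i : ℕ)) := h2.trans h1
      _ ≤ (1 + max (hnorm ρ g) (hnorm ρ g⁻¹)) ^ ((j : ℕ) - (i : ℕ)) := by
        refine pow_le_pow_left₀ s0 ?_ _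
        have := le_max_left (hnorm ρ g) (hnorm ρ g⁻¹)
        linarith only [s2, this]
      _ ≤ _ := pow_le_pow_right₀ (by linarith only [h0]) (by omega)
  · rw [hρ g i j hij.le, Matrix.one_apply_ne hij.ne', abs_zero]
    (clear * - h0; positivity)

omit hρ in
theorem exists_min_entry {M : Matrix (Fin n) (Fin n) ℝ}
    (hM : ∀ i j, j ≤ i → M i j = (1 : Matrix (Fin n) (Fin n) ℝ) i j) (h1 : M ≠ 1) :
    ∃ i j : Fin n, i < j ∧ M i j ≠ 0 ∧
      ∀ k l : Fin n, (l : ℕ) < (k : ℕ) + ((j : ℕ) - (i : ℕ)) → (M - 1) k l = 0 := by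
  classical
  have hex : ∃ d : ℕ, ∃ i j : Fin n, (i : ℕ) + d = j ∧ (M - 1) i j ≠ 0 := by
    by_contra hcon
    push Not at hcon
    apply h1
    ext i j
    rcases le_or_gt j i with hij | hij
    · exact hM i j hij
    · have h2 := hcon ((j : ℕ) - (i : ℕ)) i j (by have : (i : ℕ) < j := hij; omega)
      rw [Matrix.sub_apply, sub_eq_zero] at h2
      exact h2
  obtain ⟨i, j, hij, hne⟩ := Nat.find_spec hex
  have hmin := fun d hd => Nat.find_min hex (m := d) hd
  set d := Nat.find hex with hd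
  have hlt : i < j := by
    by_contra hcon
    rw [not_lt] at hcon
    apply hne
    rw [Matrix.sub_apply, hM i j hcon, sub_self]
  refine ⟨i, j, hlt, ?_, fun k l hkl => ?_⟩
  · rw [Matrix.sub_apply, Matrix.one_apply_ne hlt.ne, sub_zero] at hne
    exact hne
  · by_contra hkl0
    rcases le_or_gt l k with hlk | hlk
    · exact hkl0 (by rw [Matrix.sub_apply, hM k l hlk, sub_self])
    · have hlk' : (k : ℕ) < l := hlk
      exact hmin ((l : ℕ) - (k : ℕ)) (by omega) ⟨k, l, by omega, hkl0⟩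

/-- The minimal entry is a quasi-invariant connection. -/
theorem entry_shift {z : K} {i j : Fin n}
    (hmin : ∀ k l : Fin n, (l : ℕ) < (k : ℕ) + ((j : ℕ) - (i : ℕ)) → (ρ z - 1) k l = 0)
    (hij : i < j) (p q : K) : ρ (p⁻¹ * (z * q)) i j = ρ (p⁻¹ * q) i j + ρ z i j := by
  have h0 : ∀ g : K, ∀ a b : Fin n, b < a → ρ g a b = 0 := by
    intro g a b hab
    rw [hρ g a b hab.le, Matrix.one_apply_ne hab.ne']
  have e1 : ρ (p⁻¹ * (z * q)) = ρ (p⁻¹ * q) + ρ p⁻¹ * (ρ z - 1) * ρ q := by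
    rw [map_mul, map_mul, map_mul, mul_sub, sub_mul, mul_one, mul_assoc]
    abel
  have e2 : (ρ p⁻¹ * (ρ z - 1) * ρ q) i j = ρ z i j := by
    rw [Matrix.mul_apply, Finset.sum_eq_single j]
    · rw [hρ q j j le_rfl, Matrix.one_apply_eq, mul_one, Matrix.mul_apply,
        Finset.sum_eq_single i]
      · rw [hρ p⁻¹ i i le_rfl, Matrix.one_apply_eq, one_mul, Matrix.sub_apply,
          Matrix.one_apply_ne hij.ne, sub_zero]
      · intro k _ hk
        rcases lt_or_gt_of_ne hk with hk | hk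
        · rw [h0 _ i k hk, zero_mul]
        · have hk' : (i : ℕ) < k := hk
          have hij' : (i : ℕ) < j := hij
          rw [hmin k j (by omega), mul_zero]
      · intro h; exact absurd (Finset.mem_univ _) h
    · intro l _ hl
      rcases lt_or_gt_of_ne hl with hl | hl
      · rw [Matrix.mul_apply, Finset.sum_eq_zero, zero_mul]
        intro k _
        rcases lt_or_ge k i with hk | hk
        · rw [h0 _ i k hk, zero_mul]
        · have hk' : (i : ℕ) ≤ k := hk
          have hl' : (l : ℕ) < j := hl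
          have hij' : (i : ℕ) < j := hij
          rw [hmin k l (by omega), mul_zero]
      · rw [h0 q l j hl, mul_zero]
    · intro h; exact absurd (Finset.mem_univ _) h
  rw [e1, Matrix.add_apply, e2]

end norm

section retraction

variable {G : Type*} [Group G] (K : Subgroup G)

/-- Equivariant retraction to a subgroup along right cosets. -/
def cret (p : G) : K :=
  ⟨p * (crep (fun _ : Unit => K) () p)⁻¹, crep_mem (H := fun _ : Unit => K) () p⟩

theorem cret_mul (h : K) (p : G) : cret K (h * p) = h * cret K p := by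
  apply Subtype.ext
  simp only [cret, Subgroup.coe_mul]
  rw [crep_smul (H := fun _ : Unit => K) (l := ()) h.2]
  group

theorem finite_cret [K.FiniteIndex] (g : G) :
    (Set.range fun p => (cret K p)⁻¹ * cret K (p * g)).Finite := by
  have : Finite (Quotient (QuotientGroup.rightRel K)) :=
    Finite.of_equiv (G ⧸ K) (QuotientGroup.quotientRightRelEquivQuotientLeftRel K).symm
  have hrep : (Set.range (crep (fun _ : Unit => K) ())).Finite := by
    refine (Set.finite_range fun c : Quotient (QuotientGroup.rightRel K) => c.out).subset ?_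
    rintro _ ⟨p, rfl⟩
    exact ⟨_, rfl⟩
  have h1 : (Subtype.val '' (Set.range fun p => (cret K p)⁻¹ * cret K (p * g))) ⊆
      (fun z : G × G => z.1 * g * z.2⁻¹) '' ((Set.range (crep (fun _ : Unit => K) ())) ×ˢ
        (Set.range (crep (fun _ : Unit => K) ()))) := by
    rintro _ ⟨_, ⟨p, rfl⟩, rfl⟩
    refine ⟨(crep (fun _ : Unit => K) () p, crep (fun _ : Unit => K) () (p * g)),
      ⟨⟨p, rfl⟩, ⟨p * g, rfl⟩⟩, ?_⟩
    simp only [cret, Subgroup.coe_mul, Subgroup.coe_inv]
    group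
  exact Set.Finite.of_finite_image (((hrep.prod hrep).image _).subset h1)
    Subtype.val_injective.injOn

end retraction

/-- Elements detected by unitriangular representations of finite index subgroups are tame. -/
theorem tame_of_uniDetected {G : Type*} [Group G] {x : G} (hx : UniDetected x) : Tame x := by
  obtain ⟨K, m, n, ρ, hm, hK, hρ, hne⟩ := hx
  obtain ⟨i, j, hij, hc, hmin⟩ := exists_min_entry (fun i j => hρ ⟨x ^ m, hm⟩ i j) hne
  set z : K := ⟨x ^ m, hm⟩ with hz
  set l : K → ℝ := fun g => max (hnorm ρ g) (hnorm ρ g⁻¹) with hl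
  obtain ⟨L, hL, hlip⟩ := exists_pull_length (isLength_hnorm hρ) (cret K) (finite_cret K)
  have hfr : FinRank L (x ^ m) := by
    refine finRank_average hL K
      (fun p q => ρ ((cret K p)⁻¹ * cret K q) i j / ρ z i j) ?_ ?_ ?_ ?_
    · intro h hh _ p q
      have h1 := cret_mul K ⟨h, hh⟩ p
      have h2 := cret_mul K ⟨h, hh⟩ q
      simp only at h1 h2
      rw [h1, h2]
      congr 3
      group
    · intro p q
      have h1 := cret_mul K z q
      simp only [hz] at h1
      rw [h1, ← hz, entry_shift hρ hmin hij]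
      field_simp
    · refine SubExp.of_poly hL (|ρ z i j|⁻¹) n fun p => ?_
      rw [abs_div, div_eq_inv_mul]
      refine mul_le_mul_of_nonneg_left ?_ (by (clear * - hc; positivity))
      refine (abs_entry_le hρ _ i j).trans ?_
      refine pow_le_pow_left₀ ?_ ?_ n
      · have h0 : 0 ≤ l ((cret K (p 0))⁻¹ * cret K (p 1)) := (isLength_hnorm hρ).nonneg _
        change 0 ≤ 1 + l ((cret K (p 0))⁻¹ * cret K (p 1))
        linarith only [h0]
      · have h1 : l ((cret K (p 0))⁻¹ * cret K (p 1)) ≤ L ((p 0)⁻¹ * p 1) := hlip (p 0) (p 1)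
        have h2 := single_le_siz (x := x ^ m) hL p 0 1
        change 1 + l ((cret K (p 0))⁻¹ * cret K (p 1)) ≤ _
        linarith only [h2, h1]
    · refine exists_fin_rank (κ := Fin n) _ (fun k p => ρ (cret K p)⁻¹ i k)
        (fun k q => ρ (cret K q) k j / ρ z i j) fun p q => ?_
      rw [map_mul, Matrix.mul_apply, Finset.sum_div]
      refine Finset.sum_congr rfl fun k _ => ?_
      ring
  exact ⟨L, hL, eulerNil_of_finRank hL (finRank_of_pow hL hfr)⟩

end Vale.Agent.P184
end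
end
end

section

section

/-!
# Polynomial conjugacy bound and nilpotent periodicity
-/

noncomputable section
open scoped Topology

namespace Vale.Agent.P184

open Equiv (Perm)

/-- The conjugacy class of `x` has a polynomial conjugacy bound with respect to `L`: every
conjugator can be shortened polynomially. -/
def PolyConjBound {G : Type*} [Group G] (L : G → ℝ) (x : G) : Prop :=
  ∃ (C : ℝ) (d : ℕ), ∀ p : G, ∃ z, Commute z x ∧ L (z⁻¹ * p) ≤ C * (1 + L (p⁻¹ * x * p)) ^ d

theorem self_mem_cen {G : Type*} [Group G] (x : G) : x ∈ Subgroup.centralizer {x} :=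
  Subgroup.mem_centralizer_singleton_iff.2 rfl

/-- A real power of the Euler class of the central extension of `C_G(x)/⟨x⟩` by `⟨x⟩` vanishes
in the cohomology with polynomial growth for the restriction of `L`: a polynomially bounded
left invariant connection `α` and a polynomially bounded cochain `β` of the quotient with
coboundary the `n`-th cup power of the coboundary of `α`, up to alternation. -/
def PolyNilPeriodic {G : Type*} [Group G] (L : G → ℝ) (x : G) : Prop :=
  ∃ (α : Subgroup.centralizer {x} → Subgroup.centralizer {x} → ℝ) (n : ℕ)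
    (β : (Fin (2 * n) → Subgroup.centralizer {x}) → ℝ) (C : ℝ) (d : ℕ), 0 < n ∧
    (∀ h p q, α (h * p) (h * q) = α p q) ∧
    (∀ p q, α p (⟨x, self_mem_cen x⟩ * q) = α p q + 1) ∧
    (∀ p q, |α p q| ≤ C * (1 + L (p⁻¹ * q)) ^ d) ∧
    (∀ h p, β (fun i => h * p i) = β p) ∧
    (∀ (k : Fin (2 * n) → ℤ) (p : Fin (2 * n) → Subgroup.centralizer {x}),
      β (fun i => ⟨x, self_mem_cen x⟩ ^ k i * p i) = β p) ∧
    (∀ p, |β p| ≤ C * (1 + ∑ i, ∑ j, L ((p i)⁻¹ * p j)) ^ d) ∧
    ∀ p : Fin (2 * n + 1) → Subgroup.centralizer {x},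
      ∑ σ : Perm (Fin (2 * n + 1)), ((Equiv.Perm.sign σ : ℤ) : ℝ) *
      (cupPow α n (fun i => p (σ i)) - DData.cob β (fun i => p (σ i))) = 0

section

variable {G : Type*} [Group G] {L : G → ℝ} {x : G}

theorem exists_poly_retraction (hL : IsLength L) (h : PolyConjBound L x) :
    ∃ (r : G → Subgroup.centralizer {x}) (A : ℝ) (D : ℕ), 0 ≤ A ∧
      (∀ (z : Subgroup.centralizer {x}) (p : G), r (z * p) = z * r p) ∧
      ∀ p, L ((r p : G)⁻¹ * p) ≤ A * (1 + L (p⁻¹ * x * p)) ^ D := by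
  obtain ⟨C, d, hC⟩ := h
  choose w hw hwC using hC
  set Z := Subgroup.centralizer {x} with hZ
  set c : G → G := crep (fun _ : Unit => Z) () with hc
  have hwZ : ∀ p, w p ∈ Z := fun p => Subgroup.mem_centralizer_singleton_iff.2 (hw p)
  refine ⟨fun p => ⟨p * (c p)⁻¹ * w (c p), Z.mul_mem (crep_mem (H := fun _ : Unit => Z) () p)
    (hwZ _)⟩, |C|, d, abs_nonneg C, fun z p => ?_, fun p => ?_⟩
  · apply Subtype.ext
    simp only [Subgroup.coe_mul, hc]
    rw [crep_smul (H := fun _ : Unit => Z) (l := ()) z.2]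
    group
  · have hpc : p * (c p)⁻¹ ∈ Z := crep_mem (H := fun _ : Unit => Z) () p
    have hpc' : Commute (p * (c p)⁻¹) x := Subgroup.mem_centralizer_singleton_iff.1 hpc
    have e1 : (p * (c p)⁻¹ * w (c p))⁻¹ * p = (w (c p))⁻¹ * c p := by group
    have e2 : (c p)⁻¹ * x * c p = p⁻¹ * x * p := by
      have h3 : x = (p * (c p)⁻¹)⁻¹ * x * (p * (c p)⁻¹) := by
        rw [mul_assoc, ← hpc'.eq, inv_mul_cancel_left]
      calc (c p)⁻¹ * x * c p = p⁻¹ * ((p * (c p)⁻¹) * x * (p * (c p)⁻¹)⁻¹) * p := by group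
        _ = p⁻¹ * x * p := by
          rw [hpc'.eq, mul_inv_cancel_right]
    simp only
    rw [e1]
    have h4 := hwC (c p)
    rw [e2] at h4
    refine h4.trans (mul_le_mul_of_nonneg_right (le_abs_self C) ?_)
    have := hL.nonneg (p⁻¹ * x * p)
    (clear * - this; positivity)

/-- Polynomial conjugacy bound and nilpotent periodicity imply tameness. -/
theorem eulerNil_of_polyNil (hL : IsLength L) (h1 : PolyConjBound L x)
    (h2 : PolyNilPeriodic L x) : EulerNil L x := by
  obtain ⟨r, A, D, hA, hrz, hrA⟩ := exists_poly_retraction hL h1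
  obtain ⟨α, n, β, C, d, hn, hα1, hα2, hα3, hβ1, hβ2, hβ3, hβ⟩ := h2
  set xz : Subgroup.centralizer {x} := ⟨x, self_mem_cen x⟩ with hxz
  have hrx : ∀ p, r (x * p) = xz * r p := fun p => hrz xz p
  have hrk : ∀ (k : ℤ) p, r (x ^ k * p) = xz ^ k * r p := by
    intro k p
    have := hrz (xz ^ k) p
    rw [Subgroup.coe_zpow] at this
    exact this
  have hrh : ∀ h (hh : Commute h x) p, r (h * p) =
      ⟨h, Subgroup.mem_centralizer_singleton_iff.2 hh⟩ * r p := fun h hh p => hrz ⟨h, _⟩ p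
  -- the main estimate
  have key : ∀ {m : ℕ} (p : Fin m → G) (i j : Fin m),
      L ((r (p i) : G)⁻¹ * (r (p j) : G)) ≤ (2 * A + 1) * (1 + siz x L p) ^ (D + 1) := by
    intro m p i j
    have hs0 := siz_nonneg (x := x) hL p
    have hs : ∀ k : Fin m, L ((p k)⁻¹ * x * p k) ≤ siz x L p := by
      intro k
      have e1 : L ((p k)⁻¹ * x * p k) ≤ ∑ k, L ((p k)⁻¹ * x * p k) :=
        Finset.single_le_sum (f := fun k => L ((p k)⁻¹ * x * p k)) (fun _ _ => hL.nonneg _)
          (Finset.mem_univ k)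
      have e2 : 0 ≤ ∑ i, ∑ j, L ((p i)⁻¹ * p j) :=
        Finset.sum_nonneg fun _ _ => Finset.sum_nonneg fun _ _ => hL.nonneg _
      unfold siz
      linarith only [e2, e1]
    have hr : ∀ k : Fin m, L ((r (p k) : G)⁻¹ * p k) ≤ A * (1 + siz x L p) ^ D := by
      intro k
      refine (hrA (p k)).trans (mul_le_mul_of_nonneg_left ?_ hA)
      exact pow_le_pow_left₀ (by have := hL.nonneg ((p k)⁻¹ * x * p k); linarith only [this])
        (by linarith only [hs k]) D
    have e1 : (r (p i) : G)⁻¹ * (r (p j) : G) =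
        ((r (p i) : G)⁻¹ * p i) * ((p i)⁻¹ * p j) * ((r (p j) : G)⁻¹ * p j)⁻¹ := by group
    have e2 := hL.2.2 (((r (p i) : G)⁻¹ * p i) * ((p i)⁻¹ * p j)) ((r (p j) : G)⁻¹ * p j)⁻¹
    have e3 := hL.2.2 ((r (p i) : G)⁻¹ * p i) ((p i)⁻¹ * p j)
    rw [hL.2.1 ((r (p j) : G)⁻¹ * p j)] at e2
    rw [e1]
    have e4 := hr i
    have e5 := hr j
    have e6 := single_le_siz (x := x) hL p i j
    have e7 : (1 + siz x L p) ^ D ≤ (1 + siz x L p) ^ (D + 1) :=
      pow_le_pow_right₀ (by linarith only [hs0]) (Nat.le_succ D)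
    have e8 : siz x L p ≤ (1 + siz x L p) ^ (D + 1) := by
      have : 1 + siz x L p ≤ (1 + siz x L p) ^ (D + 1) := le_self_pow₀ (by linarith only [hs0]) (by omega)
      linarith only [this]
    have e9 := mul_le_mul_of_nonneg_left e7 hA
    linarith only [e9, e8, e6, e5, e4, e3, e2]
  refine ⟨fun p q => α (r p) (r q), n, fun p => β fun i => r (p i), hn, ?_, ?_, ?_, ?_, ?_, ?_,
    fun p => hβ fun i => r (p i)⟩
  · intro h p q hh
    simp only [hrh h hh]
    exact hα1 _ _ _
  · intro p q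
    simp only [hrx]
    exact hα2 _ _
  · refine SubExp.of_poly hL (|C| * (2 * A + 2) ^ d) ((D + 1) * d) fun p => ?_
    have hs0 := siz_nonneg (x := x) hL p
    have h5 := key p 0 1
    have h6 : 1 + L ((r (p 0) : G)⁻¹ * (r (p 1) : G)) ≤
        (2 * A + 2) * (1 + siz x L p) ^ (D + 1) := by
      have : 1 ≤ (1 + siz x L p) ^ (D + 1) := one_le_pow₀ (by linarith only [hs0])
      linarith only [h5, this]
    have h7 : 0 ≤ 1 + L ((r (p 0) : G)⁻¹ * (r (p 1) : G)) := by
      have := hL.nonneg ((r (p 0) : G)⁻¹ * (r (p 1) : G))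
      linarith only [this]
    calc |α (r (p 0)) (r (p 1))| ≤ C * (1 + L ((r (p 0) : G)⁻¹ * (r (p 1) : G))) ^ d :=
          hα3 _ _
      _ ≤ |C| * (1 + L ((r (p 0) : G)⁻¹ * (r (p 1) : G))) ^ d :=
          mul_le_mul_of_nonneg_right (le_abs_self C) (by (clear * - h7; positivity))
      _ ≤ |C| * ((2 * A + 2) * (1 + siz x L p) ^ (D + 1)) ^ d :=
          mul_le_mul_of_nonneg_left (pow_le_pow_left₀ h7 h6 d) (abs_nonneg C)
      _ = _ := by rw [mul_pow, ← pow_mul]; ring
  · intro h hh p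
    have := hβ1 ⟨h, Subgroup.mem_centralizer_singleton_iff.2 hh⟩ fun i => r (p i)
    unfold tra
    simp only [hrh h hh]
    exact this
  · intro k p
    have := hβ2 k fun i => r (p i)
    simp only [hrk]
    exact this
  · set N : ℝ := ((2 * n : ℕ) : ℝ) with hN
    have hN0 : 0 ≤ N := Nat.cast_nonneg _
    refine SubExp.of_poly hL (|C| * (N * N * (2 * A + 1) + 1) ^ d) ((D + 1) * d) fun p => ?_
    have hs0 := siz_nonneg (x := x) hL p
    have h5 : ∑ i, ∑ j, L ((r (p i) : G)⁻¹ * (r (p j) : G)) ≤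
        N * N * ((2 * A + 1) * (1 + siz x L p) ^ (D + 1)) := by
      calc ∑ i, ∑ j, L ((r (p i) : G)⁻¹ * (r (p j) : G))
          ≤ ∑ i : Fin (2 * n), ∑ j : Fin (2 * n), (2 * A + 1) * (1 + siz x L p) ^ (D + 1) :=
            Finset.sum_le_sum fun i _ => Finset.sum_le_sum fun j _ => key p i j
        _ = _ := by
            simp only [Finset.sum_const, Finset.card_univ, Fintype.card_fin, nsmul_eq_mul, hN]
            ring
    have h8 : (1 : ℝ) ≤ (1 + siz x L p) ^ (D + 1) := one_le_pow₀ (by linarith only [hs0])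
    have h6 : 1 + ∑ i, ∑ j, L ((r (p i) : G)⁻¹ * (r (p j) : G)) ≤
        (N * N * (2 * A + 1) + 1) * (1 + siz x L p) ^ (D + 1) := by
      linarith only [h8, h5]
    have h7 : 0 ≤ 1 + ∑ i, ∑ j, L ((r (p i) : G)⁻¹ * (r (p j) : G)) := by
      have : 0 ≤ ∑ i, ∑ j, L ((r (p i) : G)⁻¹ * (r (p j) : G)) :=
        Finset.sum_nonneg fun _ _ => Finset.sum_nonneg fun _ _ => hL.nonneg _
      linarith only [this]
    calc |β fun i => r (p i)| ≤
          C * (1 + ∑ i, ∑ j, L ((r (p i) : G)⁻¹ * (r (p j) : G))) ^ d := hβ3 _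
      _ ≤ |C| * (1 + ∑ i, ∑ j, L ((r (p i) : G)⁻¹ * (r (p j) : G))) ^ d :=
          mul_le_mul_of_nonneg_right (le_abs_self C) (by (clear * - h7; (clear * - h7; positivity)))
      _ ≤ |C| * ((N * N * (2 * A + 1) + 1) * (1 + siz x L p) ^ (D + 1)) ^ d :=
          mul_le_mul_of_nonneg_left (pow_le_pow_left₀ h7 h6 d) (abs_nonneg C)
      _ = _ := by rw [mul_pow, ← pow_mul]; ring

end

end Vale.Agent.P184
end
end
end

section

section

/-!
# Equivalence of the definitions in the statements with those in the proofs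
-/

namespace Vale.Agent.P184

theorem tameAt_iff {G : Type*} [Group G] {x : G} : TameAt x ↔ Tame x := by
  constructor
  · rintro ⟨L, hL, α, n, β, hn, h1, h2, h3, h4, h5, h6, h7⟩
    exact ⟨L, hL, α, n, β, hn, fun h p q hh => h1 h hh p q, h2, h5, h3, h4, h6, h7⟩
  · rintro ⟨L, hL, α, n, β, hn, h1, h2, h5, h3, h4, h6, h7⟩
    exact ⟨L, hL, α, n, β, hn, fun h hh p q => h1 h p q hh, h2, h3, h4, h5, h6, h7⟩

theorem locallyTame_iff {G : Type*} [Group G] {x : G} : LocallyTame x ↔ LocTame x :=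
  forall_congr' fun _ => forall_congr' fun _ => tameAt_iff

theorem tameAt_of_polyNilpotent {G : Type*} [Group G] {x : G} (h : PolyNilpotent x) :
    TameAt x := by
  obtain ⟨L, hL, h1, z, hz, α, n, β, hn, h2, h3, h4, h5, ⟨C, d, h6⟩, ⟨C', d', h7⟩, h8⟩ := h
  have hz' : z = ⟨x, self_mem_cen x⟩ := Subtype.ext hz
  subst hz'
  have hc : ∀ h : Subgroup.centralizer {x}, Commute h ⟨x, self_mem_cen x⟩ := fun h =>
    Subtype.ext (Subgroup.mem_centralizer_singleton_iff.1 h.2)
  refine tameAt_iff.2 ⟨L, hL, eulerNil_of_polyNil hL h1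
    ⟨α, n, β, max (|C| * 2 ^ d) |C'|, max d d', hn, fun h => h2 h (hc h), h3, fun p q => ?_,
      fun h => h4 h (hc h), h5, fun p => ?_, h8⟩⟩
  · have h9 := h6 ![p, q]
    simp only [Fin.sum_univ_two, Matrix.cons_val_zero, Matrix.cons_val_one, inv_mul_cancel,
      Subgroup.coe_mul, Subgroup.coe_inv, hL.1] at h9
    have h10 : L ((q : G)⁻¹ * p) = L ((p : G)⁻¹ * q) := by
      rw [← hL.2.1]
      congr 1
      group
    rw [h10] at h9
    have h11 : 0 ≤ L ((p : G)⁻¹ * q) := IsLength.nonneg hL _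
    refine h9.trans ?_
    calc C * (1 + (0 + L ((p : G)⁻¹ * q) + (L ((p : G)⁻¹ * q) + 0))) ^ d
        ≤ |C| * (1 + (0 + L ((p : G)⁻¹ * q) + (L ((p : G)⁻¹ * q) + 0))) ^ d :=
          mul_le_mul_of_nonneg_right (le_abs_self C) (by (clear * - h11; positivity))
      _ ≤ |C| * (2 * (1 + L ((p : G)⁻¹ * q))) ^ d :=
          mul_le_mul_of_nonneg_left (pow_le_pow_left₀ (by (clear * - h11; positivity)) (by linarith only []) d)
            (abs_nonneg C)
      _ = |C| * 2 ^ d * (1 + L ((p : G)⁻¹ * q)) ^ d := by rw [mul_pow]; ring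
      _ ≤ max (|C| * 2 ^ d) |C'| * (1 + L ((p : G)⁻¹ * q)) ^ max d d' :=
          mul_le_mul (le_max_left _ _) (pow_le_pow_right₀ (by linarith only [h11]) (le_max_left _ _))
            (by (clear * - h11; positivity)) (le_max_of_le_right (abs_nonneg _))
  · have h11 : 0 ≤ ∑ i, ∑ j, L ((p i : G)⁻¹ * (p j : G)) :=
      Finset.sum_nonneg fun _ _ => Finset.sum_nonneg fun _ _ => IsLength.nonneg hL _
    calc |β p| ≤ C' * (1 + ∑ i, ∑ j, L ((p i : G)⁻¹ * (p j : G))) ^ d' := h7 p
      _ ≤ |C'| * (1 + ∑ i, ∑ j, L ((p i : G)⁻¹ * (p j : G))) ^ d' :=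
          mul_le_mul_of_nonneg_right (le_abs_self C') (by (clear * - h11; positivity))
      _ ≤ max (|C| * 2 ^ d) |C'| * (1 + ∑ i, ∑ j, L ((p i : G)⁻¹ * (p j : G))) ^ max d d' :=
          mul_le_mul (le_max_right _ _) (pow_le_pow_right₀ (by linarith only [h11]) (le_max_right _ _))
            (by (clear * - h11; positivity)) (le_max_of_le_right (abs_nonneg _))

theorem tameAt_of_virtUnipotent {G : Type*} [Group G] {x : G} (h : VirtUnipotent x) :
    TameAt x := tameAt_iff.2 (tame_of_uniDetected h)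

theorem joined_iff_walk {G : Type*} {R : G → G → Prop} {n : ℕ} : ∀ {p q : G},
    Joined R n p q ↔ Walk R n p q := by
  induction n with
  | zero => intro p q; exact Iff.rfl
  | succ n ih => intro p q; exact exists_congr fun r => and_congr Iff.rfl ih

theorem adj_none {G : Type*} [Group G] {ι : Type*} (X : Set G) (H : ι → Subgroup G) :
    Adj X H none = Edge X H := by
  funext p q
  simp only [Adj, reduceCtorEq, false_and, not_false_eq_true, and_true, Edge]

theorem adj_some {G : Type*} [Group G] {ι : Type*} (X : Set G) (H : ι → Subgroup G) (l : ι) :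
    Adj X H (some l) = OEdge X H l := by
  funext p q
  simp only [Adj, OEdge, Option.some.injEq]
  refine propext (or_congr Iff.rfl (or_congr Iff.rfl (exists_congr fun k =>
    and_congr Iff.rfl (not_congr ?_))))
  constructor
  · rintro ⟨rfl, h⟩; exact ⟨rfl, h⟩
  · rintro ⟨rfl, h⟩; exact ⟨rfl, h⟩

theorem isRelHyp_iff {G : Type*} [Group G] {ι : Type*} {H : ι → Subgroup G} :
    IsRelHyp H ↔ RelHyperbolic H := by
  constructor
  · rintro ⟨h1, X, d, δ, h2, h3, h4, h5⟩
    have hd : d = rdist X H := by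
      funext p q
      have h6 : Set.Nonempty {n | Walk (Edge X H) n p q} := by
        obtain ⟨h7, _⟩ := h3 p q
        refine ⟨d p q, ?_⟩
        have h8 : Joined (Adj X H none) (d p q) p q := h7
        rw [adj_none, joined_iff_walk] at h8
        exact h8
      refine (h3 p q).unique ⟨?_, ?_⟩
      · change Joined (Adj X H none) (rdist X H p q) p q
        rw [adj_none, joined_iff_walk]
        exact Nat.sInf_mem h6
      · intro n hn
        refine rdist_le ?_
        have h8 : Joined (Adj X H none) n p q := hn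
        rw [adj_none, joined_iff_walk] at h8
        exact h8
    subst hd
    refine ⟨h1, X, h2, fun p q => ⟨rdist X H p q, ?_⟩, ⟨δ, h4⟩, fun l n => ?_⟩
    · have h8 : Joined (Adj X H none) (rdist X H p q) p q := (h3 p q).1
      rw [adj_none, joined_iff_walk] at h8
      exact h8
    · have h9 := h5 l n
      simp only [adj_some, joined_iff_walk] at h9
      exact h9
  · rintro ⟨h1, X, h2, h3, ⟨δ, h4⟩, h5⟩
    refine ⟨h1, X, rdist X H, δ, h2, fun p q => ⟨?_, ?_⟩, h4, fun l n => ?_⟩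
    · change Joined (Adj X H none) (rdist X H p q) p q
      rw [adj_none, joined_iff_walk]
      exact Nat.sInf_mem (h3 p q)
    · intro n hn
      refine rdist_le ?_
      have h8 : Joined (Adj X H none) n p q := hn
      rw [adj_none, joined_iff_walk] at h8
      exact h8
    · simp only [adj_some, joined_iff_walk]
      exact h5 l n

end Vale.Agent.P184
end
end

section

section

/-!
# Exact groups, amenable centralizers, and relatively hyperbolic groups
-/

noncomputable section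

namespace Vale.Agent.P184

theorem good_of_amenCentr {K : Type*} [Group K] {y : K} (hy : ¬ IsOfFinOrder y)
    (hA : AmenCentr y) : Good y :=
  ⟨hA.2, fun S hS δ hδ => by
    obtain ⟨B, _, hB1, hB2⟩ := slow_of_propA hA.1 hS hδ
    exact hB2 y fun b hb hby => hy (hby.isOfFinOrder (hB1 b hb))⟩

theorem vanishesAt_of_map_amenCentr {G : Type*} [Group G] {K : Type*} [Group K] (f : G →* K)
    (x : G) (hx : ¬ IsOfFinOrder (f x)) (hA : AmenCentr (f x)) : VanishesAt x := by
  intro q e he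
  obtain ⟨S, δ, hδ, h⟩ := exists_slow_param e he
  exact h f x hA.2 ((good_of_amenCentr hx hA).2 _ (S.finite_toSet.image _) δ hδ)

theorem tgood_of_nice {K : Type*} [Group K]
    (h : {C : ConjClasses K | ∃ x, ConjClasses.mk x = C ∧ IsOfFinOrder x ∧ ¬ AmenCentr x}.Finite) :
    TGood K := by
  classical
  intro S hS δ hδ
  set D := {C : ConjClasses K | ∃ x, ConjClasses.mk x = C ∧ IsOfFinOrder x ∧ ¬ AmenCentr x}
    with hD
  set R : Set K := Quotient.out '' D with hR
  have hRfin : R.Finite := h.image _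
  have hRex : ∀ y : K, IsOfFinOrder y → (∀ b ∈ R, ¬ IsConj b y) → AmenCentr y := by
    intro y hy hb
    by_contra hne
    have h1 : ConjClasses.mk y ∈ D := ⟨y, rfl, hy, hne⟩
    refine hb _ ⟨_, h1, rfl⟩ ?_
    rw [← ConjClasses.mk_eq_mk_iff_isConj]
    exact Quotient.out_eq (ConjClasses.mk y)
  by_cases hA : PropA K
  · obtain ⟨B, hB, _, hB2⟩ := slow_of_propA hA hS hδ
    refine ⟨R ∪ B, hRfin.union hB, fun y hy hb => ⟨?_, ?_⟩⟩
    · exact (hRex y hy fun b hb' => hb b (Or.inl hb')).2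
    · exact hB2 y fun b hb' => hb b (Or.inr hb')
  · refine ⟨R, hRfin, fun y hy hb => ?_⟩
    exact absurd (hRex y hy hb).1 hA

/-- The elements of infinite order of a relatively hyperbolic group are locally tame or good if
those of the peripheral subgroups are. -/
theorem RelHyperbolic.locTame_or_good {G : Type*} [Group G] {ι : Type*} {H : ι → Subgroup G}
    (hG : RelHyperbolic H) (hH : ∀ l (y : H l), ¬ IsOfFinOrder y → LocTame y ∨ Good y) (x : G)
    (hx : ¬ IsOfFinOrder x) : LocTame x ∨ Good x := by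
  obtain ⟨hfin, X, δ, S⟩ := hG.exists_rh
  rcases S.charged_or_parabolic hx with h | ⟨l, w, h⟩
  · exact Or.inl (locTame_of_tame (tame_of_charged h))
  · have hx' : ¬ IsOfFinOrder (w⁻¹ * x * w) := by
      intro h'
      apply hx
      refine IsConj.isOfFinOrder (isConj_iff.2 ⟨w, ?_⟩) h'
      group
    have h3 : ¬ IsOfFinOrder (⟨w⁻¹ * x * w, h⟩ : H l) := by
      rwa [← Submonoid.isOfFinOrder_coe (H := (H l).toSubmonoid)]
    rcases hH l _ h3 with h4 | h4
    · exact Or.inl (locTame_conj w (S.locTame_of_peripheral h3 h4))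
    · exact Or.inr (good_conj (isConj_iff.2 ⟨w, by group⟩) (S.good_of_peripheral h3 h4))

theorem l1Bass_of_locTame_or_good {G : Type*} [Group G]
    (h0 : ∀ x : G, ¬ IsOfFinOrder x → LocTame x ∨ Good x) (hT : TGood G) : L1Bass G :=
  l1Bass_of_tgood (fun x hx => (h0 x hx).elim vanishesAt_of_locTame vanishesAt_of_good) hT

theorem Nice.locTame_or_good {G : Type*} [Group G] (h : Nice G) (x : G)
    (hx : ¬ IsOfFinOrder x) : LocTame x ∨ Good x :=
  (h.1 x hx).imp (fun h => locallyTame_iff.1 h) (fun h => good_of_amenCentr hx h)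

theorem l1Bass_of_nice {G : Type*} [Group G] (h : Nice G) : L1Bass G :=
  l1Bass_of_locTame_or_good h.locTame_or_good (tgood_of_nice h.2)

theorem l1Bass_of_relHyp_nice {G : Type*} [Group G] {ι : Type*} {H : ι → Subgroup G}
    (hG : IsRelHyp H) (hH : ∀ k, Nice (H k)) : L1Bass G :=
  l1Bass_of_locTame_or_good
    ((isRelHyp_iff.1 hG).locTame_or_good fun l y hy => (hH l).locTame_or_good y hy)
    ((isRelHyp_iff.1 hG).tgood fun k => tgood_of_nice (hH k).2)

theorem nice_of_amenable {G : Type*} [Group G] (h : IsAmenable G) : Nice G := by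
  have h1 : ∀ x : G, AmenCentr x := fun x => ⟨propA_of_amenable h, h.subgroup _⟩
  refine ⟨fun x _ => Or.inr (h1 x), ?_⟩
  have : {C : ConjClasses G | ∃ x, ConjClasses.mk x = C ∧ IsOfFinOrder x ∧ ¬ AmenCentr x} = ∅ := by
    ext C
    simp only [Set.mem_setOf_eq, Set.mem_empty_iff_false, iff_false, not_exists, not_and, not_not]
    exact fun x _ _ => h1 x
  rw [this]
  exact Set.finite_empty

end Vale.Agent.P184
end
end
end

section

end

section

end

section

end

section

end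

section

/-!
# Vanishing of traces from slow maps equivariant for a normal subgroup of the centralizer with
amenable quotient
-/

noncomputable section
open scoped Matrix Kronecker Matrix.Norms.L2Operator

namespace Vale.Agent.P184

/-- There are a normal subgroup `D` of the centralizer of `x` containing `x` and with amenable
quotient, and a map from `G` to the unit sphere of a finite dimensional space, equivariant for
`D` acting by diagonal unitary matrices, that of `x` without eigenvalue `1`, which varies by at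
most `δ` under right translation by the elements of `S`. -/
def SlowD {G : Type*} [Group G] (x : G) (S : Set G) (δ : ℝ) : Prop :=
  ∃ (D : Subgroup (Subgroup.centralizer ({x} : Set G))) (_ : D.Normal),
    IsAmenable (Subgroup.centralizer ({x} : Set G) ⧸ D) ∧
    (∃ hx : x ∈ Subgroup.centralizer ({x} : Set G), ⟨x, hx⟩ ∈ D) ∧
    ∃ (ι : Type) (_ : Fintype ι) (ζ : G → ι → ℂ) (u : G → ι → ℂ),
      (∀ d j, ‖ζ d j‖ = 1) ∧ (∀ j, ζ x j ≠ 1) ∧
      (∀ d ∈ D, ∀ p j, u (d * p) j = ζ d j * u p j) ∧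
      (∀ p, ∑ j, ‖u p j‖ ^ 2 = 1) ∧ ∀ s ∈ S, ∀ p, ∑ j, ‖u (p * s) j - u p j‖ ^ 2 ≤ δ ^ 2

/-- The core theorem. -/
theorem exists_slowD_param {G : Type*} [Group G] {q : ℕ}
    (e : Matrix (Fin q) (Fin q) (G → ℂ)) (he : IsIdem e) :
    ∃ (S : Finset G) (δ : ℝ), 0 < δ ∧ ∀ x : G, SlowD x (S : Set G) δ →
      tau (ConjClasses.mk x) e = 0 := by
  classical
  have hn1 : Summable fun g => ∑ i, ∑ j, ‖e i j g‖ :=
    summable_sum fun i _ => summable_sum fun j _ => he.1 i j
  have hn0 : ∀ g, 0 ≤ ∑ i, ∑ j, ‖e i j g‖ := fun g =>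
    Finset.sum_nonneg fun _ _ => Finset.sum_nonneg fun _ _ => norm_nonneg _
  obtain ⟨S, δ, hδ0, hSδ⟩ := exists_slow_weight _ hn0 hn1
  refine ⟨S, δ, hδ0, ?_⟩
  intro x hslow
  obtain ⟨D, hDn, hDa, ⟨hxC, hxD⟩, ι, _, ζ, u, hζ, hζx, huy, hu1, huδ⟩ := hslow
  obtain ⟨κ, _, _, c, Γ, Λ₀, c1, c2, c3, c4, c5, c9, c6, c10, c8, c7, c11⟩ := cliffordAll ι
  let _ : TopologicalSpace G := ⊥
  have : DiscreteTopology G := ⟨rfl⟩
  obtain ⟨M, hM1, hM⟩ := exists_rmeanD D hDa
  let B := Matrix (Fin q × κ) (Fin q × κ) ℂ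
  have : CompleteSpace B := FiniteDimensional.complete ℂ B
  let E : G → Matrix (Fin q) (Fin q) ℂ := fun g => Matrix.of fun i j => e i j g
  let a : G → B := fun g => E g ⊗ₖ (1 : Matrix κ κ ℂ)
  let tr : B →L[ℂ] ℂ := LinearMap.toContinuousLinearMap (Matrix.traceLinearMap (Fin q × κ) ℂ ℂ)
  let I : Matrix κ κ ℂ → B := fun X => (1 : Matrix (Fin q) (Fin q) ℂ) ⊗ₖ X
  let Λ : G → Matrix κ κ ℂ := fun g => Λ₀ (ζ g)
  let DS : Set G := Subtype.val '' (D : Set (Subgroup.centralizer ({x} : Set G)))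
  have Imul : ∀ X Y, I X * I Y = I (X * Y) := fun X Y => one_kron_mul X Y
  have Ione : I 1 = 1 := Matrix.one_kronecker_one
  have Isub : ∀ X Y, I (X - Y) = I X - I Y := fun X Y => Matrix.ext fun _ _ => mul_sub _ _ _
  have Istar : ∀ X, (I X)ᴴ = I Xᴴ := fun X => by
    show ((1 : Matrix (Fin q) (Fin q) ℂ) ⊗ₖ X)ᴴ = _
    rw [Matrix.conjTranspose_kronecker, Matrix.conjTranspose_one]
  have Ismul : ∀ (r : ℂ) X, I (r • X) = r • I X := fun r X => Matrix.kronecker_smul _ _ _
  let P0 : Matrix κ κ ℂ := (1 / 2 : ℂ) • (1 + Γ)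
  let N0 : Matrix κ κ ℂ := (1 / 2 : ℂ) • (1 - Γ)
  have hP0 : P0 * P0 = P0 := by
    show ((1 / 2 : ℂ) • (1 + Γ)) * ((1 / 2 : ℂ) • (1 + Γ)) = (1 / 2 : ℂ) • (1 + Γ)
    rw [smul_mul_smul_comm, mul_add, add_mul, add_mul, c4, one_mul, mul_one, one_mul,
      show (1 + Γ + (Γ + 1) : Matrix κ κ ℂ) = (2 : ℂ) • (1 + Γ) by rw [two_smul]; abel, smul_smul]
    norm_num
  have hN0 : N0 * N0 = N0 := by
    show ((1 / 2 : ℂ) • (1 - Γ)) * ((1 / 2 : ℂ) • (1 - Γ)) = (1 / 2 : ℂ) • (1 - Γ)
    rw [smul_mul_smul_comm, mul_sub, sub_mul, sub_mul, c4, one_mul, mul_one, one_mul,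
      show (1 - Γ - (Γ - 1) : Matrix κ κ ℂ) = (2 : ℂ) • (1 - Γ) by rw [two_smul]; abel, smul_smul]
    norm_num
  have hN0star : N0ᴴ = N0 := by
    show ((1 / 2 : ℂ) • (1 - Γ))ᴴ = (1 / 2 : ℂ) • (1 - Γ)
    rw [Matrix.conjTranspose_smul, Matrix.conjTranspose_sub, Matrix.conjTranspose_one, c9]
    congr 1
    simp
  have hPN : P0 - N0 = Γ := by
    show (1 / 2 : ℂ) • (1 + Γ) - (1 / 2 : ℂ) • (1 - Γ) = Γ
    rw [← smul_sub, show (1 + Γ - (1 - Γ) : Matrix κ κ ℂ) = (2 : ℂ) • Γ by rw [two_smul]; abel,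
      smul_smul]
    norm_num
  have hcP0 : ∀ v, c v * P0 = N0 * c v := fun v => by
    show c v * ((1 / 2 : ℂ) • (1 + Γ)) = ((1 / 2 : ℂ) • (1 - Γ)) * c v
    rw [mul_smul_comm, smul_mul_assoc, mul_add, sub_mul, c5, mul_one, one_mul, sub_neg_eq_add]
  have hPΛ0 : ∀ z, P0 * Λ₀ z = Λ₀ z * P0 := fun z => by
    show ((1 / 2 : ℂ) • (1 + Γ)) * Λ₀ z = Λ₀ z * ((1 / 2 : ℂ) • (1 + Γ))
    rw [mul_smul_comm, smul_mul_assoc, mul_add, add_mul, c8, mul_one, one_mul]
  have hNΛ0 : ∀ z, N0 * Λ₀ z = Λ₀ z * N0 := fun z => by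
    show ((1 / 2 : ℂ) • (1 - Γ)) * Λ₀ z = Λ₀ z * ((1 / 2 : ℂ) • (1 - Γ))
    rw [mul_smul_comm, smul_mul_assoc, mul_sub, sub_mul, c8, mul_one, one_mul]
  have haI : ∀ g X, a g * I X = I X * a g := fun g X => kron_comm (E g) X
  have han : ∀ g, ‖a g‖ ≤ ∑ i, ∑ j, ‖e i j g‖ := fun g => l2_kron_le (E g)
  have has : Summable fun g => ‖a g‖ :=
    Summable.of_nonneg_of_le (fun _ => norm_nonneg _) han hn1
  have hEi : ∀ k, ∑' h, a h * a (h⁻¹ * k) = a k := by
    intro k
    have hsa : Summable fun h => a h * a (h⁻¹ * k) := by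
      refine Summable.of_norm_bounded (has.mul_right (∑' g, ‖a g‖)) fun h => ?_
      refine (norm_mul_le _ _).trans (mul_le_mul_of_nonneg_left ?_ (norm_nonneg _))
      exact has.le_tsum _ fun _ _ => norm_nonneg _
    ext ⟨i, r⟩ ⟨j, s⟩
    rw [l2_entry_tsum hsa]
    have h1 : ∀ h, (a h * a (h⁻¹ * k)) (i, r) (j, s) =
        (∑ l, e i l h * e l j (h⁻¹ * k)) * (1 : Matrix κ κ ℂ) r s := by
      intro h
      show ((E h ⊗ₖ (1 : Matrix κ κ ℂ)) * (E (h⁻¹ * k) ⊗ₖ (1 : Matrix κ κ ℂ))) (i, r) (j, s) = _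
      rw [← Matrix.mul_kronecker_mul, one_mul, Matrix.kroneckerMap_apply, Matrix.mul_apply]
      rfl
    have hsl : ∀ l, Summable fun h => e i l h * e l j (h⁻¹ * k) := fun l => by
      refine Summable.of_norm_bounded ((he.1 i l).mul_right (∑' g, ‖e l j g‖)) fun h => ?_
      rw [norm_mul]
      refine mul_le_mul_of_nonneg_left ?_ (norm_nonneg _)
      exact (he.1 l j).le_tsum _ fun _ _ => norm_nonneg _
    rw [tsum_congr h1, tsum_mul_right, Summable.tsum_finsetSum fun l _ => hsl l, he.2 i j k]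
    rfl
  have hcn : ∀ k, ‖I (c (u k))‖ ≤ 1 := fun k => by
    have h1 : (I (c (u k)))ᴴ * I (c (u k)) = ((1 : ℝ) : ℂ) • 1 := by
      rw [Istar, c2, Imul, c3, hu1, Ismul, Ione]
    have h2 := l2_le_of_sq zero_le_one h1
    rwa [Real.sqrt_one] at h2
  have hNn : ‖I N0‖ ≤ 1 := l2_proj_le (by rw [Istar, hN0star]) (by rw [Imul, hN0])
  have hdiff : ∀ k g, ‖I N0 * (I (c (u k)) * I (c (u (k * g)))) - I N0‖ ≤
      ‖I (c (u (k * g))) - I (c (u k))‖ := fun k g => by
    have h1 : I N0 * (I (c (u k)) * I (c (u (k * g)))) - I N0 =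
        I N0 * (I (c (u k)) * (I (c (u (k * g))) - I (c (u k)))) := by
      rw [mul_sub (I (c (u k))), mul_sub, Imul (c (u k)) (c (u k)), c3, hu1, Complex.ofReal_one,
        one_smul, Ione, mul_one]
    rw [h1]
    refine (norm_mul_le _ _).trans ?_
    refine (mul_le_mul hNn (norm_mul_le _ _) (norm_nonneg _) zero_le_one).trans ?_
    rw [one_mul]
    exact (mul_le_mul_of_nonneg_right (hcn k) (norm_nonneg _)).trans (one_mul _).le
  have hd2 : ∀ k g, ‖I (c (u (k * g))) - I (c (u k))‖ ≤ 2 := fun k g => by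
    refine (norm_sub_le _ _).trans ?_
    linarith only [hcn (k * g), hcn k]
  have hdS : ∀ g ∈ S, ∀ k, ‖I (c (u (k * g))) - I (c (u k))‖ ≤ δ := fun g hg k => by
    rw [← Isub, ← c1]
    have h1 : (I (c (u (k * g) - u k)))ᴴ * I (c (u (k * g) - u k)) =
        ((∑ j, ‖(u (k * g) - u k) j‖ ^ 2 : ℝ) : ℂ) • 1 := by
      rw [Istar, c2, Imul, c3, Ismul, Ione]
    refine (l2_le_of_sq (Finset.sum_nonneg fun _ _ => by (clear * -; positivity)) h1).trans ?_
    rw [Real.sqrt_le_left hδ0.le]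
    exact huδ g hg k
  let w : G → ℝ := fun g => if g ∈ S then min δ 2 else 2
  have hw : ∀ g k, ‖I N0 * (I (c (u k)) * I (c (u (k * g)))) - I N0‖ ≤ w g := by
    intro g k
    refine (hdiff k g).trans ?_
    by_cases hg : g ∈ S
    · simp only [w, if_pos hg]
      exact le_min (hdS g hg k) (hd2 k g)
    · simp only [w, if_neg hg]
      exact hd2 k g
  have hw0 : ∀ g, 0 ≤ w g := fun g => (norm_nonneg _).trans (hw g 1)
  obtain ⟨hwS, hw1⟩ := hSδ w (fun g hg => by simp only [w, if_pos hg]; exact min_le_left _ _)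
    (fun g => by
      by_cases hg : g ∈ S
      · simp only [w, if_pos hg]; exact min_le_right _ _
      · simp only [w, if_neg hg]; exact le_refl _) hw0
  have hwa : ∀ g, ‖a g‖ * w g ≤ (∑ i, ∑ j, ‖e i j g‖) * w g := fun g =>
    mul_le_mul_of_nonneg_right (han g) (hw0 g)
  have hws : Summable fun g => ‖a g‖ * w g :=
    Summable.of_nonneg_of_le (fun g => mul_nonneg (norm_nonneg _) (hw0 g)) hwa hwS
  have hwlt : ∑' g, ‖a g‖ * w g < 1 := (hws.tsum_le_tsum hwa hwS).trans_lt hw1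
  have hinv : ∀ z : ι → ℂ, (∀ j, ‖z j‖ = 1) → I (Λ₀ z) * I (Λ₀ z)ᴴ = 1 ∧
      I (Λ₀ z)ᴴ * I (Λ₀ z) = 1 := fun z hz => by
    have h1 := c6 z hz
    have h2 : Λ₀ z * (Λ₀ z)ᴴ = 1 := mul_eq_one_comm.1 h1
    rw [Imul, Imul, h1, h2, Ione]
    exact ⟨rfl, rfl⟩
  have key := coreD_eq DS (fun g => I (Λ g)) x tr (fun a b => Matrix.trace_mul_comm a b)
    ⟨⟨x, hxC⟩, hxD, rfl⟩ (fun d _ => ⟨_, hinv _ (hζ d)⟩)
    (fun d _ => by rw [Imul, Imul, c7]) M hM1
    (fun F hF => hM F fun d c hd => hF d c ⟨d, hd, rfl⟩) (I P0) (I N0)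
    (fun k => I (c (u k))) 1 hcn
    (fun k => by rw [Imul, c3, hu1, Complex.ofReal_one, one_smul, Ione])
    (fun d hd k => by
      obtain ⟨d', hd', rfl⟩ := hd
      rw [Imul, Imul, c10 _ (hζ _)]
      congr 3
      funext j
      exact huy d' hd' k j)
    (by rw [Imul, hP0]) (by rw [Imul, hN0]) (fun k => by rw [Imul, Imul, hcP0])
    (fun d _ => by rw [Imul, Imul, hPΛ0]) (fun d _ => by rw [Imul, Imul, hNΛ0])
    a has hEi (fun g d _ => haI g _) (fun g => haI g P0) (fun g => haI g N0) (fun g k => haI g _)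
    w hw hws hwlt
  have htP : ∀ (Q : Matrix κ κ ℂ) g, tr (a g * I Q * I (Λ x)) =
      (E g).trace * (Q * Λ x).trace := fun Q g => trace_kron3 (E g) Q (Λ x)
  simp only [htP] at key
  rw [tsum_mul_right, tsum_mul_right, ← sub_eq_zero, ← mul_sub, ← Matrix.trace_sub, ← sub_mul,
    hPN] at key
  have key2 := (mul_eq_zero.1 key).resolve_right (c11 _ hζx)
  have hset : (ConjClasses.mk x).carrier = {g | IsConj x g} := by
    ext g
    rw [ConjClasses.mem_carrier_iff_mk_eq, ConjClasses.mk_eq_mk_iff_isConj]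
    exact ⟨fun h => h.symm, fun h => IsConj.symm h⟩
  unfold tau
  rw [hset]
  exact key2

end Vale.Agent.P184
end
end

section

/-!
# Closure properties of the class of elements with slow maps
-/

noncomputable section
open scoped Matrix Kronecker

namespace Vale.Agent.P184

theorem isAmenable_of_injective {A B : Type*} [Group A] [Group B] (f : A →* B)
    (hf : Function.Injective f) (h : IsAmenable B) : IsAmenable A :=
  IsAmenable.of_surjective (MonoidHom.ofInjective hf).symm.toMonoidHom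
    (MonoidHom.ofInjective hf).symm.surjective (h.subgroup f.range)

theorem isAmenable_of_subsingleton {A : Type*} [Group A] [Subsingleton A] : IsAmenable A := by
  refine ⟨fun f => f 1, fun f g _ _ => rfl, fun f _ h => h 1, fun c => rfl, fun f k _ => ?_⟩
  exact congrArg f (Subsingleton.elim _ _)

/-- Pulling back slow maps. -/
theorem slowD_pull {G K : Type*} [Group G] [Group K] {x : G} {y : K} (π : G → K)
    (θ : Subgroup.centralizer ({x} : Set G) →* Subgroup.centralizer ({y} : Set K))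
    (hθ : ∀ (c : Subgroup.centralizer ({x} : Set G)) p, π (c * p) = θ c * π p)
    (hθx : ∀ h, (θ ⟨x, h⟩ : K) = y) {S : Set G} {T : Set K}
    (hT : ∀ s ∈ S, ∀ p, (π p)⁻¹ * π (p * s) ∈ T) {δ : ℝ} (h : SlowD y T δ) : SlowD x S δ := by
  classical
  obtain ⟨D, hDn, hDa, ⟨hyC, hyD⟩, ι, _, ζ, u, hζ, hζy, huy, hu1, huδ⟩ := h
  have hxC : x ∈ Subgroup.centralizer ({x} : Set G) :=
    Subgroup.mem_centralizer_singleton_iff.mpr rfl
  refine ⟨D.comap θ, inferInstance, ?_, ⟨hxC, ?_⟩, ι, inferInstance,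
    fun g j => if hg : g ∈ Subgroup.centralizer ({x} : Set G) then ζ (θ ⟨g, hg⟩) j else 1,
    fun p => u (π p), ?_, ?_, ?_, fun p => hu1 _, ?_⟩
  · refine isAmenable_of_injective (QuotientGroup.map (D.comap θ) D θ le_rfl) ?_ hDa
    rw [injective_iff_map_eq_one]
    intro q
    induction q using QuotientGroup.induction_on with
    | H c =>
      intro hc
      rw [QuotientGroup.map_mk, QuotientGroup.eq_one_iff] at hc
      rw [QuotientGroup.eq_one_iff]
      exact hc
  · rw [Subgroup.mem_comap]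
    have : θ ⟨x, hxC⟩ = ⟨y, hyC⟩ := Subtype.ext (hθx hxC)
    rw [this]
    exact hyD
  · intro d j
    simp only
    split_ifs
    · exact hζ _ _
    · exact norm_one
  · intro j
    simp only
    rw [dif_pos hxC, hθx]
    exact hζy j
  · intro d hd p j
    simp only
    rw [dif_pos d.2, hθ]
    exact huy (θ d) hd (π p) j
  · intro s hs p
    have h5 := huδ _ (hT s hs p) (π p)
    rwa [mul_inv_cancel_left] at h5

/-- Pulling back along homomorphisms. -/
theorem slowD_hom {G K : Type*} [Group G] [Group K] (f : G →* K) {x : G} {S : Set G} {δ : ℝ}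
    (h : SlowD (f x) (f '' S) δ) : SlowD x S δ := by
  let θ : Subgroup.centralizer ({x} : Set G) →* Subgroup.centralizer ({f x} : Set K) :=
    { toFun := fun c => ⟨f c, by
        rw [Subgroup.mem_centralizer_singleton_iff, ← map_mul, ← map_mul,
          Subgroup.mem_centralizer_singleton_iff.mp c.2]⟩
      map_one' := Subtype.ext (map_one f)
      map_mul' := fun a b => Subtype.ext (map_mul f (a : G) (b : G)) }
  refine slowD_pull f θ (fun c p => map_mul f _ _) (fun _ => rfl) (fun s hs p => ?_) h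
  rw [map_mul, inv_mul_cancel_left]
  exact ⟨s, hs, rfl⟩

theorem slowD_conj {G : Type*} [Group G] {x y : G} (h : IsConj x y) {S : Set G} {δ : ℝ}
    (hs : SlowD x S δ) : SlowD y S δ := by
  obtain ⟨c, rfl⟩ := isConj_iff.mp h
  let θ : Subgroup.centralizer ({c * x * c⁻¹} : Set G) →* Subgroup.centralizer ({x} : Set G) :=
    { toFun := fun g => ⟨c⁻¹ * g * c, by
        have hg := Subgroup.mem_centralizer_singleton_iff.mp g.2
        rw [Subgroup.mem_centralizer_singleton_iff]
        calc c⁻¹ * g * c * x = c⁻¹ * (g * (c * x * c⁻¹)) * c := by group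
          _ = c⁻¹ * ((c * x * c⁻¹) * g) * c := by rw [hg]
          _ = x * (c⁻¹ * g * c) := by group⟩
      map_one' := Subtype.ext (by simp only [OneMemClass.coe_one, mul_one, inv_mul_cancel])
      map_mul' := fun _ _ => Subtype.ext (by simp only [Subgroup.coe_mul, mul_assoc, MulMemClass.mk_mul_mk, mul_inv_cancel_left]) }
  refine slowD_pull (fun p => c⁻¹ * p) θ (fun g p => ?_) (fun _ => ?_) (fun s hs p => ?_) hs
  · change c⁻¹ * (g * p) = c⁻¹ * g * c * (c⁻¹ * p)
    group
  · change c⁻¹ * (c * x * c⁻¹) * c = x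
    group
  · have : (c⁻¹ * p)⁻¹ * (c⁻¹ * (p * s)) = s := by group
    rwa [this]

/-- Amenable centralizers. -/
theorem slowD_of_slow {G : Type*} [Group G] {x : G} {S : Set G} {δ : ℝ}
    (hx : IsAmenable (Subgroup.centralizer ({x} : Set G))) (h : Slow x S δ) : SlowD x S δ := by
  classical
  obtain ⟨ι, _, ζ, u, h1, h2, h3, h4⟩ := h
  have hxC : x ∈ Subgroup.centralizer ({x} : Set G) :=
    Subgroup.mem_centralizer_singleton_iff.mpr rfl
  set D : Subgroup (Subgroup.centralizer ({x} : Set G)) := Subgroup.zpowers ⟨x, hxC⟩ with hD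
  have hDn : D.Normal := by
    refine ⟨fun n hn g => ?_⟩
    have h5 : g * n * g⁻¹ = n := by
      obtain ⟨k, rfl⟩ := hn
      simp only
      have h6 : Commute g (⟨x, hxC⟩ : Subgroup.centralizer ({x} : Set G)) :=
        Subtype.ext (Subgroup.mem_centralizer_singleton_iff.mp g.2)
      rw [(h6.zpow_right k).eq, mul_inv_cancel_right]
    rw [h5]
    exact hn
  have hzu : ∀ (n : ℤ) p j, u (x ^ n * p) j = ζ j ^ n * u p j := by
    have hn : ∀ (n : ℕ) p j, u (x ^ n * p) j = ζ j ^ n * u p j := by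
      intro n
      induction n with
      | zero => intro p j; simp only [pow_zero, one_mul]
      | succ n ih =>
        intro p j
        rw [pow_succ, mul_assoc, ih, h2, pow_succ, mul_assoc]
    intro n p j
    obtain ⟨m, rfl | rfl⟩ := n.eq_nat_or_neg
    · rw [zpow_natCast, zpow_natCast, hn]
    · have h5 := hn m (x ^ (-(m : ℤ)) * p) j
      rw [← mul_assoc, zpow_neg, zpow_natCast, mul_inv_cancel, one_mul] at h5
      have h6 : ζ j ≠ 0 := fun h => by
        have := (h1 j).1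
        rw [h, norm_zero] at this
        exact zero_ne_one this
      rw [zpow_neg, zpow_natCast, zpow_neg, zpow_natCast, h5, inv_mul_cancel_left₀ (pow_ne_zero _ h6)]
  refine ⟨D, hDn, IsAmenable.of_surjective (QuotientGroup.mk' D) (QuotientGroup.mk'_surjective D)
    hx, ⟨hxC, Subgroup.mem_zpowers _⟩, ι, inferInstance,
    fun d j => if d = x then ζ j else if h : ∃ n : ℤ, x ^ n = d then ζ j ^ h.choose else 1, u,
    fun d j => ?_, fun j => ?_, fun d hd p j => ?_, h3, h4⟩
  · simp only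
    split_ifs
    · exact (h1 j).1
    · rw [norm_zpow, (h1 j).1, one_zpow]
    · exact norm_one
  · change (if x = x then ζ j else _) ≠ 1
    rw [if_pos rfl]
    exact (h1 j).2
  · simp only
    by_cases h5 : (d : G) = x
    · rw [if_pos h5, h5, h2]
    · obtain ⟨n, hn⟩ := hd
      have h6 : ∃ n : ℤ, x ^ n = (d : G) := ⟨n, by rw [← hn]; rfl⟩
      rw [if_neg h5, dif_pos h6]
      have h7 := hzu h6.choose p j
      rwa [h6.choose_spec] at h7

/-- Charged elements. -/
theorem slowD_of_charged {G : Type*} [Group G] {x : G} (h : Charged x) {S : Set G}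
    (hS : S.Finite) {δ : ℝ} (hδ : 0 < δ) : SlowD x S δ := by
  classical
  obtain ⟨L, φ, hL, hφ, hφL, hφx⟩ := h
  have hxC : x ∈ Subgroup.centralizer ({x} : Set G) :=
    Subgroup.mem_centralizer_singleton_iff.mpr rfl
  have hcomm : ∀ c : Subgroup.centralizer ({x} : Set G), Commute (c : G) x := fun c =>
    Subgroup.mem_centralizer_singleton_iff.mp c.2
  have hφi : ∀ c : Subgroup.centralizer ({x} : Set G), φ ((c : G)⁻¹) = -φ c := by
    intro c
    have h1 := hφ 1 1 (Commute.one_left x) (Commute.one_left x)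
    have h2 := hφ c (c : G)⁻¹ (hcomm c) (hcomm c).inv_left
    rw [mul_one] at h1
    rw [mul_inv_cancel] at h2
    linarith
  -- the extension of the character
  set ψ : G → ℝ := fun g => ⨅ c : Subgroup.centralizer ({x} : Set G),
    (φ c + L ((c : G)⁻¹ * g)) with hψ
  have hbdd : ∀ g, BddBelow (Set.range fun c : Subgroup.centralizer ({x} : Set G) =>
      φ c + L ((c : G)⁻¹ * g)) := by
    intro g
    refine ⟨-L g⁻¹, ?_⟩
    rintro _ ⟨c, rfl⟩
    have h1 := hφL (c : G)⁻¹ (hcomm c).inv_left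
    have h2 := hL ((c : G)⁻¹ * g) g⁻¹
    rw [mul_inv_cancel_right] at h2
    rw [hφi] at h1
    simp only
    linarith only [h1, h2]
  have hψmul : ∀ (c₀ : Subgroup.centralizer ({x} : Set G)) g, ψ (c₀ * g) = φ c₀ + ψ g := by
    intro c₀ g
    apply le_antisymm
    · have h1 : ψ (c₀ * g) - φ c₀ ≤ ψ g := by
        refine le_ciInf fun c => ?_
        have h2 := ciInf_le (hbdd (c₀ * g)) (c₀ * c)
        have h3 : ((c₀ * c : Subgroup.centralizer ({x} : Set G)) : G)⁻¹ * (c₀ * g) =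
            (c : G)⁻¹ * g := by
          rw [Subgroup.coe_mul]; group
        have h4 : φ ((c₀ * c : Subgroup.centralizer ({x} : Set G)) : G) = φ c₀ + φ c := by
          rw [Subgroup.coe_mul, hφ _ _ (hcomm c₀) (hcomm c)]
        rw [h3, h4] at h2
        linarith only [h2]
      linarith only [h1]
    · refine le_ciInf fun c => ?_
      have h2 := ciInf_le (hbdd g) (c₀⁻¹ * c)
      have h3 : ((c₀⁻¹ * c : Subgroup.centralizer ({x} : Set G)) : G)⁻¹ * g =
          (c : G)⁻¹ * (c₀ * g) := by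
        rw [Subgroup.coe_mul, Subgroup.coe_inv]; group
      have h4 : φ ((c₀⁻¹ * c : Subgroup.centralizer ({x} : Set G)) : G) = -φ c₀ + φ c := by
        rw [Subgroup.coe_mul, Subgroup.coe_inv, hφ _ _ (hcomm c₀).inv_left (hcomm c), hφi]
      rw [h3, h4] at h2
      have h5 : ψ g ≤ -φ c₀ + φ c + L ((c : G)⁻¹ * (c₀ * g)) := h2
      linarith only [h2]
  have hψs : ∀ g s, ψ (g * s) ≤ ψ g + L s := by
    intro g s
    have h1 : ψ (g * s) - L s ≤ ψ g := by
      refine le_ciInf fun c => ?_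
      have h2 := ciInf_le (hbdd (g * s)) c
      have h3 := hL ((c : G)⁻¹ * g) s
      rw [mul_assoc] at h3
      have h4 : ψ (g * s) ≤ φ c + L ((c : G)⁻¹ * (g * s)) := h2
      linarith only [h2, h3]
    linarith only [h1]
  obtain ⟨R, hR⟩ := ((hS.image L).union (hS.image fun s => L s⁻¹)).bddAbove
  set R' := max R 0 + 1 with hR'
  have hR'0 : 0 < R' := by (clear * -; positivity)
  have hψd : ∀ s ∈ S, ∀ g, |ψ (g * s) - ψ g| ≤ R' := by
    intro s hs g
    have h1 := hψs g s
    have h2 := hψs (g * s) s⁻¹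
    rw [mul_inv_cancel_right] at h2
    have h3 : L s ≤ R := hR (Or.inl ⟨s, hs, rfl⟩)
    have h4 : L s⁻¹ ≤ R := hR (Or.inr ⟨s, hs, rfl⟩)
    have h5 : R ≤ max R 0 := le_max_left _ _
    rw [abs_le]
    constructor <;> linarith only [h1, h3, h5, h2, h4]
  set ε := min (δ / R') (1 / |φ x|) with hε
  have hφx0 : 0 < |φ x| := abs_pos.mpr hφx
  have hε0 : 0 < ε := lt_min (by (clear * - hδ; positivity)) (by (clear * - hφx; positivity))
  have hεR : ε * R' ≤ δ := by
    rw [← le_div_iff₀ hR'0]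
    exact min_le_left _ _
  have hεx : |ε * φ x| ≤ 1 := by
    rw [abs_mul, abs_of_pos hε0, ← le_div_iff₀ hφx0]
    exact min_le_right _ _
  refine ⟨⊤, inferInstance, ?_, ⟨hxC, Subgroup.mem_top _⟩, Unit, inferInstance,
    fun d _ => Complex.exp (Complex.I * ((ε * φ d : ℝ) : ℂ)),
    fun g _ => Complex.exp (Complex.I * ((ε * ψ g : ℝ) : ℂ)), ?_, ?_, ?_, ?_, ?_⟩
  · have : Subsingleton (Subgroup.centralizer ({x} : Set G) ⧸
        (⊤ : Subgroup (Subgroup.centralizer ({x} : Set G)))) :=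
      QuotientGroup.subsingleton_quotient_top
    exact isAmenable_of_subsingleton
  · intro d _
    exact Complex.norm_exp_I_mul_ofReal _
  · intro _ h1
    rw [Complex.exp_eq_one_iff] at h1
    obtain ⟨n, hn⟩ := h1
    have h2 : ((ε * φ x : ℝ) : ℂ) = ((n * (2 * Real.pi) : ℝ) : ℂ) := by
      have h3 : Complex.I * ((ε * φ x : ℝ) : ℂ) = Complex.I * ((n * (2 * Real.pi) : ℝ) : ℂ) := by
        rw [hn]
        push_cast
        ring
      exact mul_left_cancel₀ Complex.I_ne_zero h3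
    have h3 : ε * φ x = n * (2 * Real.pi) := Complex.ofReal_injective h2
    have h4 : (n : ℝ) ≠ 0 := by
      intro h4
      rw [h4, zero_mul] at h3
      exact mul_ne_zero hε0.ne' hφx h3
    have h5 : (1 : ℝ) ≤ |(n : ℝ)| := by
      rw [← Int.cast_abs]
      exact_mod_cast Int.one_le_abs (by exact_mod_cast h4)
    have h6 := Real.pi_gt_three
    rw [h3, abs_mul, abs_of_pos (by positivity : (0 : ℝ) < 2 * Real.pi)] at hεx
    linarith only [mul_nonneg (sub_nonneg.2 h5) (le_of_lt (sub_pos.2 h6)), h6, h5, hεx]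
  · intro d _ p _
    simp only
    rw [← Complex.exp_add, hψmul]
    congr 1
    push_cast
    ring
  · intro p
    rw [Fintype.sum_unique, Complex.norm_exp_I_mul_ofReal, one_pow]
  · intro s hs p
    rw [Fintype.sum_unique]
    have h1 : Complex.exp (Complex.I * ((ε * ψ (p * s) : ℝ) : ℂ)) -
        Complex.exp (Complex.I * ((ε * ψ p : ℝ) : ℂ)) =
        Complex.exp (Complex.I * ((ε * ψ p : ℝ) : ℂ)) *
          (Complex.exp (Complex.I * ((ε * (ψ (p * s) - ψ p) : ℝ) : ℂ)) - 1) := by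
      rw [mul_sub, mul_one, ← Complex.exp_add]
      congr 2
      push_cast
      ring
    rw [h1, norm_mul, Complex.norm_exp_I_mul_ofReal, one_mul]
    refine pow_le_pow_left₀ (norm_nonneg _) ?_ 2
    refine Real.norm_exp_I_mul_ofReal_sub_one_le.trans ?_
    rw [Real.norm_eq_abs, abs_mul, abs_of_pos hε0]
    exact (mul_le_mul_of_nonneg_left (hψd s hs p) hε0.le).trans hεR

end Vale.Agent.P184
end
end

section

/-!
# Slow maps for roots
-/

noncomputable section

namespace Vale.Agent.P184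

theorem sum_mul_char (m : ℕ) [NeZero m] (f : ZMod m → ℂ) :
    ∑ k : ZMod m, ‖(m : ℂ)⁻¹ * ∑ i, f i * ZMod.stdAddChar (k * i)‖ ^ 2 =
      (m : ℝ)⁻¹ * ∑ i, ‖f i‖ ^ 2 := by
  have h1 : ∀ k : ZMod m, ‖(m : ℂ)⁻¹ * ∑ i, f i * ZMod.stdAddChar (k * i)‖ ^ 2 =
      (m : ℝ)⁻¹ ^ 2 * ‖∑ i, f i * ZMod.stdAddChar (k * i)‖ ^ 2 := by
    intro k
    rw [norm_mul, mul_pow, norm_inv, Complex.norm_natCast]
  rw [Finset.sum_congr rfl fun k _ => h1 k, ← Finset.mul_sum, parseval_zmod]
  have hm : (m : ℝ) ≠ 0 := Nat.cast_ne_zero.mpr (NeZero.ne m)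
  field_simp

/-- It suffices to have scalars for each element of `D`. -/
theorem slowD_of_all {G : Type*} [Group G] {x : G} {S : Set G} {δ : ℝ}
    (D : Subgroup (Subgroup.centralizer ({x} : Set G))) (hDn : D.Normal)
    (hA : IsAmenable (Subgroup.centralizer ({x} : Set G) ⧸ D))
    (hxD : ∃ hx : x ∈ Subgroup.centralizer ({x} : Set G), ⟨x, hx⟩ ∈ D) {ι : Type} [Fintype ι]
    (z : ι → ℂ) (hz : ∀ j, ‖z j‖ = 1 ∧ z j ≠ 1)
    (v : G → ι → ℂ) (hvx : ∀ p j, v (x * p) j = z j * v p j)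
    (hall : ∀ d ∈ D, ∃ w : ι → ℂ, (∀ j, ‖w j‖ = 1) ∧ ∀ p j, v (d * p) j = w j * v p j)
    (hv1 : ∀ p, ∑ j, ‖v p j‖ ^ 2 = 1)
    (hvδ : ∀ s ∈ S, ∀ p, ∑ j, ‖v (p * s) j - v p j‖ ^ 2 ≤ δ ^ 2) : SlowD x S δ := by
  classical
  choose w hw1 hw using hall
  refine ⟨D, hDn, hA, hxD, ι, inferInstance, fun d j => if d = x then z j else
      if h : ∃ hc : d ∈ Subgroup.centralizer ({x} : Set G), ⟨d, hc⟩ ∈ D then
        w ⟨d, h.choose⟩ h.choose_spec j else 1, v, ?_, ?_, ?_, hv1, hvδ⟩
  · intro d j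
    simp only
    split_ifs
    · exact (hz j).1
    · exact hw1 _ _ j
    · exact norm_one
  · intro j
    change (if x = x then z j else _) ≠ 1
    rw [if_pos rfl]
    exact (hz j).2
  · intro d hd p j
    simp only
    by_cases h1 : (d : G) = x
    · rw [if_pos h1, h1, hvx]
    · have h2 : ∃ hc : (d : G) ∈ Subgroup.centralizer ({x} : Set G), ⟨(d : G), hc⟩ ∈ D :=
        ⟨d.2, hd⟩
      rw [if_neg h1, dif_pos h2]
      exact hw _ h2.choose_spec p j

theorem zpow_equiv {G ι : Type*} [Group G] {x : G} {z : ι → ℂ} (hz : ∀ j, ‖z j‖ = 1)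
    {v : G → ι → ℂ} (hvx : ∀ p j, v (x * p) j = z j * v p j) (n : ℤ) (p : G) (j : ι) :
    v (x ^ n * p) j = z j ^ n * v p j := by
  have hn : ∀ (n : ℕ) p j, v (x ^ n * p) j = z j ^ n * v p j := by
    intro n
    induction n with
    | zero => intro p j; simp
    | succ n ih =>
      intro p j
      rw [pow_succ, mul_assoc, ih, hvx]
      ring
  obtain ⟨k, rfl | rfl⟩ := n.eq_nat_or_neg
  · rw [zpow_natCast, zpow_natCast, hn]
  · have h5 := hn k (x ^ (-(k : ℤ)) * p) j
    rw [← mul_assoc, zpow_neg, zpow_natCast, mul_inv_cancel, one_mul] at h5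
    have h6 : z j ≠ 0 := fun h => by
      have := hz j
      rw [h, norm_zero] at this
      exact zero_ne_one this
    rw [zpow_neg, zpow_natCast, zpow_neg, zpow_natCast, h5,
      inv_mul_cancel_left₀ (pow_ne_zero _ h6)]

/-- The subgroup generated by a normal subgroup and a central element. -/
theorem sup_zpowers {C : Type*} [Group C] (D : Subgroup C) [hD : D.Normal] (a : C)
    (ha : ∀ c, Commute c a) (hA : IsAmenable (C ⧸ D)) :
    ∃ (E : Subgroup C) (_ : E.Normal), IsAmenable (C ⧸ E) ∧ a ∈ E ∧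
      ∀ d ∈ E, ∃ b ∈ D, ∃ n : ℤ, d = b * a ^ n := by
  have hZn : (Subgroup.zpowers a).Normal := by
    refine ⟨fun n hn g => ?_⟩
    have h5 : g * n * g⁻¹ = n := by
      obtain ⟨k, rfl⟩ := hn
      simp only
      rw [((ha g).zpow_right k).eq, mul_inv_cancel_right]
    rw [h5]
    exact hn
  have hEn : (D ⊔ Subgroup.zpowers a).Normal := Subgroup.sup_normal _ _
  refine ⟨D ⊔ Subgroup.zpowers a, hEn, ?_, Subgroup.mem_sup_right (Subgroup.mem_zpowers _),
    fun d hd => ?_⟩
  · refine IsAmenable.of_surjective (QuotientGroup.map D (D ⊔ Subgroup.zpowers a)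
      (MonoidHom.id C) (by rw [Subgroup.comap_id]; exact le_sup_left)) ?_ hA
    intro q
    induction q using QuotientGroup.induction_on with
    | H c => exact ⟨(c : C ⧸ D), rfl⟩
  · obtain ⟨b, hb, _, ⟨n, rfl⟩, h⟩ := Subgroup.mem_sup_of_normal_left.mp hd
    exact ⟨b, hb, n, h.symm⟩

/-- It suffices to have equivariance for `x` and for a normal subgroup with amenable quotient. -/
theorem slowD_of_sup {G : Type*} [Group G] {x : G} {S : Set G} {δ : ℝ}
    (D₁ : Subgroup (Subgroup.centralizer ({x} : Set G))) (hD : D₁.Normal)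
    (hA : IsAmenable (Subgroup.centralizer ({x} : Set G) ⧸ D₁)) {ι : Type} [Fintype ι]
    (z : ι → ℂ) (hz : ∀ j, ‖z j‖ = 1 ∧ z j ≠ 1) (ζ : G → ι → ℂ) (hζ : ∀ d j, ‖ζ d j‖ = 1)
    (v : G → ι → ℂ) (hvx : ∀ p j, v (x * p) j = z j * v p j)
    (hvd : ∀ d ∈ D₁, ∀ p j, v (d * p) j = ζ d j * v p j) (hv1 : ∀ p, ∑ j, ‖v p j‖ ^ 2 = 1)
    (hvδ : ∀ s ∈ S, ∀ p, ∑ j, ‖v (p * s) j - v p j‖ ^ 2 ≤ δ ^ 2) : SlowD x S δ := by
  have hxC : x ∈ Subgroup.centralizer ({x} : Set G) :=
    Subgroup.mem_centralizer_singleton_iff.mpr rfl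
  obtain ⟨E, hEn, hEA, hxE, hE⟩ := sup_zpowers D₁
    (⟨x, hxC⟩ : Subgroup.centralizer ({x} : Set G))
    (fun c => Subtype.ext (Subgroup.mem_centralizer_singleton_iff.mp c.2)) hA
  refine slowD_of_all E hEn hEA ⟨hxC, hxE⟩ z hz v hvx (fun d hd => ?_) hv1 hvδ
  obtain ⟨a, ha, n, rfl⟩ := hE d hd
  refine ⟨fun j => ζ a j * z j ^ n, fun j => ?_, fun p j => ?_⟩
  · rw [norm_mul, hζ, norm_zpow, (hz j).1, one_zpow, one_mul]
  · have h1 : ((a * (⟨x, hxC⟩ : Subgroup.centralizer ({x} : Set G)) ^ n :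
        Subgroup.centralizer ({x} : Set G)) : G) * p = a * (x ^ n * p) := by
      rw [Subgroup.coe_mul, mul_assoc]; rfl
    rw [h1, hvd a ha, zpow_equiv (fun j => (hz j).1) hvx, mul_assoc]

theorem slowD_pow {G : Type*} [Group G] {x : G} {S : Set G} {δ : ℝ} (m : ℕ)
    (h : SlowD (x ^ m) S δ) : SlowD x S δ := by
  classical
  obtain ⟨D, hDn, hDa, ⟨hyC, hyD⟩, ι, _, ζ, u, hζ, hζy, huy, hu1, huδ⟩ := h
  have hxC : x ∈ Subgroup.centralizer ({x} : Set G) :=
    Subgroup.mem_centralizer_singleton_iff.mpr rfl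
  -- the exponent is positive
  have hm : m ≠ 0 := by
    rintro rfl
    have h1 := huy _ hyD 1
    simp only [pow_zero, mul_one] at h1
    have h2 : ∀ j, u 1 j = 0 := by
      intro j
      have h3 := h1 j
      have h4 := hζy j
      rw [pow_zero] at h4
      have h5 : (ζ 1 j - 1) * u 1 j = 0 := by rw [sub_mul, one_mul, ← h3, sub_self]
      exact (mul_eq_zero.mp h5).resolve_left (sub_ne_zero.mpr h4)
    have h3 := hu1 1
    simp only [h2, norm_zero] at h3
    (clear * - h3; norm_num at h3)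
  have : NeZero m := ⟨hm⟩
  have hm0 : (0 : ℝ) < m := Nat.cast_pos.mpr (Nat.pos_of_ne_zero hm)
  -- roots
  have hroot : ∀ j, ∃ ρ : ℂ, ρ ^ m = ζ (x ^ m) j ∧ ‖ρ‖ = 1 := by
    intro j
    obtain ⟨ρ, hρ⟩ := IsAlgClosed.exists_pow_nat_eq (ζ (x ^ m) j) (Nat.pos_of_ne_zero hm)
    refine ⟨ρ, hρ, ?_⟩
    have h1 : ‖ρ‖ ^ m = 1 := by rw [← norm_pow, hρ, hζ]
    exact (pow_eq_one_iff_of_nonneg (norm_nonneg _) hm).mp h1
  choose ρ hρ hρ1 using hroot
  have hρ0 : ∀ j, ρ j ≠ 0 := fun j h => by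
    have := hρ1 j
    rw [h, norm_zero] at this
    exact zero_ne_one this
  have hum : ∀ p j, u (x ^ m * p) j = ρ j ^ m * u p j := by
    intro p j
    have h1 := huy _ hyD p j
    rw [hρ]
    exact h1
  -- the function on `ZMod m`
  set f : G → ι → ZMod m → ℂ := fun p j i => (ρ j)⁻¹ ^ i.val * u (x ^ i.val * p) j with hf
  have hfx : ∀ p j i, f (x * p) j i = ρ j * f p j (i + 1) := by
    intro p j i
    rw [hf]
    simp only
    have h1 : x ^ i.val * (x * p) = x ^ (i.val + 1) * p := by rw [pow_succ, mul_assoc]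
    rw [h1]
    rcases Nat.lt_or_ge (i.val + 1) m with h2 | h2
    · have h3 : (i + 1).val = i.val + 1 := by
        rw [ZMod.val_add_of_lt]
        · rw [ZMod.val_one_eq_one_mod, Nat.mod_eq_of_lt (by omega)]
        · rw [ZMod.val_one_eq_one_mod, Nat.mod_eq_of_lt (by omega)]
          exact h2
      have h4 : ρ j * (ρ j)⁻¹ ^ (i.val + 1) = (ρ j)⁻¹ ^ i.val := by
        rw [pow_succ', ← mul_assoc, mul_inv_cancel₀ (hρ0 j), one_mul]
      rw [h3, ← mul_assoc, h4]
    · have h4 : i.val + 1 = m := by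
        have := ZMod.val_lt i
        omega
      have h3 : (i + 1).val = 0 := by
        rw [ZMod.val_eq_zero]
        have h5 : ((i.val + 1 : ℕ) : ZMod m) = 0 := by rw [h4, ZMod.natCast_self]
        rw [Nat.cast_add, ZMod.natCast_zmod_val, Nat.cast_one] at h5
        exact h5
      rw [h3, h4, hum, pow_zero, pow_zero, one_mul, one_mul, ← mul_assoc]
      congr 1
      have h6 : m = i.val + 1 := h4.symm
      calc (ρ j)⁻¹ ^ i.val * ρ j ^ m = (ρ j)⁻¹ ^ i.val * ρ j ^ (i.val + 1) := by rw [← h6]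
        _ = ρ j := by
          rw [pow_succ, ← mul_assoc, ← mul_pow, inv_mul_cancel₀ (hρ0 j), one_pow, one_mul]
  have hfn : ∀ p q j i, ‖f p j i - f q j i‖ = ‖u (x ^ i.val * p) j - u (x ^ i.val * q) j‖ := by
    intro p q j i
    rw [hf]
    simp only
    rw [← mul_sub, norm_mul, norm_pow, norm_inv, hρ1, inv_one, one_pow, one_mul]
  have hfn0 : ∀ p j i, ‖f p j i‖ = ‖u (x ^ i.val * p) j‖ := by
    intro p j i
    rw [hf]
    simp only
    rw [norm_mul, norm_pow, norm_inv, hρ1, inv_one, one_pow, one_mul]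
  set v : G → ι × ZMod m → ℂ := fun p jk =>
    (m : ℂ)⁻¹ * ∑ i, f p jk.1 i * ZMod.stdAddChar (jk.2 * i) with hv
  have hvx : ∀ p jk, v (x * p) jk = ρ jk.1 * ZMod.stdAddChar (-jk.2) * v p jk := by
    intro p jk
    rw [hv]
    simp only
    rw [mul_left_comm]
    congr 1
    rw [sum_shift_zmod (fun i => f p jk.1 i * ZMod.stdAddChar (jk.2 * i)), Finset.mul_sum]
    refine Finset.sum_congr rfl fun i _ => ?_
    rw [hfx, mul_add, mul_one, AddChar.map_add_eq_mul]
    have h1 : (ZMod.stdAddChar (-jk.2) : ℂ) * ZMod.stdAddChar jk.2 = 1 := by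
      rw [← AddChar.map_add_eq_mul, neg_add_cancel, AddChar.map_zero_eq_one]
    linear_combination (-(ρ jk.1 * f p jk.1 (i + 1) * ZMod.stdAddChar (jk.2 * i))) * h1
  -- elements of D commuting with x
  have hvd : ∀ d : Subgroup.centralizer ({x ^ m} : Set G), d ∈ D → Commute (d : G) x →
      ∀ p jk, v (d * p) jk = ζ d jk.1 * v p jk := by
    intro d hd hdx p jk
    rw [hv]
    simp only
    rw [mul_left_comm]
    congr 1
    rw [Finset.mul_sum]
    refine Finset.sum_congr rfl fun i _ => ?_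
    rw [← mul_assoc]
    congr 1
    rw [hf]
    simp only
    rw [← mul_assoc (x ^ _), ← (hdx.pow_right i.val).eq, mul_assoc (d : G), huy d hd]
    ring
  -- the subgroup
  let θ : Subgroup.centralizer ({x} : Set G) →* Subgroup.centralizer ({x ^ m} : Set G) :=
    { toFun := fun c => ⟨c, by
        have h1 : Commute (c : G) x := Subgroup.mem_centralizer_singleton_iff.mp c.2
        exact Subgroup.mem_centralizer_singleton_iff.mpr (h1.pow_right m).eq⟩
      map_one' := rfl
      map_mul' := fun _ _ => rfl }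
  have h1 : IsAmenable (Subgroup.centralizer ({x} : Set G) ⧸ D.comap θ) := by
    refine isAmenable_of_injective (QuotientGroup.map (D.comap θ) D θ le_rfl) ?_ hDa
    rw [injective_iff_map_eq_one]
    intro q
    induction q using QuotientGroup.induction_on with
    | H c =>
      intro hc
      rw [QuotientGroup.map_mk, QuotientGroup.eq_one_iff] at hc
      rw [QuotientGroup.eq_one_iff]
      exact hc
  refine slowD_of_sup (D.comap θ) inferInstance h1 (fun jk : ι × ZMod m => ρ jk.1 * ZMod.stdAddChar (-jk.2))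
    (fun jk => ⟨?_, fun h1 => ?_⟩) (fun d jk => ζ d jk.1) (fun d jk => hζ d jk.1) v hvx
    (fun d hd p jk => hvd (θ d) hd (Subgroup.mem_centralizer_singleton_iff.mp d.2) p jk) ?_ ?_
  · rw [norm_mul, hρ1, one_mul, ZMod.stdAddChar_apply, Circle.norm_coe]
  · have h2 : (ρ jk.1 * ZMod.stdAddChar (-jk.2)) ^ m = 1 := by rw [h1, one_pow]
    rw [mul_pow, hρ, ← AddChar.map_nsmul_eq_pow, nsmul_eq_mul, ZMod.natCast_self, zero_mul,
      AddChar.map_zero_eq_one, mul_one] at h2
    exact hζy jk.1 h2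
  · intro p
    rw [Fintype.sum_prod_type, Finset.sum_congr rfl fun j _ => sum_mul_char m (f p j),
      ← Finset.mul_sum, Finset.sum_comm]
    simp only [hfn0]
    rw [Finset.sum_congr rfl fun i _ => hu1 _, Finset.sum_const, Finset.card_univ, ZMod.card,
      nsmul_eq_mul, mul_one, inv_mul_cancel₀ hm0.ne']
  · intro s hs p
    have h1 : ∀ jk : ι × ZMod m, v (p * s) jk - v p jk =
        (m : ℂ)⁻¹ * ∑ i, (f (p * s) jk.1 i - f p jk.1 i) * ZMod.stdAddChar (jk.2 * i) := by
      intro jk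
      rw [hv]
      simp only
      rw [← mul_sub, ← Finset.sum_sub_distrib]
      congr 1
      exact Finset.sum_congr rfl fun i _ => (sub_mul _ _ _).symm
    rw [Finset.sum_congr rfl fun jk _ => by rw [h1 jk], Fintype.sum_prod_type,
      Finset.sum_congr rfl fun j _ => sum_mul_char m fun i => f (p * s) j i - f p j i,
      ← Finset.mul_sum, Finset.sum_comm]
    simp only [hfn]
    have h2 : ∀ i : ZMod m, ∑ j, ‖u (x ^ i.val * (p * s)) j - u (x ^ i.val * p) j‖ ^ 2 ≤
        δ ^ 2 := by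
      intro i
      have h3 := huδ s hs (x ^ i.val * p)
      rwa [mul_assoc] at h3
    calc (m : ℝ)⁻¹ * ∑ i : ZMod m, ∑ j, ‖u (x ^ i.val * (p * s)) j - u (x ^ i.val * p) j‖ ^ 2
        ≤ (m : ℝ)⁻¹ * ∑ _i : ZMod m, δ ^ 2 :=
          mul_le_mul_of_nonneg_left (Finset.sum_le_sum fun i _ => h2 i) (by (clear * - hm; positivity))
      _ = δ ^ 2 := by
        rw [Finset.sum_const, Finset.card_univ, ZMod.card, nsmul_eq_mul, ← mul_assoc,
          inv_mul_cancel₀ hm0.ne', one_mul]

end Vale.Agent.P184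
end
end

section

/-!
# The class of groups with slow maps: closure properties
-/

noncomputable section

namespace Vale.Agent.P184

/-- Arbitrarily slow maps. -/
def GoodD {G : Type*} [Group G] (x : G) : Prop :=
  ∀ S : Set G, S.Finite → ∀ δ : ℝ, 0 < δ → SlowD x S δ

/-- For every finite set and every `δ`, all torsion elements outside finitely many classes have
slow maps. -/
def TGoodD (G : Type*) [Group G] : Prop :=
  ∀ S : Set G, S.Finite → ∀ δ : ℝ, 0 < δ → ∃ B : Set G, B.Finite ∧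
    ∀ y, IsOfFinOrder y → (∀ b ∈ B, ¬ IsConj b y) → SlowD y S δ

theorem goodD_of_good {G : Type*} [Group G] {x : G} (h : Good x) : GoodD x :=
  fun S hS δ hδ => slowD_of_slow h.1 (h.2 S hS δ hδ)

theorem goodD_of_charged {G : Type*} [Group G] {x : G} (h : Charged x) : GoodD x :=
  fun _ hS _ hδ => slowD_of_charged h hS hδ

theorem goodD_of_hom {G K : Type*} [Group G] [Group K] (f : G →* K) {x : G}
    (h : GoodD (f x)) : GoodD x :=
  fun S hS δ hδ => slowD_hom f (h (f '' S) (hS.image _) δ hδ)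

theorem goodD_of_pow {G : Type*} [Group G] {x : G} (m : ℕ) (h : GoodD (x ^ m)) : GoodD x :=
  fun S hS δ hδ => slowD_pow m (h S hS δ hδ)

theorem goodD_conj {G : Type*} [Group G] {x y : G} (h : IsConj x y) (hx : GoodD x) : GoodD y :=
  fun S hS δ hδ => slowD_conj h (hx S hS δ hδ)

theorem tgoodD_of_tgood {G : Type*} [Group G] (h : TGood G) : TGoodD G := by
  intro S hS δ hδ
  obtain ⟨B, hB, hB2⟩ := h S hS δ hδ
  exact ⟨B, hB, fun y hy hyB => slowD_of_slow (hB2 y hy hyB).1 (hB2 y hy hyB).2⟩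

theorem tgoodD_of_finite {G : Type*} [Group G]
    (h : {C : ConjClasses G | IsTorsionClass C}.Finite) : TGoodD G := by
  intro S _ δ _
  refine ⟨Quotient.out '' {C : ConjClasses G | IsTorsionClass C}, h.image _, fun y hy hyB => ?_⟩
  exfalso
  refine hyB (ConjClasses.mk y).out ⟨_, ?_, rfl⟩ ?_
  · intro g hg
    rw [ConjClasses.mem_carrier_iff_mk_eq, ConjClasses.mk_eq_mk_iff_isConj] at hg
    exact hg.symm.isOfFinOrder hy
  · exact ConjClasses.mk_eq_mk_iff_isConj.mp (Quotient.out_eq _)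

theorem vanishesAt_of_goodD {G : Type*} [Group G] {x : G} (hx : GoodD x) : VanishesAt x := by
  intro q e he
  obtain ⟨S, δ, hδ, h⟩ := exists_slowD_param e he
  exact h x (hx _ S.finite_toSet δ hδ)

/-- The conjecture for `G`, if its torsion is good and the elements of infinite order satisfy
the vanishing statement. -/
theorem l1Bass_of_tgoodD {G : Type*} [Group G] (h0 : ∀ x : G, ¬ IsOfFinOrder x → VanishesAt x)
    (hT : TGoodD G) : L1Bass G := by
  classical
  intro q e he
  obtain ⟨S, δ, hδ, h⟩ := exists_slowD_param e he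
  obtain ⟨B, hB, hB2⟩ := hT (S : Set G) S.finite_toSet δ hδ
  refine ⟨(hB.image ConjClasses.mk).toFinset.filter fun C => IsTorsionClass C,
    fun C hC => (Finset.mem_filter.mp hC).2, fun C hC => ?_⟩
  obtain ⟨x, rfl⟩ := ConjClasses.mk_surjective C
  by_cases hx : IsOfFinOrder x
  · have hconj : ∀ b ∈ B, ¬ IsConj b x := by
      intro b hb hbx
      apply hC
      rw [Finset.mem_filter, Set.Finite.mem_toFinset]
      refine ⟨⟨b, hb, ConjClasses.mk_eq_mk_iff_isConj.mpr hbx⟩, ?_⟩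
      intro g hg
      rw [ConjClasses.mem_carrier_iff_mk_eq, ConjClasses.mk_eq_mk_iff_isConj] at hg
      exact hg.symm.isOfFinOrder hx
    exact h x (hB2 x hx hconj)
  · exact h0 x hx q e he

/-- Direct products. -/
theorem tgoodD_prod {G K : Type*} [Group G] [Group K] (hG : TGoodD G) (hK : TGoodD K) :
    TGoodD (G × K) := by
  intro S hS δ hδ
  obtain ⟨B, hB, hB2⟩ := hG (MonoidHom.fst G K '' S) (hS.image _) δ hδ
  obtain ⟨C, hC, hC2⟩ := hK (MonoidHom.snd G K '' S) (hS.image _) δ hδ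
  refine ⟨B ×ˢ C, hB.prod hC, fun y hy hyBC => ?_⟩
  by_cases h1 : ∀ b ∈ B, ¬ IsConj b y.1
  · exact slowD_hom (MonoidHom.fst G K) (hB2 _ (MonoidHom.isOfFinOrder (MonoidHom.fst G K) hy) h1)
  · by_cases h2 : ∀ c ∈ C, ¬ IsConj c y.2
    · exact slowD_hom (MonoidHom.snd G K)
        (hC2 _ (MonoidHom.isOfFinOrder (MonoidHom.snd G K) hy) h2)
    · push Not at h1 h2
      obtain ⟨b, hb, hby⟩ := h1
      obtain ⟨c, hc, hcy⟩ := h2
      exfalso
      refine hyBC (b, c) ⟨hb, hc⟩ ?_
      obtain ⟨g, hg⟩ := isConj_iff.mp hby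
      obtain ⟨k, hk⟩ := isConj_iff.mp hcy
      exact isConj_iff.mpr ⟨(g, k), Prod.ext hg hk⟩

namespace RH

variable {G : Type*} [Group G] {ι : Type*} {X : Set G} {H : ι → Subgroup G} {δ : ℕ}
  (S : RH X H δ)
include S

theorem slowD_of_peripheral {l : ι} {y : H l} {T : Set G} {ε : ℝ}
    (hC : ∀ g : G, Commute g y → g ∈ H l)
    (h : SlowD y {h : H l | ∃ s ∈ T, ∃ p, (S.prj l p)⁻¹ * S.prj l (p * s) = h} ε) :
    SlowD (y : G) T ε := by
  let θ : Subgroup.centralizer ({(y : G)} : Set G) →* Subgroup.centralizer ({y} : Set (H l)) :=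
    { toFun := fun g => ⟨⟨g, hC g (Subgroup.mem_centralizer_singleton_iff.mp g.2)⟩,
        Subgroup.mem_centralizer_singleton_iff.mpr
          (Subtype.ext (Subgroup.mem_centralizer_singleton_iff.mp g.2))⟩
      map_one' := rfl
      map_mul' := fun _ _ => rfl }
  exact slowD_pull (S.prj l) θ
    (fun c p => Subtype.ext (proj_smul (hC c (Subgroup.mem_centralizer_singleton_iff.mp c.2)) p))
    (fun _ => rfl)
    (T := {h : H l | ∃ s ∈ T, ∃ p, (S.prj l p)⁻¹ * S.prj l (p * s) = h})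
    (fun s hs p => ⟨s, hs, p, rfl⟩) h

theorem goodD_of_peripheral {l : ι} {y : H l} (hy : ¬ IsOfFinOrder y) (h : GoodD y) :
    GoodD (y : G) := by
  have hy' : ¬ IsOfFinOrder (y : G) := by
    rwa [Submonoid.isOfFinOrder_coe (H := (H l).toSubmonoid)]
  exact fun T hT ε hε => S.slowD_of_peripheral (fun g hg => S.mem_of_commute y.2 hy' hg)
    (h _ (S.finite_all_steps l hT) ε hε)

theorem tgoodD [Finite ι] (hH : ∀ k, TGoodD (H k)) : TGoodD G := by
  intro T hT ε hε
  obtain ⟨A, hA, hA2⟩ := S.exists_finite_conj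
  choose B hB hB2 using fun k => hH k _ (S.finite_all_steps k hT) ε hε
  refine ⟨A ∪ ((⋃ k, ((↑) '' B k : Set G)) ∪ ⋃ k, {h | h ∈ H k ∧ Lnk X H k (6 * δ + 8) 1 h}),
    hA.union ((Set.finite_iUnion fun k => (hB k).image _).union
      (Set.finite_iUnion fun k => S.finite_lnk _)), ?_⟩
  intro x hx hconj
  have hb : ∃ B : ℕ, ∀ n : ℕ, rdist X H 1 (x ^ n) ≤ B := by
    have hfin : (Set.range fun n : ℕ => x ^ n).Finite := by
      refine hx.finite_powers.subset ?_
      rintro _ ⟨n, rfl⟩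
      exact ⟨n, rfl⟩
    obtain ⟨B, hB⟩ := (hfin.image fun g => rdist X H 1 g).bddAbove
    exact ⟨B, fun n => hB ⟨_, ⟨n, rfl⟩, rfl⟩⟩
  rcases hA2 x hb with ⟨k, u, hu⟩ | ⟨u, hu⟩
  · set y : H k := ⟨u⁻¹ * x * u, hu⟩ with hy
    have hxy : IsConj (y : G) x := isConj_iff.mpr ⟨u, by rw [hy]; group⟩
    have hyfin : IsOfFinOrder y := by
      refine (Submonoid.isOfFinOrder_coe (H := (H k).toSubmonoid) (x := y)).mp ?_
      exact hxy.symm.isOfFinOrder hx
    have h1 : ∀ b ∈ B k, ¬ IsConj b y := by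
      intro b hb hby
      refine hconj b (Or.inr (Or.inl (Set.mem_iUnion.2 ⟨k, b, hb, rfl⟩))) ?_
      exact ((H k).subtype.map_isConj hby).trans hxy
    have h2 : ∀ g : G, Commute g y → g ∈ H k := by
      intro g hg
      by_contra hgk
      obtain ⟨a, ha, hay⟩ := S.exists_conj_of_commute y.2 hg hgk
      refine hconj _ (Or.inr (Or.inr (Set.mem_iUnion.2 ⟨k, hay⟩))) (IsConj.trans ?_ hxy)
      exact isConj_iff.mpr ⟨a, by group⟩
    exact slowD_conj hxy (S.slowD_of_peripheral h2 (hB2 k y hyfin h1))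
  · exact absurd (isConj_iff.mpr ⟨u, by group⟩ : IsConj (u⁻¹ * x * u) x) (hconj _ (Or.inl hu))

end RH

theorem RelHyperbolic.tgoodD {G : Type*} [Group G] {ι : Type*} {H : ι → Subgroup G}
    (hG : RelHyperbolic H) (hH : ∀ k, TGoodD (H k)) : TGoodD G := by
  obtain ⟨hfin, X, δ, S⟩ := hG.exists_rh
  exact S.tgoodD hH

/-- The elements of infinite order of a relatively hyperbolic group are tame or good if those of
the peripheral subgroups are. -/
theorem RelHyperbolic.tame_or_goodD {G : Type*} [Group G] {ι : Type*} {H : ι → Subgroup G}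
    (hG : RelHyperbolic H) (hH : ∀ l (y : H l), ¬ IsOfFinOrder y → Tame y ∨ GoodD y) (x : G)
    (hx : ¬ IsOfFinOrder x) : Tame x ∨ GoodD x := by
  obtain ⟨hfin, X, δ, S⟩ := hG.exists_rh
  rcases S.charged_or_parabolic hx with h | ⟨l, w, h⟩
  · exact Or.inl (tame_of_charged h)
  · have hx' : ¬ IsOfFinOrder (w⁻¹ * x * w) := by
      intro h'
      apply hx
      refine IsConj.isOfFinOrder (isConj_iff.2 ⟨w, ?_⟩) h'
      group
    have h3 : ¬ IsOfFinOrder (⟨w⁻¹ * x * w, h⟩ : H l) := by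
      rwa [← Submonoid.isOfFinOrder_coe (H := (H l).toSubmonoid)]
    rcases hH l _ h3 with h4 | h4
    · exact Or.inl (Tame.conj w (S.tame_of_peripheral h3 h4))
    · exact Or.inr (goodD_conj (isConj_iff.2 ⟨w, by group⟩) (S.goodD_of_peripheral h3 h4))

end Vale.Agent.P184
end
end

section

end

section

/-!
# Equivalence of the definitions of the combined statement with the earlier ones
-/

namespace Vale.Agent.P184.V

universe u v w

theorem nilEuler_iff {G : Type*} [Group G] {x : G} {gr : ∀ n : ℕ, ((Fin n → G) → ℝ) → Prop} :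
    NilEuler x gr ↔ U.NilEuler x gr := by
  constructor
  · rintro ⟨α, n, k, β, rfl, h1, h2, h3, h4, h5⟩
    refine ⟨α, n, β, h1, h2, h3, fun h hh p => ?_, fun m p => ?_, h5⟩
    · simpa only [Pi.zero_apply, zpow_ofNat, pow_zero, mul_one] using h4 h hh 0 p
    · simpa only [one_mul] using h4 1 (Commute.one_left x) m p
  · rintro ⟨α, n, β, h1, h2, h3, h4, h4', h5⟩
    refine ⟨α, n, 2 * n, β, rfl, h1, h2, h3, fun h hh m p => ?_, h5⟩
    have e : (fun i => h * x ^ m i * p i) = fun i => h * (x ^ m i * p i) :=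
      funext fun i => mul_assoc _ _ _
    rw [e, h4 h hh, h4' m p]

theorem tameAt_iff {G : Type*} [Group G] {x : G} : TameAt x ↔ U.TameAt x :=
  exists_congr fun _ => and_congr Iff.rfl nilEuler_iff

theorem polyNilpotent_of {G : Type*} [Group G] {x : G} (h : PolyNilpotent x) :
    U.PolyNilpotent x := by
  obtain ⟨L, hL, h1, h2⟩ := h
  obtain ⟨α, n, β, hn, a1, a2, a3, a4, ⟨C, d, a5⟩, ⟨C', d', a6⟩, a7⟩ := nilEuler_iff.1 h2
  have hx : x ∈ Subgroup.centralizer ({x} : Set G) := by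
    rw [Subgroup.mem_centralizer_singleton_iff]
  have hcom : ∀ c : Subgroup.centralizer ({x} : Set G), Commute (c : G) x := fun c =>
    Subgroup.mem_centralizer_singleton_iff.1 c.2
  refine ⟨L, hL, h1, ⟨x, hx⟩, rfl, fun p q => α p q, n, fun p => β fun i => p i, hn,
    fun h _ p q => a1 h (hcom h) p q, fun p q => a2 p q, fun h _ p => a3 h (hcom h) _,
    fun k p => ?_, ⟨C, d, fun p => a5 (fun i => p i) fun i => hcom _⟩,
    ⟨C', d', fun p => a6 (fun i => p i) fun i => hcom _⟩, fun p => a7 fun i => p i⟩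
  have := a4 k fun i => p i
  simpa only [Subgroup.coe_mul, SubgroupClass.coe_zpow] using this

theorem BddInv.add {G : Type*} [Group G] {C D : Subgroup G} {a b : G → ℝ} (ha : BddInv C D a)
    (hb : BddInv C D b) : BddInv C D (a + b) := by
  obtain ⟨⟨K, hK⟩, ha⟩ := ha
  obtain ⟨⟨K', hK'⟩, hb⟩ := hb
  refine ⟨⟨K + K', fun c hc => (abs_add_le _ _).trans (add_le_add (hK c hc) (hK' c hc))⟩,
    fun d hd c hc => ?_⟩
  rw [Pi.add_apply, Pi.add_apply, ha d hd c hc, hb d hd c hc]

theorem BddInv.neg {G : Type*} [Group G] {C D : Subgroup G} {a : G → ℝ} (ha : BddInv C D a) :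
    BddInv C D (-a) := by
  obtain ⟨⟨K, hK⟩, ha⟩ := ha
  refine ⟨⟨K, fun c hc => ?_⟩, fun d hd c hc => ?_⟩
  · rw [Pi.neg_apply, abs_neg]; exact hK c hc
  · rw [Pi.neg_apply, Pi.neg_apply, ha d hd c hc]

theorem coMean_congr {G : Type*} [Group G] {C D : Subgroup G} {m : (G → ℝ) → ℝ}
    (h1 : ∀ f g, BddInv C D f → BddInv C D g → m (fun c => f c + g c) = m f + m g)
    (h2 : ∀ f, BddInv C D f → (∀ c ∈ C, 0 ≤ f c) → 0 ≤ m f) (h3 : ∀ r : ℝ, m (fun _ => r) = r)
    {f g : G → ℝ} (hf : BddInv C D f) (hg : BddInv C D g) (hfg : ∀ c ∈ C, f c = g c) :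
    m f = m g := by
  have e0 : m 0 = 0 := h3 0
  have e1 : m (f + -f) = m f + m (-f) := h1 f (-f) hf hf.neg
  have e2 : m (g + -g) = m g + m (-g) := h1 g (-g) hg hg.neg
  have e3 : m (g + -f) = m g + m (-f) := h1 g (-f) hg hf.neg
  have e4 : m (f + -g) = m f + m (-g) := h1 f (-g) hf hg.neg
  rw [add_neg_cancel, e0] at e1 e2
  have e5 : 0 ≤ m (g + -f) := h2 _ (hg.add hf.neg) fun c hc => by
    rw [Pi.add_apply, Pi.neg_apply, hfg c hc, add_neg_cancel]
  have e6 : 0 ≤ m (f + -g) := h2 _ (hf.add hg.neg) fun c hc => by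
    rw [Pi.add_apply, Pi.neg_apply, hfg c hc, add_neg_cancel]
  linarith

theorem coAmenable_amenable {G : Type*} [Group G] {C D : Subgroup G} (hDC : D ≤ C)
    [hn : (D.subgroupOf C).Normal] (h : CoAmenable C D) :
    Vale.Agent.P184.IsAmenable (C ⧸ D.subgroupOf C) := by
  classical
  obtain ⟨m, h1, h2, h3, h4⟩ := h
  let F : ((C ⧸ D.subgroupOf C) → ℝ) → G → ℝ := fun f c =>
    if h : c ∈ C then f (QuotientGroup.mk (⟨c, h⟩ : C)⁻¹) else f 1
  have hF : ∀ f c (hc : c ∈ C), F f c = f (QuotientGroup.mk (⟨c, hc⟩ : C)⁻¹) := fun f c hc =>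
    dif_pos hc
  have hb : ∀ f : (C ⧸ D.subgroupOf C) → ℝ, (∃ K, ∀ h, |f h| ≤ K) → BddInv C D (F f) := by
    rintro f ⟨K, hK⟩
    refine ⟨⟨K, fun c hc => by rw [hF f c hc]; exact hK _⟩, fun d hd c hc => ?_⟩
    rw [hF f _ (C.mul_mem (hDC hd) hc), hF f c hc]
    congr 1
    rw [QuotientGroup.eq]
    have : ((⟨d * c, C.mul_mem (hDC hd) hc⟩ : C)⁻¹)⁻¹ * (⟨c, hc⟩ : C)⁻¹ = ⟨d, hDC hd⟩ :=
      Subtype.ext (by simp only [inv_inv, Subgroup.coe_mul, InvMemClass.coe_inv, mul_inv_cancel_right])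
    rw [this]
    exact Subgroup.mem_subgroupOf.2 hd
  refine ⟨fun f => m (F f), ?_, ?_, ?_, ?_⟩
  · intro f g hf hg
    change m (F (f + g)) = m (F f) + m (F g)
    have hfg : ∃ K, ∀ h, |(f + g) h| ≤ K := by
      obtain ⟨K, hK⟩ := hf
      obtain ⟨K', hK'⟩ := hg
      exact ⟨K + K', fun h => (abs_add_le _ _).trans (add_le_add (hK h) (hK' h))⟩
    refine Eq.trans ?_ (h1 _ _ (hb f hf) (hb g hg))
    refine coMean_congr h1 h2 h3 (hb _ hfg) ((hb f hf).add (hb g hg)) fun c hc => ?_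
    rw [hF _ c hc, hF _ c hc, hF _ c hc, Pi.add_apply]
  · intro f hf h0
    exact h2 _ (hb f hf) fun c hc => by rw [hF f c hc]; exact h0 _
  · intro r
    change m (F fun _ => r) = r
    have hr : BddInv C D (fun _ : G => r) := ⟨⟨|r|, fun _ _ => le_rfl⟩, fun _ _ _ _ => rfl⟩
    refine (coMean_congr h1 h2 h3 (hb _ ⟨|r|, fun _ => le_rfl⟩) hr fun c hc => ?_).trans (h3 r)
    exact hF (fun _ => r) c hc
  · intro f q hf
    obtain ⟨k, rfl⟩ := QuotientGroup.mk_surjective q
    change m (F fun h => f (QuotientGroup.mk k * h)) = m (F f)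
    rw [← h4 (F f) (hb f hf) (k⁻¹ : C) (k⁻¹).2]
    have hbk : BddInv C D (fun c => F f (c * (k⁻¹ : C))) := by
      obtain ⟨⟨K, hK⟩, hi⟩ := hb f hf
      refine ⟨⟨K, fun c hc => hK _ (C.mul_mem hc (k⁻¹).2)⟩, fun d hd c hc => ?_⟩
      beta_reduce
      rw [mul_assoc]
      exact hi d hd _ (C.mul_mem hc (k⁻¹).2)
    have hf' : ∃ K, ∀ h, |f (QuotientGroup.mk k * h)| ≤ K := by
      obtain ⟨K, hK⟩ := hf
      exact ⟨K, fun h => hK _⟩
    refine coMean_congr h1 h2 h3 (hb _ hf') hbk fun c hc => ?_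
    have e1 : F (fun h => f (QuotientGroup.mk k * h)) c =
        f (QuotientGroup.mk (k * (⟨c, hc⟩ : C)⁻¹)) :=
      hF (fun h => f (QuotientGroup.mk k * h)) c hc
    have e2 : F f (c * (k⁻¹ : C)) =
        f (QuotientGroup.mk (⟨c * (k⁻¹ : C), C.mul_mem hc (k⁻¹).2⟩ : C)⁻¹) :=
      hF f _ (C.mul_mem hc (k⁻¹).2)
    beta_reduce
    rw [e1, e2]
    congr 2
    exact Subtype.ext (by simp only [Subgroup.coe_mul, InvMemClass.coe_inv, mul_inv_rev, inv_inv])

theorem amenable_coAmenable {G : Type*} [Group G] {C : Subgroup G} (D : Subgroup C)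
    [hn : D.Normal] (h : Vale.Agent.P184.IsAmenable (C ⧸ D)) :
    CoAmenable C (D.map C.subtype) := by
  classical
  obtain ⟨M, h1, h2, h3, h4⟩ := h
  let F : (G → ℝ) → (C ⧸ D) → ℝ := fun f q => f ((q.out : C)⁻¹ : C)
  have hF : ∀ f, BddInv C (D.map C.subtype) f → ∀ c : C,
      F f (QuotientGroup.mk c) = f (c⁻¹ : C) := by
    intro f hf c
    have h5 : (QuotientGroup.mk (QuotientGroup.mk c : C ⧸ D).out : C ⧸ D) = QuotientGroup.mk c :=
      Quotient.out_eq _
    set c' : C := (QuotientGroup.mk c : C ⧸ D).out with hc'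
    rw [QuotientGroup.eq] at h5
    change f (c'⁻¹ : C) = f (c⁻¹ : C)
    have h6 : ((c'⁻¹ : C) : G) = ((c'⁻¹ * c : C) : G) * ((c⁻¹ : C) : G) := by
      rw [← Subgroup.coe_mul]; congr 1; group
    rw [h6]
    exact hf.2 _ ⟨_, h5, rfl⟩ _ (c⁻¹).2
  have hb : ∀ f, BddInv C (D.map C.subtype) f → ∃ K, ∀ q, |F f q| ≤ K := by
    rintro f ⟨⟨K, hK⟩, _⟩
    exact ⟨K, fun q => hK _ (Subtype.prop _)⟩
  refine ⟨fun f => M (F f), ?_, ?_, ?_, ?_⟩
  · intro f g hf hg
    exact h1 (F f) (F g) (hb f hf) (hb g hg)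
  · intro f hf h0
    exact h2 _ (hb f hf) fun q => h0 _ (Subtype.prop _)
  · intro r
    exact h3 r
  · intro f hf k hk
    change M (F fun c => f (c * k)) = M (F f)
    rw [← h4 (F f) (QuotientGroup.mk (⟨k, hk⟩ : C)⁻¹) (hb f hf)]
    congr 1
    funext q
    obtain ⟨c, rfl⟩ := QuotientGroup.mk_surjective q
    have hfk : BddInv C (D.map C.subtype) (fun c => f (c * k)) := by
      obtain ⟨⟨K, hK⟩, hi⟩ := hf
      refine ⟨⟨K, fun c hc => hK _ (C.mul_mem hc hk)⟩, fun d hd c hc => ?_⟩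
      beta_reduce
      rw [mul_assoc]
      exact hi d hd _ (C.mul_mem hc hk)
    rw [hF _ hfk, ← QuotientGroup.mk_mul, hF _ hf]
    congr 1
    simp only [InvMemClass.coe_inv, mul_inv_rev, inv_inv, Subgroup.coe_mul]

theorem isAmenable_of_coAmenable_bot {G : Type*} [Group G] {C : Subgroup G}
    (h : CoAmenable C ⊥) : Vale.Agent.P184.IsAmenable C := by
  have hn : ((⊥ : Subgroup G).subgroupOf C).Normal := by
    rw [Subgroup.bot_subgroupOf]
    infer_instance
  have h1 := coAmenable_amenable bot_le h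
  refine isAmenable_of_injective (QuotientGroup.mk' ((⊥ : Subgroup G).subgroupOf C)) ?_ h1
  rw [← MonoidHom.ker_eq_bot_iff, QuotientGroup.ker_mk', Subgroup.bot_subgroupOf]

theorem isAmenable_of_coAmenable_top {G : Type*} [Group G]
    (h : CoAmenable (⊤ : Subgroup G) ⊥) : Vale.Agent.P184.IsAmenable G :=
  IsAmenable.of_surjective (Subgroup.topEquiv (G := G)).toMonoidHom
    (Subgroup.topEquiv (G := G)).surjective (isAmenable_of_coAmenable_bot h)

theorem amenCentr_of {G : Type*} [Group G] {x : G} (h : AmenCentr x) :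
    Vale.Agent.P184.AmenCentr x := ⟨h.1, isAmenable_of_coAmenable_bot h.2⟩

theorem slowAt_iff' {G : Type*} [Group G] {x : G} {S : Finset G} {δ : ℝ} :
    SlowAt x S (δ ^ 2) ↔ SlowD x (S : Set G) δ := by
  constructor
  · rintro ⟨D, n, ζ, u, hxD, hDC, hDn, hco, h3, h4, h5, h6, h7⟩
    have hn : (D.subgroupOf (Cen x)).Normal := ⟨fun d hd c => by
      rw [Subgroup.mem_subgroupOf] at hd ⊢
      exact hDn _ c.2 _ hd⟩
    exact ⟨D.subgroupOf (Cen x), hn, coAmenable_amenable hDC hco,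
      ⟨hDC hxD, Subgroup.mem_subgroupOf.2 hxD⟩, Fin n, inferInstance, ζ, u, h3, h4,
      fun d hd => h5 d (Subgroup.mem_subgroupOf.1 hd), h6, fun s hs => h7 s hs⟩
  · rintro ⟨D, hD, h1, ⟨hx, hd⟩, ι, _, ζ, u, h3, h4, h5, h6, h7⟩
    let e := Fintype.equivFin ι
    refine ⟨D.map (Cen x).subtype, Fintype.card ι, fun g j => ζ g (e.symm j),
      fun g j => u g (e.symm j), ⟨_, hd, rfl⟩, Subgroup.map_subtype_le D, ?_,
      amenable_coAmenable D h1, fun d j => h3 d _, fun j => h4 _, ?_, fun p => ?_,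
      fun s hs p => ?_⟩
    · rintro c hc _ ⟨d, hd, rfl⟩
      exact ⟨_, hD.conj_mem d hd ⟨c, hc⟩, rfl⟩
    · rintro _ ⟨d, hd, rfl⟩ p j
      exact h5 d hd p _
    · rw [e.symm.sum_comp (fun j => ‖u p j‖ ^ 2)]
      exact h6 p
    · rw [e.symm.sum_comp (fun j => ‖u (p * s) j - u p j‖ ^ 2)]
      exact h7 s hs p

theorem slowAt_iff {G : Type*} [Group G] {x : G} {S : Finset G} {δ : ℝ} (hδ : 0 ≤ δ) :
    SlowAt x S δ ↔ SlowD x (S : Set G) (√δ) := by
  rw [← slowAt_iff', Real.sq_sqrt hδ]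

end Vale.Agent.P184.V
end

section

end

section

/-!
# More closure properties
-/

noncomputable section

namespace Vale.Agent.P184

/-- The elements of infinite order of a relatively hyperbolic group are locally tame or good if
those of the peripheral subgroups are. -/
theorem RelHyperbolic.locTame_or_goodD {G : Type*} [Group G] {ι : Type*} {H : ι → Subgroup G}
    (hG : RelHyperbolic H) (hH : ∀ l (y : H l), ¬ IsOfFinOrder y → LocTame y ∨ GoodD y) (x : G)
    (hx : ¬ IsOfFinOrder x) : LocTame x ∨ GoodD x := by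
  obtain ⟨hfin, X, δ, S⟩ := hG.exists_rh
  rcases S.charged_or_parabolic hx with h | ⟨l, w, h⟩
  · exact Or.inl (locTame_of_tame (tame_of_charged h))
  · have hx' : ¬ IsOfFinOrder (w⁻¹ * x * w) := by
      intro h'
      apply hx
      refine IsConj.isOfFinOrder (isConj_iff.2 ⟨w, ?_⟩) h'
      group
    have h3 : ¬ IsOfFinOrder (⟨w⁻¹ * x * w, h⟩ : H l) := by
      rwa [← Submonoid.isOfFinOrder_coe (H := (H l).toSubmonoid)]
    rcases hH l _ h3 with h4 | h4
    · exact Or.inl (locTame_conj w (S.locTame_of_peripheral h3 h4))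
    · exact Or.inr (goodD_conj (isConj_iff.2 ⟨w, by group⟩) (S.goodD_of_peripheral h3 h4))

/-- Extensions with finite kernel. -/
theorem tgoodD_of_finite_ker {G K : Type*} [Group G] [Group K] (f : G →* K)
    (hf : Function.Surjective f) (hk : (f.ker : Set G).Finite) (hK : TGoodD K) : TGoodD G := by
  intro S hS δ hδ
  obtain ⟨B, hB, hB2⟩ := hK (f '' S) (hS.image _) δ hδ
  refine ⟨f ⁻¹' B, ?_, fun y hy hyB => ?_⟩
  · refine hB.preimage' fun b _ => ?_
    obtain ⟨g, rfl⟩ := hf b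
    refine (hk.image fun k => g * k).subset ?_
    intro x hx
    have hx' : f x = f g := hx
    refine ⟨g⁻¹ * x, ?_, by group⟩
    show f (g⁻¹ * x) = 1
    rw [map_mul, map_inv, hx', inv_mul_cancel]
  · refine slowD_hom f (hB2 _ (MonoidHom.isOfFinOrder f hy) fun b hb hby => ?_)
    obtain ⟨c, hc⟩ := isConj_iff.mp hby
    obtain ⟨g, rfl⟩ := hf c
    refine hyB (g⁻¹ * y * g) ?_ (isConj_iff.mpr ⟨g, by group⟩)
    show f (g⁻¹ * y * g) ∈ B
    rw [map_mul, map_mul, map_inv, ← hc]
    convert hb using 1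
    group

/-- Proper cocompact actions on `CAT(0)` spaces. -/
theorem goodD_of_cat {G : Type*} [Group G] {X : Type*} [MetricSpace X] [MulAction G X]
    [Nonempty X] (hiso : ∀ (g : G) (p q : X), dist (g • p) (g • q) = dist p q)
    (hX : HasCNMidpoints X) (hprop : ∀ w : X, ∃ r > 0, {g : G | dist w (g • w) < r}.Finite)
    (K : Set X) (hK : IsCompact K) (hcov : ∀ p : X, ∃ g : G, g • p ∈ K) :
    (∀ x : G, ¬ IsOfFinOrder x → Charged x) ∧
      ∃ B : Set G, B.Finite ∧ ∀ y : G, (∀ b ∈ B, ¬ IsConj b y) → Charged y := by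
  classical
  obtain ⟨F, η, hη, hF, hgap⟩ := gap_of_proper_cocompact hiso hprop K hK hcov
  have h1 : ∀ y : G, (∀ b ∈ (F : Set G), ¬ IsConj b y) → Charged y := by
    intro x hx
    refine charged_of_disp hiso hX hη fun v => ?_
    by_contra hlt
    push Not at hlt
    obtain ⟨h, hh, hxh⟩ := hgap x v hlt
    exact hx h hh hxh.symm
  refine ⟨fun x hx => h1 x fun b hb hbx => hx (hbx.isOfFinOrder (hF b hb)), F, F.finite_toSet, h1⟩

theorem tgoodD_of_cat {G : Type*} [Group G] {X : Type*} [MetricSpace X] [MulAction G X]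
    [Nonempty X] (hiso : ∀ (g : G) (p q : X), dist (g • p) (g • q) = dist p q)
    (hX : HasCNMidpoints X) (hprop : ∀ w : X, ∃ r > 0, {g : G | dist w (g • w) < r}.Finite)
    (K : Set X) (hK : IsCompact K) (hcov : ∀ p : X, ∃ g : G, g • p ∈ K) : TGoodD G := by
  obtain ⟨B, hB, h⟩ := (goodD_of_cat hiso hX hprop K hK hcov).2
  exact fun S hS δ hδ => ⟨B, hB, fun y _ hy => slowD_of_charged (h y hy) hS hδ⟩

end Vale.Agent.P184
end
end

section

namespace Vale.Agent.P184.U

open Vale.Agent.P184 (L1Bass VanishesAt LocCharged)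

universe u v

theorem vanishesAt_of {G : Type u} [Group G] {x : G}
    (h : LocallyTame x ∨ ¬ IsOfFinOrder x ∧ AmenCentr x) : VanishesAt x :=
  h.elim (fun h => vanishesAt_of_locTame (Vale.Agent.P184.locallyTame_iff.1 (locallyTame_iff.1 h)))
    (fun h => vanishesAt_of_good (good_of_amenCentr h.1 h.2))

theorem l1Bass_of_nice {G : Type u} [Group G] (h : Nice G) : L1Bass G :=
  Vale.Agent.P184.l1Bass_of_nice (nice_iff.1 h)

theorem relHyp_vanishesAt {G : Type u} [Group G] {ι : Type v} {H : ι → Subgroup G}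
    (hH : IsRelHyp H) (h : ∀ k (y : H k), ¬ IsOfFinOrder y → LocallyTame y ∨ AmenCentr y)
    (x : G) (hx : ¬ IsOfFinOrder x) : VanishesAt x := by
  refine ((Vale.Agent.P184.isRelHyp_iff.1 (isRelHyp_iff.1 hH)).locTame_or_good
    (fun l y hy => (h l y hy).imp (fun h => ?_) fun h => good_of_amenCentr hy h) x hx).elim
    vanishesAt_of_locTame vanishesAt_of_good
  exact Vale.Agent.P184.locallyTame_iff.1 (locallyTame_iff.1 h)

theorem relHyp_l1Bass {G : Type u} [Group G] {ι : Type v} {H : ι → Subgroup G}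
    (hH : IsRelHyp H) (h : ∀ k, Nice (H k)) : L1Bass G :=
  l1Bass_of_relHyp_nice (isRelHyp_iff.1 hH) fun k => nice_iff.1 (h k)

theorem locallyTame_of {G : Type u} [Group G] {x : G}
    (h : PolyNilpotent x ∨ VirtUnipotent x ∨ LocCharged x) : LocallyTame x := by
  rcases h with h | h | h
  · exact locallyTame_iff.2 (Vale.Agent.P184.locallyTame_iff.2
      (locTame_of_tame (Vale.Agent.P184.tameAt_iff.1 (tameAt_of_polyNilpotent
        (polyNilpotent_iff.1 h)))))
  · exact locallyTame_iff.2 (Vale.Agent.P184.locallyTame_iff.2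
      (locTame_of_tame (Vale.Agent.P184.tameAt_iff.1 (tameAt_of_virtUnipotent
        (virtUnipotent_iff.1 h)))))
  · exact locallyTame_iff.2 (Vale.Agent.P184.locallyTame_iff.2 (locTame_of_locCharged h))

theorem nice_of_amenable {G : Type u} [Group G] (h : IsAmenable G) : Nice G :=
  nice_iff.2 (Vale.Agent.P184.nice_of_amenable h)

theorem l1Bass_of_loc {G : Type u} [Group G]
    (h : ∀ S : Finset G, L1Bass (Subgroup.closure (S : Set G))) : L1Bass G := by
  refine l1Bass_of_local.{u, u} fun S => ?_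
  obtain ⟨s, hs⟩ := liftsTo_closure S
  exact ⟨Subgroup.closure (S : Set G), inferInstance, _, s, hs, h S⟩

end Vale.Agent.P184.U
end

section

/-!
# The clauses of the combined statement
-/

namespace Vale.Agent.P184.V

universe u v w

theorem mild_iff {G : Type*} [Group G] {x : G} : Mild x ↔ LocTame x ∨ GoodD x := by
  refine or_congr ?_ ?_
  · rw [← Vale.Agent.P184.locallyTame_iff, ← U.locallyTame_iff]
    exact forall_congr' fun _ => forall_congr' fun _ => tameAt_iff
  · constructor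
    · intro h S hS δ hδ
      have := slowAt_iff'.1 (h hS.toFinset (δ ^ 2) (by positivity))
      rwa [Set.Finite.coe_toFinset] at this
    · exact fun h S δ hδ => (slowAt_iff hδ.le).2 (h S S.finite_toSet _ (Real.sqrt_pos.2 hδ))

theorem nice_iff {G : Type*} [Group G] :
    Nice G ↔ (∀ x : G, ¬ IsOfFinOrder x → LocTame x ∨ GoodD x) ∧ TGoodD G := by
  classical
  refine and_congr (forall_congr' fun x => forall_congr' fun _ => mild_iff) ?_
  constructor
  · intro h S hS δ hδ
    obtain ⟨B, hB⟩ := h hS.toFinset (δ ^ 2) (by positivity)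
    refine ⟨B, B.finite_toSet, fun y hy hyB => ?_⟩
    rcases hB y hy with h1 | ⟨b, hb, hby⟩
    · have := slowAt_iff'.1 h1
      rwa [Set.Finite.coe_toFinset] at this
    · exact absurd hby (hyB b hb)
  · intro h S δ hδ
    obtain ⟨B, hB, hB2⟩ := h S S.finite_toSet _ (Real.sqrt_pos.2 hδ)
    refine ⟨hB.toFinset, fun y hy => ?_⟩
    by_cases h1 : ∀ b ∈ B, ¬ IsConj b y
    · exact Or.inl ((slowAt_iff hδ.le).2 (hB2 y hy h1))
    · push Not at h1
      obtain ⟨b, hb, hby⟩ := h1
      exact Or.inr ⟨b, hB.mem_toFinset.2 hb, hby⟩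

theorem isRelHyp_iff {G : Type*} [Group G] {ι : Type*} {H : ι → Subgroup G} :
    IsRelHyp H ↔ U.IsRelHyp H := Iff.rfl

theorem relHyperbolic_of {G : Type*} [Group G] {ι : Type*} {H : ι → Subgroup G}
    (h : IsRelHyp H) : RelHyperbolic H :=
  Vale.Agent.P184.isRelHyp_iff.1 (U.isRelHyp_iff.1 (isRelHyp_iff.1 h))

theorem vanishesAt_of_mild {G : Type*} [Group G] {x : G} (h : Mild x) : VanishesAt x :=
  (mild_iff.1 h).elim vanishesAt_of_locTame vanishesAt_of_goodD

theorem l1Bass_of_nice {G : Type*} [Group G] (h : Nice G) : L1Bass G :=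
  l1Bass_of_tgoodD (fun _ hx => vanishesAt_of_mild (h.1 _ hx)) (nice_iff.1 h).2

theorem mild_of_amenCentr {G : Type*} [Group G] {x : G} (hx : ¬ IsOfFinOrder x)
    (h : AmenCentr x) : Mild x :=
  mild_iff.2 (Or.inr (goodD_of_good (good_of_amenCentr hx (amenCentr_of h))))

theorem nice_of_amenable {G : Type*} [Group G] (h : CoAmenable (⊤ : Subgroup G) ⊥) : Nice G := by
  have h1 := Vale.Agent.P184.nice_of_amenable (isAmenable_of_coAmenable_top h)
  exact nice_iff.2 ⟨fun x hx => (h1.locTame_or_good x hx).imp id goodD_of_good,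
    tgoodD_of_tgood (tgood_of_nice h1.2)⟩

theorem nice_of_almostAmen {G : Type*} [Group G] (h : AlmostAmen G) : Nice G := by
  obtain h | ⟨h1, B, hB⟩ := h
  · exact nice_of_amenable h
  refine ⟨fun x hx => (h1 x hx).elim id (mild_of_amenCentr hx), (nice_iff.2 ⟨?_, ?_⟩).2⟩
  · exact fun x hx => mild_iff.1 ((h1 x hx).elim id (mild_of_amenCentr hx))
  · refine tgoodD_of_tgood (tgood_of_nice ?_)
    refine (B.finite_toSet.image ConjClasses.mk).subset ?_
    rintro C ⟨x, rfl, hx, hA⟩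
    rcases hB x hx with h | ⟨b, hb, hbx⟩
    · exact absurd (amenCentr_of h) hA
    · exact ⟨b, hb, ConjClasses.mk_eq_mk_iff_isConj.2 hbx⟩

theorem relHyp_mild {G : Type*} [Group G] {ι : Type*} {H : ι → Subgroup G}
    (hG : IsRelHyp H) (hH : ∀ k, MildInf (H k)) : MildInf G := fun x hx =>
  mild_iff.2 ((relHyperbolic_of hG).locTame_or_goodD
    (fun l y hy => mild_iff.1 (hH l y hy)) x hx)

theorem relHyp_nice {G : Type*} [Group G] {ι : Type*} {H : ι → Subgroup G}
    (hG : IsRelHyp H) (hH : ∀ k, Nice (H k)) : Nice G :=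
  ⟨relHyp_mild hG fun k => (hH k).1, (nice_iff.2 ⟨fun x hx => mild_iff.1
    (relHyp_mild hG (fun k => (hH k).1) x hx), (relHyperbolic_of hG).tgoodD
      fun k => (nice_iff.1 (hH k)).2⟩).2⟩

theorem mild_hom {G : Type*} [Group G] {K : Type*} [Group K] (f : G →* K) {x : G}
    (h : Mild (f x)) : Mild x :=
  mild_iff.2 ((mild_iff.1 h).imp (locTame_of_map f) (goodD_of_hom f))

theorem mild_image {G : Type*} [Group G] {K : Type*} [Group K] {x : G} {y : K}
    (hxy : Image x y) (h : Mild y) : Mild x := by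
  obtain ⟨f, rfl⟩ := hxy
  exact mild_hom f h

theorem nice_prod {G : Type*} [Group G] {K : Type*} [Group K] (hG : Nice G) (hK : Nice K) :
    Nice (G × K) := by
  have h1 : MildInf (G × K) := by
    intro x hx
    by_cases h : IsOfFinOrder x.1
    · by_cases h' : IsOfFinOrder x.2
      · exact absurd (IsOfFinOrder.prod_mk h h') hx
      · exact mild_hom (MonoidHom.snd G K) (hK.1 _ h')
    · exact mild_hom (MonoidHom.fst G K) (hG.1 _ h)
  exact ⟨h1, (nice_iff.2 ⟨fun x hx => mild_iff.1 (h1 x hx),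
    tgoodD_prod (nice_iff.1 hG).2 (nice_iff.1 hK).2⟩).2⟩

theorem mild_of_charged {G : Type*} [Group G] {x : G} (h : Charged x) : Mild x :=
  mild_iff.2 (Or.inr (goodD_of_charged h))

theorem nice_of_cat {G : Type*} [Group G] {X : Type*} [MetricSpace X] [MulAction G X]
    (h : Cat0Action G X) : Nice G := by
  obtain ⟨hne, hiso, hX, hprop, K, hK, hcov⟩ := h
  have h1 := (goodD_of_cat hiso hX hprop K hK hcov).1
  refine nice_iff.2 ⟨fun x hx => Or.inr (goodD_of_charged (h1 x hx)),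
    tgoodD_of_cat hiso hX hprop K hK hcov⟩

theorem mild_of_polyNilpotent {G : Type*} [Group G] {x : G} (h : PolyNilpotent x) : Mild x :=
  mild_iff.2 (Or.inl (locTame_of_tame (Vale.Agent.P184.tameAt_iff.1 (tameAt_of_polyNilpotent
    (U.polyNilpotent_iff.1 (polyNilpotent_of h))))))

theorem mild_of_linDetected {G : Type*} [Group G] {x : G} {K : Type*} [Field K]
    (h : LinDetected x K) : Mild x :=
  mild_iff.2 (Or.inl (locTame_of_locCharged (locCharged_of_linDetected h)))

end Vale.Agent.P184.V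
end

section

end

section

/-!
# Nilpotence of the Euler class implies nilpotence of the periodicity operator
-/

noncomputable section

namespace Vale.Agent.P184

open Equiv (Perm)
open DData (cob)

section

variable {G : Type*} [Group G] {x : G} {L : G → ℝ}

/-- invariant cochains of subexponential growth -/
structure Adm (x : G) (L : G → ℝ) {n : ℕ} (F : (Fin n → G) → ℝ) : Prop where
  inv : CInv x F
  sub : SubExp x L F

theorem Adm.add {n : ℕ} {F F' : (Fin n → G) → ℝ} (hF : Adm x L F) (hF' : Adm x L F') :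
    Adm x L fun p => F p + F' p := ⟨hF.inv.add hF'.inv, hF.sub.add hF'.sub⟩

theorem Adm.mul {n : ℕ} {F F' : (Fin n → G) → ℝ} (hF : Adm x L F) (hF' : Adm x L F') :
    Adm x L fun p => F p * F' p := ⟨hF.inv.mul hF'.inv, hF.sub.mul hF'.sub⟩

theorem Adm.const (hL : IsLength L) {n : ℕ} (c : ℝ) : Adm x L fun _ : Fin n → G => c :=
  ⟨CInv.const c, SubExp.const hL c⟩

theorem Adm.smul (hL : IsLength L) {n : ℕ} (c : ℝ) {F : (Fin n → G) → ℝ} (hF : Adm x L F) :
    Adm x L fun p => c * F p := (Adm.const hL c).mul hF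

theorem Adm.comp (hL : IsLength L) {n m : ℕ} {F : (Fin n → G) → ℝ} (hF : Adm x L F)
    (f : Fin n → Fin m) : Adm x L fun p : Fin m → G => F fun i => p (f i) :=
  ⟨hF.inv.comp f, hF.sub.comp hL f⟩

theorem Adm.sum (hL : IsLength L) {n : ℕ} {ι : Type*} (S : Finset ι) {F : ι → (Fin n → G) → ℝ}
    (hF : ∀ i, Adm x L (F i)) : Adm x L fun p => ∑ i ∈ S, F i p := by
  classical
  induction S using Finset.induction_on with
  | empty => simpa using (Adm.const (x := x) hL (n := n) 0)
  | insert a S ha ih =>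
    simp only [Finset.sum_insert ha]
    exact (hF a).add ih

theorem Adm.cob (hL : IsLength L) {n : ℕ} {F : (Fin n → G) → ℝ} (hF : Adm x L F) :
    Adm x L (cob F) :=
  Adm.sum hL Finset.univ (F := fun (j : Fin (n + 1)) (p : Fin (n + 1) → G) =>
    (-1) ^ (j : ℕ) * F fun i => p (j.succAbove i)) fun j => (hF.comp hL j.succAbove).smul hL _

theorem Adm.wcob (hL : IsLength L) {n : ℕ} {F : (Fin n → G) → ℝ} (hF : Adm x L F) :
    Adm x L (wcob F) :=
  Adm.sum hL Finset.univ (F := fun (j : Fin (n + 1)) (p : Fin (n + 1) → G) =>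
    (-1) ^ (j : ℕ) * ((j : ℕ) : ℝ) * F fun i => p (j.succAbove i))
    fun j => (hF.comp hL j.succAbove).smul hL _

theorem Adm.alt (hL : IsLength L) {n : ℕ} {F : (Fin n → G) → ℝ} (hF : Adm x L F) :
    Adm x L (AltF F) :=
  Adm.sum hL Finset.univ (F := fun (σ : Perm (Fin n)) (p : Fin n → G) =>
    ((Equiv.Perm.sign σ : ℤ) : ℝ) * F fun i => p (σ i)) fun σ => (hF.comp hL σ).smul hL _

theorem XInv.alt {n : ℕ} {F : (Fin n → G) → ℝ} (hF : XInv x F) : XInv x (AltF F) := by
  intro k p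
  unfold AltF
  refine Finset.sum_congr rfl fun σ _ => ?_
  rw [hF (fun i => k (σ i)) fun i => p (σ i)]

theorem AltF_shf {m : ℕ} {F : (Fin (m + 1) → G) → ℝ} (hF : XInv x F) (p : Fin (m + 1) → G) :
    AltF F (shf x p) = (-1) ^ m * AltF F p := by
  have h1 : AltF F (shf x p) = AltF F fun i => p (finRotate (m + 1) i) := by
    rw [shf_eq]
    exact hF.alt (fun i => if i = Fin.last m then 1 else 0) fun i => p (finRotate (m + 1) i)
  rw [h1, AltF_perm, sign_finRotate, Nat.add_sub_cancel]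
  push_cast
  rfl

theorem cob_alt_eq_zero {n : ℕ} {F : (Fin n → G) → ℝ} (hF : ∀ p, cob F p = 0)
    (p : Fin (n + 1) → G) : cob (AltF F) p = 0 := by
  have h1 := AltF_cob F p
  have h2 : AltF (cob F) p = 0 := by
    unfold AltF
    simp only [hF, mul_zero, Finset.sum_const_zero]
  rw [h2] at h1
  have h3 : ((n : ℝ) + 1) ≠ 0 := by (clear * -; positivity)
  rcases mul_eq_zero.1 h1.symm with h | h
  · exact absurd h h3
  · exact h

/-- `F` is the coboundary of an admissible cyclic cochain. -/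
def Ex (x : G) (L : G → ℝ) (n : ℕ) (F : (Fin (2 * n + 1) → G) → ℝ) : Prop :=
  ∃ ψ : (Fin (2 * n) → G) → ℝ, Adm x L ψ ∧ CycAnti x ψ ∧ ∀ p, cob ψ p = F p

theorem Ex.add {n : ℕ} {F F' : (Fin (2 * n + 1) → G) → ℝ} (h : Ex x L n F) (h' : Ex x L n F') :
    Ex x L n fun p => F p + F' p := by
  obtain ⟨ψ, h1, h2, h3⟩ := h
  obtain ⟨ψ', h1', h2', h3'⟩ := h'
  refine ⟨fun p => ψ p + ψ' p, h1.add h1', fun p hp => ?_, fun p => ?_⟩
  · show ψ _ + ψ' _ = - (ψ _ + ψ' _)
    rw [h2 p hp, h2' p hp]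
    ring
  · rw [cob_add, h3, h3']

theorem Ex.smul (hL : IsLength L) {n : ℕ} (c : ℝ) {F : (Fin (2 * n + 1) → G) → ℝ}
    (h : Ex x L n F) : Ex x L n fun p => c * F p := by
  obtain ⟨ψ, h1, h2, h3⟩ := h
  refine ⟨fun p => c * ψ p, h1.smul hL c, fun p hp => ?_, fun p => ?_⟩
  · show c * ψ _ = - (c * ψ _)
    rw [h2 p hp]
    ring
  · rw [cob_smul, h3]

theorem Ex.congr {n : ℕ} {F F' : (Fin (2 * n + 1) → G) → ℝ} (h : Ex x L n F)
    (hF : ∀ p, F p = F' p) : Ex x L n F' := by
  obtain ⟨ψ, h1, h2, h3⟩ := h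
  exact ⟨ψ, h1, h2, fun p => (h3 p).trans (hF p)⟩

/-- The periodicity operator. -/
theorem Ex.step (hL : IsLength L) {n : ℕ} {F : (Fin (2 * (n + 1) + 1) → G) → ℝ}
    (h : Ex x L (n + 1) F) : Ex x L (n + 2) (cob (wcob F)) := by
  obtain ⟨ψ, h1, h2, h3⟩ := h
  have hm : Odd (2 * n + 1) := ⟨n, rfl⟩
  have h4 := shf_per x hm ψ (cycAnti_iff.1 h2)
  have hψ : cob ψ = F := funext h3
  set c : ℝ := (((2 * n + 1 : ℕ) : ℝ) + 1) with hc
  have hc0 : c ≠ 0 := by (clear * -; positivity)
  refine ⟨fun p => c⁻¹ * ((((2 * n + 1 : ℕ) : ℝ) + 3) * cob (wcob ψ) p + c * wcob (cob ψ) p),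
    ?_, ?_, ?_⟩
  · exact ((((h1.wcob hL).cob hL).smul hL _).add (((h1.cob hL).wcob hL).smul hL _)).smul hL _
  · refine (cycAnti_iff (m := 2 * n + 3)).2 fun p => ?_
    have h5 := h4 p
    show c⁻¹ * _ = - (c⁻¹ * _)
    rw [← mul_neg, ← h5]
  · intro p
    rw [cob_smul, cob_add, cob_smul, cob_smul, cob_cob, hψ, mul_zero, zero_add, ← mul_assoc,
      inv_mul_cancel₀ hc0, one_mul]

/-- Comparison of the periodicity operator with the product with the curvature. -/
theorem ex_conn (hL : IsLength L) (α : G → G → ℝ)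
    (hα1 : ∀ h p q, Commute h x → α (h * p) (h * q) = α p q)
    (hα2 : ∀ p q, α p (x * q) = α p q + 1)
    (hα3 : SubExp x L fun p : Fin 2 → G => α (p 0) (p 1))
    {n : ℕ} {K : (Fin (2 * n + 1) → G) → ℝ} (hA : Adm x L K) (hX : XInv x K)
    (hK : ∀ p, cob K p = 0) :
    Ex x L (n + 1) fun p => ((2 * n : ℕ) + 1 : ℝ) / ((2 * n : ℕ) + 3) * AltF (cupw α K) p +
      cob (wcob (AltF K)) p := by
  have hαA : Adm x L fun p : Fin 2 → G => α (p 0) (p 1) :=
    ⟨fun h hh p => hα1 h (p 0) (p 1) hh, hα3⟩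
  set γ : (Fin (2 * n + 2) → G) → ℝ := fun p => α (p 0) (p 1) * K fun i => p i.succ with hγ
  have hγA : Adm x L γ := by
    have h1 := hαA.comp hL (m := 2 * n + 2) ![0, 1]
    simp at h1
    exact h1.mul (hA.comp hL Fin.succ)
  refine ⟨fun p => (((2 * n : ℕ) : ℝ) + 1) * AltF γ p + wcob (AltF K) p,
    ((hγA.alt hL).smul hL _).add ((hA.alt hL).wcob hL), ?_, fun p => ?_⟩
  · refine (cycAnti_iff (m := 2 * n + 1)).2 fun p => ?_
    have h1 := AltF_conn_shf x α hα1 hα2 (even_two_mul n) hX hK p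
    have h2 := wcob_shf x (AltF K) p
    have h3 : (fun q => AltF K (shf x q)) = AltF K := by
      funext q
      rw [AltF_shf hX, (even_two_mul n).neg_one_pow, one_mul]
    have h4 : AltF K (shf x fun i => p i.succ) = AltF K fun i => p i.succ := by
      rw [AltF_shf hX, (even_two_mul n).neg_one_pow, one_mul]
    rw [h3, h4, cob_alt_eq_zero hK, (even_two_mul n).add_one.neg_one_pow] at h2
    show (((2 * n : ℕ) : ℝ) + 1) * AltF γ (shf x p) + wcob (AltF K) (shf x p) =
      - ((((2 * n : ℕ) : ℝ) + 1) * AltF γ p + wcob (AltF K) p)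
    rw [h1, h2]
    ring
  · rw [cob_add, cob_smul]
    congr 1
    have h1 := AltF_cob γ p
    have h2 : cob γ = cupw α K := funext fun q => cupw_eq_cob α hK q
    rw [h2] at h1
    have h3 : (((2 * n : ℕ) : ℝ) + 3) ≠ 0 := by (clear * -; (clear * -; positivity))
    have h4 : (((2 * n + 2 : ℕ) : ℝ) + 1) = ((2 * n : ℕ) : ℝ) + 3 := by push_cast; ring
    rw [h4] at h1
    rw [h1]
    (clear * - h3; field_simp)

theorem cupPow_props (hL : IsLength L) (α : G → G → ℝ)
    (hα1 : ∀ h p q, Commute h x → α (h * p) (h * q) = α p q)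
    (hα2 : ∀ p q, α p (x * q) = α p q + 1)
    (hα3 : SubExp x L fun p : Fin 2 → G => α (p 0) (p 1)) (n : ℕ) :
    Adm x L (cupPow α n) ∧ XInv x (cupPow α n) ∧ ∀ p, cob (cupPow α n) p = 0 := by
  have hαA : Adm x L fun p : Fin 2 → G => α (p 0) (p 1) :=
    ⟨fun h hh p => hα1 h (p 0) (p 1) hh, hα3⟩
  have hαz : ∀ (k l : ℤ) (p q : G), α (x ^ k * p) (x ^ l * q) = α p q + (l - k) := by
    intro k l p q
    have h1 : ∀ (n : ℕ) (p q : G), α p (x ^ n * q) = α p q + n := by
      intro n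
      induction n with
      | zero => intro p q; simp
      | succ n ih =>
        intro p q
        rw [pow_succ', mul_assoc, hα2, ih]
        push_cast; ring
    have h2 : ∀ (n : ℤ) (p q : G), α p (x ^ n * q) = α p q + n := by
      intro n p q
      obtain ⟨m, rfl | rfl⟩ := n.eq_nat_or_neg
      · rw [zpow_natCast, h1]; simp
      · have h3 := h1 m p (x ^ (-(m : ℤ)) * q)
        rw [← zpow_natCast, ← mul_assoc, ← zpow_add, add_neg_cancel, zpow_zero, one_mul] at h3
        push_cast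
        linarith only [h3]
    have h4 : x ^ l * q = x ^ k * (x ^ (l - k) * q) := by
      rw [← mul_assoc, ← zpow_add]
      congr 2
      ring
    rw [h4, hα1 _ _ _ ((Commute.refl x).zpow_left k), h2]
    push_cast
    ring
  induction n with
  | zero =>
    have h0 : cupPow α 0 = fun _ : Fin (2 * 0 + 1) → G => (1 : ℝ) := by
      funext p
      simp [cupPow]
    rw [h0]
    refine ⟨Adm.const hL 1, fun _ _ => rfl, fun p => ?_⟩
    unfold DData.cob
    rw [Fin.sum_univ_succ, Fin.sum_univ_succ]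
    simp
  | succ n ih =>
    obtain ⟨h1, h2, h3⟩ := ih
    have h0 : cupPow α (n + 1) = cupw α (cupPow α n) := by
      funext p
      exact cupPow_succ α n p
    rw [h0]
    refine ⟨?_, ?_, ?_⟩
    · have g1 := hαA.comp hL (m := 2 * n + 3) ![0, 1]
      have g2 := hαA.comp hL (m := 2 * n + 3) ![1, 2]
      have g3 := (hαA.comp hL (m := 2 * n + 3) ![0, 2]).smul hL (-1)
      simp at g1 g2 g3
      have g4 : Adm x L fun p : Fin (2 * n + 3) → G => dee α (p 0) (p 1) (p 2) := by
        have g5 := (g1.add g2).add g3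
        have g6 : (fun p : Fin (2 * n + 3) → G => dee α (p 0) (p 1) (p 2)) =
            fun p => α (p 0) (p 1) + α (p 1) (p 2) + -α (p 0) (p 2) := by
          funext p
          unfold dee
          ring
        rw [g6]
        exact g5
      exact g4.mul (h1.comp hL fun i => i.succ.succ)
    · intro k p
      unfold cupw
      have g1 := h2 (fun i => k i.succ.succ) (fun i => p i.succ.succ)
      rw [g1]
      congr 1
      unfold dee
      rw [hαz, hαz, hαz]
      ring
    · exact cupw_closed α h3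

theorem AltF_cupPow_zero (α : G → G → ℝ) :
    AltF (cupPow α 0) = fun _ : Fin (2 * 0 + 1) → G => (1 : ℝ) := by
  funext p
  unfold AltF
  have : (Finset.univ : Finset (Perm (Fin (2 * 0 + 1)))) = {1} := by
    apply Finset.eq_singleton_iff_unique_mem.2
    refine ⟨Finset.mem_univ _, fun σ _ => ?_⟩
    ext i
    have h1 := (σ i).isLt
    have h2 := ((1 : Perm (Fin (2 * 0 + 1))) i).isLt
    omega
  rw [this, Finset.sum_singleton]
  simp only [Nat.mul_zero, Nat.reduceAdd, Perm.sign_one, Units.val_one, Int.cast_one, cupPow, Finset.univ_eq_empty, Perm.coe_one, id_eq, Finset.prod_empty, mul_one]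

/-- The iterated periodicity operator applied to the constant function. -/
theorem ex_cupPow (hL : IsLength L) (α : G → G → ℝ)
    (hα1 : ∀ h p q, Commute h x → α (h * p) (h * q) = α p q)
    (hα2 : ∀ p q, α p (x * q) = α p q + 1)
    (hα3 : SubExp x L fun p : Fin 2 → G => α (p 0) (p 1)) (n : ℕ) :
    ∃ a b : ℝ, a ≠ 0 ∧ Ex x L (n + 1) fun p => a + b * AltF (cupPow α (n + 1)) p := by
  induction n with
  | zero =>
    obtain ⟨h1, h2, h3⟩ := cupPow_props hL α hα1 hα2 hα3 0
    have h4 := ex_conn hL α hα1 hα2 hα3 h1 h2 h3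
    have h0 : cupPow α (0 + 1) = cupw α (cupPow α 0) := by
      funext p
      exact cupPow_succ α 0 p
    refine ⟨-1, 1 / 3, by norm_num, h4.congr fun p => ?_⟩
    rw [h0, AltF_cupPow_zero]
    have h5 : wcob (fun _ : Fin (2 * 0 + 1) → G => (1 : ℝ)) = fun _ => -1 := by
      funext q
      rw [wcob_const]
      norm_num
    rw [h5, cob_const (by norm_num)]
    push_cast
    ring
  | succ n ih =>
    obtain ⟨a, b, ha, h⟩ := ih
    obtain ⟨h1, h2, h3⟩ := cupPow_props hL α hα1 hα2 hα3 (n + 1)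
    have h4 := (ex_conn hL α hα1 hα2 hα3 h1 h2 h3).smul hL (-b)
    have h5 := h.step hL
    have h0 : cupPow α (n + 1 + 1) = cupw α (cupPow α (n + 1)) := by
      funext p
      exact cupPow_succ α (n + 1) p
    refine ⟨-((n : ℝ) + 2) * a, -b * (((2 * (n + 1) : ℕ) + 1 : ℝ) / ((2 * (n + 1) : ℕ) + 3)),
      mul_ne_zero (by have : (0 : ℝ) < (n : ℝ) + 2 := by (clear * -; positivity)
                      linarith only []) ha, (h5.add h4).congr fun p => ?_⟩
    rw [h0]
    have h6 : wcob (fun p : Fin (2 * (n + 1) + 1) → G => a + b * AltF (cupPow α (n + 1)) p) =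
        fun q => (-((n : ℝ) + 2) * a) + b * wcob (AltF (cupPow α (n + 1))) q := by
      funext q
      rw [wcob_add, wcob_smul, wcob_const]
      push_cast
      ring
    have h7 : cob (fun q : Fin (2 * (n + 1) + 1 + 1) → G => (-((n : ℝ) + 2) * a) +
        b * wcob (AltF (cupPow α (n + 1))) q) p = (-((n : ℝ) + 2) * a) +
        b * cob (wcob (AltF (cupPow α (n + 1)))) p := by
      have h8 := cob_add (fun _ : Fin (2 * (n + 1) + 1 + 1) → G => (-((n : ℝ) + 2) * a))
        (fun q => b * wcob (AltF (cupPow α (n + 1))) q) p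
      rw [h8, cob_const ⟨n + 2, by ring⟩, cob_smul b]
    rw [h6, h7]
    ring

/-- Nilpotence of the Euler class implies nilpotence of the periodicity operator. -/
theorem cycTame_of_tame (h : Tame x) : CycTame x := by
  obtain ⟨L, hL, α, n, β, hn, hα1, hα2, hα3, hβ1, hβ2, hβ3, hβ⟩ := h
  obtain ⟨k, rfl⟩ : ∃ k, n = k + 1 := ⟨n - 1, by omega⟩
  obtain ⟨a, b, ha, hE⟩ := ex_cupPow hL α hα1 hα2 hα3 k
  have hβA : Adm x L β := ⟨hβ1, hβ3⟩
  have h1 : ∀ p, AltF (cupPow α (k + 1)) p = AltF (cob β) p := by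
    intro p
    have h2 := hβ p
    unfold AltF
    rw [← sub_eq_zero, ← Finset.sum_sub_distrib, ← h2]
    exact Finset.sum_congr rfl fun σ _ => by ring
  have h2 : Ex x L (k + 1) (AltF (cupPow α (k + 1))) := by
    refine ⟨fun p => (((2 * (k + 1) : ℕ) : ℝ) + 1) * AltF β p, (hβA.alt hL).smul hL _, ?_,
      fun p => ?_⟩
    · refine (cycAnti_iff (m := 2 * k + 1)).2 fun p => ?_
      have h3 : AltF β (shf x p) = (-1) ^ (2 * k + 1) * AltF β p := AltF_shf hβ2 p
      rw [pow_succ, (even_two_mul k).neg_one_pow] at h3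
      show (((2 * (k + 1) : ℕ) : ℝ) + 1) * AltF β (shf x p) =
        - ((((2 * (k + 1) : ℕ) : ℝ) + 1) * AltF β p)
      rw [h3]
      ring
    · rw [cob_smul, h1, AltF_cob]
  obtain ⟨ψ, h3, h4, h5⟩ := ((hE.add (h2.smul hL (-b))).smul hL a⁻¹)
  refine ⟨L, hL, k + 1, ψ, k.succ_pos, h3.inv, h3.sub, h4, fun p => ?_⟩
  rw [h5]
  field_simp
  ring

end

end Vale.Agent.P184
end
end

section

end

section

/-!
# Polynomial conjugacy bound and nilpotent periodicity, cyclic version
-/

noncomputable section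
open scoped Topology

namespace Vale.Agent.P184

variable {G : Type*} [Group G] {L : G → ℝ} {x : G}

theorem cycTame_of_poly (hL : IsLength L)
    (hconj : ∃ (C : ℝ) (d : ℕ), ∀ p, ∃ h, Commute h x ∧
      L (h⁻¹ * p) ≤ C * (1 + L (p⁻¹ * x * p)) ^ d)
    {n : ℕ} (hn : 0 < n) (ψ : (Fin (2 * n) → G) → ℝ)
    (h1 : ∀ h, Commute h x → ∀ p : Fin (2 * n) → G, (∀ i, Commute (p i) x) →
      ψ (fun i => h * p i) = ψ p)
    (h2 : ∀ p : ℕ → G, (∀ i, Commute (p i) x) → p (2 * n) = x * p 0 →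
      ψ (fun i => p (i + 1)) = - ψ fun i => p i)
    (h3 : ∀ p : Fin (2 * n + 1) → G, (∀ i, Commute (p i) x) → DData.cob ψ p = 1)
    (h4 : ∃ (C : ℝ) (d : ℕ), ∀ p : Fin (2 * n) → G, (∀ i, Commute (p i) x) →
      |ψ p| ≤ C * (1 + ∑ i, ∑ j, L ((p i)⁻¹ * p j)) ^ d) : CycTame x := by
  obtain ⟨r, A, D, hA, hrz, hrA⟩ := exists_poly_retraction hL hconj
  obtain ⟨C, d, hC⟩ := h4
  set xz : Subgroup.centralizer {x} := ⟨x, self_mem_cen x⟩ with hxz
  have hrx : ∀ p, (r (x * p) : G) = x * r p := fun p => congrArg Subtype.val (hrz xz p)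
  have hrh : ∀ h (_ : Commute h x) p, (r (h * p) : G) = h * r p := fun h hh p =>
    congrArg Subtype.val (hrz ⟨h, Subgroup.mem_centralizer_singleton_iff.2 hh⟩ p)
  have hrc : ∀ p, Commute (r p : G) x := fun p => Subgroup.mem_centralizer_singleton_iff.1 (r p).2
  -- the main estimate
  have key : ∀ {m : ℕ} (p : Fin m → G) (i j : Fin m),
      L ((r (p i) : G)⁻¹ * (r (p j) : G)) ≤ (2 * A + 1) * (1 + siz x L p) ^ (D + 1) := by
    intro m p i j
    have hs0 := siz_nonneg (x := x) hL p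
    have hs : ∀ k : Fin m, L ((p k)⁻¹ * x * p k) ≤ siz x L p := by
      intro k
      have e1 : L ((p k)⁻¹ * x * p k) ≤ ∑ k, L ((p k)⁻¹ * x * p k) :=
        Finset.single_le_sum (f := fun k => L ((p k)⁻¹ * x * p k)) (fun _ _ => hL.nonneg _)
          (Finset.mem_univ k)
      have e2 : 0 ≤ ∑ i, ∑ j, L ((p i)⁻¹ * p j) :=
        Finset.sum_nonneg fun _ _ => Finset.sum_nonneg fun _ _ => hL.nonneg _
      unfold siz
      linarith only [e2, e1]
    have hr : ∀ k : Fin m, L ((r (p k) : G)⁻¹ * p k) ≤ A * (1 + siz x L p) ^ D := by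
      intro k
      refine (hrA (p k)).trans (mul_le_mul_of_nonneg_left ?_ hA)
      exact pow_le_pow_left₀ (by have := hL.nonneg ((p k)⁻¹ * x * p k); linarith only [this])
        (by linarith only [hs k]) D
    have e1 : (r (p i) : G)⁻¹ * (r (p j) : G) =
        ((r (p i) : G)⁻¹ * p i) * ((p i)⁻¹ * p j) * ((r (p j) : G)⁻¹ * p j)⁻¹ := by group
    have e2 := hL.2.2 (((r (p i) : G)⁻¹ * p i) * ((p i)⁻¹ * p j)) ((r (p j) : G)⁻¹ * p j)⁻¹
    have e3 := hL.2.2 ((r (p i) : G)⁻¹ * p i) ((p i)⁻¹ * p j)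
    rw [hL.2.1 ((r (p j) : G)⁻¹ * p j)] at e2
    rw [e1]
    have e4 := hr i
    have e5 := hr j
    have e6 := single_le_siz (x := x) hL p i j
    have e7 : (1 + siz x L p) ^ D ≤ (1 + siz x L p) ^ (D + 1) :=
      pow_le_pow_right₀ (by linarith only [hs0]) (Nat.le_succ D)
    have e8 : siz x L p ≤ (1 + siz x L p) ^ (D + 1) := by
      have : 1 + siz x L p ≤ (1 + siz x L p) ^ (D + 1) := le_self_pow₀ (by linarith only [hs0]) (by omega)
      linarith only [this]
    have e9 := mul_le_mul_of_nonneg_left e7 hA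
    linarith
  refine ⟨L, hL, n, fun p => ψ fun i => r (p i), hn, ?_, ?_, ?_,
    fun p => h3 (fun i => r (p i)) fun i => hrc _⟩
  · intro h hh p
    unfold tra
    simp only [hrh h hh]
    exact h1 h hh _ fun i => hrc _
  · set N : ℝ := ((2 * n : ℕ) : ℝ) with hN
    have hN0 : 0 ≤ N := Nat.cast_nonneg _
    refine SubExp.of_poly hL (|C| * (N * N * (2 * A + 1) + 1) ^ d) ((D + 1) * d) fun p => ?_
    have hs0 := siz_nonneg (x := x) hL p
    have h5 : ∑ i, ∑ j, L ((r (p i) : G)⁻¹ * (r (p j) : G)) ≤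
        N * N * ((2 * A + 1) * (1 + siz x L p) ^ (D + 1)) := by
      calc ∑ i, ∑ j, L ((r (p i) : G)⁻¹ * (r (p j) : G))
          ≤ ∑ i : Fin (2 * n), ∑ j : Fin (2 * n), (2 * A + 1) * (1 + siz x L p) ^ (D + 1) :=
            Finset.sum_le_sum fun i _ => Finset.sum_le_sum fun j _ => key p i j
        _ = _ := by
            simp only [Finset.sum_const, Finset.card_univ, Fintype.card_fin, nsmul_eq_mul, hN]
            ring
    have h8 : (1 : ℝ) ≤ (1 + siz x L p) ^ (D + 1) := one_le_pow₀ (by linarith only [hs0])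
    have h6 : 1 + ∑ i, ∑ j, L ((r (p i) : G)⁻¹ * (r (p j) : G)) ≤
        (N * N * (2 * A + 1) + 1) * (1 + siz x L p) ^ (D + 1) := by
      linarith only [h8, h5]
    have h7 : 0 ≤ 1 + ∑ i, ∑ j, L ((r (p i) : G)⁻¹ * (r (p j) : G)) := by
      have : 0 ≤ ∑ i, ∑ j, L ((r (p i) : G)⁻¹ * (r (p j) : G)) :=
        Finset.sum_nonneg fun _ _ => Finset.sum_nonneg fun _ _ => hL.nonneg _
      linarith only [this]
    calc |ψ fun i => r (p i)| ≤
          C * (1 + ∑ i, ∑ j, L ((r (p i) : G)⁻¹ * (r (p j) : G))) ^ d :=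
          hC _ fun i => hrc _
      _ ≤ |C| * (1 + ∑ i, ∑ j, L ((r (p i) : G)⁻¹ * (r (p j) : G))) ^ d :=
          mul_le_mul_of_nonneg_right (le_abs_self C) (by (clear * - h7; positivity))
      _ ≤ |C| * ((N * N * (2 * A + 1) + 1) * (1 + siz x L p) ^ (D + 1)) ^ d :=
          mul_le_mul_of_nonneg_left (pow_le_pow_left₀ h7 h6 d) (abs_nonneg C)
      _ = _ := by rw [mul_pow, ← pow_mul]; ring
  · intro p hp
    exact h2 (fun i => r (p i)) (fun i => hrc _) (by rw [hp, hrx])

end Vale.Agent.P184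
end
end

section

/-!
# Local version and relatively hyperbolic groups
-/

noncomputable section

namespace Vale.Agent.P184

universe u v w

theorem locCyc_of_cyc {G : Type*} [Group G] {x : G} (hx : CycTame x) : LocCyc x :=
  fun S h => CycTame.map (x := (⟨x, h⟩ : Subgroup.closure (S : Set G)))
    (Subgroup.closure (S : Set G)).subtype hx

theorem locCyc_of_map {G : Type*} {H : Type*} [Group G] [Group H] (f : G →* H) {x : G}
    (hx : LocCyc (f x)) : LocCyc x := by
  classical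
  intro S h
  have h1 : ∀ g ∈ Subgroup.closure (S : Set G),
      f g ∈ Subgroup.closure ((S.image f : Finset H) : Set H) := by
    intro g hg
    rw [Finset.coe_image, ← MonoidHom.map_closure]
    exact Subgroup.mem_map_of_mem f hg
  let π : Subgroup.closure (S : Set G) →* Subgroup.closure ((S.image f : Finset H) : Set H) :=
    { toFun := fun g => ⟨f (g : G), h1 g g.2⟩
      map_one' := Subtype.ext (map_one f)
      map_mul' := fun a b => Subtype.ext (map_mul f (a : G) (b : G)) }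
  exact CycTame.map π (x := ⟨x, h⟩) (hx (S.image f) (h1 x h))

theorem locCyc_conj {G : Type*} [Group G] {x : G} (w : G) (h : LocCyc (w⁻¹ * x * w)) :
    LocCyc x := by
  have h1 : LocCyc (MulAut.conj w⁻¹ x) := by
    rw [MulAut.conj_apply, inv_inv]
    exact h
  exact locCyc_of_map (MulAut.conj w⁻¹).toMonoidHom h1

theorem vanishesAt_of_locCyc {G : Type u} [Group G] {x : G} (hx : LocCyc x) :
    VanishesAt x := by
  classical
  refine vanishesAt_of_local.{u, u} x fun S => ?_
  obtain ⟨s, hs⟩ := liftsTo_closure S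
  refine ⟨Subgroup.closure (S : Set G), inferInstance, _, s, hs, fun y hy => ?_⟩
  refine vanishesAt_of_cyc ?_
  obtain ⟨c, hc⟩ := isConj_iff.mp hy
  have hc' : c * x * c⁻¹ = (y : G) := hc
  let S' : Finset G := insert c S
  have hSS : Subgroup.closure (S : Set G) ≤ Subgroup.closure (S' : Set G) :=
    Subgroup.closure_mono (by simp only [Finset.coe_insert, Set.subset_insert, S'])
  have hcS : c ∈ Subgroup.closure (S' : Set G) := Subgroup.subset_closure (by simp [S'])
  have hyS : (y : G) ∈ Subgroup.closure (S' : Set G) := hSS y.2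
  have hxS : x ∈ Subgroup.closure (S' : Set G) := by
    have h1 : x = c⁻¹ * y * c := by rw [← hc']; group
    rw [h1]
    exact Subgroup.mul_mem _ (Subgroup.mul_mem _ (Subgroup.inv_mem _ hcS) hyS) hcS
  have h2 := hx S' hxS
  refine CycTame.map (Subgroup.inclusion hSS) (x := y) ?_
  refine cycTame_conj ?_ h2
  refine isConj_iff.mpr ⟨⟨c, hcS⟩, ?_⟩
  exact Subtype.ext hc'

namespace RH

variable {G : Type*} [Group G] {ι : Type*} {X : Set G} {H : ι → Subgroup G} {δ : ℕ}
  (S : RH X H δ)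
include S

theorem locCyc_of_peripheral {l : ι} {y : H l} (hy : ¬ IsOfFinOrder y) (h : LocCyc y) :
    LocCyc (y : G) := by
  classical
  intro Q hyQ
  have hy' : ¬ IsOfFinOrder (y : G) := by
    rwa [Submonoid.isOfFinOrder_coe (H := (H l).toSubmonoid)]
  have hfin : (⋃ s ∈ Q, Set.range fun p => (S.prj l p)⁻¹ * S.prj l (p * s)).Finite :=
    Q.finite_toSet.biUnion fun s _ => S.finite_steps l s
  set T : Finset (H l) := hfin.toFinset with hT
  have hK : ∀ g ∈ Subgroup.closure (Q : Set G), ∀ p,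
      (S.prj l p)⁻¹ * S.prj l (p * g) ∈ Subgroup.closure (T : Set (H l)) := by
    intro g hg
    induction hg using Subgroup.closure_induction with
    | mem s hs =>
      intro p
      apply Subgroup.subset_closure
      rw [Finset.mem_coe, hT, Set.Finite.mem_toFinset]
      exact Set.mem_biUnion (x := s) hs ⟨p, rfl⟩
    | one =>
      intro p
      rw [mul_one, inv_mul_cancel]
      exact Subgroup.one_mem _
    | mul a b _ _ ha hb =>
      intro p
      have h1 := Subgroup.mul_mem _ (ha p) (hb (p * a))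
      rwa [show (S.prj l p)⁻¹ * S.prj l (p * a) * ((S.prj l (p * a))⁻¹ * S.prj l (p * a * b)) =
        (S.prj l p)⁻¹ * S.prj l (p * (a * b)) by rw [mul_assoc p a b]; group] at h1
    | inv a _ ha =>
      intro p
      have h1 := Subgroup.inv_mem _ (ha (p * a⁻¹))
      rwa [inv_mul_cancel_right, mul_inv_rev, inv_inv] at h1
  have hR : ∀ g ∈ Subgroup.closure (Q : Set G),
      S.prj l g ∈ Subgroup.closure (T : Set (H l)) := by
    intro g hg
    have := hK g hg 1
    rwa [S.prj_one, inv_one, one_mul, one_mul] at this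
  have hself : ∀ z : H l, S.prj l (z : G) = z := fun z => Subtype.ext (S.proj_self z.2)
  have hyT : y ∈ Subgroup.closure (T : Set (H l)) := by
    have := hR _ hyQ
    rwa [hself] at this
  let r : Subgroup.closure (Q : Set G) → Subgroup.closure (T : Set (H l)) :=
    fun g => ⟨S.prj l (g : G), hR g g.2⟩
  have hmul : ∀ (z : H l) (p : G), S.prj l ((z : G) * p) = z * S.prj l p :=
    fun z p => Subtype.ext (proj_smul z.2 p)
  refine CycTame.pull r (y := ⟨y, hyT⟩) (fun p => Subtype.ext (hmul y p)) (fun g hg => ?_)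
    (fun g => ?_) (h T hyT)
  · have hg' : Commute (g : G) (y : G) := congrArg Subtype.val hg
    have hgl : (g : G) ∈ H l := S.mem_of_commute y.2 hy' hg'
    have hgT : (⟨(g : G), hgl⟩ : H l) ∈ Subgroup.closure (T : Set (H l)) := by
      have := hR _ g.2
      rwa [hself ⟨(g : G), hgl⟩] at this
    refine ⟨⟨⟨(g : G), hgl⟩, hgT⟩, ?_, fun p => Subtype.ext (hmul ⟨(g : G), hgl⟩ p)⟩
    exact Subtype.ext (Subtype.ext hg')
  · refine Set.Finite.of_finite_image ((S.finite_steps l (g : G)).subset ?_)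
      (Subtype.val_injective.injOn (s := Set.range fun p => (r p)⁻¹ * r (p * g)))
    rintro _ ⟨_, ⟨p, rfl⟩, rfl⟩
    exact ⟨(p : G), rfl⟩

end RH

/-- The elements of infinite order of a relatively hyperbolic group are locally tame or good if
those of the peripheral subgroups are. -/
theorem RelHyperbolic.locCyc_or_goodD {G : Type*} [Group G] {ι : Type*} {H : ι → Subgroup G}
    (hG : RelHyperbolic H) (hH : ∀ l (y : H l), ¬ IsOfFinOrder y → LocCyc y ∨ GoodD y) (x : G)
    (hx : ¬ IsOfFinOrder x) : LocCyc x ∨ GoodD x := by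
  obtain ⟨hfin, X, δ, S⟩ := hG.exists_rh
  rcases S.charged_or_parabolic hx with h | ⟨l, w, h⟩
  · exact Or.inr (goodD_of_charged h)
  · have hx' : ¬ IsOfFinOrder (w⁻¹ * x * w) := by
      intro h'
      apply hx
      refine IsConj.isOfFinOrder (isConj_iff.2 ⟨w, ?_⟩) h'
      group
    have h3 : ¬ IsOfFinOrder (⟨w⁻¹ * x * w, h⟩ : H l) := by
      rwa [← Submonoid.isOfFinOrder_coe (H := (H l).toSubmonoid)]
    rcases hH l _ h3 with h4 | h4
    · exact Or.inl (locCyc_conj w (S.locCyc_of_peripheral h3 h4))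
    · exact Or.inr (goodD_conj (isConj_iff.2 ⟨w, by group⟩) (S.goodD_of_peripheral h3 h4))

end Vale.Agent.P184
end
end

section

end

section

/-!
# Change of connection
-/

noncomputable section
open scoped Topology

namespace Vale.Agent.P184

open Equiv (Perm)

section Leibniz

variable {G : Type*} [Group G]

theorem cob_aux {m : ℕ} (F : (Fin (m + 1) → G) → ℝ) (q : Fin (m + 2) → G) :
    ∑ i : Fin (m + 1), (-1) ^ (i : ℕ) * F (fun k => q (i.succ.succAbove k)) =
      F (fun k => q k.succ) - DData.cob F q := by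
  have h1 : DData.cob F q = ∑ j : Fin (m + 2), (-1) ^ (j : ℕ) * F fun i => q (j.succAbove i) := rfl
  rw [Fin.sum_univ_succ] at h1
  simp only [Fin.val_zero, pow_zero, one_mul, Fin.zero_succAbove, Fin.val_succ, pow_succ,
    mul_neg, mul_one, neg_mul, Finset.sum_neg_distrib] at h1
  linarith only [h1]

theorem cob_cupw {m : ℕ} (α : G → G → ℝ) (F : (Fin (m + 1) → G) → ℝ)
    (p : Fin (m + 4) → G) : DData.cob (cupw α F) p =
      dee α (p 0) (p 1) (p 2) * DData.cob F fun k => p k.succ.succ := by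
  have h1 := cob_aux F (fun k => p k.succ.succ)
  have h0 : DData.cob (cupw α F) p = ∑ j : Fin (m + 4), (-1) ^ (j : ℕ) *
    cupw α F fun i => p (j.succAbove i) := rfl
  rw [h0, Fin.sum_univ_succ, Fin.sum_univ_succ, Fin.sum_univ_succ]
  have h2 : ∀ i : Fin (m + 1), (-1 : ℝ) ^ ((i.succ.succ.succ : Fin (m + 4)) : ℕ) *
      cupw α F (fun k => p (i.succ.succ.succ.succAbove k)) =
      - dee α (p 0) (p 1) (p 2) * ((-1) ^ (i : ℕ) *
        F (fun k => p (i.succ.succAbove k).succ.succ)) := by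
    intro i
    have h3 : i.succ.succ.succ.succAbove 1 = (1 : Fin (m + 4)) := by
      have : (1 : Fin (m + 3)) = Fin.succ 0 := rfl
      rw [this, Fin.succ_succAbove_succ, Fin.succ_succAbove_zero]
      rfl
    have h3' : i.succ.succ.succ.succAbove 2 = (2 : Fin (m + 4)) := by
      have : (2 : Fin (m + 3)) = Fin.succ (Fin.succ 0) := rfl
      rw [this, Fin.succ_succAbove_succ, Fin.succ_succAbove_succ, Fin.succ_succAbove_zero]
      rfl
    simp only [cupw, Fin.succ_succAbove_zero, h3, h3', Fin.succ_succAbove_succ, Fin.val_succ,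
      pow_succ]
    ring
  rw [Finset.sum_congr rfl fun i _ => h2 i, ← Finset.mul_sum, h1]
  have a1 : (Fin.succ 0 : Fin (m + 4)).succAbove 0 = 0 := Fin.succ_succAbove_zero _
  have a2 : (Fin.succ 0 : Fin (m + 4)).succAbove 1 = 2 := rfl
  have a3 : (Fin.succ 0 : Fin (m + 4)).succAbove 2 = 3 := rfl
  have a4 : ∀ k : Fin (m + 1), (Fin.succ 0 : Fin (m + 4)).succAbove k.succ.succ =
      k.succ.succ.succ := by
    intro k
    rw [Fin.succ_succAbove_succ, Fin.zero_succAbove]
  have b1 : (Fin.succ (Fin.succ 0) : Fin (m + 4)).succAbove 0 = 0 := Fin.succ_succAbove_zero _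
  have b2 : (Fin.succ (Fin.succ 0) : Fin (m + 4)).succAbove 1 = 1 := rfl
  have b3 : (Fin.succ (Fin.succ 0) : Fin (m + 4)).succAbove 2 = 3 := rfl
  have b4 : ∀ k : Fin (m + 1), (Fin.succ (Fin.succ 0) : Fin (m + 4)).succAbove k.succ.succ =
      k.succ.succ.succ := by
    intro k
    rw [Fin.succ_succAbove_succ, Fin.succ_succAbove_succ, Fin.zero_succAbove]
  have c1 : (Fin.succ 0 : Fin (m + 4)) = 1 := rfl
  have c2 : (Fin.succ 1 : Fin (m + 4)) = 2 := rfl
  have c3 : (Fin.succ 2 : Fin (m + 4)) = 3 := rfl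
  simp only [Fin.val_zero, pow_zero, cupw, dee, Fin.zero_succAbove, one_mul, Fin.val_succ, zero_add, pow_one, a1, a2, a3, a4, b1, b2, b3, b4]
  simp only [c1, c2, c3]
  ring

theorem cob_cupPow (α : G → G → ℝ) (n : ℕ) : ∀ p, DData.cob (cupPow α n) p = 0 := by
  induction n with
  | zero =>
    intro p
    unfold DData.cob cupPow
    rw [Fin.sum_univ_two]
    simp only [Nat.mul_zero, Nat.reduceAdd, Fin.isValue, Fin.coe_ofNat_eq_mod, Nat.zero_mod, pow_zero, Finset.univ_eq_empty, Fin.zero_succAbove, Fin.succ_mk, Finset.prod_empty, mul_one, Nat.mod_succ, pow_one, add_neg_cancel]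
  | succ n ih =>
    intro p
    have h1 : cupPow α (n + 1) = cupw α (cupPow α n) := funext fun p => cupPow_succ α n p
    rw [h1]
    exact cupw_closed α ih p

theorem cob_add_bd260 {n : ℕ} (F F' : (Fin n → G) → ℝ) (p : Fin (n + 1) → G) :
    DData.cob (fun q => F q + F' q) p = DData.cob F p + DData.cob F' p := by
  unfold DData.cob
  rw [← Finset.sum_add_distrib]
  exact Finset.sum_congr rfl fun _ _ => mul_add _ _ _

theorem cob_smul_bd261 {n : ℕ} (c : ℝ) (F : (Fin n → G) → ℝ) (p : Fin (n + 1) → G) :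
    DData.cob (fun q => c * F q) p = c * DData.cob F p := by
  unfold DData.cob
  rw [Finset.mul_sum]
  exact Finset.sum_congr rfl fun _ _ => by ring

theorem cob_sum {n : ℕ} {κ : Type*} (s : Finset κ) (F : κ → (Fin n → G) → ℝ)
    (p : Fin (n + 1) → G) :
    DData.cob (fun q => ∑ k ∈ s, F k q) p = ∑ k ∈ s, DData.cob (F k) p := by
  unfold DData.cob
  rw [Finset.sum_comm]
  exact Finset.sum_congr rfl fun _ _ => Finset.mul_sum _ _ _

end Leibniz

section Rel

variable {G : Type*} [Group G]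

/-- A connection for `z`, invariant under `Z`, of subexponential growth. -/
structure IsConn (L : G → ℝ) (x z : G) (Z : Subgroup G) (α : G → G → ℝ) : Prop where
  inv : ∀ h ∈ Z, ∀ p q, α (h * p) (h * q) = α p q
  shift : ∀ p q, α p (z * q) = α p q + 1
  growth : SubExp x L (fun p : Fin 2 → G => α (p 0) (p 1))

/-- A cochain of the quotient by `z`, invariant under `Z`, of subexponential growth. -/
structure IsBasic (L : G → ℝ) (x z : G) (Z : Subgroup G) {n : ℕ} (β : (Fin n → G) → ℝ) :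
    Prop where
  inv : ∀ h ∈ Z, ∀ p, β (tra h p) = β p
  xinv : XInv z β
  growth : SubExp x L β

variable {L : G → ℝ} {x z : G} {Z : Subgroup G} {α α' : G → G → ℝ}

theorem IsConn.zpow (h : IsConn L x z Z α) (hz : z ∈ Z) (k l : ℤ) (p q : G) :
    α (z ^ k * p) (z ^ l * q) = α p q + (l - k) := by
  have h1 : ∀ (n : ℕ) (p q : G), α p (z ^ n * q) = α p q + n := by
    intro n
    induction n with
    | zero => intro p q; simp
    | succ n ih =>
      intro p q
      rw [pow_succ', mul_assoc, h.shift, ih]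
      push_cast; ring
  have h2 : ∀ (n : ℤ) (p q : G), α p (z ^ n * q) = α p q + n := by
    intro n p q
    obtain ⟨m, rfl | rfl⟩ := n.eq_nat_or_neg
    · rw [zpow_natCast, h1]; simp only [Int.cast_natCast]
    · have h3 := h1 m p (z ^ (-(m : ℤ)) * q)
      rw [← zpow_natCast, ← mul_assoc, ← zpow_add, add_neg_cancel, zpow_zero, one_mul] at h3
      push_cast
      linarith only [h3]
  have h3 : ∀ (n : ℤ) (p q : G), α (z ^ n * p) (z ^ n * q) = α p q := fun n p q =>
    h.inv _ (Z.zpow_mem hz n) p q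
  have h4 : z ^ l * q = z ^ k * (z ^ (l - k) * q) := by
    rw [← mul_assoc, ← zpow_add]
    congr 2
    ring
  rw [h4, h3, h2]
  push_cast
  ring

theorem IsBasic.add {n : ℕ} {β β' : (Fin n → G) → ℝ} (h : IsBasic L x z Z β)
    (h' : IsBasic L x z Z β') : IsBasic L x z Z fun p => β p + β' p :=
  ⟨fun g hg p => by rw [h.inv g hg, h'.inv g hg], fun k p => by
    show β _ + β' _ = _
    rw [h.xinv k p, h'.xinv k p], h.growth.add h'.growth⟩

theorem IsBasic.mul {n : ℕ} {β β' : (Fin n → G) → ℝ} (h : IsBasic L x z Z β)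
    (h' : IsBasic L x z Z β') : IsBasic L x z Z fun p => β p * β' p :=
  ⟨fun g hg p => by rw [h.inv g hg, h'.inv g hg], fun k p => by
    show β _ * β' _ = _
    rw [h.xinv k p, h'.xinv k p], h.growth.mul h'.growth⟩

theorem IsBasic.smul (hL : IsLength L) {n : ℕ} {β : (Fin n → G) → ℝ} (h : IsBasic L x z Z β)
    (c : ℝ) : IsBasic L x z Z fun p => c * β p :=
  ⟨fun g hg p => by rw [h.inv g hg], fun k p => by
    show c * β _ = _
    rw [h.xinv k p], h.growth.smul hL c⟩

theorem IsBasic.comp (hL : IsLength L) {n m : ℕ} {β : (Fin n → G) → ℝ} (h : IsBasic L x z Z β)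
    (f : Fin n → Fin m) : IsBasic L x z Z fun p : Fin m → G => β fun i => p (f i) :=
  ⟨fun g hg p => h.inv g hg fun i => p (f i), h.xinv.comp f, h.growth.comp hL f⟩

theorem IsBasic.one (hL : IsLength L) {n : ℕ} : IsBasic L x z Z fun _ : Fin n → G => 1 :=
  ⟨fun _ _ _ => rfl, fun _ _ => rfl, SubExp.const hL 1⟩

theorem IsConn.diff (hL : IsLength L) (hz : z ∈ Z) (h : IsConn L x z Z α)
    (h' : IsConn L x z Z α') :
    IsBasic L x z Z fun p : Fin 2 → G => α' (p 0) (p 1) - α (p 0) (p 1) := by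
  refine ⟨fun g hg p => ?_, fun k p => ?_, ?_⟩
  · simp only [tra]
    rw [h.inv g hg, h'.inv g hg]
  · simp only
    rw [h.zpow hz, h'.zpow hz]
    ring
  · have h1 := h'.growth.add (h.growth.smul hL (-1))
    have h2 : (fun p : Fin 2 → G => α' (p 0) (p 1) - α (p 0) (p 1)) =
        fun p : Fin 2 → G => α' (p 0) (p 1) + -1 * α (p 0) (p 1) := by
      funext p; ring
    rw [h2]
    exact h1

theorem IsConn.dee (hL : IsLength L) (hz : z ∈ Z) (h : IsConn L x z Z α) {m : ℕ}
    (a b c : Fin m) : IsBasic L x z Z fun p : Fin m → G => dee α (p a) (p b) (p c) := by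
  refine ⟨fun g hg p => ?_, fun k p => ?_, ?_⟩
  · simp only [tra, Vale.Agent.P184.dee]
    rw [h.inv g hg, h.inv g hg, h.inv g hg]
  · simp only [Vale.Agent.P184.dee]
    rw [h.zpow hz, h.zpow hz, h.zpow hz]
    ring
  · have h1 := h.growth.comp hL (m := m) ![a, b]
    have h2 := h.growth.comp hL (m := m) ![b, c]
    have h3 := (h.growth.comp hL (m := m) ![a, c]).smul hL (-1)
    simp only [Matrix.cons_val_zero, Matrix.cons_val_one] at h1 h2 h3
    have h4 := (h1.add h2).add h3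
    have h5 : (fun p : Fin m → G => Vale.Agent.P184.dee α (p a) (p b) (p c)) =
        fun p : Fin m → G => α (p a) (p b) + α (p b) (p c) + -1 * α (p a) (p c) := by
      funext p; unfold Vale.Agent.P184.dee; ring
    rw [h5]
    exact h4

theorem IsConn.cupw (hL : IsLength L) (hz : z ∈ Z) (h : IsConn L x z Z α) {m : ℕ}
    {F : (Fin (m + 1) → G) → ℝ} (hF : IsBasic L x z Z F) :
    IsBasic L x z Z (Vale.Agent.P184.cupw α F) :=
  (h.dee hL hz 0 1 2).mul (hF.comp hL fun i => i.succ.succ)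

theorem IsConn.cupPow (hL : IsLength L) (hz : z ∈ Z) (h : IsConn L x z Z α) (n : ℕ) :
    IsBasic L x z Z (Vale.Agent.P184.cupPow α n) := by
  induction n with
  | zero =>
    have h1 : Vale.Agent.P184.cupPow α 0 = fun _ => 1 := by
      funext p
      simp [Vale.Agent.P184.cupPow]
    rw [h1]
    exact IsBasic.one hL
  | succ n ih =>
    have h1 : Vale.Agent.P184.cupPow α (n + 1) =
        Vale.Agent.P184.cupw α (Vale.Agent.P184.cupPow α n) := funext fun p => cupPow_succ α n p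
    rw [h1]
    exact h.cupw hL hz ih

/-- The cup powers of the curvatures of two connections are cohomologous. -/
theorem exists_transgression (hL : IsLength L) (hz : z ∈ Z) (h : IsConn L x z Z α)
    (h' : IsConn L x z Z α') (n : ℕ) : ∃ b : (Fin (2 * (n + 1)) → G) → ℝ,
      IsBasic L x z Z b ∧ ∀ p : Fin (2 * (n + 1) + 1) → G,
        DData.cob b p = cupPow α' (n + 1) p - cupPow α (n + 1) p := by
  have key : ∀ n : ℕ, IsBasic L x z Z (fun p : Fin (2 * n + 2) → G =>
      (α' (p 0) (p 1) - α (p 0) (p 1)) * cupPow α n fun i => p i.succ) ∧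
      ∀ p : Fin (2 * n + 3) → G, DData.cob (fun p : Fin (2 * n + 2) → G =>
        (α' (p 0) (p 1) - α (p 0) (p 1)) * cupPow α n fun i => p i.succ) p =
        (dee α' (p 0) (p 1) (p 2) - dee α (p 0) (p 1) (p 2)) *
          cupPow α n fun i => p i.succ.succ := by
    intro n
    constructor
    · exact ((h.diff hL hz h').comp hL (m := 2 * n + 2) ![0, 1]).mul
        ((h.cupPow hL hz n).comp hL fun i => i.succ)
    · intro p
      have h1 := cupw_eq_cob (fun p q => α' p q - α p q) (cob_cupPow α n) p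
      rw [h1]
      unfold cupw dee
      ring
  induction n with
  | zero =>
    refine ⟨_, (key 0).1, fun p => ?_⟩
    rw [(key 0).2]
    have h1 := cupPow_succ α 0 p
    have h2 := cupPow_succ α' 0 p
    rw [h1, h2]
    have h3 : ∀ (a : G → G → ℝ) (q : Fin (2 * 0 + 1) → G), cupPow a 0 q = 1 := fun a q => by
      simp [cupPow]
    rw [h3, h3]
    ring
  | succ n ih =>
    obtain ⟨b, hb1, hb2⟩ := ih
    refine ⟨fun p => (α' (p 0) (p 1) - α (p 0) (p 1)) * cupPow α (n + 1) (fun i => p i.succ) +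
      cupw α' b p, (key (n + 1)).1.add (h'.cupw hL hz hb1), fun p => ?_⟩
    have h3 := cob_add_bd260 (fun p : Fin (2 * (n + 1) + 2) → G =>
      (α' (p 0) (p 1) - α (p 0) (p 1)) * cupPow α (n + 1) fun i => p i.succ) (cupw α' b) p
    have h4 : DData.cob (cupw α' b) p = dee α' (p 0) (p 1) (p 2) *
        (cupPow α' (n + 1) (fun i => p i.succ.succ) - cupPow α (n + 1) fun i => p i.succ.succ) :=
      (cob_cupw α' b p).trans (congrArg (fun t => dee α' (p 0) (p 1) (p 2) * t) (hb2 _))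
    refine (h3.trans (congrArg₂ (· + ·) ((key (n + 1)).2 p) h4)).trans
      (Eq.trans ?_ (congrArg₂ (· - ·) (cupPow_succ α' (n + 1) p) (cupPow_succ α (n + 1) p)).symm)
    ring

/-- After alternation, the `n`-th cup power of the curvature of `α` is the coboundary of `β`. -/
def AltEq (α : G → G → ℝ) (n : ℕ) (β : (Fin (2 * n) → G) → ℝ) : Prop :=
  ∀ p : Fin (2 * n + 1) → G, ∑ σ : Perm (Fin (2 * n + 1)), ((Equiv.Perm.sign σ : ℤ) : ℝ) *
    (cupPow α n (fun i => p (σ i)) - DData.cob β (fun i => p (σ i))) = 0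

theorem exists_change (hL : IsLength L) (hz : z ∈ Z) (h : IsConn L x z Z α)
    (h' : IsConn L x z Z α') {n : ℕ} (hn : 0 < n) {β : (Fin (2 * n) → G) → ℝ}
    (hβ : IsBasic L x z Z β) (hαβ : AltEq α n β) :
    ∃ β' : (Fin (2 * n) → G) → ℝ, IsBasic L x z Z β' ∧ AltEq α' n β' := by
  obtain ⟨k, rfl⟩ : ∃ k, n = k + 1 := ⟨n - 1, by omega⟩
  obtain ⟨b, hb1, hb2⟩ := exists_transgression hL hz h h' k
  refine ⟨fun p => β p + b p, hβ.add hb1, fun p => ?_⟩
  rw [← hαβ p]
  refine Finset.sum_congr rfl fun σ _ => ?_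
  rw [cob_add_bd260, hb2]
  ring

end Rel

end Vale.Agent.P184
end
end

section

end

section

/-!
# Tameness: overgroups of finite index and roots
-/

noncomputable section
open scoped Topology

namespace Vale.Agent.P184

open Equiv (Perm)

variable {G : Type*} [Group G]

section Average

variable (Z : Subgroup G) (N : Subgroup Z) [Fintype (Z ⧸ N)]

/-- The average over the cosets. -/
def avg {n : ℕ} (F : (Fin n → G) → ℝ) (p : Fin n → G) : ℝ :=
  (Fintype.card (Z ⧸ N) : ℝ)⁻¹ * ∑ s : Z ⧸ N, F (tra ((s.out : Z) : G)⁻¹ p)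

variable {Z N}

theorem card_ne : (Fintype.card (Z ⧸ N) : ℝ) ≠ 0 := by
  have : 0 < Fintype.card (Z ⧸ N) := Fintype.card_pos_iff.2 ⟨((1 : Z) : Z ⧸ N)⟩
  (clear * -; positivity)

theorem avg_inv {n : ℕ} {F : (Fin n → G) → ℝ} (hF : ∀ k : N, ∀ p, F (tra ((k : Z) : G) p) = F p)
    {h : G} (hh : h ∈ Z) (p : Fin n → G) : avg Z N F (tra h p) = avg Z N F p := by
  have hconst : ∀ p (t : Z) (k : N), F (tra ((t * k : Z) : G)⁻¹ p) = F (tra (t : G)⁻¹ p) := by
    intro p t k
    have h1 := hF k⁻¹ (tra (t : G)⁻¹ p)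
    rw [← h1]
    congr 1
    funext i
    simp only [tra, Subgroup.coe_mul, mul_inv_rev, mul_assoc, Subgroup.coe_inv]
  have hout : ∀ p (t : Z), F (tra (((t : Z ⧸ N).out : Z) : G)⁻¹ p) = F (tra (t : G)⁻¹ p) := by
    intro p t
    obtain ⟨k, hk⟩ := QuotientGroup.mk_out_eq_mul N t
    rw [hk, hconst]
  unfold avg
  congr 1
  rw [← Equiv.sum_comp (MulAction.toPerm (⟨h, hh⟩⁻¹ : Z)) fun s : Z ⧸ N =>
    F (tra ((s.out : Z) : G)⁻¹ p)]
  refine Finset.sum_congr rfl fun s _ => ?_
  rw [MulAction.toPerm_apply]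
  have e1 : ((⟨h, hh⟩⁻¹ : Z) • s : Z ⧸ N) = (((⟨h, hh⟩⁻¹ : Z) * s.out : Z) : Z ⧸ N) := by
    conv_lhs => rw [← Quotient.out_eq' s]
    rfl
  rw [e1, hout]
  congr 1
  funext i
  simp only [tra, Subgroup.coe_mul, Subgroup.coe_inv, mul_inv_rev, inv_inv, mul_assoc]

theorem avg_of_inv {n : ℕ} {F : (Fin n → G) → ℝ} (hF : ∀ h ∈ Z, ∀ p, F (tra h p) = F p)
    (p : Fin n → G) : avg Z N F p = F p := by
  unfold avg
  rw [Finset.sum_congr rfl fun (s : Z ⧸ N) _ => hF _ (Z.inv_mem s.out.2) p, Finset.sum_const,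
    nsmul_eq_mul, Finset.card_univ, inv_mul_cancel_left₀ card_ne]

theorem cob_avg {n : ℕ} (F : (Fin n → G) → ℝ) (p : Fin (n + 1) → G) :
    DData.cob (avg Z N F) p = avg Z N (DData.cob F) p := by
  unfold avg
  rw [cob_smul, cob_sum]
  rfl

theorem avg_xinv {n : ℕ} {F : (Fin n → G) → ℝ} {z : G} (hz : ∀ h ∈ Z, Commute h z)
    (hF : XInv z F) : XInv z (avg Z N F) := by
  intro k p
  unfold avg
  congr 1
  refine Finset.sum_congr rfl fun s _ => ?_
  rw [← hF k (tra ((s.out : Z) : G)⁻¹ p)]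
  congr 1
  funext i
  simp only [tra]
  rw [← mul_assoc, ← mul_assoc, ((hz _ s.out.2).inv_left.zpow_right (k i)).eq]

theorem avg_growth {L : G → ℝ} {x : G} (hL : IsLength L) (hx : ∀ h ∈ Z, Commute h x) {n : ℕ}
    {F : (Fin n → G) → ℝ} (hF : SubExp x L F) : SubExp x L (avg Z N F) :=
  SubExp.smul hL _ (SubExp.sum hL Finset.univ fun s _ => hF.tra (hx _ s.out.2).inv_left)

end Average

/-- Averaging. -/
theorem eulerNil_average {L : G → ℝ} (hL : IsLength L) {x : G} (K : Subgroup G) [K.FiniteIndex]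
    (hxK : x ∈ K) {α : G → G → ℝ} {n : ℕ} {β : (Fin (2 * n) → G) → ℝ} (hn : 0 < n)
    (hα : IsConn L x x (K ⊓ Subgroup.centralizer {x}) α)
    (hβ : IsBasic L x x (K ⊓ Subgroup.centralizer {x}) β) (h : AltEq α n β) : EulerNil L x := by
  classical
  set Z : Subgroup G := Subgroup.centralizer {x} with hZ
  have hZc : ∀ t ∈ Z, Commute (t : G) x := fun t ht =>
    (Subgroup.mem_centralizer_singleton_iff.1 ht)
  set N : Subgroup Z := K.subgroupOf Z with hN
  have : Finite (Z ⧸ N) := inferInstance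
  have := Fintype.ofFinite (Z ⧸ N)
  have hNm : ∀ k : N, ((k : Z) : G) ∈ K ⊓ Z := fun k =>
    ⟨Subgroup.mem_subgroupOf.1 k.2, (k : Z).2⟩
  set α' : G → G → ℝ := fun p q => avg Z N (fun r : Fin 2 → G => α (r 0) (r 1)) ![p, q] with hα'
  have hα2 : (fun p : Fin 2 → G => α' (p 0) (p 1)) = avg Z N (fun r : Fin 2 → G => α (r 0) (r 1)) := by
    funext p
    simp only [hα']
    congr 1
    funext i
    fin_cases i <;> rfl
  have hαinv : ∀ h ∈ Z, ∀ p q, α' (h * p) (h * q) = α' p q := by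
    intro h hh p q
    have h1 := avg_inv (Z := Z) (N := N) (F := fun r : Fin 2 → G => α (r 0) (r 1))
      (fun k p => hα.inv _ (hNm k) _ _) hh ![p, q]
    refine Eq.trans ?_ h1
    simp only [hα']
    congr 1
    funext i
    fin_cases i <;> rfl
  have hαconn : IsConn L x x Z α' := by
    refine ⟨hαinv, fun p q => ?_, ?_⟩
    · simp only [hα', avg, tra, Matrix.cons_val_zero, Matrix.cons_val_one]
      have e1 : ∀ s : Z ⧸ N, α (((s.out : Z) : G)⁻¹ * p) (((s.out : Z) : G)⁻¹ * (x * q)) =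
          α (((s.out : Z) : G)⁻¹ * p) (((s.out : Z) : G)⁻¹ * q) + 1 := by
        intro s
        have h5 := (hZc _ s.out.2).inv_left
        rw [← mul_assoc, h5.eq, mul_assoc, hα.shift]
      rw [Finset.sum_congr rfl fun s _ => e1 s, Finset.sum_add_distrib, Finset.sum_const,
        nsmul_eq_mul, mul_one, mul_add, Finset.card_univ, inv_mul_cancel₀ card_ne]
    · rw [hα2]
      exact avg_growth hL hZc hα.growth
  have hxZ : x ∈ K ⊓ Z := ⟨hxK, Subgroup.mem_centralizer_singleton_iff.2 rfl⟩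
  obtain ⟨β', hβ', hαβ'⟩ := exists_change hL hxZ hα
    (⟨fun h hh => hαconn.inv h hh.2, hαconn.shift, hαconn.growth⟩ : IsConn L x x (K ⊓ Z) α')
    hn hβ h
  refine ⟨α', n, avg Z N β', hn, fun h p q hh => hαinv h
    (Subgroup.mem_centralizer_singleton_iff.2 hh) p q, hαconn.shift, hαconn.growth,
    fun h hh p => avg_inv (fun k p => hβ'.inv _ (hNm k) p)
      (Subgroup.mem_centralizer_singleton_iff.2 hh) p, avg_xinv hZc hβ'.xinv,
    avg_growth hL hZc hβ'.growth, fun p => ?_⟩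
  have hcup := (hαconn.cupPow hL hxZ.2 n).inv
  have h1 : ∀ σ : Perm (Fin (2 * n + 1)), cupPow α' n (fun i => p (σ i)) -
      DData.cob (avg Z N β') (fun i => p (σ i)) = (Fintype.card (Z ⧸ N) : ℝ)⁻¹ *
        ∑ s : Z ⧸ N, (cupPow α' n (fun i => tra ((s.out : Z) : G)⁻¹ p (σ i)) -
          DData.cob β' (fun i => tra ((s.out : Z) : G)⁻¹ p (σ i))) := by
    intro σ
    rw [cob_avg, ← avg_of_inv (Z := Z) (N := N) hcup, Finset.sum_sub_distrib, mul_sub]
    rfl
  have h2 : ∀ σ : Perm (Fin (2 * n + 1)), ((Equiv.Perm.sign σ : ℤ) : ℝ) *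
      (cupPow α' n (fun i => p (σ i)) - DData.cob (avg Z N β') (fun i => p (σ i))) =
      (Fintype.card (Z ⧸ N) : ℝ)⁻¹ * ∑ s : Z ⧸ N, ((Equiv.Perm.sign σ : ℤ) : ℝ) *
        (cupPow α' n (fun i => tra ((s.out : Z) : G)⁻¹ p (σ i)) -
          DData.cob β' (fun i => tra ((s.out : Z) : G)⁻¹ p (σ i))) := by
    intro σ
    rw [h1, Finset.mul_sum, Finset.mul_sum, Finset.mul_sum]
    exact Finset.sum_congr rfl fun s _ => by ring
  rw [Finset.sum_congr rfl fun σ _ => h2 σ, ← Finset.mul_sum, Finset.sum_comm]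
  rw [Finset.sum_eq_zero fun s _ => hαβ' (tra ((s.out : Z) : G)⁻¹ p), mul_zero]

/-- Overgroups of finite index. -/
theorem tame_of_finiteIndex (K : Subgroup G) [K.FiniteIndex] {y : K} (h : Tame y) :
    Tame (y : G) := by
  obtain ⟨l, hl, α, n, β, hn, hα1, hα2, hα3, hβ1, hβ2, hβ3, hβ⟩ := h
  obtain ⟨L, hL, hlip⟩ := exists_pull_length hl (cret K) (finite_cret K)
  have hlip' : ∀ p q, l ((cret K p)⁻¹ * cret K q) ≤ 1 * L (p⁻¹ * q) + 0 := fun p q => by
    rw [one_mul, add_zero]
    exact hlip p q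
  have hr : ∀ p, cret K ((y : G) * p) = y * cret K p := cret_mul K y
  have hcy : ∀ h : G, ∀ hh : h ∈ K ⊓ Subgroup.centralizer {(y : G)}, Commute (⟨h, hh.1⟩ : K) y :=
    fun h hh => Subtype.ext (Subgroup.mem_centralizer_singleton_iff.1 hh.2)
  refine ⟨L, hL, eulerNil_average hL K y.2 (α := fun p q => α (cret K p) (cret K q))
    (β := fun p => β fun i => cret K (p i)) hn ⟨fun h hh p q => ?_, fun p q => ?_, ?_⟩
    ⟨fun h hh p => ?_, fun k p => ?_, ?_⟩ fun p => hβ fun i => cret K (p i)⟩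
  · have h1 := cret_mul K ⟨h, hh.1⟩ p
    have h2 := cret_mul K ⟨h, hh.1⟩ q
    simp only at h1 h2
    rw [h1, h2]
    exact hα1 _ _ _ (hcy h hh)
  · rw [hr, hα2]
  · exact hα3.pull (cret K) hr one_pos hlip'
  · have h1 := fun p => cret_mul K ⟨h, hh.1⟩ p
    have h2 := hβ1 _ (hcy h hh) fun i => cret K (p i)
    simp only [tra] at h1 h2 ⊢
    simp only [h1]
    exact h2
  · have hrz : ∀ (k : ℤ) p, cret K ((y : G) ^ k * p) = y ^ k * cret K p := by
      intro k p
      have := cret_mul K (y ^ k) p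
      rwa [Subgroup.coe_zpow] at this
    have := hβ2 k fun i => cret K (p i)
    simp only [hrz]
    exact this
  · exact hβ3.pull (cret K) hr one_pos hlip'

end Vale.Agent.P184
end
end

section

/-!
# Tameness: roots
-/

noncomputable section
open scoped Topology

namespace Vale.Agent.P184

open Equiv (Perm)

variable {G : Type*} [Group G]

section Shift

theorem conj_pow_le {L : G → ℝ} (hL : IsLength L) (x g : G) (k : ℕ) :
    L (g⁻¹ * x ^ k * g) ≤ k * L (g⁻¹ * x * g) := by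
  have h5 := length_pow hL (g⁻¹ * x * g) k
  have h6 : (g⁻¹ * x * g) ^ k = g⁻¹ * x ^ k * g := by
    have := conj_pow (a := g⁻¹) (b := x) (i := k)
    rw [inv_inv] at this
    exact this
  rwa [h6] at h5

theorem conj_le_siz {L : G → ℝ} (hL : IsLength L) (x : G) {n : ℕ} (p : Fin n → G) (i : Fin n) :
    L ((p i)⁻¹ * x * p i) ≤ siz x L p := by
  have h3 : L ((p i)⁻¹ * x * p i) ≤ ∑ i, L ((p i)⁻¹ * x * p i) :=
    Finset.single_le_sum (f := fun i => L ((p i)⁻¹ * x * p i)) (fun _ _ => hL.nonneg _)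
      (Finset.mem_univ i)
  have h4 : 0 ≤ ∑ i, ∑ j, L ((p i)⁻¹ * p j) :=
    Finset.sum_nonneg fun _ _ => Finset.sum_nonneg fun _ _ => hL.nonneg _
  unfold siz
  linarith

theorem SubExp.of_siz_le {L : G → ℝ} {x y : G} {n m : ℕ} {F : (Fin n → G) → ℝ}
    (hF : SubExp y L F) (f : (Fin m → G) → Fin n → G) {c : ℝ} (hc : 0 < c)
    (hf : ∀ p, siz y L (f p) ≤ c * siz x L p) : SubExp x L fun p => F (f p) := by
  intro ε hε
  obtain ⟨C, hC0, hC⟩ := hF.pos (div_pos hε hc)
  refine ⟨C, fun p => (hC _).trans (mul_le_mul_of_nonneg_left (Real.exp_le_exp.2 ?_) hC0)⟩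
  refine (mul_le_mul_of_nonneg_left (hf p) (div_pos hε hc).le).trans (le_of_eq ?_)
  (clear * - hc hε; field_simp)

theorem SubExp.of_pow {L : G → ℝ} (hL : IsLength L) {x : G} {m n : ℕ} {F : (Fin n → G) → ℝ}
    (hF : SubExp (x ^ m) L F) : SubExp x L F := by
  refine hF.of_siz_le (fun p => p) (c := m + 1) (by (clear * -; positivity)) fun p => ?_
  have h1 : ∑ i, L ((p i)⁻¹ * x ^ m * p i) ≤ m * ∑ i, L ((p i)⁻¹ * x * p i) := by
    rw [Finset.mul_sum]
    exact Finset.sum_le_sum fun i _ => conj_pow_le hL x (p i) m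
  have h2 : 0 ≤ ∑ i, ∑ j, L ((p i)⁻¹ * p j) :=
    Finset.sum_nonneg fun _ _ => Finset.sum_nonneg fun _ _ => hL.nonneg _
  have h3 : 0 ≤ ∑ i, L ((p i)⁻¹ * x * p i) := Finset.sum_nonneg fun _ _ => hL.nonneg _
  have hm : (0 : ℝ) ≤ m := Nat.cast_nonneg m
  unfold siz
  linarith only [mul_nonneg hm h2, h3, h1]

theorem siz_shift {L : G → ℝ} (hL : IsLength L) (x : G) {n : ℕ} (k : Fin n → ℕ) {M : ℕ}
    (hk : ∀ i, k i ≤ M) (p : Fin n → G) :
    siz x L (fun i => x ^ k i * p i) ≤ (n * n * (2 * M + 1) + 1) * siz x L p := by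
  have hs := siz_nonneg (x := x) hL p
  have e1 : ∀ i, L ((x ^ k i * p i)⁻¹ * x * (x ^ k i * p i)) = L ((p i)⁻¹ * x * p i) := by
    intro i
    congr 1
    have h5 : x * x ^ k i = x ^ k i * x := by rw [← pow_succ, ← pow_succ']
    calc (x ^ k i * p i)⁻¹ * x * (x ^ k i * p i)
        = (p i)⁻¹ * (x ^ k i)⁻¹ * (x * x ^ k i) * p i := by group
      _ = (p i)⁻¹ * x * p i := by rw [h5]; group
  have e2 : ∀ i j, L ((x ^ k i * p i)⁻¹ * (x ^ k j * p j)) ≤ (2 * M + 1) * siz x L p := by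
    intro i j
    have h1 := hL.2.2 ((p i)⁻¹ * x ^ k i * p i)⁻¹ ((p i)⁻¹ * p j * ((p j)⁻¹ * x ^ k j * p j))
    have h2 := hL.2.2 ((p i)⁻¹ * p j) ((p j)⁻¹ * x ^ k j * p j)
    rw [show ((p i)⁻¹ * x ^ k i * p i)⁻¹ * ((p i)⁻¹ * p j * ((p j)⁻¹ * x ^ k j * p j)) =
      (x ^ k i * p i)⁻¹ * (x ^ k j * p j) by group, hL.2.1] at h1
    have h3 := conj_pow_le hL x (p i) (k i)
    have h4 := conj_pow_le hL x (p j) (k j)
    have h5 := conj_le_siz hL x p i
    have h6 := conj_le_siz hL x p j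
    have h7 := single_le_siz (x := x) hL p i j
    have h8 : (k i : ℝ) ≤ M := by exact_mod_cast hk i
    have h9 : (k j : ℝ) ≤ M := by exact_mod_cast hk j
    have h10 : (k i : ℝ) * L ((p i)⁻¹ * x * p i) ≤ M * siz x L p :=
      mul_le_mul h8 h5 (hL.nonneg _) (Nat.cast_nonneg M)
    have h11 : (k j : ℝ) * L ((p j)⁻¹ * x * p j) ≤ M * siz x L p :=
      mul_le_mul h9 h6 (hL.nonneg _) (Nat.cast_nonneg M)
    linarith
  have e3 : ∑ i, ∑ j, L ((x ^ k i * p i)⁻¹ * (x ^ k j * p j)) ≤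
      n * n * (2 * M + 1) * siz x L p := by
    calc ∑ i, ∑ j, L ((x ^ k i * p i)⁻¹ * (x ^ k j * p j)) ≤ ∑ i : Fin n, ∑ j : Fin n,
          (2 * M + 1) * siz x L p := Finset.sum_le_sum fun i _ => Finset.sum_le_sum fun j _ => e2 i j
      _ = _ := by
        simp only [Finset.sum_const, Finset.card_univ, Fintype.card_fin, nsmul_eq_mul]
        ring
  have e4 : ∑ i, L ((p i)⁻¹ * x * p i) ≤ siz x L p := by
    have : 0 ≤ ∑ i, ∑ j, L ((p i)⁻¹ * p j) :=
      Finset.sum_nonneg fun _ _ => Finset.sum_nonneg fun _ _ => hL.nonneg _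
    unfold siz
    linarith only [this]
  have e5 : siz x L (fun i => x ^ k i * p i) =
      (∑ i, ∑ j, L ((x ^ k i * p i)⁻¹ * (x ^ k j * p j))) + ∑ i, L ((p i)⁻¹ * x * p i) := by
    unfold siz
    congr 1
    exact Finset.sum_congr rfl fun i _ => e1 i
  rw [e5]
  linarith only [e4, e3]

variable (x : G) (m : ℕ) [NeZero m]

/-- The average over independent shifts. -/
def savg {n : ℕ} (F : (Fin n → G) → ℝ) (p : Fin n → G) : ℝ :=
  ((m : ℝ) ^ n)⁻¹ * ∑ k : Fin n → ZMod m, F (fun i => x ^ (k i).val * p i)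

variable {x m}

theorem mpow_ne (n : ℕ) : ((m : ℝ) ^ n) ≠ 0 := pow_ne_zero _ (Nat.cast_ne_zero.2 (NeZero.ne m))

theorem savg_growth {L : G → ℝ} (hL : IsLength L) {n : ℕ} {F : (Fin n → G) → ℝ}
    (hF : SubExp x L F) : SubExp x L (savg x m F) := by
  refine SubExp.smul hL _ (SubExp.sum hL Finset.univ fun k _ => ?_)
  exact hF.of_siz_le (fun p i => x ^ (k i).val * p i) (c := n * n * (2 * m + 1) + 1)
    (by (clear * -; positivity)) fun p => siz_shift hL x (fun i => (k i).val) (M := m)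
      (fun i => (ZMod.val_lt (k i)).le) p

theorem savg_inv {n : ℕ} {F : (Fin n → G) → ℝ} {h : G} (hh : Commute h x)
    (hF : ∀ p, F (tra h p) = F p) (p : Fin n → G) : savg x m F (tra h p) = savg x m F p := by
  unfold savg
  congr 1
  refine Finset.sum_congr rfl fun k _ => ?_
  rw [← hF fun i => x ^ (k i).val * p i]
  congr 1
  funext i
  simp only [tra]
  rw [← mul_assoc, ← mul_assoc, (hh.pow_right _).eq]

theorem savg_xinv {n : ℕ} {F : (Fin n → G) → ℝ} (hF : XInv (x ^ m) F) :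
    XInv x (savg x m F) := by
  intro l p
  unfold savg
  congr 1
  rw [← Equiv.sum_comp (Equiv.addRight fun i => ((l i : ℤ) : ZMod m))
    fun k : Fin n → ZMod m => F fun i => x ^ (k i).val * p i]
  refine Finset.sum_congr rfl fun k _ => ?_
  have h1 : ∀ i, ∃ t : ℤ, ((k i).val : ℤ) + l i =
      ((((Equiv.addRight fun i => ((l i : ℤ) : ZMod m)) k) i).val : ℤ) + m * t := by
    intro i
    have h2 : (((((k i).val : ℤ) + l i : ℤ)) : ZMod m) =
        (((((Equiv.addRight fun i => ((l i : ℤ) : ZMod m)) k) i).val : ℤ) : ZMod m) := by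
      push_cast
      rw [ZMod.natCast_val, ZMod.natCast_val, ZMod.cast_id']
      rfl
    rw [ZMod.intCast_eq_intCast_iff_dvd_sub] at h2
    obtain ⟨t, ht⟩ := h2
    exact ⟨-t, by linear_combination -ht⟩
  choose t ht using h1
  have h3 := hF t fun i => x ^ (((Equiv.addRight fun i => ((l i : ℤ) : ZMod m)) k) i).val * p i
  rw [← h3]
  congr 1
  funext i
  rw [← mul_assoc, ← mul_assoc, ← zpow_natCast x (k i).val, ← zpow_natCast x (ZMod.val _),
    ← zpow_natCast x m, ← zpow_mul, ← zpow_add, ← zpow_add, ht i]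
  congr 2
  ring

theorem savg_of_inv {n : ℕ} {F : (Fin n → G) → ℝ} (hF : XInv x F) (p : Fin n → G) :
    savg x m F p = F p := by
  unfold savg
  have h1 : ∀ k : Fin n → ZMod m, F (fun i => x ^ (k i).val * p i) = F p := fun k => by
    have := hF (fun i => ((k i).val : ℤ)) p
    simpa only [zpow_natCast] using this
  rw [Finset.sum_congr rfl fun k _ => h1 k, Finset.sum_const, nsmul_eq_mul, Finset.card_univ,
    Fintype.card_fun, ZMod.card, Fintype.card_fin]
  push_cast
  rw [inv_mul_cancel_left₀ (mpow_ne n)]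

theorem sum_forget {n : ℕ} (j : Fin (n + 1)) (Φ : (Fin n → ZMod m) → ℝ) :
    ∑ k : Fin (n + 1) → ZMod m, Φ (fun i => k (j.succAbove i)) = m * ∑ k, Φ k := by
  rw [← Equiv.sum_comp (Fin.insertNthEquiv (fun _ => ZMod m) j), Fintype.sum_prod_type]
  simp only [Fin.insertNthEquiv_apply, Fin.insertNth_apply_succAbove]
  rw [Finset.sum_const, nsmul_eq_mul, Finset.card_univ, ZMod.card]

theorem cob_savg {n : ℕ} (F : (Fin n → G) → ℝ) (p : Fin (n + 1) → G) :
    DData.cob (savg x m F) p = savg x m (DData.cob F) p := by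
  unfold savg DData.cob
  rw [Finset.sum_comm, Finset.mul_sum]
  refine Finset.sum_congr rfl fun j _ => ?_
  rw [← Finset.mul_sum, sum_forget j fun k => F fun i => x ^ (k i).val * p (j.succAbove i)]
  have h1 := mpow_ne (m := m) n
  have h2 : (m : ℝ) ≠ 0 := Nat.cast_ne_zero.2 (NeZero.ne m)
  rw [pow_succ]
  field_simp

end Shift

omit [Group G] in
theorem cupPow_smul (c : ℝ) (α : G → G → ℝ) (n : ℕ) (p : Fin (2 * n + 1) → G) :
    cupPow (fun p q => c * α p q) n p = c ^ n * cupPow α n p := by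
  unfold cupPow
  rw [← Fin.prod_const, ← Finset.prod_mul_distrib]
  refine Finset.prod_congr rfl fun k _ => ?_
  unfold dee
  ring

/-- Roots. -/
theorem tame_of_pow {x : G} {m : ℕ} (h : Tame (x ^ m)) : Tame x := by
  classical
  obtain ⟨L, hL, α, n, β, hn, hα1, hα2, hα3, hβ1, hβ2, hβ3, hβ⟩ := h
  have hm0 : m ≠ 0 := by
    rintro rfl
    have := hα2 1 1
    rw [pow_zero, one_mul] at this
    linarith only [this]
  have : NeZero m := ⟨hm0⟩
  have hmR : (m : ℝ) ≠ 0 := Nat.cast_ne_zero.2 hm0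
  set Z : Subgroup G := Subgroup.centralizer {x} with hZ
  have hZc : ∀ t ∈ Z, Commute (t : G) x := fun t ht =>
    (Subgroup.mem_centralizer_singleton_iff.1 ht)
  have hzZ : x ^ m ∈ Z := Subgroup.mem_centralizer_singleton_iff.2 (Commute.pow_self x m)
  -- the connection
  set A : G → G → ℝ := fun p q => ∑ j ∈ Finset.range m, α p (x ^ j * q) with hA
  have hA1 : ∀ h ∈ Z, ∀ p q, A (h * p) (h * q) = A p q := by
    intro h hh p q
    refine Finset.sum_congr rfl fun j _ => ?_
    have h5 := ((hZc h hh).pow_right j).eq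
    rw [← mul_assoc, ← h5, mul_assoc]
    exact hα1 h _ _ ((hZc h hh).pow_right m)
  have hA2 : ∀ p q, A p (x * q) = A p q + 1 := by
    intro p q
    have h5 := Finset.sum_range_succ (fun j => α p (x ^ j * q)) m
    have h6 := Finset.sum_range_succ' (fun j => α p (x ^ j * q)) m
    simp only [pow_zero, one_mul] at h6
    rw [h5, hα2] at h6
    have h7 : ∑ j ∈ Finset.range m, α p (x ^ j * (x * q)) =
        ∑ j ∈ Finset.range m, α p (x ^ (j + 1) * q) := by
      refine Finset.sum_congr rfl fun j _ => ?_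
      rw [pow_succ, mul_assoc]
    change ∑ j ∈ Finset.range m, α p (x ^ j * (x * q)) =
      ∑ j ∈ Finset.range m, α p (x ^ j * q) + 1
    rw [h7]
    linarith only [h6]
  have hA3 : SubExp x L (fun p : Fin 2 → G => A (p 0) (p 1)) := by
    refine SubExp.sum hL _ fun j hj => ?_
    have h1 := (SubExp.of_pow hL hα3).of_siz_le
      (fun (p : Fin 2 → G) i => x ^ (if i = 0 then 0 else j) * p i)
      (c := 2 * 2 * (2 * m + 1) + 1) (by (clear * - hm0; positivity)) fun p => by
        have := siz_shift hL x (fun i : Fin 2 => if i = 0 then 0 else j) (M := m)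
          (fun i => by
            have := Finset.mem_range.1 hj
            beta_reduce
            split_ifs <;> omega) p
        push_cast at this
        exact this
    refine (congrArg (SubExp x L) (funext fun p => ?_)).mp h1
    simp
  have hAconn : IsConn L x x Z A := ⟨hA1, hA2, hA3⟩
  have hxZ : x ∈ Z := Subgroup.mem_centralizer_singleton_iff.2 rfl
  have h1 : IsConn L x (x ^ m) Z fun p q => (m : ℝ)⁻¹ * A p q := by
    refine ⟨fun h hh p q => by rw [hA1 h hh], fun p q => ?_, hA3.smul hL _⟩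
    have := hAconn.zpow hxZ 0 m p q
    rw [zpow_zero, one_mul, zpow_natCast] at this
    rw [this]
    push_cast
    field_simp
    ring
  obtain ⟨β₁, hβ₁, hαβ₁⟩ := exists_change hL hzZ
    (⟨fun h hh p q => hα1 h p q ((hZc h hh).pow_right m), hα2, SubExp.of_pow hL hα3⟩ :
      IsConn L x (x ^ m) Z α) h1 hn
    (⟨fun h hh p => hβ1 h ((hZc h hh).pow_right m) p, hβ2, SubExp.of_pow hL hβ3⟩ :
      IsBasic L x (x ^ m) Z β) hβ
  have h2 : AltEq A n fun p => (m : ℝ) ^ n * β₁ p := by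
    intro p
    have h3 := hαβ₁ p
    have h4 : ∀ σ : Perm (Fin (2 * n + 1)), ((Equiv.Perm.sign σ : ℤ) : ℝ) *
        (cupPow A n (fun i => p (σ i)) - DData.cob (fun p => (m : ℝ) ^ n * β₁ p)
          (fun i => p (σ i))) = (m : ℝ) ^ n * (((Equiv.Perm.sign σ : ℤ) : ℝ) *
        (cupPow (fun p q => (m : ℝ)⁻¹ * A p q) n (fun i => p (σ i)) -
          DData.cob β₁ (fun i => p (σ i)))) := by
      intro σ
      rw [cupPow_smul, cob_smul, inv_pow]
      have := mpow_ne (m := m) n
      (clear * - this; field_simp)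
    rw [Finset.sum_congr rfl fun σ _ => h4 σ, ← Finset.mul_sum, h3, mul_zero]
  set β₂ : (Fin (2 * n) → G) → ℝ := fun p => (m : ℝ) ^ n * β₁ p with hβ₂
  have hβ₂' : IsBasic L x (x ^ m) Z β₂ := hβ₁.smul hL _
  refine ⟨L, hL, A, n, savg x m β₂, hn, fun h p q hh => hA1 h
    (Subgroup.mem_centralizer_singleton_iff.2 hh) p q, hA2, hA3,
    fun h hh p => savg_inv hh (hβ₂'.inv h (Subgroup.mem_centralizer_singleton_iff.2 hh)) p,
    savg_xinv hβ₂'.xinv, savg_growth hL hβ₂'.growth, fun p => ?_⟩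
  have hcup : XInv x (cupPow A n) := (hAconn.cupPow hL hxZ n).xinv
  have h3 : ∀ σ : Perm (Fin (2 * n + 1)), ((Equiv.Perm.sign σ : ℤ) : ℝ) *
      (cupPow A n (fun i => p (σ i)) - DData.cob (savg x m β₂) (fun i => p (σ i))) =
      ((m : ℝ) ^ (2 * n + 1))⁻¹ * ∑ k : Fin (2 * n + 1) → ZMod m,
        ((Equiv.Perm.sign σ : ℤ) : ℝ) *
        (cupPow A n (fun i => x ^ (k (σ i)).val * p (σ i)) -
          DData.cob β₂ (fun i => x ^ (k (σ i)).val * p (σ i))) := by
    intro σ
    rw [cob_savg, ← savg_of_inv (m := m) hcup]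
    unfold savg
    rw [← mul_sub, ← Finset.sum_sub_distrib]
    rw [← Equiv.sum_comp (Equiv.arrowCongr σ.symm (Equiv.refl (ZMod m)))
      fun k : Fin (2 * n + 1) → ZMod m => cupPow A n (fun i => x ^ (k i).val * p (σ i)) -
        DData.cob β₂ (fun i => x ^ (k i).val * p (σ i))]
    rw [← mul_assoc, mul_comm (((Equiv.Perm.sign σ : ℤ) : ℝ)), mul_assoc, Finset.mul_sum]
    rfl
  rw [Finset.sum_congr rfl fun σ _ => h3 σ, ← Finset.mul_sum, Finset.sum_comm]
  rw [Finset.sum_eq_zero fun k _ => h2 fun i => x ^ (k i).val * p i, mul_zero]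

end Vale.Agent.P184
end
end

section

/-!
# Closure properties of the class of amenable groups
-/

noncomputable section

namespace Vale.Agent.P184

theorem mean_le {A : Type*} {m : (A → ℝ) → ℝ}
    (h1 : ∀ f g : A → ℝ, (∃ K, ∀ h, |f h| ≤ K) → (∃ K, ∀ h, |g h| ≤ K) → m (f + g) = m f + m g)
    (h2 : ∀ f : A → ℝ, (∃ K, ∀ h, |f h| ≤ K) → (∀ h, 0 ≤ f h) → 0 ≤ m f)
    {f g : A → ℝ} (hf : ∃ K, ∀ h, |f h| ≤ K) (hg : ∃ K, ∀ h, |g h| ≤ K) (hfg : ∀ h, f h ≤ g h) :
    m f ≤ m g := by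
  obtain ⟨K, hK⟩ := hf
  obtain ⟨K', hK'⟩ := hg
  have hb : ∃ K, ∀ h, |(g - f) h| ≤ K := ⟨K' + K, fun h => by
    rw [Pi.sub_apply]
    exact (abs_sub _ _).trans (add_le_add (hK' h) (hK h))⟩
  have h3 := h1 f (g - f) ⟨K, hK⟩ hb
  have h4 := h2 (g - f) hb (fun h => sub_nonneg.2 (hfg h))
  rw [add_sub_cancel] at h3
  linarith

theorem mean_abs_le {A : Type*} {m : (A → ℝ) → ℝ}
    (h1 : ∀ f g : A → ℝ, (∃ K, ∀ h, |f h| ≤ K) → (∃ K, ∀ h, |g h| ≤ K) → m (f + g) = m f + m g)
    (h2 : ∀ f : A → ℝ, (∃ K, ∀ h, |f h| ≤ K) → (∀ h, 0 ≤ f h) → 0 ≤ m f)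
    (h3 : ∀ c : ℝ, m (fun _ => c) = c) {f : A → ℝ} {K : ℝ} (hf : ∀ h, |f h| ≤ K) :
    |m f| ≤ K := by
  rw [abs_le]
  constructor
  · have := mean_le h1 h2 (f := fun _ => -K) (g := f) ⟨|-K|, fun _ => le_rfl⟩ ⟨K, hf⟩
      fun h => (abs_le.mp (hf h)).1
    rwa [h3] at this
  · have := mean_le h1 h2 (f := f) (g := fun _ => K) ⟨K, hf⟩ ⟨|K|, fun _ => le_rfl⟩
      fun h => (abs_le.mp (hf h)).2
    rwa [h3] at this

/-- Extensions. -/
theorem isAmenable_of_surjective_ker {G Q : Type*} [Group G] [Group Q] (f : G →* Q)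
    (hf : Function.Surjective f) (hk : IsAmenable f.ker) (hQ : IsAmenable Q) : IsAmenable G := by
  obtain ⟨m, m1, m2, m3, m4⟩ := hk
  obtain ⟨μ, n1, n2, n3, n4⟩ := hQ
  choose s hs using hf
  have hb : ∀ (F : G → ℝ) (K : ℝ), (∀ g, |F g| ≤ K) →
      ∀ q, |m fun n => F (s q * n)| ≤ K := fun F K hF q => mean_abs_le m1 m2 m3 fun n => hF _
  refine ⟨fun F => μ fun q => m fun n => F (s q * n), ?_, ?_, ?_, ?_⟩
  · rintro F F' ⟨K, hK⟩ ⟨K', hK'⟩
    have h1 := n1 (fun q => m fun n => F (s q * n)) (fun q => m fun n => F' (s q * n))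
      ⟨K, hb F K hK⟩ ⟨K', hb F' K' hK'⟩
    refine Eq.trans (congrArg μ (funext fun q => ?_)) h1
    exact m1 (fun n => F (s q * n)) (fun n => F' (s q * n)) ⟨K, fun n => hK _⟩
      ⟨K', fun n => hK' _⟩
  · rintro F ⟨K, hK⟩ h0
    exact n2 _ ⟨K, hb F K hK⟩ fun q => m2 _ ⟨K, fun n => hK _⟩ fun n => h0 _
  · intro c
    simp only [m3, n3]
  · rintro F k ⟨K, hK⟩
    have h1 := n4 (fun q => m fun n => F (s q * n)) (f k) ⟨K, hb F K hK⟩
    refine Eq.trans (congrArg μ (funext fun q => ?_)) h1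
    have h2 : (s (f k * q))⁻¹ * (k * s q) ∈ f.ker := by
      rw [MonoidHom.mem_ker, map_mul, map_inv, hs, map_mul, hs, inv_mul_cancel]
    have h3 := m4 (fun n => F (s (f k * q) * n)) ⟨_, h2⟩ ⟨K, fun n => hK _⟩
    refine Eq.trans (congrArg m (funext fun n => congrArg F ?_)) h3
    rw [Subgroup.coe_mul]
    group

theorem isAmenable_of_ker {G Q : Type*} [Group G] [Group Q] (f : G →* Q)
    (hk : IsAmenable f.ker) (hQ : IsAmenable Q) : IsAmenable G := by
  refine isAmenable_of_surjective_ker f.rangeRestrict f.rangeRestrict_surjective ?_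
    (hQ.subgroup _)
  rw [MonoidHom.ker_rangeRestrict]
  exact hk

theorem isAmenable_prod {A B : Type*} [Group A] [Group B] (hA : IsAmenable A)
    (hB : IsAmenable B) : IsAmenable (A × B) := by
  refine isAmenable_of_ker (MonoidHom.fst A B) ?_ hA
  refine isAmenable_of_injective ((MonoidHom.snd A B).comp (MonoidHom.fst A B).ker.subtype) ?_ hB
  rintro ⟨⟨a, b⟩, h⟩ ⟨⟨a', b'⟩, h'⟩ hh
  have h1 : a = 1 := h
  have h2 : a' = 1 := h'
  have h3 : b = b' := hh
  subst h1 h2 h3
  rfl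

theorem isAmenable_of_finite {A : Type*} [Group A] [Finite A] : IsAmenable A := by
  classical
  have := Fintype.ofFinite A
  have hc : (0 : ℝ) < Fintype.card A := by exact_mod_cast Fintype.card_pos
  refine ⟨fun f => (Fintype.card A : ℝ)⁻¹ * ∑ a, f a, ?_, ?_, ?_, ?_⟩
  · intro f g _ _
    simp only [Pi.add_apply, Finset.sum_add_distrib, mul_add]
  · intro f _ h
    exact mul_nonneg (inv_nonneg.mpr hc.le) (Finset.sum_nonneg fun a _ => h a)
  · intro c
    simp only [Finset.sum_const, Finset.card_univ, nsmul_eq_mul]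
    (clear * -; field_simp)
  · intro f k _
    simp only
    congr 1
    exact Fintype.sum_equiv (Equiv.mulLeft k) _ _ fun a => rfl

theorem isAmenable_pi {A : Type*} [Group A] (hA : IsAmenable A) (ι : Type*) [Finite ι] :
    IsAmenable (ι → A) := by
  refine Finite.induction_empty_option (P := fun ι => IsAmenable (ι → A)) ?_ ?_ ?_ ι
  · intro α β e h
    refine isAmenable_of_injective
      { toFun := fun f => fun a => f (e a), map_one' := rfl, map_mul' := fun _ _ => rfl } ?_ h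
    intro f g hfg
    funext b
    have := congrFun hfg (e.symm b)
    simpa using this
  · exact isAmenable_of_subsingleton
  · intro α _ h
    refine isAmenable_of_injective
      { toFun := fun f => ((f none, fun a => f (some a)) : A × (α → A)), map_one' := rfl,
        map_mul' := fun _ _ => rfl } ?_ (isAmenable_prod hA h)
    intro f g hfg
    have h1 : f none = g none := congrArg Prod.fst hfg
    have h2 : (fun a => f (some a)) = fun a => g (some a) := congrArg Prod.snd hfg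
    funext o
    cases o with
    | none => exact h1
    | some a => exact congrFun h2 a

/-- The core of a normal subgroup, with amenable quotient, of a subgroup of finite index. -/
theorem isAmenable_quot_normalCore {C B : Type*} [Group C] [Group B] (hB : IsAmenable B)
    (C₀ D₀ : Subgroup C) [C₀.FiniteIndex] (hD : D₀ ≤ C₀) (φ : C₀ →* B)
    (hφ : ∀ c, φ c = 1 ↔ (c : C) ∈ D₀) : IsAmenable (C ⧸ D₀.normalCore) := by
  classical
  have hn : ∀ c : C, ∀ n : C₀.normalCore, c⁻¹ * n * c ∈ C₀ := fun c n => by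
    have := (Subgroup.normalCore_normal C₀).conj_mem n n.2 c⁻¹
    rw [inv_inv] at this
    exact C₀.normalCore_le this
  let Ψ : C₀.normalCore →* (C ⧸ C₀ → B) :=
    { toFun := fun n q => φ ⟨q.out⁻¹ * n * q.out, hn _ n⟩
      map_one' := by
        funext q
        refine (congrArg φ ?_).trans (map_one φ)
        exact Subtype.ext (by simp only [OneMemClass.coe_one, mul_one, inv_mul_cancel])
      map_mul' := fun a b => by
        funext q
        refine (congrArg φ ?_).trans (map_mul φ _ _)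
        refine Subtype.ext ?_
        show q.out⁻¹ * (a * b : C) * q.out = q.out⁻¹ * a * q.out * (q.out⁻¹ * b * q.out)
        group }
  have hΨ : ∀ n : C₀.normalCore, Ψ n = 1 → (n : C) ∈ D₀.normalCore := by
    intro n hn1 c
    have h1 := congrFun hn1 ((c⁻¹ : C) : C ⧸ C₀)
    have h2 : φ ⟨_, hn (((c⁻¹ : C) : C ⧸ C₀).out) n⟩ = 1 := h1
    rw [hφ] at h2
    simp only at h2
    set t : C := (((c⁻¹ : C) : C ⧸ C₀).out) with ht
    have h3 : t⁻¹ * c⁻¹ ∈ C₀ := by
      rw [← QuotientGroup.eq, ht, QuotientGroup.out_eq']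
    have h4 : c * n * c⁻¹ ∈ C₀ := by
      have := hn c⁻¹ n
      rwa [inv_inv] at this
    have h5 : c * n * c⁻¹ = (t⁻¹ * c⁻¹)⁻¹ * (t⁻¹ * n * t) * (t⁻¹ * c⁻¹) := by group
    have h6 : φ ⟨_, h4⟩ = 1 := by
      have h7 : (⟨_, h4⟩ : C₀) = (⟨_, h3⟩ : C₀)⁻¹ * ⟨_, hn t n⟩ * ⟨_, h3⟩ := by
        refine Subtype.ext ?_
        exact h5
      have h8 : φ (⟨_, hn t n⟩ : C₀) = 1 := (hφ _).mpr h2
      rw [h7, map_mul, map_mul, h8, mul_one, map_inv, inv_mul_cancel]
    exact (hφ _).mp h6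
  have hle : D₀.normalCore ≤ C₀.normalCore := Subgroup.normalCore_mono hD
  let g : C ⧸ D₀.normalCore →* C ⧸ C₀.normalCore :=
    QuotientGroup.lift _ (QuotientGroup.mk' C₀.normalCore) fun x hx => by
      rw [QuotientGroup.ker_mk']
      exact hle hx
  have hg : ∀ c : C, g (c : C ⧸ D₀.normalCore) = (c : C ⧸ C₀.normalCore) := fun _ => rfl
  refine isAmenable_of_ker g ?_ isAmenable_of_finite
  let h : C₀.normalCore →* g.ker :=
    { toFun := fun n => ⟨((n : C) : C ⧸ D₀.normalCore), by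
        rw [MonoidHom.mem_ker, hg, QuotientGroup.eq_one_iff]
        exact n.2⟩
      map_one' := rfl
      map_mul' := fun _ _ => rfl }
  have hh : Function.Surjective h := by
    rintro ⟨q, hq⟩
    induction q using QuotientGroup.induction_on with
    | H c =>
      have hq' := hq
      rw [MonoidHom.mem_ker, hg, QuotientGroup.eq_one_iff] at hq'
      exact ⟨⟨c, hq'⟩, rfl⟩
  have hker : Ψ.ker ≤ h.ker := by
    intro n hn1
    rw [MonoidHom.mem_ker] at hn1 ⊢
    refine Subtype.ext ?_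
    show ((n : C) : C ⧸ D₀.normalCore) = 1
    rw [QuotientGroup.eq_one_iff]
    exact hΨ n hn1
  refine IsAmenable.of_surjective (QuotientGroup.lift Ψ.ker h hker) ?_
    (isAmenable_of_injective (QuotientGroup.kerLift Ψ) (QuotientGroup.kerLift_injective Ψ)
      (isAmenable_pi hB _))
  intro y
  obtain ⟨n, rfl⟩ := hh y
  exact ⟨(n : C₀.normalCore ⧸ Ψ.ker), by simp⟩

end Vale.Agent.P184
end
end

section

/-!
# Slow maps for overgroups of finite index
-/

noncomputable section

namespace Vale.Agent.P184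

theorem slowD_of_finiteIndex {G : Type*} [Group G] (K : Subgroup G) [K.FiniteIndex] {y : K}
    {S : Set G} {T : Set K} (hT : ∀ s ∈ S, ∀ p, (cret K p)⁻¹ * cret K (p * s) ∈ T) {δ : ℝ}
    (h : SlowD y T δ) : SlowD (y : G) S δ := by
  classical
  obtain ⟨D, hDn, hDa, ⟨hyC, hyD⟩, ι, _, ζ, u, hζ, hζy, huy, hu1, huδ⟩ := h
  have hxC : (y : G) ∈ Subgroup.centralizer ({(y : G)} : Set G) :=
    Subgroup.mem_centralizer_singleton_iff.mpr rfl
  let θ : Subgroup.centralizer ({y} : Set K) →* Subgroup.centralizer ({(y : G)} : Set G) :=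
    { toFun := fun c => ⟨((c : K) : G), Subgroup.mem_centralizer_singleton_iff.mpr
        (congrArg Subtype.val (Subgroup.mem_centralizer_singleton_iff.mp c.2))⟩
      map_one' := rfl
      map_mul' := fun _ _ => rfl }
  set C₀ : Subgroup (Subgroup.centralizer ({(y : G)} : Set G)) :=
    K.subgroupOf (Subgroup.centralizer ({(y : G)} : Set G)) with hC₀
  set D₀ := D.map θ with hD₀
  let η : C₀ →* Subgroup.centralizer ({y} : Set K) :=
    { toFun := fun c => ⟨⟨((c : Subgroup.centralizer ({(y : G)} : Set G)) : G), c.2⟩,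
        Subgroup.mem_centralizer_singleton_iff.mpr (Subtype.ext
          (Subgroup.mem_centralizer_singleton_iff.mp c.1.2))⟩
      map_one' := rfl
      map_mul' := fun _ _ => rfl }
  have hθη : ∀ c, θ (η c) = c := fun _ => rfl
  have hθi : Function.Injective θ := by
    intro a b hab
    have h1 : ((a : K) : G) = ((b : K) : G) :=
      congrArg (fun t : Subgroup.centralizer ({(y : G)} : Set G) => (t : G)) hab
    exact Subtype.ext (Subtype.ext h1)
  have hle : D₀ ≤ C₀ := by
    rintro _ ⟨d, _, rfl⟩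
    rw [hC₀, Subgroup.mem_subgroupOf]
    exact (d : K).2
  refine ⟨D₀.normalCore, inferInstance, isAmenable_quot_normalCore hDa C₀ D₀ hle
    ((QuotientGroup.mk' D).comp η) ?_, ⟨hxC, ?_⟩, ι, inferInstance,
    fun g j => if hg : g ∈ K then ζ ⟨g, hg⟩ j else 1, fun p => u (cret K p), ?_, ?_, ?_,
    fun p => hu1 _, ?_⟩
  · intro c
    show ((η c : _) : _ ⧸ D) = 1 ↔ _
    rw [QuotientGroup.eq_one_iff, hD₀, Subgroup.mem_map]
    constructor
    · intro h
      exact ⟨η c, h, hθη c⟩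
    · rintro ⟨d, hd, hdc⟩
      rw [← hθη] at hdc
      rwa [← hθi hdc]
  · intro c
    have h1 : c * (⟨(y : G), hxC⟩ : Subgroup.centralizer ({(y : G)} : Set G)) * c⁻¹ =
        ⟨(y : G), hxC⟩ := by
      refine Subtype.ext ?_
      show (c : G) * y * (c : G)⁻¹ = y
      rw [Subgroup.mem_centralizer_singleton_iff.mp c.2, mul_inv_cancel_right]
    rw [h1]
    exact ⟨⟨y, hyC⟩, hyD, rfl⟩
  · intro d j
    simp only
    split_ifs
    · exact hζ _ _
    · exact norm_one
  · intro j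
    simp only
    rw [dif_pos y.2]
    exact hζy j
  · intro d hd p j
    obtain ⟨c, hc, rfl⟩ := Subgroup.normalCore_le _ hd
    simp only
    have h1 : ((θ c : Subgroup.centralizer ({(y : G)} : Set G)) : G) ∈ K := (c : K).2
    rw [dif_pos h1]
    have h2 := cret_mul K (c : K) p
    have h3 : cret K (((θ c : Subgroup.centralizer ({(y : G)} : Set G)) : G) * p) =
      (c : K) * cret K p := h2
    rw [h3]
    exact huy c hc _ j
  · intro s hs p
    have h5 := huδ _ (hT s hs p) (cret K p)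
    rwa [mul_inv_cancel_left] at h5

theorem goodD_of_finiteIndex {G : Type*} [Group G] (K : Subgroup G) [K.FiniteIndex] {y : K}
    (h : GoodD y) : GoodD (y : G) := by
  intro S hS δ hδ
  refine slowD_of_finiteIndex K
    (T := {h | ∃ s ∈ S, ∃ p, (cret K p)⁻¹ * cret K (p * s) = h}) (fun s hs p => ⟨s, hs, p, rfl⟩)
    (h _ ?_ δ hδ)
  refine (hS.biUnion fun s _ => finite_cret K s).subset ?_
  rintro _ ⟨s, hs, p, rfl⟩
  exact Set.mem_biUnion hs ⟨p, rfl⟩

end Vale.Agent.P184
end
end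

section

/-!
# Local tameness and slow maps for overgroups of finite index
-/

noncomputable section

namespace Vale.Agent.P184

variable {G : Type*} [Group G]

theorem locTame_of_finiteIndex (K : Subgroup G) [K.FiniteIndex] {x : G} {m : ℕ}
    (hm : x ^ m ∈ K) (h : LocTame (⟨x ^ m, hm⟩ : K)) : LocTame x := by
  classical
  intro Q hx
  set H : Subgroup G := Subgroup.closure (Q : Set G) with hH
  have hHfg : Group.FG H := (Group.fg_iff_subgroup_fg H).2 ⟨Q, rfl⟩
  -- the finitely generated group `H ∩ K`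
  have hfg : Group.FG (K.subgroupOf H) := Subgroup.fg_of_index_ne_zero (K.subgroupOf H)
  let f : K.subgroupOf H →* K :=
    { toFun := fun g => ⟨((g : H) : G), Subgroup.mem_subgroupOf.1 g.2⟩
      map_one' := rfl
      map_mul' := fun _ _ => rfl }
  have hfr : f.range.FG := (Group.fg_iff_subgroup_fg _).1 (Group.fg_range f)
  obtain ⟨S, hS⟩ := hfr
  have hxm : (⟨x, hx⟩ : H) ^ m ∈ K.subgroupOf H := by
    rw [Subgroup.mem_subgroupOf]
    exact hm
  set z : K.subgroupOf H := ⟨⟨x, hx⟩ ^ m, hxm⟩ with hz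
  have hfz : f z = ⟨x ^ m, hm⟩ := rfl
  have hmem : ∀ g, f g ∈ Subgroup.closure (S : Set K) := fun g => by
    rw [hS]
    exact ⟨g, rfl⟩
  have h1 : Tame (⟨f z, hmem z⟩ : Subgroup.closure (S : Set K)) := h S (hmem z)
  let g : K.subgroupOf H →* Subgroup.closure (S : Set K) := f.codRestrict _ hmem
  have h2 : Tame z := Tame.map g h1
  exact tame_of_pow (tame_of_finiteIndex (K.subgroupOf H) h2)

theorem goodD_of_finiteIndex_pow (K : Subgroup G) [K.FiniteIndex] {x : G} {m : ℕ}
    (hm : x ^ m ∈ K) (h : GoodD (⟨x ^ m, hm⟩ : K)) : GoodD x :=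
  goodD_of_pow m (goodD_of_finiteIndex K h)

/-- Overgroups of finite index. -/
theorem locTame_or_goodD_of_finiteIndex (K : Subgroup G) [K.FiniteIndex]
    (h : ∀ y : K, ¬ IsOfFinOrder y → LocTame y ∨ GoodD y) (x : G) (hx : ¬ IsOfFinOrder x) :
    LocTame x ∨ GoodD x := by
  obtain ⟨m, hm0, -, hm⟩ := Subgroup.exists_pow_mem_of_index_ne_zero
    (Subgroup.FiniteIndex.index_ne_zero (H := K)) x
  have hz : ¬ IsOfFinOrder (⟨x ^ m, hm⟩ : K) := by
    intro h
    have h1 : IsOfFinOrder (x ^ m) :=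
      (Submonoid.isOfFinOrder_coe (H := K.toSubmonoid) (x := ⟨x ^ m, hm⟩)).mpr h
    exact hx (IsOfFinOrder.of_pow h1 hm0.ne')
  exact (h _ hz).imp (locTame_of_finiteIndex K hm) (goodD_of_finiteIndex_pow K hm)

theorem locTame_of_pow {x : G} {m : ℕ} (h : LocTame (x ^ m)) : LocTame x := by
  intro Q hx
  exact tame_of_pow (h Q (Subgroup.pow_mem _ hx m))

end Vale.Agent.P184
end
end

section

/-!
# Cyclic cochains: overgroups of finite index
-/

noncomputable section

namespace Vale.Agent.P184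

variable {G : Type*} [Group G]

theorem cycTame_average {L : G → ℝ} (hL : IsLength L) {x : G} (K : Subgroup G) [K.FiniteIndex]
    {n : ℕ} {ψ : (Fin (2 * n) → G) → ℝ} (hn : 0 < n)
    (h1 : ∀ h ∈ K, Commute h x → ∀ p, ψ (tra h p) = ψ p) (h2 : SubExp x L ψ)
    (h3 : CycAnti x ψ) (h4 : ∀ p, DData.cob ψ p = 1) : CycTame x := by
  classical
  set Z : Subgroup G := Subgroup.centralizer {x} with hZ
  have hZc : ∀ t ∈ Z, Commute (t : G) x := fun t ht =>
    (Subgroup.mem_centralizer_singleton_iff.1 ht)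
  set N : Subgroup Z := K.subgroupOf Z with hN
  have : Finite (Z ⧸ N) := inferInstance
  have := Fintype.ofFinite (Z ⧸ N)
  refine ⟨L, hL, n, avg Z N ψ, hn, fun h hh p => avg_inv (fun k p => h1 _
    (Subgroup.mem_subgroupOf.1 k.2) (hZc _ (k : Z).2) p)
    (Subgroup.mem_centralizer_singleton_iff.2 hh) p, avg_growth hL hZc h2, ?_, fun p => ?_⟩
  · intro p hp
    unfold avg
    rw [← mul_neg, ← Finset.sum_neg_distrib]
    congr 1
    refine Finset.sum_congr rfl fun s _ => ?_
    refine h3 (fun i => ((s.out : Z) : G)⁻¹ * p i) ?_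
    have h5 := (hZc _ s.out.2).inv_left
    rw [hp, ← mul_assoc, ← mul_assoc, h5.eq]
  · rw [cob_avg]
    unfold avg
    rw [Finset.sum_congr rfl fun (s : Z ⧸ N) _ => h4 _, Finset.sum_const, nsmul_eq_mul,
      Finset.card_univ, mul_one, inv_mul_cancel₀ card_ne]

theorem cycTame_of_finiteIndex (K : Subgroup G) [K.FiniteIndex] {y : K} (h : CycTame y) :
    CycTame (y : G) := by
  obtain ⟨l, hl, n, ψ, hn, h1, h2, h3, h4⟩ := h
  obtain ⟨L, hL, hlip⟩ := exists_pull_length hl (cret K) (finite_cret K)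
  have hlip' : ∀ p q, l ((cret K p)⁻¹ * cret K q) ≤ 1 * L (p⁻¹ * q) + 0 := fun p q => by
    rw [one_mul, add_zero]
    exact hlip p q
  have hr : ∀ p, cret K ((y : G) * p) = y * cret K p := cret_mul K y
  refine cycTame_average hL K (ψ := fun p => ψ fun i => cret K (p i)) hn
    (fun h hh hc p => ?_) (h2.pull (cret K) hr one_pos hlip') (fun p hp => ?_)
    fun p => h4 fun i => cret K (p i)
  · have h5 := fun p => cret_mul K ⟨h, hh⟩ p
    have h6 := h1 (⟨h, hh⟩ : K) (Subtype.ext hc) fun i => cret K (p i)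
    simp only [tra] at h5 h6 ⊢
    simp only [h5]
    exact h6
  · exact h3 (fun i => cret K (p i)) (by rw [hp, hr])

end Vale.Agent.P184
end
end

section

/-!
# Cyclic cochains: roots
-/

noncomputable section

namespace Vale.Agent.P184

open Equiv (Perm)

section Sorting

variable {N m : ℕ}

/-- The sign of the stable sorting permutation. -/
def eps (a : Fin N → Fin m) : ℝ := ((Perm.sign (Tuple.sort a) : ℤ) : ℝ)

theorem sort_lt (a : Fin N → Fin m) {i j : Fin N} (hij : i < j) :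
    (Tuple.sort a).symm i < (Tuple.sort a).symm j ↔ a i ≤ a j := by
  obtain ⟨h1, h2⟩ := Tuple.eq_sort_iff.1 (rfl : Tuple.sort a = Tuple.sort a)
  constructor
  · intro h
    have := h1 h.le
    simpa only [ge_iff_le, Function.comp_apply, Equiv.apply_symm_apply] using this
  · intro h
    by_contra hlt
    have h3 : (Tuple.sort a).symm j < (Tuple.sort a).symm i :=
      lt_of_le_of_ne (not_lt.1 hlt) fun h => hij.ne' ((Tuple.sort a).symm.injective h)
    have h4 := h1 h3.le
    simp only [Function.comp_apply, Equiv.apply_symm_apply] at h4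
    have h5 := h2 _ _ h3
    simp only [Equiv.apply_symm_apply] at h5
    exact absurd (h5 (le_antisymm h4 h)) hij.not_gt

/-- the sign of a pair of letters -/
def sg (u v : Fin m) : ℝ := if u ≤ v then 1 else -1

theorem eps_eq (a : Fin N → Fin m) : eps a = ∏ i, ∏ j ∈ Finset.Ioi i, sg (a i) (a j) := by
  unfold eps
  rw [← Perm.sign_inv, Perm.sign_eq_prod_prod_Ioi]
  simp only [Units.coe_prod, Int.cast_prod]
  refine Finset.prod_congr rfl fun i _ => Finset.prod_congr rfl fun j hj => ?_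
  have h1 : (Tuple.sort a)⁻¹ i < (Tuple.sort a)⁻¹ j ↔ a i ≤ a j :=
    sort_lt a (Finset.mem_Ioi.1 hj)
  unfold sg
  by_cases h : a i ≤ a j
  · rw [if_pos h, if_pos (h1.2 h)]
    simp
  · rw [if_neg h, if_neg fun h' => h (h1.1 h')]
    simp only [Units.val_neg, Units.val_one, Int.reduceNeg, Int.cast_neg, Int.cast_one]

theorem sg_sq (u v : Fin m) : sg u v * sg u v = 1 := by
  unfold sg
  split_ifs <;> ring

theorem sg_antisymm {u v : Fin m} (h : u ≠ v) : sg u v = - sg v u := by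
  unfold sg
  rcases lt_or_gt_of_ne h with h1 | h1
  · rw [if_pos h1.le, if_neg (not_le.2 h1)]; ring
  · rw [if_neg (not_le.2 h1), if_pos h1.le]

theorem eps_cons (u : Fin m) (c : Fin N → Fin m) :
    eps (Fin.cons u c : Fin (N + 1) → Fin m) = (∏ j, sg u (c j)) * eps c := by
  rw [eps_eq, eps_eq, Fin.prod_univ_succ]
  rw [Fin.prod_Ioi_zero]
  simp only [Fin.cons_zero, Fin.cons_succ, Fin.prod_Ioi_succ]

theorem sum_eps_succ_succ (N m : ℕ) :
    ∑ b : Fin (N + 2) → Fin m, eps b = m * ∑ b : Fin N → Fin m, eps b := by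
  rw [← Equiv.sum_comp (Fin.consEquiv fun _ : Fin (N + 2) => Fin m), Fintype.sum_prod_type]
  have h1 : ∀ u : Fin m, ∑ c : Fin (N + 1) → Fin m,
      eps ((Fin.consEquiv fun _ : Fin (N + 2) => Fin m) (u, c)) =
      ∑ v, ∑ d : Fin N → Fin m, sg u v * ((∏ j, (sg u (d j) * sg v (d j))) * eps d) := by
    intro u
    rw [← Equiv.sum_comp (Fin.consEquiv fun _ : Fin (N + 1) => Fin m), Fintype.sum_prod_type]
    refine Finset.sum_congr rfl fun v _ => Finset.sum_congr rfl fun d _ => ?_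
    change eps (Fin.cons u (Fin.cons v d : Fin (N + 1) → Fin m) : Fin (N + 2) → Fin m) = _
    rw [eps_cons, eps_cons, Fin.prod_univ_succ, Finset.prod_mul_distrib]
    simp only [Fin.cons_zero, Fin.cons_succ]
    ring
  rw [Finset.sum_congr rfl fun u _ => h1 u]
  -- split off the diagonal
  set f : Fin m → Fin m → ℝ := fun u v =>
    ∑ d : Fin N → Fin m, sg u v * ((∏ j, (sg u (d j) * sg v (d j))) * eps d) with hf
  have h2 : ∀ u v, u ≠ v → f u v = - f v u := by
    intro u v huv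
    simp only [hf]
    rw [← Finset.sum_neg_distrib]
    refine Finset.sum_congr rfl fun d _ => ?_
    rw [sg_antisymm huv]
    rw [Finset.prod_congr rfl fun j _ => mul_comm (sg u (d j)) (sg v (d j))]
    ring
  have h3 : ∀ u, f u u = ∑ d : Fin N → Fin m, eps d := by
    intro u
    refine Finset.sum_congr rfl fun d _ => ?_
    rw [Finset.prod_eq_one fun j _ => sg_sq u (d j), one_mul]
    unfold sg
    rw [if_pos le_rfl, one_mul]
  have h4 : ∑ u, ∑ v, f u v = ∑ u, ∑ v, if u = v then f u v else 0 := by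
    have h5 : ∑ u, ∑ v, (if u = v then 0 else f u v) =
        - ∑ u, ∑ v, (if u = v then 0 else f u v) := by
      conv_lhs => rw [Finset.sum_comm]
      rw [← Finset.sum_neg_distrib]
      refine Finset.sum_congr rfl fun u _ => ?_
      rw [← Finset.sum_neg_distrib]
      refine Finset.sum_congr rfl fun v _ => ?_
      by_cases h : u = v
      · rw [if_pos h, if_pos h.symm, neg_zero]
      · rw [if_neg h, if_neg (Ne.symm h), h2 v u (Ne.symm h)]
    have h6 : ∑ u, ∑ v, (if u = v then 0 else f u v) = 0 := by linarith only [h5]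
    have h7 : ∑ u, ∑ v, f u v = (∑ u, ∑ v, if u = v then f u v else 0) +
        ∑ u, ∑ v, (if u = v then 0 else f u v) := by
      rw [← Finset.sum_add_distrib]
      refine Finset.sum_congr rfl fun u _ => ?_
      rw [← Finset.sum_add_distrib]
      refine Finset.sum_congr rfl fun v _ => ?_
      split_ifs <;> ring
    rw [h7, h6, add_zero]
  rw [h4]
  have h8 : ∀ u, (∑ v, if u = v then f u v else 0) = ∑ d : Fin N → Fin m, eps d := by
    intro u
    rw [Finset.sum_ite_eq, if_pos (Finset.mem_univ _), h3]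
  rw [Finset.sum_congr rfl fun u _ => h8 u, Finset.sum_const, nsmul_eq_mul, Finset.card_univ,
    Fintype.card_fin]

theorem sum_eps (n m : ℕ) : ∑ b : Fin (2 * n + 1) → Fin m, eps b = (m : ℝ) ^ (n + 1) := by
  induction n with
  | zero =>
    have h1 : ∀ b : Fin 1 → Fin m, eps b = 1 := by
      intro b
      rw [eps_eq, Fin.prod_univ_one, Finset.prod_eq_one]
      intro j hj
      exact absurd (Finset.mem_Ioi.1 hj) (by simp [Subsingleton.elim j 0])
    rw [Finset.sum_congr rfl fun b _ => h1 b, Finset.sum_const, nsmul_eq_mul, Finset.card_univ]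
    simp only [Fintype.card_pi, Finset.univ_unique, Fin.default_eq_zero, Fin.isValue, Fintype.card_fin, Finset.prod_const, Finset.card_singleton, pow_one, mul_one, zero_add]
  | succ n ih =>
    have := sum_eps_succ_succ (2 * n + 1) m
    rw [ih] at this
    rw [pow_succ' (m : ℝ) (n + 1), ← this]
    rfl

theorem eq_sort_iff_lex {a : Fin N → Fin m} {σ : Perm (Fin N)} :
    σ = Tuple.sort a ↔ ∀ i j, i < j → a (σ i) < a (σ j) ∨ (a (σ i) = a (σ j) ∧ σ i < σ j) := by
  rw [Tuple.eq_sort_iff]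
  constructor
  · rintro ⟨h1, h2⟩ i j hij
    rcases (h1 hij.le).lt_or_eq with h | h
    · exact Or.inl h
    · exact Or.inr ⟨h, h2 i j hij h⟩
  · intro h
    refine ⟨fun i j hij => ?_, fun i j hij he => ?_⟩
    · rcases hij.lt_or_eq with h1 | rfl
      · rcases h i j h1 with h2 | h2
        · exact h2.le
        · exact h2.1.le
      · exact le_rfl
    · rcases h i j hij with h2 | h2
      · exact absurd he h2.ne
      · exact h2.2

/-- Deletion of a letter. -/
theorem sort_delete (b : Fin (N + 1) → Fin m) (k : Fin (N + 1)) :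
    (∀ i, Tuple.sort b (k.succAbove i) = (Tuple.sort b k).succAbove
      (Tuple.sort (fun i => b ((Tuple.sort b k).succAbove i)) i)) ∧
    (-1) ^ (Tuple.sort b k : ℕ) * eps (fun i => b ((Tuple.sort b k).succAbove i)) =
      eps b * (-1) ^ (k : ℕ) := by
  obtain ⟨⟨j, σ⟩, hσ⟩ := (permDec N).surjective (Tuple.sort b * k.cycleRange.symm)
  have hj : j = Tuple.sort b k := by
    have := permDec_zero j σ
    rw [hσ, Perm.mul_apply, Fin.cycleRange_symm_zero] at this
    exact this.symm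
  subst hj
  have h1 : ∀ i, Tuple.sort b (k.succAbove i) = (Tuple.sort b k).succAbove (σ i) := by
    intro i
    have := permDec_succ (Tuple.sort b k) σ i
    rw [hσ, Perm.mul_apply, Fin.cycleRange_symm_succ] at this
    exact this
  have h2 : σ = Tuple.sort (fun i => b ((Tuple.sort b k).succAbove i)) := by
    rw [eq_sort_iff_lex]
    intro i i' hi
    have h3 := eq_sort_iff_lex.1 (rfl : Tuple.sort b = Tuple.sort b) (k.succAbove i)
      (k.succAbove i') (Fin.succAbove_lt_succAbove_iff.2 hi)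
    rw [h1, h1] at h3
    rw [Fin.succAbove_lt_succAbove_iff] at h3
    exact h3
  refine ⟨fun i => by rw [← h2, h1], ?_⟩
  have h3 := permDec_sign (Tuple.sort b k) σ
  rw [hσ, Perm.sign_mul] at h3
  have h4 : Perm.sign (k.cycleRange.symm) = (-1) ^ (k : ℕ) := by
    have h1 : Perm.sign (k.cycleRange.symm) = Perm.sign k.cycleRange :=
      Perm.sign_inv k.cycleRange
    rw [h1, Fin.sign_cycleRange]
  rw [h4] at h3
  unfold eps
  rw [← h2]
  push_cast at h3
  have h5 := congrArg (fun z : ℤ => (z : ℝ)) h3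
  push_cast at h5
  rw [h5]

theorem sum_forget_fin (j : Fin (N + 1)) (Φ : (Fin N → Fin m) → ℝ) :
    ∑ k : Fin (N + 1) → Fin m, Φ (fun i => k (j.succAbove i)) = m * ∑ k, Φ k := by
  rw [← Equiv.sum_comp (Fin.insertNthEquiv (fun _ => Fin m) j), Fintype.sum_prod_type]
  simp only [Fin.insertNthEquiv_apply, Fin.insertNth_apply_succAbove]
  rw [Finset.sum_const, nsmul_eq_mul, Finset.card_univ, Fintype.card_fin]

end Sorting

section Transfer

variable {G : Type*} [Group G]

/-- The sorted tuple of lifts. -/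
def srt (x : G) {m N : ℕ} (a : Fin N → Fin m) (p : Fin N → G) : Fin N → G :=
  fun i => x ^ (a (Tuple.sort a i) : ℕ) * p (Tuple.sort a i)

/-- The transfer from `x ^ m` to `x`. -/
def trs (x : G) (m : ℕ) {N : ℕ} (ψ : (Fin N → G) → ℝ) (p : Fin N → G) : ℝ :=
  ∑ a : Fin N → Fin m, eps a * ψ (srt x a p)

theorem trs_growth {x : G} {m N : ℕ} {L : G → ℝ} (hL : IsLength L) {ψ : (Fin N → G) → ℝ}
    (hψ : SubExp x L ψ) : SubExp x L (trs x m ψ) := by
  refine SubExp.sum hL Finset.univ fun a _ => SubExp.smul hL _ ?_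
  have h1 : SubExp x L fun q : Fin N → G => ψ fun i => x ^ (a (Tuple.sort a i) : ℕ) * q i :=
    hψ.of_siz_le (fun q i => x ^ (a (Tuple.sort a i) : ℕ) * q i)
      (c := N * N * (2 * m + 1) + 1) (by (clear * -; positivity)) fun p =>
        siz_shift hL x (fun i => (a (Tuple.sort a i) : ℕ)) (M := m) (fun i => (a _).2.le) p
  exact h1.comp hL (Tuple.sort a)

theorem trs_inv {x : G} {m N : ℕ} {ψ : (Fin N → G) → ℝ} (hψ : CInv (x ^ m) ψ) :
    CInv x (trs x m ψ) := by
  intro h hh p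
  refine Finset.sum_congr rfl fun a _ => ?_
  rw [← hψ h (hh.pow_right m) (srt x a p)]
  congr 2
  funext i
  simp only [tra, srt]
  rw [← mul_assoc, ← mul_assoc, (hh.pow_right _).eq]

theorem cob_trs {x : G} {m N : ℕ} {ψ : (Fin N → G) → ℝ} (hψ : ∀ p, DData.cob ψ p = 1)
    (p : Fin (N + 1) → G) :
    m * DData.cob (trs x m ψ) p = ∑ b : Fin (N + 1) → Fin m, eps b := by
  unfold DData.cob trs
  rw [Finset.mul_sum]
  have h1 : ∀ j : Fin (N + 1), (m : ℝ) * ((-1) ^ (j : ℕ) * ∑ a : Fin N → Fin m,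
      eps a * ψ (srt x a fun i => p (j.succAbove i))) = ∑ b : Fin (N + 1) → Fin m,
      (-1) ^ (j : ℕ) * (eps (fun i => b (j.succAbove i)) *
        ψ (srt x (fun i => b (j.succAbove i)) fun i => p (j.succAbove i))) := by
    intro j
    rw [← Finset.mul_sum, sum_forget_fin j fun a =>
      eps a * ψ (srt x a fun i => p (j.succAbove i))]
    ring
  rw [Finset.sum_congr rfl fun j _ => h1 j, Finset.sum_comm]
  refine Finset.sum_congr rfl fun b _ => ?_
  rw [← Equiv.sum_comp (Tuple.sort b)]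
  have h2 : ∀ k : Fin (N + 1), (-1) ^ (Tuple.sort b k : ℕ) *
      (eps (fun i => b ((Tuple.sort b k).succAbove i)) *
        ψ (srt x (fun i => b ((Tuple.sort b k).succAbove i))
          fun i => p ((Tuple.sort b k).succAbove i))) =
      eps b * ((-1) ^ (k : ℕ) * ψ fun i => srt x b p (k.succAbove i)) := by
    intro k
    obtain ⟨h3, h4⟩ := sort_delete b k
    rw [← mul_assoc, h4, mul_assoc]
    congr 3
    funext i
    simp only [srt]
    rw [h3]
  rw [Finset.sum_congr rfl fun k _ => h2 k, ← Finset.mul_sum]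
  have h3 := hψ (srt x b p)
  unfold DData.cob at h3
  rw [h3, mul_one]

/-- The cyclic shift of the words. -/
def rotW {m N : ℕ} [NeZero m] (a : Fin (N + 1) → Fin m) : Fin (N + 1) → Fin m :=
  Fin.cons (a (Fin.last N) + 1) fun i => a i.castSucc

theorem rotW_bij (m N : ℕ) [NeZero m] :
    Function.Bijective (rotW : (Fin (N + 1) → Fin m) → Fin (N + 1) → Fin m) := by
  rw [← Finite.injective_iff_bijective]
  intro a b h
  have h0 := congrFun h 0
  simp only [rotW, Fin.cons_zero, add_left_inj] at h0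
  funext i
  refine Fin.lastCases h0 (fun k => ?_) i
  have := congrFun h k.succ
  simpa only [rotW, Fin.cons_succ] using this

theorem rotW_rot {m N : ℕ} [NeZero m] (a : Fin (N + 1) → Fin m) {i : Fin (N + 1)}
    (hi : i ≠ Fin.last N) : rotW a (finRotate (N + 1) i) = a i := by
  obtain ⟨k, rfl⟩ : ∃ k : Fin N, i = k.castSucc := ⟨i.castPred hi, by simp⟩
  rw [finRotate_apply, Fin.coeSucc_eq_succ]
  rfl

theorem rotW_rot_last {m N : ℕ} [NeZero m] (a : Fin (N + 1) → Fin m) :
    rotW a (finRotate (N + 1) (Fin.last N)) = a (Fin.last N) + 1 := by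
  rw [finRotate_last]
  rfl

theorem rot_lt {N : ℕ} {i j : Fin (N + 1)} (hij : i < j) (hj : j ≠ Fin.last N) :
    finRotate (N + 1) i < finRotate (N + 1) j := by
  have hi : i ≠ Fin.last N := fun h => by
    rw [h] at hij
    exact absurd (Fin.le_last j) hij.not_ge
  rw [Fin.lt_def, coe_finRotate_of_ne_last hi, coe_finRotate_of_ne_last hj]
  exact Nat.succ_lt_succ hij

theorem sort_rot_one {m N : ℕ} [NeZero m] (a : Fin (N + 1) → Fin m)
    (h : (a (Fin.last N) : ℕ) + 1 < m) :
    finRotate (N + 1) * Tuple.sort a = Tuple.sort (rotW a) := by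
  rw [eq_sort_iff_lex]
  have hv : ((a (Fin.last N) + 1 : Fin m) : ℕ) = a (Fin.last N) + 1 := by
    rw [Fin.val_add, Fin.val_one', Nat.add_mod_mod, Nat.mod_eq_of_lt h]
  intro i j hij
  have h1 := eq_sort_iff_lex.1 (rfl : Tuple.sort a = Tuple.sort a) i j hij
  simp only [Perm.mul_apply]
  by_cases hi : Tuple.sort a i = Fin.last N
  · have hj : Tuple.sort a j ≠ Fin.last N := fun hj => hij.ne ((Tuple.sort a).injective
      (hi.trans hj.symm))
    rw [hi] at h1 ⊢
    rw [rotW_rot_last, rotW_rot a hj]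
    have h2 : a (Fin.last N) < a (Tuple.sort a j) := by
      rcases h1 with h1 | h1
      · exact h1
      · exact absurd (Fin.le_last _) h1.2.not_ge
    have h3 : a (Fin.last N) + 1 ≤ a (Tuple.sort a j) := by
      rw [Fin.le_def, hv]
      exact h2
    rcases h3.lt_or_eq with h4 | h4
    · exact Or.inl h4
    · refine Or.inr ⟨h4, ?_⟩
      rw [finRotate_last]
      refine lt_of_le_of_ne (Fin.zero_le _) fun h0 => ?_
      rw [← finRotate_last (n := N)] at h0
      exact hj ((finRotate (N + 1)).injective h0).symm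
  · by_cases hj : Tuple.sort a j = Fin.last N
    · rw [hj] at h1 ⊢
      rw [rotW_rot_last, rotW_rot a hi]
      left
      have h2 : a (Tuple.sort a i) ≤ a (Fin.last N) := by
        rcases h1 with h1 | h1
        · exact h1.le
        · exact h1.1.le
      rw [Fin.lt_def, hv]
      exact Nat.lt_succ_of_le h2
    · rw [rotW_rot a hi, rotW_rot a hj]
      exact h1.imp id fun h1 => ⟨h1.1, rot_lt h1.2 hj⟩

theorem sort_last {m N : ℕ} (a : Fin (N + 1) → Fin m) (h : m ≤ (a (Fin.last N) : ℕ) + 1) :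
    Tuple.sort a (Fin.last N) = Fin.last N := by
  by_contra h0
  obtain ⟨i, hi⟩ := (Tuple.sort a).surjective (Fin.last N)
  have hil : i < Fin.last N := lt_of_le_of_ne (Fin.le_last i) fun h1 => h0 (by rw [← h1, hi, h1])
  have h1 := eq_sort_iff_lex.1 (rfl : Tuple.sort a = Tuple.sort a) i _ hil
  rw [hi] at h1
  rcases h1 with h1 | h1
  · have h2 := (a (Tuple.sort a (Fin.last N))).2
    have h3 := Fin.lt_def.1 h1
    omega
  · exact absurd (Fin.le_last _) h1.2.not_ge

theorem sort_rot_two {m N : ℕ} [NeZero m] (a : Fin (N + 1) → Fin m)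
    (h : m ≤ (a (Fin.last N) : ℕ) + 1) :
    finRotate (N + 1) * Tuple.sort a * (finRotate (N + 1))⁻¹ = Tuple.sort (rotW a) := by
  have hv : a (Fin.last N) + 1 = 0 := by
    apply Fin.ext
    have h1 := (a (Fin.last N)).2
    have h2 : (a (Fin.last N) : ℕ) + 1 = m := by omega
    rw [Fin.val_add, Fin.val_one', Nat.add_mod_mod, h2, Nat.mod_self, Fin.val_zero]
  have hl := sort_last a h
  have hinv : ∀ i, (finRotate (N + 1))⁻¹ (finRotate (N + 1) i) = i :=
    (finRotate (N + 1)).symm_apply_apply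
  rw [eq_sort_iff_lex]
  intro i j hij
  simp only [Perm.mul_apply]
  obtain ⟨i', rfl⟩ := (finRotate (N + 1)).surjective i
  obtain ⟨j', rfl⟩ := (finRotate (N + 1)).surjective j
  rw [hinv, hinv]
  have hj : j' ≠ Fin.last N := by
    rintro rfl
    rw [finRotate_last] at hij
    exact absurd hij (Fin.not_lt_zero _)
  have hj' : Tuple.sort a j' ≠ Fin.last N := fun h1 => hj ((Tuple.sort a).injective
    (h1.trans hl.symm))
  by_cases hi : i' = Fin.last N
  · subst hi
    rw [hl, rotW_rot_last, rotW_rot a hj', hv]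
    rcases (Fin.zero_le (a (Tuple.sort a j'))).lt_or_eq with h4 | h4
    · exact Or.inl h4
    · refine Or.inr ⟨h4, ?_⟩
      rw [finRotate_last]
      refine lt_of_le_of_ne (Fin.zero_le _) fun h0 => ?_
      rw [← finRotate_last (n := N)] at h0
      exact hj' ((finRotate (N + 1)).injective h0).symm
  · have hi' : Tuple.sort a i' ≠ Fin.last N := fun h1 => hi ((Tuple.sort a).injective
      (h1.trans hl.symm))
    have hij' : i' < j' := by
      rw [Fin.lt_def, coe_finRotate_of_ne_last hi, coe_finRotate_of_ne_last hj] at hij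
      exact Nat.lt_of_succ_lt_succ hij
    rw [rotW_rot a hi', rotW_rot a hj']
    exact (eq_sort_iff_lex.1 (rfl : Tuple.sort a = Tuple.sort a) i' j' hij').imp id
      fun h1 => ⟨h1.1, rot_lt h1.2 hj'⟩

theorem shf_rot (x : G) {N : ℕ} (p : Fin (N + 1) → G) {i : Fin (N + 1)} (hi : i ≠ Fin.last N) :
    shf x p i = p (finRotate (N + 1) i) := by
  rw [shf_eq]
  simp only [if_neg hi, zpow_zero, one_mul]

theorem shf_rot_last (x : G) {N : ℕ} (p : Fin (N + 1) → G) :
    shf x p (Fin.last N) = x * p (finRotate (N + 1) (Fin.last N)) := by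
  rw [shf_last, finRotate_last]

theorem trs_anti {x : G} {m N : ℕ} [NeZero m] (hN : Odd N) {ψ : (Fin (N + 1) → G) → ℝ}
    (hψ : ∀ p, ψ (shf (x ^ m) p) = - ψ p) (p : Fin (N + 1) → G) :
    trs x m ψ (shf x p) = - trs x m ψ p := by
  unfold trs
  rw [← Equiv.sum_comp (Equiv.ofBijective _ (rotW_bij m N))
    fun a => eps a * ψ (srt x a p), ← Finset.sum_neg_distrib]
  refine Finset.sum_congr rfl fun a _ => ?_
  simp only [Equiv.ofBijective_apply]
  rcases lt_or_ge ((a (Fin.last N) : ℕ) + 1) m with h | h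
  · have h1 := sort_rot_one a h
    have hv : ((a (Fin.last N) + 1 : Fin m) : ℕ) = a (Fin.last N) + 1 := by
      rw [Fin.val_add, Fin.val_one', Nat.add_mod_mod, Nat.mod_eq_of_lt h]
    have h2 : eps (rotW a) = - eps a := by
      unfold eps
      rw [← h1, Perm.sign_mul, sign_finRotate, Nat.add_sub_cancel, hN.neg_one_pow]
      push_cast
      ring
    have h3 : srt x (rotW a) p = srt x a (shf x p) := by
      funext i
      simp only [srt]
      rw [← h1, Perm.mul_apply]
      by_cases hi : Tuple.sort a i = Fin.last N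
      · rw [hi, rotW_rot_last, shf_rot_last, hv, pow_succ, mul_assoc]
      · rw [rotW_rot a hi, shf_rot x p hi]
    rw [h2, h3]
    ring
  · have h1 := sort_rot_two a h
    have hl := sort_last a h
    have hv : a (Fin.last N) + 1 = 0 := by
      apply Fin.ext
      have h1 := (a (Fin.last N)).2
      have h2 : (a (Fin.last N) : ℕ) + 1 = m := by omega
      rw [Fin.val_add, Fin.val_one', Nat.add_mod_mod, h2, Nat.mod_self, Fin.val_zero]
    have h2 : eps (rotW a) = eps a := by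
      unfold eps
      rw [← h1, Perm.sign_mul, Perm.sign_mul, Perm.sign_inv, mul_comm, ← mul_assoc,
        Int.units_mul_self, one_mul]
    have hinv : ∀ i, (finRotate (N + 1))⁻¹ (finRotate (N + 1) i) = i :=
      (finRotate (N + 1)).symm_apply_apply
    have h3 : srt x a (shf x p) = shf (x ^ m) (srt x (rotW a) p) := by
      funext i
      by_cases hi : i = Fin.last N
      · subst hi
        rw [shf_rot_last]
        simp only [srt]
        rw [← h1]
        simp only [Perm.mul_apply, hinv, hl]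
        rw [shf_rot_last, rotW_rot_last, hv, Fin.val_zero, pow_zero, one_mul, ← mul_assoc,
          ← pow_succ]
        congr 2
        have h1 := (a (Fin.last N)).2
        omega
      · have hi' : Tuple.sort a i ≠ Fin.last N := fun h1 => hi ((Tuple.sort a).injective
          (h1.trans hl.symm))
        rw [shf_rot _ _ hi]
        simp only [srt]
        rw [← h1]
        simp only [Perm.mul_apply, hinv]
        rw [shf_rot _ _ hi', rotW_rot a hi']
    rw [h2, h3, hψ]
    ring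

/-- Roots. -/
theorem cycTame_of_pow {x : G} {m : ℕ} (hm : m ≠ 0) (h : CycTame (x ^ m)) : CycTame x := by
  have : NeZero m := ⟨hm⟩
  have hmR : (m : ℝ) ≠ 0 := Nat.cast_ne_zero.2 hm
  obtain ⟨L, hL, n, ψ, hn, h1, h2, h3, h4⟩ := h
  obtain ⟨k, rfl⟩ : ∃ k, n = k + 1 := ⟨n - 1, by omega⟩
  have h3' := (cycAnti_iff (m := 2 * k + 1)).1 h3
  refine ⟨L, hL, k + 1, fun p => ((m : ℝ) ^ (k + 1))⁻¹ * trs x m ψ p, hn, fun h hh p => ?_,
    (trs_growth hL (SubExp.of_pow hL h2)).smul hL _, ?_, fun p => ?_⟩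
  · exact congrArg _ (trs_inv h1 h hh p)
  · refine (cycAnti_iff (m := 2 * k + 1)).2 fun p => ?_
    have := trs_anti (x := x) (m := m) (N := 2 * k + 1) ⟨k, rfl⟩ h3' p
    exact (congrArg (fun t => ((m : ℝ) ^ (k + 1))⁻¹ * t) this).trans (mul_neg _ _)
  · have h5 := cob_trs (x := x) (m := m) h4 p
    have h6 := sum_eps (k + 1) m
    rw [cob_smul]
    have h7 : (m : ℝ) * DData.cob (trs x m ψ) p = (m : ℝ) ^ (k + 1 + 1) := h5.trans h6
    have h8 : DData.cob (trs x m ψ) p = (m : ℝ) ^ (k + 1) := by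
      apply mul_left_cancel₀ hmR
      rw [h7, pow_succ']
    rw [h8, inv_mul_cancel₀ (pow_ne_zero _ hmR)]

end Transfer

section Local

variable {G : Type*} [Group G]

theorem locCyc_of_pow {x : G} {m : ℕ} (hm : m ≠ 0) (h : LocCyc (x ^ m)) : LocCyc x := by
  intro Q hx
  exact cycTame_of_pow hm (h Q (Subgroup.pow_mem _ hx m))

theorem locCyc_of_finiteIndex (K : Subgroup G) [K.FiniteIndex] {x : G} {m : ℕ} (hm0 : m ≠ 0)
    (hm : x ^ m ∈ K) (h : LocCyc (⟨x ^ m, hm⟩ : K)) : LocCyc x := by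
  classical
  intro Q hx
  set H : Subgroup G := Subgroup.closure (Q : Set G) with hH
  have hHfg : Group.FG H := (Group.fg_iff_subgroup_fg H).2 ⟨Q, rfl⟩
  have hfg : Group.FG (K.subgroupOf H) := Subgroup.fg_of_index_ne_zero (K.subgroupOf H)
  let f : K.subgroupOf H →* K :=
    { toFun := fun g => ⟨((g : H) : G), Subgroup.mem_subgroupOf.1 g.2⟩
      map_one' := rfl
      map_mul' := fun _ _ => rfl }
  have hfr : f.range.FG := (Group.fg_iff_subgroup_fg _).1 (Group.fg_range f)
  obtain ⟨S, hS⟩ := hfr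
  have hxm : (⟨x, hx⟩ : H) ^ m ∈ K.subgroupOf H := by
    rw [Subgroup.mem_subgroupOf]
    exact hm
  set z : K.subgroupOf H := ⟨⟨x, hx⟩ ^ m, hxm⟩ with hz
  have hmem : ∀ g, f g ∈ Subgroup.closure (S : Set K) := fun g => by
    rw [hS]
    exact ⟨g, rfl⟩
  have h1 : CycTame (⟨f z, hmem z⟩ : Subgroup.closure (S : Set K)) := h S (hmem z)
  let g : K.subgroupOf H →* Subgroup.closure (S : Set K) := f.codRestrict _ hmem
  have h2 : CycTame z := CycTame.map g h1
  exact cycTame_of_pow hm0 (cycTame_of_finiteIndex (K.subgroupOf H) h2)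

/-- Overgroups of finite index. -/
theorem locCyc_or_goodD_of_finiteIndex (K : Subgroup G) [K.FiniteIndex]
    (h : ∀ y : K, ¬ IsOfFinOrder y → LocCyc y ∨ GoodD y) (x : G) (hx : ¬ IsOfFinOrder x) :
    LocCyc x ∨ GoodD x := by
  obtain ⟨m, hm0, -, hm⟩ := Subgroup.exists_pow_mem_of_index_ne_zero
    (Subgroup.FiniteIndex.index_ne_zero (H := K)) x
  have hz : ¬ IsOfFinOrder (⟨x ^ m, hm⟩ : K) := by
    intro h
    have h1 : IsOfFinOrder (x ^ m) :=
      (Submonoid.isOfFinOrder_coe (H := K.toSubmonoid) (x := ⟨x ^ m, hm⟩)).mpr h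
    exact hx (IsOfFinOrder.of_pow h1 hm0.ne')
  exact (h _ hz).imp (locCyc_of_finiteIndex K hm0.ne' hm) (goodD_of_finiteIndex_pow K hm)

end Local

end Vale.Agent.P184
end
end

section

/-!
# Local form of the condition on the elements of finite order
-/

noncomputable section

namespace Vale.Agent.P184

universe u v

/-- For every finite set `S` and every `δ`, all torsion elements of the subgroup generated by `S`
outside finitely many classes have slow maps. -/
def TGoodL (G : Type*) [Group G] : Prop :=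
  ∀ S : Set G, S.Finite → ∀ δ : ℝ, 0 < δ → ∃ B : Set G, B.Finite ∧
    ∀ y ∈ Subgroup.closure S, IsOfFinOrder y → (∀ b ∈ B, ¬ IsConj b y) → SlowD y S δ

theorem tgoodL_of_tgoodD {G : Type*} [Group G] (h : TGoodD G) : TGoodL G := by
  intro S hS δ hδ
  obtain ⟨B, hB, hB2⟩ := h S hS δ hδ
  exact ⟨B, hB, fun y _ => hB2 y⟩

theorem tgoodL_of_locFin {G : Type*} [Group G] (h : LocFinTorsion G) : TGoodL G := by
  intro S hS δ _
  have h1 := h hS.toFinset
  rw [Set.Finite.coe_toFinset] at h1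
  refine ⟨(fun C : ConjClasses (Subgroup.closure S) => ((Quotient.out C : Subgroup.closure S) : G)) ''
    {C | IsTorsionClass C}, h1.image _, fun y hy hyo hyB => ?_⟩
  exfalso
  set z : Subgroup.closure S := ⟨y, hy⟩ with hz
  have hzo : IsOfFinOrder z :=
    (Submonoid.isOfFinOrder_coe (H := (Subgroup.closure S).toSubmonoid) (x := z)).mp hyo
  have hc : IsConj (Quotient.out (ConjClasses.mk z) : Subgroup.closure S) z := by
    rw [← ConjClasses.mk_eq_mk_iff_isConj]
    exact Quotient.out_eq _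
  refine hyB _ ⟨ConjClasses.mk z, ?_, rfl⟩ ((Subgroup.closure S).subtype.map_isConj hc)
  intro g hg
  rw [ConjClasses.mem_carrier_iff_mk_eq, ConjClasses.mk_eq_mk_iff_isConj] at hg
  exact hg.symm.isOfFinOrder hzo

theorem tgoodL_of_amen {G : Type*} [Group G]
    (h : ∀ S : Set G, S.Finite → ∃ B : Set G, B.Finite ∧ ∀ x ∈ Subgroup.closure S,
      IsOfFinOrder x → AmenCentr x ∨ ∃ b ∈ B, IsConj b x) : TGoodL G := by
  intro S hS δ hδ
  obtain ⟨R, hR, hRex⟩ := h S hS
  by_cases hA : PropA G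
  · obtain ⟨B, hB, _, hB2⟩ := slow_of_propA hA hS hδ
    refine ⟨R ∪ B, hR.union hB, fun y hyS hy hb => ?_⟩
    rcases hRex y hyS hy with h1 | ⟨b, hbR, hby⟩
    · exact slowD_of_slow h1.2 (hB2 y fun b hb' => hb b (Or.inr hb'))
    · exact absurd hby (hb b (Or.inl hbR))
  · refine ⟨R, hR, fun y hyS hy hb => ?_⟩
    rcases hRex y hyS hy with h1 | ⟨b, hbR, hby⟩
    · exact absurd h1.1 hA
    · exact absurd hby (hb b hbR)

theorem slowD_mono {G : Type*} [Group G] {x : G} {S T : Set G} {δ : ℝ} (hST : S ⊆ T)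
    (h : SlowD x T δ) : SlowD x S δ := by
  obtain ⟨D, hD, h1, h2, ι, hι, ζ, u, h3, h4, h5, h6, h7⟩ := h
  exact ⟨D, hD, h1, h2, ι, hι, ζ, u, h3, h4, h5, h6, fun s hs => h7 s (hST hs)⟩

/-- The traces of an idempotent vanish on the classes not meeting a certain finitely generated
subgroup. -/
theorem exists_support {G : Type u} [Group G] {q : ℕ} (e : Matrix (Fin q) (Fin q) (G → ℂ))
    (he : IsIdem e) : ∃ S : Finset G, ∀ x : G,
      (∀ y ∈ Subgroup.closure (S : Set G), ¬ IsConj x y) → tau (ConjClasses.mk x) e = 0 := by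
  obtain ⟨S, hS⟩ := transfer.{u, u} e he
  refine ⟨S, fun x hx => ?_⟩
  obtain ⟨s, hfs, hsm⟩ := liftsTo_closure S
  obtain ⟨b, hb, htau⟩ := hS _ (Subgroup.closure (S : Set G)).subtype s hfs hsm
  rw [htau]
  refine tsum_classes hb _ _ fun D hD => ?_
  obtain ⟨y, rfl⟩ := ConjClasses.mk_surjective D
  have h1 : ConjClasses.mk ((y : G)) = ConjClasses.mk x := hD
  exact absurd (ConjClasses.mk_eq_mk_iff_isConj.mp h1).symm (hx y y.2)

theorem l1Bass_of_tgoodL {G : Type u} [Group G] (h0 : ∀ x : G, ¬ IsOfFinOrder x → VanishesAt x)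
    (hT : TGoodL G) : L1Bass G := by
  classical
  intro q e he
  obtain ⟨S₁, δ, hδ, h⟩ := exists_slowD_param e he
  obtain ⟨S₂, h2⟩ := exists_support e he
  obtain ⟨B, hB, hB2⟩ := hT ((S₁ ∪ S₂ : Finset G) : Set G) (Finset.finite_toSet _) δ hδ
  refine ⟨(hB.image ConjClasses.mk).toFinset.filter fun C => IsTorsionClass C,
    fun C hC => (Finset.mem_filter.mp hC).2, fun C hC => ?_⟩
  obtain ⟨x, rfl⟩ := ConjClasses.mk_surjective C
  by_cases hx : IsOfFinOrder x
  · by_cases hy : ∀ y ∈ Subgroup.closure (S₂ : Set G), ¬ IsConj x y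
    · exact h2 x hy
    · push Not at hy
      obtain ⟨y, hy, hxy⟩ := hy
      have hyo : IsOfFinOrder y := hxy.isOfFinOrder hx
      have hyS : y ∈ Subgroup.closure ((S₁ ∪ S₂ : Finset G) : Set G) :=
        Subgroup.closure_mono (by rw [Finset.coe_union]; exact Set.subset_union_right) hy
      have hconj : ∀ b ∈ B, ¬ IsConj b y := by
        intro b hb hby
        apply hC
        rw [Finset.mem_filter, Set.Finite.mem_toFinset]
        refine ⟨⟨b, hb, ConjClasses.mk_eq_mk_iff_isConj.mpr (hby.trans hxy.symm)⟩, ?_⟩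
        intro g hg
        rw [ConjClasses.mem_carrier_iff_mk_eq, ConjClasses.mk_eq_mk_iff_isConj] at hg
        exact hg.symm.isOfFinOrder hx
      have h3 := h y (slowD_mono (by rw [Finset.coe_union]; exact Set.subset_union_left)
        (hB2 y hyS hyo hconj))
      rwa [ConjClasses.mk_eq_mk_iff_isConj.mpr hxy]
  · exact h0 x hx q e he

/-- Direct products. -/
theorem tgoodL_prod {G K : Type*} [Group G] [Group K] (hG : TGoodL G) (hK : TGoodL K) :
    TGoodL (G × K) := by
  intro S hS δ hδ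
  obtain ⟨B, hB, hB2⟩ := hG (MonoidHom.fst G K '' S) (hS.image _) δ hδ
  obtain ⟨C, hC, hC2⟩ := hK (MonoidHom.snd G K '' S) (hS.image _) δ hδ
  refine ⟨B ×ˢ C, hB.prod hC, fun y hyS hy hyBC => ?_⟩
  have g1 : y.1 ∈ Subgroup.closure (MonoidHom.fst G K '' S) := by
    rw [← MonoidHom.map_closure]
    exact ⟨y, hyS, rfl⟩
  have g2 : y.2 ∈ Subgroup.closure (MonoidHom.snd G K '' S) := by
    rw [← MonoidHom.map_closure]
    exact ⟨y, hyS, rfl⟩
  by_cases h1 : ∀ b ∈ B, ¬ IsConj b y.1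
  · exact slowD_hom (MonoidHom.fst G K)
      (hB2 _ g1 (MonoidHom.isOfFinOrder (MonoidHom.fst G K) hy) h1)
  · by_cases h2 : ∀ c ∈ C, ¬ IsConj c y.2
    · exact slowD_hom (MonoidHom.snd G K)
        (hC2 _ g2 (MonoidHom.isOfFinOrder (MonoidHom.snd G K) hy) h2)
    · push Not at h1 h2
      obtain ⟨b, hb, hby⟩ := h1
      obtain ⟨c, hc, hcy⟩ := h2
      exfalso
      refine hyBC (b, c) ⟨hb, hc⟩ ?_
      obtain ⟨g, hg⟩ := isConj_iff.mp hby
      obtain ⟨k, hk⟩ := isConj_iff.mp hcy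
      exact isConj_iff.mpr ⟨(g, k), Prod.ext hg hk⟩

theorem step_mem_closure {G K : Type*} [Group G] [Group K] (r : G → K) {T : Set G} {T' : Set K}
    (h : ∀ s ∈ T, ∀ p, (r p)⁻¹ * r (p * s) ∈ T') {x : G} (hx : x ∈ Subgroup.closure T) :
    ∀ p, (r p)⁻¹ * r (p * x) ∈ Subgroup.closure T' := by
  induction hx using Subgroup.closure_induction with
  | mem y hy => exact fun p => Subgroup.subset_closure (h y hy p)
  | one =>
    intro p
    rw [mul_one, inv_mul_cancel]
    exact Subgroup.one_mem _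
  | mul y z _ _ hy hz =>
    intro p
    have h1 := Subgroup.mul_mem _ (hy p) (hz (p * y))
    have h2 : (r p)⁻¹ * r (p * y) * ((r (p * y))⁻¹ * r (p * y * z)) =
        (r p)⁻¹ * r (p * (y * z)) := by
      rw [mul_assoc p]; group
    rwa [h2] at h1
  | inv y _ hy =>
    intro p
    have h1 := Subgroup.inv_mem _ (hy (p * y⁻¹))
    have h2 : ((r (p * y⁻¹))⁻¹ * r (p * y⁻¹ * y))⁻¹ = (r p)⁻¹ * r (p * y⁻¹) := by
      rw [inv_mul_cancel_right]; group
    rwa [h2] at h1

namespace RH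

variable {G : Type*} [Group G] {ι : Type*} {X : Set G} {H : ι → Subgroup G} {δ : ℕ}
  (S : RH X H δ)
include S

theorem tgoodL [Finite ι] (hH : ∀ k, TGoodL (H k)) : TGoodL G := by
  intro T hT ε hε
  obtain ⟨A, hA, hA2⟩ := S.exists_finite_conj
  choose B hB hB2 using fun k => hH k _ (S.finite_all_steps k hT) ε hε
  refine ⟨A ∪ ((⋃ k, ((↑) '' B k : Set G)) ∪ ⋃ k, {h | h ∈ H k ∧ Lnk X H k (6 * δ + 8) 1 h}),
    hA.union ((Set.finite_iUnion fun k => (hB k).image _).union
      (Set.finite_iUnion fun k => S.finite_lnk _)), ?_⟩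
  intro x hxT hx hconj
  have hb : ∃ B : ℕ, ∀ n : ℕ, rdist X H 1 (x ^ n) ≤ B := by
    have hfin : (Set.range fun n : ℕ => x ^ n).Finite := by
      refine hx.finite_powers.subset ?_
      rintro _ ⟨n, rfl⟩
      exact ⟨n, rfl⟩
    obtain ⟨B, hB⟩ := (hfin.image fun g => rdist X H 1 g).bddAbove
    exact ⟨B, fun n => hB ⟨_, ⟨n, rfl⟩, rfl⟩⟩
  rcases hA2 x hb with ⟨k, u, hu⟩ | ⟨u, hu⟩
  · -- conjugate further into the subgroup generated by the steps
    set y : H k := ⟨u⁻¹ * x * u, hu⟩ with hy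
    set z : H k := (S.prj k u⁻¹)⁻¹ * y * S.prj k u⁻¹ with hz
    have hzcl : z ∈ Subgroup.closure
        {h : H k | ∃ s ∈ T, ∃ p, (S.prj k p)⁻¹ * S.prj k (p * s) = h} := by
      have h1 := step_mem_closure (S.prj k) (T' := {h : H k | ∃ s ∈ T, ∃ p,
        (S.prj k p)⁻¹ * S.prj k (p * s) = h}) (fun s hs p => ⟨s, hs, p, rfl⟩) hxT u⁻¹
      have h2 : S.prj k (u⁻¹ * x) = y * S.prj k u⁻¹ := by
        have h3 : u⁻¹ * x = (y : G) * u⁻¹ := by rw [hy]; group
        rw [h3]
        exact Subtype.ext (proj_smul y.2 _)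
      rw [h2, ← mul_assoc] at h1
      exact h1
    have hyz : IsConj z y := isConj_iff.mpr ⟨S.prj k u⁻¹, by rw [hz]; group⟩
    have hxy : IsConj (z : G) x := ((H k).subtype.map_isConj hyz).trans
      (isConj_iff.mpr ⟨u, by rw [hy]; simp only [mul_assoc, Subgroup.subtype_apply, mul_inv_cancel_left, mul_inv_cancel, mul_one]⟩)
    have hzfin : IsOfFinOrder z := by
      refine (Submonoid.isOfFinOrder_coe (H := (H k).toSubmonoid) (x := z)).mp ?_
      exact hxy.symm.isOfFinOrder hx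
    have h1 : ∀ b ∈ B k, ¬ IsConj b z := by
      intro b hb hby
      refine hconj b (Or.inr (Or.inl (Set.mem_iUnion.2 ⟨k, b, hb, rfl⟩))) ?_
      exact ((H k).subtype.map_isConj hby).trans hxy
    have h2 : ∀ g : G, Commute g z → g ∈ H k := by
      intro g hg
      by_contra hgk
      obtain ⟨a, ha, hay⟩ := S.exists_conj_of_commute z.2 hg hgk
      refine hconj _ (Or.inr (Or.inr (Set.mem_iUnion.2 ⟨k, hay⟩))) (IsConj.trans ?_ hxy)
      exact isConj_iff.mpr ⟨a, by group⟩
    exact slowD_conj hxy (S.slowD_of_peripheral h2 (hB2 k z hzcl hzfin h1))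
  · exact absurd (isConj_iff.mpr ⟨u, by group⟩ : IsConj (u⁻¹ * x * u) x) (hconj _ (Or.inl hu))

end RH

theorem RelHyperbolic.tgoodL {G : Type*} [Group G] {ι : Type*} {H : ι → Subgroup G}
    (hG : RelHyperbolic H) (hH : ∀ k, TGoodL (H k)) : TGoodL G := by
  obtain ⟨hfin, X, δ, S⟩ := hG.exists_rh
  exact S.tgoodL hH

end Vale.Agent.P184
end
end

section

/-!
# The clauses of the combined statement, cyclic form
-/

namespace Vale.Agent.P184.W

universe u v w

theorem slowAt_iff {G : Type*} [Group G] {x : G} {S : Finset G} {δ : ℝ} :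
    SlowAt x S δ ↔ V.SlowAt x S δ := Iff.rfl

theorem amenCentr_iff {G : Type*} [Group G] {x : G} : AmenCentr x ↔ V.AmenCentr x := Iff.rfl

theorem isRelHyp_iff {G : Type*} [Group G] {ι : Type*} {H : ι → Subgroup G} :
    IsRelHyp H ↔ V.IsRelHyp H := Iff.rfl

theorem cat0_iff {G X : Type*} [Group G] [MetricSpace X] [MulAction G X] :
    Cat0Action G X ↔ V.Cat0Action G X := Iff.rfl

theorem tameAt_iff {G : Type*} [Group G] {x : G} : TameAt x ↔ CycTame x := by
  constructor
  · rintro ⟨L, hL, n, ψ, hn, h1, h2, h3, h4⟩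
    exact ⟨L, hL, n, ψ, hn, h2, h1, h3, h4⟩
  · rintro ⟨L, hL, n, ψ, hn, h1, h2, h3, h4⟩
    exact ⟨L, hL, n, ψ, hn, h2, h1, h3, h4⟩

theorem mild_iff {G : Type*} [Group G] {x : G} : Mild x ↔ LocCyc x ∨ GoodD x := by
  refine or_congr ?_ ?_
  · exact forall_congr' fun _ => forall_congr' fun _ => tameAt_iff
  · constructor
    · intro h S hS δ hδ
      have := V.slowAt_iff'.1 (slowAt_iff.1 (h hS.toFinset (δ ^ 2) (by (clear * - hδ; positivity))))
      rwa [Set.Finite.coe_toFinset] at this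
    · exact fun h S δ hδ => slowAt_iff.2 ((V.slowAt_iff hδ.le).2
        (h S S.finite_toSet _ (Real.sqrt_pos.2 hδ)))

theorem locCyc_of_locTame {G : Type*} [Group G] {x : G} (h : LocTame x) : LocCyc x :=
  fun S hS => cycTame_of_tame (h S hS)

theorem tors_iff {G : Type*} [Group G] :
    (∀ (S : Finset G) (δ : ℝ), 0 < δ → ∃ B : Finset G, ∀ x ∈ Subgroup.closure (S : Set G),
      IsOfFinOrder x → SlowAt x S δ ∨ ∃ b ∈ B, IsConj b x) ↔ TGoodL G := by
  classical
  constructor
  · intro h S hS δ hδ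
    obtain ⟨B, hB⟩ := h hS.toFinset (δ ^ 2) (by positivity)
    rw [Set.Finite.coe_toFinset] at hB
    refine ⟨B, B.finite_toSet, fun y hyS hy hyB => ?_⟩
    rcases hB y hyS hy with h1 | ⟨b, hb, hby⟩
    · have := V.slowAt_iff'.1 (slowAt_iff.1 h1)
      rwa [Set.Finite.coe_toFinset] at this
    · exact absurd hby (hyB b hb)
  · intro h S δ hδ
    obtain ⟨B, hB, hB2⟩ := h S S.finite_toSet _ (Real.sqrt_pos.2 hδ)
    refine ⟨hB.toFinset, fun y hyS hy => ?_⟩
    by_cases h1 : ∀ b ∈ B, ¬ IsConj b y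
    · exact Or.inl (slowAt_iff.2 ((V.slowAt_iff hδ.le).2 (hB2 y hyS hy h1)))
    · push Not at h1
      obtain ⟨b, hb, hby⟩ := h1
      exact Or.inr ⟨b, hB.mem_toFinset.2 hb, hby⟩

theorem nice_iff {G : Type*} [Group G] :
    Nice G ↔ (∀ x : G, ¬ IsOfFinOrder x → LocCyc x ∨ GoodD x) ∧ TGoodL G :=
  and_congr (forall_congr' fun _ => forall_congr' fun _ => mild_iff) tors_iff

theorem nice_of_V {G : Type*} [Group G] (h : V.Nice G) : Nice G :=
  nice_iff.2 ⟨fun x hx => ((V.nice_iff.1 h).1 x hx).imp locCyc_of_locTame id,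
    tgoodL_of_tgoodD (V.nice_iff.1 h).2⟩

theorem mild_of_V {G : Type*} [Group G] {x : G} (h : V.Mild x) : Mild x :=
  mild_iff.2 ((V.mild_iff.1 h).imp locCyc_of_locTame id)

theorem vanishesAt_of_mild {G : Type*} [Group G] {x : G} (h : Mild x) : VanishesAt x :=
  (mild_iff.1 h).elim vanishesAt_of_locCyc vanishesAt_of_goodD

theorem l1Bass_of_nice {G : Type*} [Group G] (h : Nice G) : L1Bass G :=
  l1Bass_of_tgoodL (fun _ hx => vanishesAt_of_mild (h.1 _ hx)) (nice_iff.1 h).2

theorem mild_of_amenCentr {G : Type*} [Group G] {x : G} (hx : ¬ IsOfFinOrder x)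
    (h : AmenCentr x) : Mild x := mild_of_V (V.mild_of_amenCentr hx (amenCentr_iff.1 h))

theorem nice_of_almostAmen {G : Type*} [Group G] (h : AlmostAmen G) : Nice G := by
  obtain h | ⟨h1, h2⟩ := h
  · exact nice_of_V (V.nice_of_amenable h)
  · refine ⟨fun x hx => (h1 x hx).elim id (mild_of_amenCentr hx), tors_iff.2 ?_⟩
    refine tgoodL_of_amen fun S hS => ?_
    obtain ⟨B, hB⟩ := h2 hS.toFinset
    rw [Set.Finite.coe_toFinset] at hB
    exact ⟨B, B.finite_toSet, fun x hxS hx =>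
      (hB x hxS hx).imp (fun h => V.amenCentr_of (amenCentr_iff.1 h)) id⟩

theorem relHyp_mild {G : Type*} [Group G] {ι : Type*} {H : ι → Subgroup G}
    (hG : IsRelHyp H) (hH : ∀ k, MildInf (H k)) : MildInf G := fun x hx =>
  mild_iff.2 ((V.relHyperbolic_of (isRelHyp_iff.1 hG)).locCyc_or_goodD
    (fun l y hy => mild_iff.1 (hH l y hy)) x hx)

theorem relHyp_nice {G : Type*} [Group G] {ι : Type*} {H : ι → Subgroup G}
    (hG : IsRelHyp H) (hH : ∀ k, Nice (H k)) : Nice G :=
  ⟨relHyp_mild hG fun k => (hH k).1, tors_iff.2 ((V.relHyperbolic_of (isRelHyp_iff.1 hG)).tgoodL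
      fun k => (nice_iff.1 (hH k)).2)⟩

theorem mild_hom {G : Type*} [Group G] {K : Type*} [Group K] (f : G →* K) {x : G}
    (h : Mild (f x)) : Mild x :=
  mild_iff.2 ((mild_iff.1 h).imp (locCyc_of_map f) (goodD_of_hom f))

theorem mild_image {G : Type*} [Group G] {K : Type*} [Group K] {x : G} {y : K}
    (hxy : Image x y) (h : Mild y) : Mild x := by
  obtain ⟨D, m, hm, f, hD, rfl⟩ := hxy
  rcases mild_iff.1 (mild_hom f h) with h1 | h1
  · exact mild_iff.2 (Or.inl (locCyc_of_finiteIndex D m.succ_ne_zero hm h1))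
  · exact mild_iff.2 (Or.inr (goodD_of_finiteIndex_pow D hm h1))

theorem nice_prod {G : Type*} [Group G] {K : Type*} [Group K] (hG : Nice G) (hK : Nice K) :
    Nice (G × K) := by
  have h1 : MildInf (G × K) := by
    intro x hx
    by_cases h : IsOfFinOrder x.1
    · by_cases h' : IsOfFinOrder x.2
      · exact absurd (IsOfFinOrder.prod_mk h h') hx
      · exact mild_hom (MonoidHom.snd G K) (hK.1 _ h')
    · exact mild_hom (MonoidHom.fst G K) (hG.1 _ h)
  exact ⟨h1, tors_iff.2 (tgoodL_prod (nice_iff.1 hG).2 (nice_iff.1 hK).2)⟩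

theorem nice_of_cat {G : Type*} [Group G] {X : Type*} [MetricSpace X] [MulAction G X]
    (h : Cat0Action G X) : Nice G := nice_of_V (V.nice_of_cat (cat0_iff.1 h))

theorem mild_of_linDetected {G : Type*} [Group G] {x : G} {K : Type*} [Field K]
    (h : LinDetected x K) : Mild x := mild_of_V (V.mild_of_linDetected h)

theorem mild_of_polyNilpotent {G : Type*} [Group G] {x : G} (h : PolyNilpotent x) : Mild x := by
  obtain ⟨L, hL, h1, n, ψ, hn, h2, h3, h4, h5⟩ := h
  exact mild_iff.2 (Or.inl (locCyc_of_cyc (cycTame_of_poly hL h1 hn ψ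
    (fun h hh p _ => h3 h hh p) (fun p _ => h4 p) (fun p _ => h5 p) h2)))

theorem l1Bass_of_lifts {G : Type u} [Group G] (h : LimBass.{u, v} G) : L1Bass G := by
  refine l1Bass_of_local.{u, v} fun S => ?_
  obtain ⟨H, _, ⟨f, s, h1⟩, h2⟩ := h S
  exact ⟨H, inferInstance, f, s, ⟨fun x hx => (h1 x hx).1, fun x hx => (h1 x hx).2⟩, h2⟩

end Vale.Agent.P184.W
end
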