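import Mathlib
import Vale.Agent.P184.SDefs
import Vale.Agent.P184.Bdl.B3

namespace AFast458b6cx4a
theorem a0 : Algebra.IsIntegral ℝ ℂ := inferInstance
theorem a1 : Algebra.IsAlgebraic ℝ ℂ := inferInstance
@[reducible] noncomputable def a2.{u1, u2} {x1 : Type u1} {x2 : Type u2} [x3 : NormedRing x2] [x4 : NormedAlgebra ℂ x2] : DistribMulAction ℂ (Vale.Agent.P184.L1 x1 x2) := inferInstance
theorem a3 : Module.IsTorsionFree ℝ ℂ := inferInstance
theorem a4 : AddLeftReflectLE ℕ := inferInstance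
theorem a5.{u1, u2} {x1 : Type u1} {x2 : Type u2} [x3 : NormedRing x2] [x4 : NormedAlgebra ℂ x2] : ContinuousConstSMul ℂ (Vale.Agent.P184.L1 x1 x2) := inferInstance
@[reducible] noncomputable def a6.{u1, u2} {x1 : Type u1} {x2 : Type u2} [x3 : NormedRing x2] [x4 : NormedAlgebra ℂ x2] : MulAction ℂ (Vale.Agent.P184.L1 x1 x2) := inferInstance
@[reducible] noncomputable def a7.{u1, u2} {x1 : Type u1} {x2 : Type u2} [x3 : NormedRing x2] [x4 : NormedAlgebra ℂ x2] : Sub (Vale.Agent.P184.L1 x1 x2 →L[ℂ] Vale.Agent.P184.L1 x1 x2) := inferInstance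
@[reducible] def a8 : Monoid ℂ := inferInstance
theorem a9 : CovariantClass ℝ ℝ (Function.swap fun x1 x2 => x1 + x2) fun x1 x2 => x1 ≤ x2 := inferInstance
@[reducible] def a10 : Pow ℂ ℕ := inferInstance
@[reducible] def a11 : NPow ℂ := inferInstance
@[reducible] noncomputable def a12.{u1, u2} {x1 : Type u1} {x2 : Type u2} [x3 : NormedRing x2] [x4 : NormedAlgebra ℂ x2] : AddCommMonoid (Vale.Agent.P184.L1 x1 x2 →L[ℂ] Vale.Agent.P184.L1 x1 x2) := inferInstance
@[reducible] noncomputable def a13.{u1, u2} {x1 : Type u1} {x2 : Type u2} [x3 : NormedRing x2] [x4 : NormedAlgebra ℂ x2] : Distrib (Vale.Agent.P184.L1 x1 x2 →L[ℂ] Vale.Agent.P184.L1 x1 x2) := inferInstance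
theorem a14 : Algebra.IsSeparable ℝ ℂ := inferInstance
theorem a15.{u1, u2} {x1 : Type u1} {x2 : Type u2} [x3 : NormedRing x2] [x4 : NormedAlgebra ℂ x2] : UniformContinuousConstSMul ℂ (Vale.Agent.P184.L1 x1 x2) := inferInstance
@[reducible] noncomputable def a16.{u1, u2} {x1 : Type u1} {x2 : Type u2} [x3 : NormedRing x2] [x4 : NormedAlgebra ℂ x2] : Module ℂ (Vale.Agent.P184.L1 x1 x2) := inferInstance
@[reducible] noncomputable def a17.{u1, u2} {x1 : Type u1} {x2 : Type u2} [x3 : NormedRing x2] [x4 : NormedAlgebra ℂ x2] : AddCommGroup (Vale.Agent.P184.L1 x1 x2 →L[ℂ] Vale.Agent.P184.L1 x1 x2) := inferInstance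
theorem a18.{u1, u2} {x1 : Type u1} {x2 : Type u2} [x3 : NormedRing x2] : ContinuousAdd (Vale.Agent.P184.L1 x1 x2) := inferInstance
theorem a19.{u1, u2} {x1 : Type u1} {x2 : Type u2} [x3 : NormedRing x2] [x4 : NormedAlgebra ℂ x2] : ContinuousSMul ℂ (Vale.Agent.P184.L1 x1 x2) := inferInstance
theorem a20 : CharZero ℝ := inferInstance
@[reducible] noncomputable def a21.{u1, u2} {x1 : Type u1} {x2 : Type u2} [x3 : NormedRing x2] [x4 : NormedAlgebra ℂ x2] : SubNegMonoid (Vale.Agent.P184.L1 x1 x2 →L[ℂ] Vale.Agent.P184.L1 x1 x2) := inferInstance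
@[reducible] noncomputable def a22.{u1, u2} {x1 : Type u1} {x2 : Type u2} [x3 : NormedRing x2] [x4 : NormedAlgebra ℂ x2] : Ring (Vale.Agent.P184.L1 x1 x2 →L[ℂ] Vale.Agent.P184.L1 x1 x2) := inferInstance
@[reducible] def a23 : CommMonoid ℂ := inferInstance
@[reducible] noncomputable def a24.{u1, u2} {x1 : Type u1} {x2 : Type u2} [x3 : NormedRing x2] [x4 : NormedAlgebra ℂ x2] : Add (Vale.Agent.P184.L1 x1 x2 →L[ℂ] Vale.Agent.P184.L1 x1 x2) := inferInstance
@[reducible] noncomputable def a25.{u1, u2} {x1 : Type u1} {x2 : Type u2} [x3 : NormedRing x2] [x4 : NormedAlgebra ℂ x2] : Semiring (Vale.Agent.P184.L1 x1 x2 →L[ℂ] Vale.Agent.P184.L1 x1 x2) := inferInstance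
theorem a26 : IsLeftCancelAdd ℕ := inferInstance
theorem a27.{u1, u2} {x1 : Type u1} {x2 : Type u2} [x3 : NormedRing x2] : SequentialSpace (Vale.Agent.P184.L1 x1 x2) := inferInstance
theorem a28.{u1, u2} {x1 : Type u1} {x2 : Type u2} [x3 : NormedRing x2] : FrechetUrysohnSpace (Vale.Agent.P184.L1 x1 x2) := inferInstance
theorem a29.{u1, u2} {x1 : Type u1} {x2 : Type u2} [x3 : NormedRing x2] : FirstCountableTopology (Vale.Agent.P184.L1 x1 x2) := inferInstance
end AFast458b6cx4a
attribute [local instance] AFast458b6cx4a.a0 AFast458b6cx4a.a1 AFast458b6cx4a.a2 AFast458b6cx4a.a3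
  AFast458b6cx4a.a4 AFast458b6cx4a.a5 AFast458b6cx4a.a6 AFast458b6cx4a.a7 AFast458b6cx4a.a8
  AFast458b6cx4a.a9 AFast458b6cx4a.a10 AFast458b6cx4a.a11 AFast458b6cx4a.a12 AFast458b6cx4a.a13
  AFast458b6cx4a.a14 AFast458b6cx4a.a15 AFast458b6cx4a.a16 AFast458b6cx4a.a17 AFast458b6cx4a.a18
  AFast458b6cx4a.a19 AFast458b6cx4a.a20 AFast458b6cx4a.a21 AFast458b6cx4a.a22 AFast458b6cx4a.a23
  AFast458b6cx4a.a24 AFast458b6cx4a.a25 AFast458b6cx4a.a26 AFast458b6cx4a.a27 AFast458b6cx4a.a28
  AFast458b6cx4a.a29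
namespace AFast458b6cx4b
theorem a0 : Module.Free ℝ ℂ := inferInstance
theorem a1 : Module.Flat ℝ ℂ := inferInstance
theorem a2 : Module.FaithfullyFlat ℝ ℂ := inferInstance
@[reducible] noncomputable def a3 : Module ℝ ℂ := inferInstance
theorem a4 : FaithfulSMul ℝ ℂ := inferInstance
@[reducible] noncomputable def a5.{u1, u2} {x1 : Type u1} {x2 : Type u2} [x3 : NormedRing x2] [x4 : NormedAlgebra ℂ x2] : Module ℂ (Vale.Agent.P184.L1 x1 x2 →L[ℂ] Vale.Agent.P184.L1 x1 x2) := inferInstance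
@[reducible] noncomputable def a6.{u1, u2} {x1 : Type u1} {x2 : Type u2} [x3 : NormedRing x2] [x4 : NormedAlgebra ℂ x2] : SMulZeroClass ℂ (Vale.Agent.P184.L1 x1 x2) := inferInstance
@[reducible] noncomputable def a7.{u1, u2} {x1 : Type u1} {x2 : Type u2} [x3 : NormedRing x2] [x4 : NormedAlgebra ℂ x2] : DistribSMul ℂ (Vale.Agent.P184.L1 x1 x2) := inferInstance
theorem a8 : AddMonoidHomClass (ℂ →+* Polynomial ℂ) ℂ (Polynomial ℂ) := inferInstance
@[reducible] noncomputable def a9.{u1, u2} {x1 : Type u1} {x2 : Type u2} [x3 : NormedRing x2] [x4 : NormedAlgebra ℂ x2] : SMul ℂ (Vale.Agent.P184.L1 x1 x2 →L[ℂ] Vale.Agent.P184.L1 x1 x2) := inferInstance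
theorem a10.{u1, u2} {x1 : Type u1} {x2 : Type u2} [x3 : NormedRing x2] [x4 : NormedAlgebra ℂ x2] : SMulCommClass ℂ ℂ (Vale.Agent.P184.L1 x1 x2) := inferInstance
theorem a11.{u1, u2} {x1 : Type u1} {x2 : Type u2} [x3 : NormedRing x2] [x4 : NormedAlgebra ℂ x2] [x5 : CompleteSpace x2] : CompleteSpace (Vale.Agent.P184.L1 x1 x2 →L[ℂ] Vale.Agent.P184.L1 x1 x2) := inferInstance
@[reducible] noncomputable def a12.{u1, u2} {x1 : Type u1} {x2 : Type u2} [x3 : NormedRing x2] [x4 : NormedAlgebra ℂ x2] : SMul ℂ (Vale.Agent.P184.L1 x1 x2) := inferInstance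
end AFast458b6cx4b
attribute [local instance] AFast458b6cx4b.a0 AFast458b6cx4b.a1 AFast458b6cx4b.a2 AFast458b6cx4b.a3
  AFast458b6cx4b.a4 AFast458b6cx4b.a5 AFast458b6cx4b.a6 AFast458b6cx4b.a7 AFast458b6cx4b.a8
  AFast458b6cx4b.a9 AFast458b6cx4b.a10 AFast458b6cx4b.a11 AFast458b6cx4b.a12
section

/-!
# A combinatorial lemma on functions of subsets of a cyclically ordered set
-/

noncomputable section

namespace Vale.Agent.P184

open Finset

/-- the trace of a set of positions after deleting the position `j` -/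
def dl {N : ℕ} (j : Fin (N + 1)) (s : Finset (Fin (N + 1))) : Finset (Fin N) :=
  Finset.univ.filter fun k => j.succAbove k ∈ s

/-- rotation of a set of positions -/
def rt {N : ℕ} (s : Finset (Fin (N + 1))) : Finset (Fin (N + 1)) :=
  Finset.univ.filter fun k => finRotate (N + 1) k ∈ s

/-- the sign of a set of positions -/
def eta {N : ℕ} (s : Finset (Fin N)) : ℂ := ∏ k ∈ s, (-1 : ℂ) ^ (k : ℕ)

theorem mem_dl {N : ℕ} {j : Fin (N + 1)} {s : Finset (Fin (N + 1))} {k : Fin N} :
    k ∈ dl j s ↔ j.succAbove k ∈ s := by simp only [dl, mem_filter, mem_univ, true_and]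

theorem mem_rt {N : ℕ} {s : Finset (Fin (N + 1))} {k : Fin (N + 1)} :
    k ∈ rt s ↔ finRotate (N + 1) k ∈ s := by simp only [rt, finRotate_apply, mem_filter, mem_univ, true_and]

theorem card_rt {N : ℕ} (s : Finset (Fin (N + 1))) : (rt s).card = s.card := by
  have h : rt s = s.map (finRotate (N + 1)).symm.toEmbedding := by
    ext k
    rw [mem_rt, Finset.mem_map_equiv, Equiv.symm_symm]
  rw [h, Finset.card_map]

/-- putting a set of positions into the complement of the position `j` -/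
def up {N : ℕ} (j : Fin (N + 1)) (s : Finset (Fin N)) : Finset (Fin (N + 1)) :=
  s.map j.succAboveEmb

theorem mem_up {N : ℕ} {j : Fin (N + 1)} {s : Finset (Fin N)} {k : Fin (N + 1)} :
    k ∈ up j s ↔ ∃ l ∈ s, j.succAbove l = k := by simp only [up, mem_map, Fin.succAboveEmb_apply]

theorem not_mem_up {N : ℕ} {j : Fin (N + 1)} {s : Finset (Fin N)} : j ∉ up j s := by
  rw [mem_up]
  rintro ⟨l, _, h⟩
  exact Fin.succAbove_ne j l h

theorem succAbove_mem_up {N : ℕ} {j : Fin (N + 1)} {s : Finset (Fin N)} {k : Fin N} :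
    j.succAbove k ∈ up j s ↔ k ∈ s := by
  rw [mem_up]
  constructor
  · rintro ⟨l, hl, h⟩
    rwa [← Fin.succAbove_right_injective h]
  · exact fun h => ⟨k, h, rfl⟩

theorem card_up {N : ℕ} {j : Fin (N + 1)} {s : Finset (Fin N)} : (up j s).card = s.card :=
  Finset.card_map _

theorem dl_up {N : ℕ} {j : Fin (N + 1)} {s : Finset (Fin N)} : dl j (up j s) = s := by
  ext k
  rw [mem_dl, succAbove_mem_up]

theorem up_dl {N : ℕ} {j : Fin (N + 1)} {s : Finset (Fin (N + 1))} (h : j ∉ s) :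
    up j (dl j s) = s := by
  ext k
  rcases Fin.eq_self_or_eq_succAbove j k with rfl | ⟨l, rfl⟩
  · exact iff_of_false not_mem_up h
  · rw [succAbove_mem_up, mem_dl]

theorem dl_insert {N : ℕ} {j : Fin (N + 1)} {s : Finset (Fin (N + 1))} :
    dl j (insert j s) = dl j s := by
  ext k
  rw [mem_dl, mem_dl, Finset.mem_insert]
  exact ⟨fun h => h.resolve_left (Fin.succAbove_ne j k), Or.inr⟩

theorem dl_erase {N : ℕ} {j : Fin (N + 1)} {s : Finset (Fin (N + 1))} :
    dl j (s.erase j) = dl j s := by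
  ext k
  rw [mem_dl, mem_dl, Finset.mem_erase]
  exact ⟨fun h => h.2, fun h => ⟨Fin.succAbove_ne j k, h⟩⟩

/-- reorganisation of sums over pairs `(s, j ∉ s)` -/
theorem sum_not_mem {N a : ℕ} (f : Finset (Fin (N + 1)) → Fin (N + 1) → ℂ) :
    ∑ s ∈ powersetCard a (univ : Finset (Fin (N + 1))), ∑ j ∈ sᶜ, f s j =
      ∑ t ∈ powersetCard a (univ : Finset (Fin N)), ∑ j, f (up j t) j := by
  rw [Finset.sum_sigma', Finset.sum_sigma']
  refine Finset.sum_bij' (fun z _ => ⟨dl z.2 z.1, z.2⟩) (fun z _ => ⟨up z.2 z.1, z.2⟩) ?_ ?_ ?_ ?_ ?_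
  · rintro ⟨s, j⟩ h
    simp only [Finset.mem_sigma, Finset.mem_powersetCard, Finset.subset_univ, true_and,
      Finset.mem_compl, Finset.mem_univ, and_true] at h ⊢
    rw [← h.1, ← card_up (j := j), up_dl h.2]
  · rintro ⟨t, j⟩ h
    simp only [Finset.mem_sigma, Finset.mem_powersetCard, Finset.subset_univ, true_and,
      Finset.mem_compl, Finset.mem_univ, and_true] at h ⊢
    exact ⟨by rw [card_up, h], not_mem_up⟩
  · rintro ⟨s, j⟩ h
    simp only [Finset.mem_sigma, Finset.mem_compl] at h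
    simp only
    rw [up_dl h.2]
  · rintro ⟨t, j⟩ h
    simp only
    rw [dl_up]
  · rintro ⟨s, j⟩ h
    simp only [Finset.mem_sigma, Finset.mem_compl] at h
    simp only
    rw [up_dl h.2]

/-- reorganisation of sums over pairs `(s, j ∈ s)` -/
theorem sum_mem {N a : ℕ} (f : Finset (Fin (N + 1)) → Fin (N + 1) → ℂ) :
    ∑ s ∈ powersetCard (a + 1) (univ : Finset (Fin (N + 1))), ∑ j ∈ s, f s j =
      ∑ t ∈ powersetCard a (univ : Finset (Fin N)), ∑ j, f (insert j (up j t)) j := by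
  rw [Finset.sum_sigma', Finset.sum_sigma']
  refine Finset.sum_bij' (fun z _ => ⟨dl z.2 z.1, z.2⟩)
    (fun z _ => ⟨insert z.2 (up z.2 z.1), z.2⟩) ?_ ?_ ?_ ?_ ?_
  · rintro ⟨s, j⟩ h
    simp only [Finset.mem_sigma, Finset.mem_powersetCard, Finset.subset_univ, true_and,
      Finset.mem_univ, and_true] at h ⊢
    have h1 := up_dl (Finset.notMem_erase j s)
    rw [dl_erase] at h1
    have h2 := Finset.card_erase_of_mem h.2
    rw [← card_up (j := j), h1, h2, h.1]
    rfl
  · rintro ⟨t, j⟩ h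
    simp only [Finset.mem_sigma, Finset.mem_powersetCard, Finset.subset_univ, true_and,
      Finset.mem_univ, and_true] at h ⊢
    exact ⟨by rw [Finset.card_insert_of_notMem not_mem_up, card_up, h],
      Finset.mem_insert_self _ _⟩
  · rintro ⟨s, j⟩ h
    simp only [Finset.mem_sigma] at h
    have h1 := up_dl (Finset.notMem_erase j s)
    rw [dl_erase] at h1
    simp only
    rw [h1, Finset.insert_erase h.2]
  · rintro ⟨t, j⟩ h
    simp only
    rw [dl_insert, dl_up]
  · rintro ⟨s, j⟩ h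
    simp only [Finset.mem_sigma] at h
    have h1 := up_dl (Finset.notMem_erase j s)
    rw [dl_erase] at h1
    simp only
    rw [h1, Finset.insert_erase h.2]

theorem sum_neg_one_le {N : ℕ} (k : Fin (N + 1)) :
    ∑ i ∈ univ.filter (fun i : Fin (N + 1) => i ≤ k), (-1 : ℂ) ^ (i : ℕ) =
      if Even (k : ℕ) then 1 else 0 := by
  refine Fin.induction ?_ (fun l ih => ?_) k
  · have h1 : univ.filter (fun i : Fin (N + 1) => i ≤ 0) = {0} := by
      ext i
      simp only [nonpos_iff_eq_zero, mem_filter, mem_univ, true_and, mem_singleton]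
    rw [h1]
    simp only [sum_singleton, Fin.coe_ofNat_eq_mod, Nat.zero_mod, pow_zero, Even.zero, ↓reduceIte]
  · have h1 : univ.filter (fun i : Fin (N + 1) => i ≤ l.succ) =
        insert l.succ (univ.filter (fun i : Fin (N + 1) => i ≤ l.castSucc)) := by
      ext i
      simp only [Finset.mem_filter, Finset.mem_univ, true_and, Finset.mem_insert]
      rw [Fin.le_def, Fin.le_def, Fin.ext_iff]
      simp only [Fin.val_succ, Fin.val_castSucc]
      omega
    rw [h1, Finset.sum_insert (by simp only [Fin.le_def, Fin.val_castSucc, mem_filter, mem_univ, Fin.val_succ, add_le_iff_nonpos_right, nonpos_iff_eq_zero, one_ne_zero, and_false, not_false_eq_true]), ih]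
    simp only [Fin.val_succ, Fin.val_castSucc, pow_succ, Nat.even_add_one]
    by_cases h : Even (l : ℕ)
    · simp only [h.neg_one_pow, mul_neg, mul_one, h, ↓reduceIte, neg_add_cancel, not_true_eq_false]
    · have h' := Nat.not_even_iff_odd.1 h
      simp only [h'.neg_one_pow, mul_neg, mul_one, neg_neg, h, ↓reduceIte, add_zero, not_false_eq_true]

/-- the sign sum over all insertion positions -/
theorem sum_sign {N : ℕ} (hN : Odd N) (k : Fin N) :
    ∑ i : Fin (N + 1), (-1 : ℂ) ^ (i : ℕ) * (-1 : ℂ) ^ ((i.succAbove k : Fin (N + 1)) : ℕ) =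
      if Even (k : ℕ) then -2 else 0 := by
  have h1 : ∀ i : Fin (N + 1), (-1 : ℂ) ^ (i : ℕ) * (-1 : ℂ) ^ ((i.succAbove k : Fin (N + 1)) : ℕ)
      = (-1 : ℂ) ^ (k : ℕ) * ((-1 : ℂ) ^ (i : ℕ) -
        2 * if i ≤ k.castSucc then (-1 : ℂ) ^ (i : ℕ) else 0) := by
    intro i
    by_cases h : i ≤ k.castSucc
    · rw [if_pos h, Fin.succAbove_of_le_castSucc i k h, Fin.val_succ, pow_succ]
      ring
    · rw [if_neg h, Fin.succAbove_of_castSucc_lt i k (not_le.1 h), Fin.val_castSucc]
      ring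
  rw [Finset.sum_congr rfl fun i _ => h1 i, ← Finset.mul_sum, Finset.sum_sub_distrib,
    ← Finset.mul_sum, ← Finset.sum_filter, sum_neg_one_le, Fin.sum_neg_one_pow, if_pos hN.add_one,
    Fin.val_castSucc]
  by_cases h : Even (k : ℕ)
  · simp only [h.neg_one_pow, h, ↓reduceIte, mul_one, zero_sub, mul_neg, one_mul]
  · simp only [h, ↓reduceIte, mul_zero, sub_self]

/-- the elementary symmetric functions of the signs `1, -1, 1, -1, …` -/
theorem sum_eta {M m : ℕ} (h : m ≤ M) :
    ∑ s ∈ powersetCard (2 * m) (univ : Finset (Fin (2 * M))), eta s =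
      (-1) ^ m * (M.choose m : ℂ) := by
  have h1 : ∏ i : Fin (2 * M), (Polynomial.X + Polynomial.C ((-1 : ℂ) ^ (i : ℕ))) =
      (Polynomial.X ^ 2 - 1) ^ M := by
    clear h
    induction M with
    | zero => simp only [Nat.mul_zero, univ_eq_empty, map_pow, map_neg, map_one, prod_empty, pow_zero]
    | succ M ih =>
      have e : 2 * (M + 1) = 2 * M + 1 + 1 := by ring
      rw [← Fin.prod_congr' (fun i => (Polynomial.X + Polynomial.C ((-1 : ℂ) ^ (i : ℕ)))) e.symm,
        Fin.prod_univ_castSucc, Fin.prod_univ_castSucc]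
      simp only [Fin.val_cast, Fin.val_castSucc, Fin.val_last]
      have h2 : (-1 : ℂ) ^ (2 * M) = 1 := by rw [pow_mul]; simp only [even_two, Even.neg_pow, one_pow]
      rw [ih, pow_succ (-1 : ℂ), h2, one_mul, map_one, map_neg, map_one]
      ring
  have h2 : (∏ i : Fin (2 * M), (Polynomial.X + Polynomial.C ((-1 : ℂ) ^ (i : ℕ)))).coeff
      (2 * M - 2 * m) = ∑ s ∈ powersetCard (2 * m) (univ : Finset (Fin (2 * M))), eta s := by
    rw [Finset.prod_X_add_C_coeff _ _ (by simp only [card_univ, Fintype.card_fin, tsub_le_iff_right, le_add_iff_nonneg_right, zero_le]), Finset.card_univ, Fintype.card_fin,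
      Nat.sub_sub_self (by omega)]
    rfl
  have h3 : ((Polynomial.X : Polynomial ℂ) ^ 2 - 1) ^ M =
      Polynomial.expand ℂ 2 ((Polynomial.X + Polynomial.C (-1)) ^ M) := by
    rw [map_pow, map_add, Polynomial.expand_X, Polynomial.expand_C, map_neg, map_one, sub_eq_add_neg]
  have h4 : 2 * M - 2 * m = (M - m) * 2 := by omega
  rw [← h2, h1, h3, h4, Polynomial.coeff_expand_mul two_pos, Polynomial.coeff_X_add_C_pow,
    Nat.sub_sub_self h, Nat.choose_symm h]

/-- the sum which has to be nonzero -/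
theorem sum_eta_mul {M m : ℕ} (h : m ≤ M) :
    ∑ s ∈ powersetCard (2 * m + 1) (univ : Finset (Fin (2 * M))),
      eta s * ∑ k ∈ s, (-1 : ℂ) ^ (k : ℕ) =
      (2 * M - 2 * m) * ((-1) ^ m * (M.choose m : ℂ)) := by
  have h1 : ∑ s ∈ powersetCard (2 * m + 1) (univ : Finset (Fin (2 * M))),
      eta s * ∑ k ∈ s, (-1 : ℂ) ^ (k : ℕ) =
      ∑ t ∈ powersetCard (2 * m) (univ : Finset (Fin (2 * M))), ∑ k ∈ tᶜ, eta t := by
    simp only [Finset.mul_sum]
    rw [Finset.sum_sigma', Finset.sum_sigma']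
    refine Finset.sum_bij' (fun z _ => ⟨z.1.erase z.2, z.2⟩) (fun z _ => ⟨insert z.2 z.1, z.2⟩)
      ?_ ?_ ?_ ?_ ?_
    · rintro ⟨s, j⟩ h
      simp only [Finset.mem_sigma, Finset.mem_powersetCard, Finset.subset_univ, true_and,
        Finset.mem_compl] at h ⊢
      exact ⟨by rw [Finset.card_erase_of_mem h.2, h.1]; rfl, Finset.notMem_erase _ _⟩
    · rintro ⟨t, j⟩ h
      simp only [Finset.mem_sigma, Finset.mem_powersetCard, Finset.subset_univ, true_and,
        Finset.mem_compl] at h ⊢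
      exact ⟨by rw [Finset.card_insert_of_notMem h.2, h.1], Finset.mem_insert_self _ _⟩
    · rintro ⟨s, j⟩ h
      simp only [Finset.mem_sigma] at h
      simp only
      rw [Finset.insert_erase h.2]
    · rintro ⟨t, j⟩ h
      simp only [Finset.mem_sigma, Finset.mem_compl] at h
      simp only
      rw [Finset.erase_insert h.2]
    · rintro ⟨s, j⟩ h
      simp only [Finset.mem_sigma] at h
      simp only
      unfold eta
      rw [← Finset.mul_prod_erase s _ h.2]
      have h5 : (-1 : ℂ) ^ (j : ℕ) * (-1 : ℂ) ^ (j : ℕ) = 1 := by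
        rw [← pow_add, Even.neg_one_pow ⟨_, rfl⟩]
      linear_combination (∏ x ∈ s.erase j, (-1 : ℂ) ^ (x : ℕ)) * h5
  rw [h1]
  have h2 : ∀ t ∈ powersetCard (2 * m) (univ : Finset (Fin (2 * M))),
      ∑ k ∈ tᶜ, eta t = (2 * M - 2 * m) * eta t := by
    intro t ht
    rw [Finset.sum_const, Finset.card_compl, (Finset.mem_powersetCard.1 ht).2, Fintype.card_fin,
      nsmul_eq_mul, Nat.cast_sub (by omega)]
    push_cast
    rfl
  rw [Finset.sum_congr rfl h2, ← Finset.mul_sum, sum_eta h]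

/-- The combinatorial lemma. -/
theorem comb_zero {N a : ℕ} (hN : Even N) (ha : Odd a) (hlt : a < N + 1)
    (Y : Finset (Fin (N + 1)) → ℂ) (z : ℂ)
    (hC : ∀ s : Finset (Fin (N + 1)), s.card = a → Y (rt s) = Y s)
    (hR : ∀ s : Finset (Fin (N + 2)), s.card = a + 1 →
      ∑ i ∈ s, (-1 : ℂ) ^ (i : ℕ) * Y (dl i s) = 0)
    (hD : ∀ s : Finset (Fin (N + 2)), s.card = a →
      ∑ j ∈ sᶜ, (-1 : ℂ) ^ (j : ℕ) * Y (dl j s) = -(eta s * z)) : z = 0 := by
  set P := powersetCard a (univ : Finset (Fin (N + 1))) with hP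
  -- the sums over the sets not containing `k`
  set w : Fin (N + 1) → ℂ := fun k => ∑ t ∈ P, if k ∈ t then 0 else Y t with hw
  have hrot : ∀ k, w (finRotate (N + 1) k) = w k := by
    intro k
    simp only [hw]
    refine Finset.sum_bij' (fun s _ => rt s)
      (fun s _ => s.map (finRotate (N + 1)).toEmbedding) ?_ ?_ ?_ ?_ ?_
    · intro s hs
      rw [hP, Finset.mem_powersetCard] at hs ⊢
      exact ⟨Finset.subset_univ _, by rw [card_rt, hs.2]⟩
    · intro s hs
      rw [hP, Finset.mem_powersetCard] at hs ⊢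
      exact ⟨Finset.subset_univ _, by rw [Finset.card_map, hs.2]⟩
    · intro s _
      ext j
      rw [Finset.mem_map_equiv, mem_rt, Equiv.apply_symm_apply]
    · intro s _
      ext j
      rw [mem_rt, Finset.mem_map_equiv, Equiv.symm_apply_apply]
    · intro s hs
      rw [hP, Finset.mem_powersetCard] at hs
      rw [hC s hs.2]
      simp only [mem_rt]
  have hw0 : ∀ k, w k = w 0 := by
    intro k
    refine Fin.induction rfl (fun l ih => ?_) k
    rw [← ih, ← hrot l.castSucc]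
    congr 1
    apply Fin.ext
    rw [coe_finRotate_of_ne_last (Fin.castSucc_lt_last l).ne]
    simp
  -- first weight
  have hA : ∑ k : Fin (N + 1), (if Even (k : ℕ) then (-2 : ℂ) else 0) * w k = 0 := by
    have h1 : ∑ s ∈ powersetCard (a + 1) (univ : Finset (Fin (N + 2))), ∑ i ∈ s,
        (∑ k ∈ sᶜ, (-1 : ℂ) ^ (k : ℕ)) * ((-1 : ℂ) ^ (i : ℕ) * Y (dl i s)) = 0 := by
      refine Finset.sum_eq_zero fun s hs => ?_
      rw [← Finset.mul_sum, hR s (Finset.mem_powersetCard.1 hs).2, mul_zero]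
    rw [sum_mem (a := a) fun s i => (∑ k ∈ sᶜ, (-1 : ℂ) ^ (k : ℕ)) *
      ((-1 : ℂ) ^ (i : ℕ) * Y (dl i s))] at h1
    refine Eq.trans ?_ h1
    simp only [hw, Finset.mul_sum]
    rw [Finset.sum_comm]
    refine Finset.sum_congr rfl fun t _ => ?_
    have h2 : ∀ i : Fin (N + 2), ∑ k ∈ (insert i (up i t))ᶜ, (-1 : ℂ) ^ (k : ℕ) =
        ∑ k ∈ tᶜ, (-1 : ℂ) ^ ((i.succAbove k : Fin (N + 2)) : ℕ) := by
      intro i
      have h3 : (insert i (up i t))ᶜ = (tᶜ).map i.succAboveEmb := by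
        ext k
        rcases Fin.eq_self_or_eq_succAbove i k with rfl | ⟨l, rfl⟩
        · simp
        · rw [Finset.mem_compl, Finset.mem_insert, succAbove_mem_up]
          simp [Fin.succAbove_ne]
      rw [h3, Finset.sum_map]
      rfl
    simp only [dl_insert, dl_up, h2, Finset.sum_mul]
    rw [Finset.sum_comm (s := (Finset.univ : Finset (Fin (N + 2))))]
    rw [← Finset.sum_compl_add_sum t (fun k : Fin (N + 1) => (if Even (k : ℕ) then (-2 : ℂ) else 0) *
      if k ∈ t then 0 else Y t), Finset.sum_eq_zero (s := t), add_zero]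
    · refine Finset.sum_congr rfl fun k hk => ?_
      rw [if_neg (Finset.mem_compl.1 hk), ← sum_sign hN.add_one k, Finset.sum_mul]
      refine Finset.sum_congr rfl fun i _ => ?_
      ring
    · intro k hk
      rw [if_pos hk, mul_zero]
  have hw1 : ∀ k, w k = 0 := by
    have h1 : (∑ k : Fin (N + 1), (if Even (k : ℕ) then (-2 : ℂ) else 0)) * w 0 = 0 := by
      rw [Finset.sum_mul]
      refine Eq.trans ?_ hA
      exact Finset.sum_congr rfl fun k _ => by rw [hw0 k]
    have h2 : ∑ k : Fin (N + 1), (if Even (k : ℕ) then (-2 : ℂ) else 0) ≠ 0 := by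
      rw [← Finset.sum_filter, Finset.sum_const, nsmul_eq_mul]
      refine mul_ne_zero ?_ (by norm_num)
      rw [Nat.cast_ne_zero]
      refine (Finset.card_pos.2 ⟨0, ?_⟩).ne'
      simp only [mem_filter, mem_univ, Fin.coe_ofNat_eq_mod, Nat.zero_mod, Even.zero, and_self]
    have h3 : w 0 = 0 := (mul_eq_zero.1 h1).resolve_left h2
    intro k
    rw [hw0, h3]
  have hT : ∑ t ∈ P, Y t = 0 := by
    have h1 : ∑ k, w k = (N + 1 - a) * ∑ t ∈ P, Y t := by
      simp only [hw]
      rw [Finset.sum_comm, Finset.mul_sum]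
      refine Finset.sum_congr rfl fun t ht => ?_
      rw [← Finset.sum_compl_add_sum t, Finset.sum_eq_zero (s := t), add_zero]
      · rw [Finset.sum_congr rfl fun k hk => if_neg (Finset.mem_compl.1 hk), Finset.sum_const,
          Finset.card_compl, Fintype.card_fin, (Finset.mem_powersetCard.1 ht).2, nsmul_eq_mul,
          Nat.cast_sub hlt.le]
        push_cast
        rfl
      · intro k hk
        rw [if_pos hk]
    simp only [hw1, Finset.sum_const_zero] at h1
    have h2 : ((N : ℂ) + 1 - a) ≠ 0 := by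
      have : ((N : ℂ) + 1 - a) = ((N + 1 - a : ℕ) : ℂ) := by
        rw [Nat.cast_sub hlt.le]; push_cast; rfl
      rw [this, Nat.cast_ne_zero]
      omega
    exact (mul_eq_zero.1 h1.symm).resolve_left h2
  -- second weight
  have hB : ∑ s ∈ powersetCard a (univ : Finset (Fin (N + 2))),
      (∑ k ∈ s, (-1 : ℂ) ^ (k : ℕ)) * -(eta s * z) = 0 := by
    have h1 : ∑ s ∈ powersetCard a (univ : Finset (Fin (N + 2))),
        (∑ k ∈ s, (-1 : ℂ) ^ (k : ℕ)) * -(eta s * z) =
        ∑ s ∈ powersetCard a (univ : Finset (Fin (N + 2))), ∑ j ∈ sᶜ,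
        (∑ k ∈ s, (-1 : ℂ) ^ (k : ℕ)) * ((-1 : ℂ) ^ (j : ℕ) * Y (dl j s)) := by
      refine Finset.sum_congr rfl fun s hs => ?_
      rw [← hD s (Finset.mem_powersetCard.1 hs).2, Finset.mul_sum]
    rw [h1, sum_not_mem fun s j => (∑ k ∈ s, (-1 : ℂ) ^ (k : ℕ)) *
      ((-1 : ℂ) ^ (j : ℕ) * Y (dl j s))]
    have h2 : ∀ t ∈ P, ∑ j : Fin (N + 2), (∑ k ∈ up j t, (-1 : ℂ) ^ (k : ℕ)) *
        ((-1 : ℂ) ^ (j : ℕ) * Y (dl j (up j t))) =
        ∑ k : Fin (N + 1), (if Even (k : ℕ) then (-2 : ℂ) else 0) *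
          (Y t - if k ∈ t then 0 else Y t) := by
      intro t _
      have h3 : ∀ j : Fin (N + 2), ∑ k ∈ up j t, (-1 : ℂ) ^ (k : ℕ) =
          ∑ k ∈ t, (-1 : ℂ) ^ ((j.succAbove k : Fin (N + 2)) : ℕ) := by
        intro j
        unfold up
        rw [Finset.sum_map]
        rfl
      simp only [dl_up, h3, Finset.sum_mul]
      rw [Finset.sum_comm, ← Finset.sum_add_sum_compl t, Finset.sum_eq_zero (s := tᶜ), add_zero]
      · refine Finset.sum_congr rfl fun k hk => ?_
        rw [if_pos hk, sub_zero, ← sum_sign hN.add_one k, Finset.sum_mul]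
        refine Finset.sum_congr rfl fun i _ => ?_
        ring
      · intro k hk
        rw [if_neg (Finset.mem_compl.1 hk), sub_self, mul_zero]
    rw [Finset.sum_congr rfl h2, Finset.sum_comm]
    refine Finset.sum_eq_zero fun k _ => ?_
    rw [← Finset.mul_sum, Finset.sum_sub_distrib, hT]
    have h4 := hw1 k
    simp only [hw] at h4
    rw [h4, sub_zero, mul_zero]
  obtain ⟨M, hM⟩ : ∃ M, N + 2 = 2 * M := by
    obtain ⟨r, hr⟩ := hN
    exact ⟨r + 1, by omega⟩
  obtain ⟨m, rfl⟩ := ha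
  have hK := sum_eta_mul (M := M) (m := m) (by omega)
  have hB' : (∑ s ∈ powersetCard (2 * m + 1) (univ : Finset (Fin (N + 2))),
      eta s * ∑ k ∈ s, (-1 : ℂ) ^ (k : ℕ)) * z = 0 := by
    rw [Finset.sum_mul, ← neg_eq_zero, ← Finset.sum_neg_distrib, ← hB]
    refine Finset.sum_congr rfl fun s _ => ?_
    ring
  rw [hM, hK] at hB'
  refine (mul_eq_zero.1 hB').resolve_left ?_
  refine mul_ne_zero ?_ (mul_ne_zero (pow_ne_zero _ (by norm_num)) ?_)
  · have : (2 * (M : ℂ) - 2 * m) = ((2 * M - 2 * m : ℕ) : ℂ) := by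
      rw [Nat.cast_sub (by (clear * - hM hlt; omega))]; push_cast; rfl
    rw [this, Nat.cast_ne_zero]
    omega
  · rw [Nat.cast_ne_zero]
    exact (Nat.choose_pos (by omega)).ne'

end Vale.Agent.P184

end
end

section

/-! Words in a cochain and a cyclic cochain with coboundary `1`. -/

noncomputable section

namespace Vale.Agent.P184

/-! ### Increasing enumerations -/

theorem dl_compl {N : ℕ} (j : Fin (N + 1)) (s : Finset (Fin (N + 1))) :
    (dl j s)ᶜ = dl j sᶜ := by
  ext k; simp only [dl, Finset.compl_filter, Finset.mem_filter, Finset.mem_univ, true_and, Finset.mem_compl]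

theorem rt_compl {N : ℕ} (s : Finset (Fin (N + 1))) : (rt s)ᶜ = rt sᶜ := by
  ext k; simp only [rt, finRotate_apply, Finset.compl_filter, Finset.mem_filter, Finset.mem_univ, true_and, Finset.mem_compl]

theorem map_dl {N : ℕ} {j : Fin (N + 1)} {s : Finset (Fin (N + 1))} (hj : j ∉ s) :
    (dl j s).map j.succAboveEmb = s := by
  ext k
  rw [Finset.mem_map]
  constructor
  · rintro ⟨l, hl, rfl⟩
    exact mem_dl.1 hl
  · intro hk
    have h1 : k ≠ j := fun h => hj (h ▸ hk)
    obtain ⟨l, rfl⟩ := Fin.exists_succAbove_eq h1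
    exact ⟨l, mem_dl.2 hk, rfl⟩

theorem card_dl {N : ℕ} {j : Fin (N + 1)} {s : Finset (Fin (N + 1))} (hj : j ∉ s) :
    (dl j s).card = s.card := by
  conv_rhs => rw [← map_dl hj, Finset.card_map]

theorem card_dl_mem {N : ℕ} {j : Fin (N + 1)} {s : Finset (Fin (N + 1))} (hj : j ∈ s) :
    (dl j s).card + 1 = s.card := by
  rw [← dl_erase, card_dl (Finset.notMem_erase j s), Finset.card_erase_add_one hj]

theorem map_rt {N : ℕ} (s : Finset (Fin (N + 1))) :
    (rt s).map (finRotate (N + 1)).toEmbedding = s := by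
  ext k
  rw [Finset.mem_map]
  constructor
  · rintro ⟨l, hl, rfl⟩
    exact mem_rt.1 hl
  · intro hk
    refine ⟨(finRotate (N + 1)).symm k, mem_rt.2 ?_, ?_⟩
    · rwa [Equiv.apply_symm_apply]
    · exact Equiv.apply_symm_apply _ _

/-- the increasing enumeration of a set -/
def em {M n : ℕ} (s : Finset (Fin (M + 1))) (i : Fin n) : Fin (M + 1) :=
  if h : s.card = n then s.orderEmbOfFin h i else 0

theorem em_eq {M n : ℕ} {s : Finset (Fin (M + 1))} (h : s.card = n) (i : Fin n) :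
    em s i = s.orderEmbOfFin h i := by
  rw [em, dif_pos h]

theorem em_mem {M n : ℕ} {s : Finset (Fin (M + 1))} (h : s.card = n) (i : Fin n) :
    em s i ∈ s := by
  rw [em_eq h]
  exact Finset.orderEmbOfFin_mem s h i

theorem em_mono {M n : ℕ} {s : Finset (Fin (M + 1))} (h : s.card = n) :
    StrictMono (em s : Fin n → Fin (M + 1)) := by
  intro i j hij
  rw [em_eq h, em_eq h]
  exact (s.orderEmbOfFin h).strictMono hij

theorem em_unique {M n : ℕ} {s : Finset (Fin (M + 1))} (h : s.card = n)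
    {f : Fin n → Fin (M + 1)} (hf : StrictMono f) (hs : ∀ i, f i ∈ s) (i : Fin n) :
    em s i = f i := by
  rw [em_eq h, ← congrFun (Finset.orderEmbOfFin_unique h hs hf) i]

theorem sum_em {M n : ℕ} {s : Finset (Fin (M + 1))} (h : s.card = n) (g : Fin (M + 1) → ℂ) :
    ∑ l : Fin n, g (em s l) = ∑ i ∈ s, g i := by
  conv_rhs => rw [← Finset.map_orderEmbOfFin_univ s h, Finset.sum_map]
  refine Finset.sum_congr rfl fun l _ => ?_
  rw [em_eq h]
  rfl

theorem prod_em {M n : ℕ} {s : Finset (Fin (M + 1))} (h : s.card = n) (g : Fin (M + 1) → ℂ) :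
    ∏ l : Fin n, g (em s l) = ∏ i ∈ s, g i := by
  conv_rhs => rw [← Finset.map_orderEmbOfFin_univ s h, Finset.prod_map]
  refine Finset.prod_congr rfl fun l _ => ?_
  rw [em_eq h]
  rfl

/-- deletion of a point outside the set -/
theorem em_dl {M n : ℕ} {s : Finset (Fin (M + 2))} (h : s.card = n) {j : Fin (M + 2)}
    (hj : j ∉ s) (i : Fin n) : em s i = j.succAbove (em (dl j s) i) := by
  have h1 : (dl j s).card = n := (card_dl hj).trans h
  refine em_unique h (f := fun i => j.succAbove (em (dl j s) i)) ?_ ?_ i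
  · exact (Fin.strictMono_succAbove j).comp (em_mono h1)
  · exact fun i => mem_dl.1 (em_mem h1 i)

/-- deletion of a point of the set -/
theorem em_dl_mem {M n : ℕ} {s : Finset (Fin (M + 2))} (h : s.card = n + 1) (l : Fin (n + 1))
    (i : Fin n) : em s (l.succAbove i) = (em s l : Fin (M + 2)).succAbove (em (dl (em s l) s) i) := by
  have h1 : (s.erase (em s l)).card = n := by
    rw [Finset.card_erase_of_mem (em_mem h l), h, Nat.add_sub_cancel]
  have h2 := em_dl h1 (Finset.notMem_erase (em s l) s) i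
  rw [dl_erase] at h2
  rw [← h2]
  symm
  refine em_unique h1 (f := fun i => em s (l.succAbove i)) ?_ ?_ i
  · exact (em_mono h).comp (Fin.strictMono_succAbove l)
  · intro i
    rw [Finset.mem_erase]
    refine ⟨fun h3 => Fin.succAbove_ne l i ((em_mono h).injective h3), em_mem h _⟩

/-! ### Signs -/

theorem eta_em {M n : ℕ} {s : Finset (Fin (M + 1))} (h : s.card = n) :
    eta s = ∏ l : Fin n, (-1 : ℂ) ^ ((em s l : Fin (M + 1)) : ℕ) :=
  (prod_em h fun i => (-1 : ℂ) ^ (i : ℕ)).symm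

theorem eta_sq {N : ℕ} (s : Finset (Fin N)) : eta s * eta s = 1 := by
  unfold eta
  rw [← Finset.prod_mul_distrib]
  refine Finset.prod_eq_one fun k _ => ?_
  rw [← pow_add, Even.neg_one_pow ⟨_, rfl⟩]

theorem prod_le_sign {n : ℕ} (l : Fin (n + 1)) :
    ∏ i : Fin n, (if (l : ℕ) ≤ (i : ℕ) then (-1 : ℂ) else 1) = (-1) ^ (n + (l : ℕ)) := by
  rw [Fin.prod_univ_eq_prod_range (fun i => if (l : ℕ) ≤ i then (-1 : ℂ) else 1) n]
  have h1 : ∀ r c : ℕ, ∏ i ∈ Finset.range (c + r), (if c ≤ i then (-1 : ℂ) else 1) = (-1) ^ r := by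
    intro r c
    induction r with
    | zero =>
      rw [add_zero, pow_zero]
      refine Finset.prod_eq_one fun i hi => ?_
      rw [if_neg (not_le.2 (Finset.mem_range.1 hi))]
    | succ r ih =>
      rw [← add_assoc, Finset.prod_range_succ, ih, if_pos (Nat.le_add_right c r), pow_succ]
  have h2 : (l : ℕ) + (n - l) = n := by have := l.2; omega
  have h4 := h1 (n - l) l
  rw [h2] at h4
  rw [h4]
  have h3 : n + (l : ℕ) = (n - l) + 2 * l := by have := l.2; omega
  rw [h3, pow_add, pow_mul]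
  norm_num

theorem succAbove_sign {N : ℕ} (j : Fin (N + 1)) (x : Fin N) :
    (-1 : ℂ) ^ (x : ℕ) = (-1) ^ ((j.succAbove x : Fin (N + 1)) : ℕ) *
      (if j < j.succAbove x then (-1) else 1) := by
  by_cases h : x.castSucc < j
  · rw [Fin.succAbove_of_castSucc_lt j x h, if_neg (not_lt.2 h.le), mul_one]
    rfl
  · have h1 := not_lt.1 h
    rw [Fin.succAbove_of_le_castSucc j x h1, if_pos (lt_of_le_of_lt h1 (Fin.castSucc_lt_succ)),
      Fin.val_succ, pow_succ]
    ring

theorem sign_mem {M n : ℕ} {s : Finset (Fin (M + 2))} (h : s.card = n + 1) (l : Fin (n + 1)) :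
    (-1 : ℂ) ^ (l : ℕ) = (-1) ^ n * eta s * (eta (dl (em s l) s) *
      (-1) ^ ((em s l : Fin (M + 2)) : ℕ)) := by
  set j : Fin (M + 2) := em s l with hj
  have hjs : j ∈ s := em_mem h l
  have h1 : (dl j s).card = n := by
    have := card_dl_mem hjs
    omega
  have h2 : eta (dl j s) = ∏ i : Fin n, ((-1 : ℂ) ^ ((em s (l.succAbove i) : Fin (M + 2)) : ℕ) *
      (if (l : ℕ) ≤ (i : ℕ) then (-1) else 1)) := by
    rw [eta_em h1]
    refine Finset.prod_congr rfl fun i _ => ?_
    rw [succAbove_sign j, ← em_dl_mem h l i, hj]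
    congr 2
    rw [(em_mono h).lt_iff_lt, Fin.lt_succAbove_iff_le_castSucc]
    exact propext Fin.le_def
  have h3 : eta s = (-1) ^ (j : ℕ) *
      ∏ i : Fin n, (-1 : ℂ) ^ ((em s (l.succAbove i) : Fin (M + 2)) : ℕ) := by
    rw [eta_em h, Fin.prod_univ_succAbove _ l]
  have h4 : eta (dl j s) = (-1) ^ (j : ℕ) * eta s * (-1) ^ (n + (l : ℕ)) := by
    rw [h2, Finset.prod_mul_distrib, prod_le_sign, h3]
    have h5 : (-1 : ℂ) ^ (j : ℕ) * (-1) ^ (j : ℕ) = 1 := by
      rw [← pow_add, Even.neg_one_pow ⟨_, rfl⟩]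
    linear_combination (-(∏ i : Fin n, (-1 : ℂ) ^ ((em s (l.succAbove i) : Fin (M + 2)) : ℕ)) *
      (-1) ^ (n + (l : ℕ))) * h5
  have h5 : (-1 : ℂ) ^ (j : ℕ) * (-1) ^ (j : ℕ) = 1 := by
    rw [← pow_add, Even.neg_one_pow ⟨_, rfl⟩]
  have h6 : (-1 : ℂ) ^ n * (-1) ^ n = 1 := by
    rw [← pow_add, Even.neg_one_pow ⟨_, rfl⟩]
  rw [h4, pow_add]
  linear_combination (-((-1 : ℂ) ^ (l : ℕ)) * (-1) ^ n * (-1) ^ n * ((-1) ^ (j : ℕ) * (-1) ^ (j : ℕ))) *
    eta_sq s - ((-1 : ℂ) ^ (l : ℕ)) * h6 * ((-1) ^ (j : ℕ) * (-1) ^ (j : ℕ)) -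
    ((-1 : ℂ) ^ (l : ℕ)) * h5

theorem eta_compl {N : ℕ} (s : Finset (Fin N)) :
    eta s * eta sᶜ = eta (Finset.univ : Finset (Fin N)) :=
  Finset.prod_mul_prod_compl s _

theorem eta_univ_succ (N : ℕ) : eta (Finset.univ : Finset (Fin (N + 1))) =
    eta (Finset.univ : Finset (Fin N)) * (-1) ^ N := by
  unfold eta
  rw [Fin.prod_univ_castSucc]
  rfl

theorem sign_notMem {M n : ℕ} {s : Finset (Fin (M + 2))} (h : sᶜ.card = n + 1) (l : Fin (n + 1)) :
    (-1 : ℂ) ^ (l : ℕ) = (-1) ^ (n + M + 1) * eta s * (eta (dl (em sᶜ l) s) *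
      (-1) ^ ((em sᶜ l : Fin (M + 2)) : ℕ)) := by
  rw [sign_mem h l]
  set j : Fin (M + 2) := em sᶜ l with hj
  have h1 := eta_compl s
  have h2 := eta_compl (dl j s)
  rw [dl_compl] at h2
  rw [eta_univ_succ] at h1
  have h3 := eta_sq s
  have h4 := eta_sq (dl j s)
  have h5 := eta_sq (Finset.univ : Finset (Fin (M + 1)))
  have h6 : eta sᶜ = eta (Finset.univ : Finset (Fin (M + 1))) * (-1) ^ (M + 1) * eta s := by
    linear_combination eta s * h1 - eta sᶜ * h3
  have h7 : eta (dl j sᶜ) = eta (Finset.univ : Finset (Fin (M + 1))) * eta (dl j s) := by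
    linear_combination eta (dl j s) * h2 - eta (dl j sᶜ) * h4
  rw [h6, h7, show n + M + 1 = n + (M + 1) by ring, pow_add (-1 : ℂ) n (M + 1)]
  linear_combination ((-1) ^ n * (-1) ^ (M + 1) * eta s * eta (dl j s) * (-1) ^ (j : ℕ)) * h5

theorem eta_rt {N : ℕ} (hN : Even N) (s : Finset (Fin (N + 1))) :
    eta (rt s) = eta s * ∏ k ∈ s, (if k = 0 then (1 : ℂ) else -1) := by
  unfold eta
  rw [← Finset.prod_mul_distrib]
  conv_rhs => rw [← map_rt s, Finset.prod_map]
  refine Finset.prod_congr rfl fun k _ => ?_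
  rw [Equiv.coe_toEmbedding]
  refine Fin.lastCases ?_ (fun l => ?_) k
  · rw [finRotate_last, if_pos rfl, Fin.val_last, hN.neg_one_pow]
    simp
  · rw [finRotate_apply, Fin.coeSucc_eq_succ, if_neg (Fin.succ_ne_zero l), Fin.val_succ,
      pow_succ, Fin.val_castSucc]
    ring

theorem prod_zero_sign {N : ℕ} (s : Finset (Fin (N + 1))) :
    ∏ k ∈ s, (if k = 0 then (1 : ℂ) else -1) = (-1) ^ (s.erase 0).card := by
  rw [Finset.prod_ite, Finset.prod_const_one, one_mul, Finset.prod_const]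
  congr 2
  ext k
  simp only [Finset.mem_filter, Finset.mem_erase, ne_eq, and_comm]

/-! ### The cyclic shift -/

theorem em_surj {M n : ℕ} {s : Finset (Fin (M + 1))} (h : s.card = n) {k : Fin (M + 1)}
    (hk : k ∈ s) : ∃ i : Fin n, em s i = k := by
  have h1 : k ∈ Set.range (s.orderEmbOfFin h) := by
    rw [Finset.range_orderEmbOfFin]
    exact hk
  obtain ⟨i, hi⟩ := h1
  exact ⟨i, by rw [em_eq h, hi]⟩

theorem exists_castSucc_rt {M n : ℕ} {s : Finset (Fin (M + 1))} (h : s.card = n) (h0 : 0 ∉ s)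
    (i : Fin n) : ∃ l : Fin M, em (rt s) i = l.castSucc := by
  have h1 := em_mem ((card_rt s).trans h) i
  rw [mem_rt] at h1
  have h2 : (em (rt s) i : Fin (M + 1)) ≠ Fin.last M := by
    intro h3
    rw [h3, finRotate_last] at h1
    exact h0 h1
  obtain ⟨l, hl⟩ := Fin.exists_castSucc_eq.2 h2
  exact ⟨l, hl.symm⟩

theorem shf_em_notMem {G : Type*} [Group G] (x : G) {M n : ℕ} {s : Finset (Fin (M + 1))}
    (h : s.card = n) (h0 : 0 ∉ s) (p : Fin (M + 1) → G) (i : Fin n) :
    shf x p (em (rt s) i) = p (em s i) := by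
  have hr := (card_rt s).trans h
  have h1 : em s i = finRotate (M + 1) (em (rt s) i) := by
    refine em_unique h (f := fun i => finRotate (M + 1) (em (rt s) i)) ?_ ?_ i
    · intro i j hij
      obtain ⟨a, ha⟩ := exists_castSucc_rt h h0 i
      obtain ⟨b, hb⟩ := exists_castSucc_rt h h0 j
      have h2 := em_mono hr hij
      rw [ha, hb, Fin.castSucc_lt_castSucc_iff] at h2
      simp only [ha, hb, finRotate_apply, Fin.coeSucc_eq_succ]
      exact Fin.succ_lt_succ_iff.2 h2
    · exact fun i => mem_rt.1 (em_mem hr i)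
  obtain ⟨a, ha⟩ := exists_castSucc_rt h h0 i
  rw [h1, ha, shf_castSucc, finRotate_apply, Fin.coeSucc_eq_succ]

theorem shf_em_mem {G : Type*} [Group G] (x : G) {M n : ℕ} {s : Finset (Fin (M + 1))}
    (h : s.card = n + 1) (h0 : 0 ∈ s) (p : Fin (M + 1) → G) (i : Fin (n + 1)) :
    shf x p (em (rt s) i) = shf x (fun i : Fin (n + 1) => p (em s i)) i := by
  have hr := (card_rt s).trans h
  have h1 : (em (rt s) (Fin.last n) : Fin (M + 1)) = Fin.last M := by
    obtain ⟨i, hi⟩ := em_surj hr (k := Fin.last M) (mem_rt.2 (by rw [finRotate_last]; exact h0))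
    have h2 := (em_mono hr).monotone (Fin.le_last i)
    rw [hi] at h2
    exact le_antisymm (Fin.le_last _) h2
  have h2 : (em s (0 : Fin (n + 1)) : Fin (M + 1)) = 0 := by
    obtain ⟨i, hi⟩ := em_surj h h0
    have h3 := (em_mono h).monotone (Fin.zero_le i)
    rw [hi] at h3
    exact le_antisymm h3 (Fin.zero_le _)
  have h3 : ∀ i : Fin n, ∃ l : Fin M, em (rt s) i.castSucc = l.castSucc := by
    intro i
    have h4 : (em (rt s) i.castSucc : Fin (M + 1)) ≠ Fin.last M := by
      rw [← h1]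
      exact (em_mono hr (Fin.castSucc_lt_last i)).ne
    obtain ⟨l, hl⟩ := Fin.exists_castSucc_eq.2 h4
    exact ⟨l, hl.symm⟩
  have h4 : ∀ i : Fin n, em s i.succ = finRotate (M + 1) (em (rt s) i.castSucc) := by
    intro i
    have h5 := em_unique h (f := Fin.cons 0 fun i : Fin n => finRotate (M + 1)
      (em (rt s) i.castSucc)) ?_ ?_ i.succ
    · rw [h5, Fin.cons_succ]
    · intro i j hij
      obtain ⟨b, rfl⟩ := Fin.exists_succ_eq.2 (Fin.ne_zero_of_lt hij)
      obtain ⟨c, hc⟩ := h3 b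
      rw [Fin.cons_succ, hc, finRotate_apply, Fin.coeSucc_eq_succ]
      refine Fin.cases (motive := fun i => i < b.succ → (Fin.cons 0 fun i : Fin n =>
        finRotate (M + 1) (em (rt s) i.castSucc) : Fin (n + 1) → Fin (M + 1)) i < c.succ)
        (fun _ => ?_) (fun a hab => ?_) i hij
      · rw [Fin.cons_zero]
        exact Fin.succ_pos c
      · obtain ⟨d, hd⟩ := h3 a
        rw [Fin.cons_succ, hd, finRotate_apply, Fin.coeSucc_eq_succ, Fin.succ_lt_succ_iff]
        have h6 := em_mono hr (Fin.castSucc_lt_castSucc_iff.2 (Fin.succ_lt_succ_iff.1 hab))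
        rw [hd, hc, Fin.castSucc_lt_castSucc_iff] at h6
        exact h6
    · intro i
      refine Fin.cases ?_ (fun a => ?_) i
      · rw [Fin.cons_zero]
        exact h0
      · rw [Fin.cons_succ]
        exact mem_rt.1 (em_mem hr _)
  refine Fin.lastCases ?_ (fun a => ?_) i
  · rw [h1, shf_last, shf_last, h2]
  · obtain ⟨c, hc⟩ := h3 a
    rw [shf_castSucc, h4, hc, shf_castSucc, finRotate_apply, Fin.coeSucc_eq_succ]

namespace DData

variable {G : Type*} [Group G] {D : Type*} [NormedRing D] [NormedAlgebra ℂ D] {A : DData G D}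

/-- the word attached to a set -/
def word {M m k : ℕ} (F : (Fin m → G) → ℝ) (ψ : (Fin k → G) → ℝ) (s : Finset (Fin (M + 1)))
    (p : Fin (M + 1) → G) : ℝ := (F fun i => p (em s i)) * ψ fun i => p (em sᶜ i)

theorem word_good {M m k : ℕ} {F : (Fin m → G) → ℝ} {ψ : (Fin k → G) → ℝ} (hF : A.Good F)
    (hψ : A.Good ψ) (s : Finset (Fin (M + 1))) : A.Good (word F ψ s) :=
  (hF.comp (em s)).mul (hψ.comp (em sᶜ))

/-- relation (C) -/
theorem word_C {N m k : ℕ} (hN : Even N) (hm : Even m) {F : (Fin (m + 1) → G) → ℝ}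
    {ψ : (Fin (k + 1) → G) → ℝ} (hF : A.Good F) (hψ : A.Good ψ)
    (hF1 : ∀ p, F (Vale.Agent.P184.shf A.x p) = F p)
    (hψ1 : ∀ p, ψ (Vale.Agent.P184.shf A.x p) = - ψ p)
    {s : Finset (Fin (N + 1))} (hs : s.card = m + 1) (hs' : sᶜ.card = k + 1) :
    eta (rt s) * A.pr (word F ψ (rt s)) = eta s * A.pr (word F ψ s) := by
  rw [← pr_shf (word_good hF hψ (rt s)).inv, eta_rt hN, prod_zero_sign]
  by_cases h0 : 0 ∈ s
  · have h1 : 0 ∉ sᶜ := fun h => Finset.mem_compl.1 h h0
    have h2 : (fun p => word F ψ (rt s) (Vale.Agent.P184.shf A.x p)) = word F ψ s := by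
      funext p
      unfold word
      rw [rt_compl]
      simp only [shf_em_mem A.x hs h0 p, shf_em_notMem A.x hs' h1 p]
      rw [hF1]
    rw [h2, Finset.card_erase_of_mem h0, hs, Nat.add_sub_cancel, hm.neg_one_pow, mul_one]
  · have h1 : 0 ∈ sᶜ := Finset.mem_compl.2 h0
    have h2 : (fun p => word F ψ (rt s) (Vale.Agent.P184.shf A.x p)) =
        fun p => (-1) * word F ψ s p := by
      funext p
      unfold word
      rw [rt_compl]
      simp only [shf_em_notMem A.x hs h0 p, shf_em_mem A.x hs' h1 p]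
      rw [hψ1]
      ring
    rw [h2, pr_smul, Finset.erase_eq_of_notMem h0, hs, hm.add_one.neg_one_pow]
    push_cast
    ring

variable [CompleteSpace D]

theorem pr_em {m : ℕ} {F : (Fin (m + 1) → G) → ℝ} (hF : A.Good F) :
    ∀ (r : ℕ) (s : Finset (Fin (m + r + 1))), s.card = m + 1 →
      A.pr (fun p : Fin (m + r + 1) → G => F fun i => p (em s i)) = A.pr F := by
  intro r
  induction r with
  | zero =>
    intro s hs
    have h1 : s = Finset.univ := Finset.eq_univ_of_card s (by rw [hs, Fintype.card_fin])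
    have h2 : ∀ i : Fin (m + 1), (em s i : Fin (m + 0 + 1)) = i :=
      em_unique hs (f := fun i => i) (fun i j h => h) (fun i => h1 ▸ Finset.mem_univ _)
    simp only [h2]
  | succ r ih =>
    intro s hs
    obtain ⟨j, hj⟩ : ∃ j, j ∉ s := by
      by_contra h
      push Not at h
      have h1 : s = Finset.univ := Finset.eq_univ_iff_forall.2 h
      rw [h1, Finset.card_univ, Fintype.card_fin] at hs
      omega
    have h1 : ∀ i : Fin (m + 1), (em s i : Fin (m + (r + 1) + 1)) =
        j.succAbove (em (dl j s) i : Fin (m + r + 1)) := fun i => em_dl (M := m + r) hs hj i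
    simp only [h1]
    exact (pr_del (m := m + r) j
      (F := fun p : Fin (m + r + 1) → G => F fun i => p (em (dl j s) i))
      (hF.comp (em (dl j s)))).trans (ih (dl j s) ((card_dl hj).trans hs))

/-- relation (R) -/
theorem word_R {M m k : ℕ} {F : (Fin m → G) → ℝ} {ψ : (Fin k → G) → ℝ} (hF : A.Good F)
    (hψ : A.Good ψ) (hF0 : ∀ p, cob F p = 0) {s : Finset (Fin (M + 2))} (hs : s.card = m + 1)
    (hs' : sᶜ.card = k) :
    ∑ l : Fin (m + 1), (-1 : ℂ) ^ (l : ℕ) * A.pr (word F ψ (dl (em s l) s)) = 0 := by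
  have h1 : (fun p : Fin (M + 2) → G => ∑ l : Fin (m + 1), (-1 : ℝ) ^ (l : ℕ) *
      word F ψ (dl (em s l) s) fun i => p ((em s l).succAbove i)) = fun _ => 0 := by
    funext p
    have h2 : ∀ l : Fin (m + 1), (-1 : ℝ) ^ (l : ℕ) *
        (word F ψ (dl (em s l) s) fun i => p ((em s l).succAbove i)) =
        ((-1 : ℝ) ^ (l : ℕ) * F fun i => p (em s (l.succAbove i))) * ψ fun i => p (em sᶜ i) := by
      intro l
      have hl : (em s l : Fin (M + 2)) ∉ sᶜ := fun h => Finset.mem_compl.1 h (em_mem hs l)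
      unfold word
      simp only [dl_compl, ← em_dl_mem hs l, ← em_dl hs' hl]
      ring
    rw [Finset.sum_congr rfl fun l _ => h2 l, ← Finset.sum_mul]
    have h3 := hF0 fun i => p (em s i)
    unfold cob at h3
    rw [h3, zero_mul]
  have h2 := pr_zero (A := A) (m := M + 1)
  rw [← h1] at h2
  rw [← h2]
  rw [pr_sum Finset.univ (F := fun (l : Fin (m + 1)) (p : Fin (M + 2) → G) => (-1 : ℝ) ^ (l : ℕ) *
      word F ψ (dl (em s l) s) fun i => p ((em s l).succAbove i))
      (fun l => ((word_good hF hψ _).comp _).smul _)]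
  refine Finset.sum_congr rfl fun l _ => ?_
  rw [pr_smul, pr_del (em s l) (word_good hF hψ _)]
  push_cast
  rfl

/-- relation (D) -/
theorem word_D {M m k : ℕ} {F : (Fin m → G) → ℝ} {ψ : (Fin k → G) → ℝ} (hF : A.Good F)
    (hψ : A.Good ψ) (hψ0 : ∀ p, cob ψ p = 1) {s : Finset (Fin (M + 2))} (hs : s.card = m)
    (hs' : sᶜ.card = k + 1) :
    ∑ l : Fin (k + 1), (-1 : ℂ) ^ (l : ℕ) * A.pr (word F ψ (dl (em sᶜ l) s)) =
      A.pr (fun p : Fin (M + 2) → G => F fun i => p (em s i)) := by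
  have h1 : (fun p : Fin (M + 2) → G => ∑ l : Fin (k + 1), (-1 : ℝ) ^ (l : ℕ) *
      word F ψ (dl (em sᶜ l) s) fun i => p ((em sᶜ l).succAbove i)) =
      fun p => F fun i => p (em s i) := by
    funext p
    have h2 : ∀ l : Fin (k + 1), (-1 : ℝ) ^ (l : ℕ) *
        (word F ψ (dl (em sᶜ l) s) fun i => p ((em sᶜ l).succAbove i)) =
        ((-1 : ℝ) ^ (l : ℕ) * ψ fun i => p (em sᶜ (l.succAbove i))) * F fun i => p (em s i) := by
      intro l
      have hl : (em sᶜ l : Fin (M + 2)) ∉ s := Finset.mem_compl.1 (em_mem hs' l)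
      unfold word
      simp only [dl_compl, ← em_dl_mem hs' l, ← em_dl hs hl]
      ring
    rw [Finset.sum_congr rfl fun l _ => h2 l, ← Finset.sum_mul]
    have h3 := hψ0 fun i => p (em sᶜ i)
    unfold cob at h3
    rw [h3, one_mul]
  rw [← h1]
  rw [pr_sum Finset.univ (F := fun (l : Fin (k + 1)) (p : Fin (M + 2) → G) => (-1 : ℝ) ^ (l : ℕ) *
      word F ψ (dl (em sᶜ l) s) fun i => p ((em sᶜ l).succAbove i))
      (fun l => ((word_good hF hψ _).comp _).smul _)]
  refine Finset.sum_congr rfl fun l _ => ?_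
  rw [pr_smul, pr_del (em sᶜ l) (word_good hF hψ _)]
  push_cast
  rfl

theorem word_R' {M m k : ℕ} {F : (Fin m → G) → ℝ} {ψ : (Fin k → G) → ℝ} (hF : A.Good F)
    (hψ : A.Good ψ) (hF0 : ∀ p, cob F p = 0) {s : Finset (Fin (M + 2))} (hs : s.card = m + 1)
    (hs' : sᶜ.card = k) :
    ∑ i ∈ s, (-1 : ℂ) ^ (i : ℕ) * (eta (dl i s) * A.pr (word F ψ (dl i s))) = 0 := by
  have h0 := word_R hF hψ hF0 hs hs'
  let g : Fin (M + 2) → ℂ := fun i => (-1) ^ m * eta s *
    ((-1 : ℂ) ^ (i : ℕ) * (eta (dl i s) * A.pr (word F ψ (dl i s))))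
  have h2 : ∀ l : Fin (m + 1), (-1 : ℂ) ^ (l : ℕ) * A.pr (word F ψ (dl (em s l) s)) =
      g (em s l) := by
    intro l
    rw [sign_mem hs l]
    ring
  have h1 := (sum_em hs g).symm.trans ((Finset.sum_congr rfl fun l _ => (h2 l).symm).trans h0)
  rw [show (∑ i ∈ s, g i) = (-1) ^ m * eta s * ∑ i ∈ s, (-1 : ℂ) ^ (i : ℕ) *
    (eta (dl i s) * A.pr (word F ψ (dl i s))) from (Finset.mul_sum _ _ _).symm] at h1
  have h3 : (-1 : ℂ) ^ m * eta s ≠ 0 := by
    refine mul_ne_zero (pow_ne_zero _ (by norm_num)) fun h => ?_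
    have := eta_sq s
    rw [h, mul_zero] at this
    exact zero_ne_one this
  exact (mul_eq_zero.1 h1).resolve_left h3

theorem word_D' {M m k : ℕ} (hM : Odd (k + M + 1)) {F : (Fin m → G) → ℝ} {ψ : (Fin k → G) → ℝ}
    (hF : A.Good F) (hψ : A.Good ψ) (hψ0 : ∀ p, cob ψ p = 1) {s : Finset (Fin (M + 2))}
    (hs : s.card = m) (hs' : sᶜ.card = k + 1) :
    ∑ j ∈ sᶜ, (-1 : ℂ) ^ (j : ℕ) * (eta (dl j s) * A.pr (word F ψ (dl j s))) =
      -(eta s * A.pr (fun p : Fin (M + 2) → G => F fun i => p (em s i))) := by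
  have h0 := word_D hF hψ hψ0 hs hs'
  let g : Fin (M + 2) → ℂ := fun i => (-1) ^ (k + M + 1) * eta s *
    ((-1 : ℂ) ^ (i : ℕ) * (eta (dl i s) * A.pr (word F ψ (dl i s))))
  have h2 : ∀ l : Fin (k + 1), (-1 : ℂ) ^ (l : ℕ) * A.pr (word F ψ (dl (em sᶜ l) s)) =
      g (em sᶜ l) := by
    intro l
    rw [sign_notMem hs' l]
    ring
  have h1 := (sum_em hs' g).symm.trans ((Finset.sum_congr rfl fun l _ => (h2 l).symm).trans h0)
  rw [show (∑ i ∈ sᶜ, g i) = (-1) ^ (k + M + 1) * eta s * ∑ i ∈ sᶜ, (-1 : ℂ) ^ (i : ℕ) *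
    (eta (dl i s) * A.pr (word F ψ (dl i s))) from (Finset.mul_sum _ _ _).symm,
    hM.neg_one_pow] at h1
  have h4 := eta_sq s
  linear_combination (-eta s) * h1 - (∑ j ∈ sᶜ, (-1 : ℂ) ^ (j : ℕ) *
    (eta (dl j s) * A.pr (word F ψ (dl j s)))) * h4

/-- If there is a cyclic cochain with coboundary `1`, then all cyclic cocycles vanish. -/
theorem pr_closed_zero {m k : ℕ} {F : (Fin (2 * m + 1) → G) → ℝ} (hF : A.Good F)
    (hF1 : ∀ p, F (Vale.Agent.P184.shf A.x p) = F p) (hF0 : ∀ p, cob F p = 0)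
    {ψ : (Fin (2 * k + 2) → G) → ℝ} (hψ : A.Good ψ)
    (hψ1 : ∀ p, ψ (Vale.Agent.P184.shf A.x p) = - ψ p)
    (hψ0 : ∀ p, cob ψ p = 1) : A.pr F = 0 := by
  refine comb_zero (N := 2 * m + 2 * k + 2) (a := 2 * m + 1) ⟨m + k + 1, by ring⟩ ⟨m, rfl⟩
    (by omega) (fun s => eta s * A.pr (word F ψ s)) (A.pr F) ?_ ?_ ?_
  · intro s hs
    have hs' : sᶜ.card = 2 * k + 1 + 1 := by
      rw [Finset.card_compl, hs, Fintype.card_fin]
      omega
    exact word_C (m := 2 * m) (k := 2 * k + 1) ⟨m + k + 1, by ring⟩ ⟨m, by ring⟩ hF hψ hF1 hψ1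
      hs hs'
  · intro s hs
    have hs' : sᶜ.card = 2 * k + 2 := by
      rw [Finset.card_compl, hs, Fintype.card_fin]
      omega
    exact word_R' (M := 2 * m + 2 * k + 2) hF hψ hF0 hs hs'
  · intro s hs
    have hs' : sᶜ.card = 2 * k + 2 + 1 := by
      rw [Finset.card_compl, hs, Fintype.card_fin]
      omega
    have h0 : A.pr (fun p : Fin (2 * m + 2 * k + 2 + 2) → G => F fun i => p (em s i)) = A.pr F :=
      pr_em (m := 2 * m) hF (2 * k + 3) s hs
    rw [← h0]
    exact word_D' (M := 2 * m + 2 * k + 2) ⟨m + 2 * k + 2, by ring⟩ hF hψ hψ0 hs hs'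

end DData

end Vale.Agent.P184

end
end

section

noncomputable section
open scoped Topology

namespace Vale.Agent.P184

/-! ### Close idempotents are equivalent -/

section Sim

variable {R : Type*} [NormedRing R] [NormOneClass R] [CompleteSpace R]

/-- Close idempotents in a closed subring are equivalent. -/
theorem sim_of_close {S : Set R} (hS : IsClosed S) (hone : (1 : R) ∈ S)
    (hmul : ∀ a ∈ S, ∀ b ∈ S, a * b ∈ S) (hadd : ∀ a ∈ S, ∀ b ∈ S, a + b ∈ S)
    (hneg : ∀ a ∈ S, -a ∈ S) {e f : R} (he : e ∈ S) (hf : f ∈ S) (hee : e * e = e)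
    (hff : f * f = f) (h : ‖f - e‖ * (2 * ‖e‖ + 1) < 1) :
    ∃ U ∈ S, ∃ V ∈ S, U * V = e ∧ V * U = f := by
  set z : R := f * e + (1 - f) * (1 - e) with hz
  set t : R := -((f - e) * (e + e - 1)) with ht
  have hzt : 1 - t = z := by
    rw [ht, hz]
    have h1 : (f - e) * (e + e - 1) = f * e + f * e - f - (e * e + e * e - e) := by noncomm_ring
    have h2 : (1 - f) * (1 - e) = 1 - f - e + f * e := by noncomm_ring
    rw [h1, h2, hee]
    noncomm_ring
  have hzS : z ∈ S := by
    have h0 : z = f * e + ((1 + -f) * (1 + -e)) := by rw [hz, sub_eq_add_neg, sub_eq_add_neg]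
    rw [h0]
    exact hadd _ (hmul _ hf _ he) _ (hmul _ (hadd _ hone _ (hneg _ hf)) _ (hadd _ hone _ (hneg _ he)))
  have htS : t ∈ S := by
    have h0 : t = 1 + -z := by rw [← hzt]; noncomm_ring
    rw [h0]
    exact hadd _ hone _ (hneg _ hzS)
  have htn : ‖t‖ < 1 := by
    refine lt_of_le_of_lt ?_ h
    rw [ht, norm_neg]
    refine (norm_mul_le _ _).trans (mul_le_mul_of_nonneg_left ?_ (norm_nonneg _))
    refine (norm_sub_le _ _).trans ?_
    rw [norm_one]
    have := norm_add_le e e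
    linarith only [this]
  have hpow : ∀ n : ℕ, t ^ n ∈ S := by
    intro n
    induction n with
    | zero => rw [pow_zero]; exact hone
    | succ n ih => rw [pow_succ]; exact hmul _ ih _ htS
  have hzero : (0 : R) ∈ S := by
    have := hadd _ hone _ (hneg _ hone)
    rwa [add_neg_cancel] at this
  have hsum : ∀ F : Finset ℕ, ∑ n ∈ F, t ^ n ∈ S := by
    intro F
    induction F using Finset.induction_on with
    | empty => rw [Finset.sum_empty]; exact hzero
    | insert a F ha ih => rw [Finset.sum_insert ha]; exact hadd _ (hpow a) _ ih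
  set w : R := ∑' n : ℕ, t ^ n with hw
  have hws : Summable fun n : ℕ => t ^ n := summable_geometric_of_norm_lt_one htn
  have hwS : w ∈ S := hS.mem_of_tendsto hws.hasSum (Filter.Eventually.of_forall hsum)
  have hwz : w * z = 1 := by rw [← hzt]; exact geom_series_mul_neg t htn
  have hzw : z * w = 1 := by rw [← hzt]; exact mul_neg_geom_series t htn
  have hze : z * e = f * z := by
    rw [hz, add_mul, mul_add, mul_assoc, mul_assoc, hee]
    have h1 : (1 - e) * e = 0 := by rw [sub_mul, one_mul, hee, sub_self]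
    have h3 : f * (1 - f) = 0 := by rw [mul_sub, mul_one, hff, sub_self]
    have h2 : f * ((1 - f) * (1 - e)) = 0 := by rw [← mul_assoc, h3, zero_mul]
    rw [h1, h2, mul_zero, ← mul_assoc, hff]
  refine ⟨w * f, hmul _ hwS _ hf, f * z, hmul _ hf _ hzS, ?_, ?_⟩
  · calc w * f * (f * z) = w * ((f * f) * z) := by noncomm_ring
      _ = w * (z * e) := by rw [hff, hze]
      _ = e := by rw [← mul_assoc, hwz, one_mul]
  · calc f * z * (w * f) = f * (z * w) * f := by noncomm_ring
      _ = f := by rw [hzw, mul_one, hff]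

end Sim

section Conv

variable {G : Type*} [Group G] {D : Type*} [NormedRing D] [NormedAlgebra ℂ D] [CompleteSpace D]
  [NormOneClass D]

omit [CompleteSpace D] in
theorem l1_nontrivial : Nontrivial (L1 G D) := by
  have : Nontrivial D := NormOneClass.nontrivial (G := D)
  refine ⟨⟨CrossedData.del, 0, fun h => ?_⟩⟩
  have h1 : (CrossedData.del : L1 G D).co 1 = 0 := by rw [h]; rfl
  rw [CrossedData.del_one] at h1
  exact one_ne_zero h1

/-- Close idempotents of `ℓ¹(G; D)` are equivalent. -/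
theorem sim_conv (E F : G → D) (hEs : Summable fun g => ‖E g‖)
    (hEc : ∀ k, ∑' h, E h * E (h⁻¹ * k) = E k) (hFs : Summable fun g => ‖F g‖)
    (hFc : ∀ k, ∑' h, F h * F (h⁻¹ * k) = F k)
    (h : (∑' g, ‖F g - E g‖) * (2 * (∑' g, ‖E g‖) + 1) < 1) :
    ∃ u v : G → D, (Summable fun g => ‖u g‖) ∧ (Summable fun g => ‖v g‖) ∧
      (∀ k, ∑' h, u h * v (h⁻¹ * k) = E k) ∧ (∀ k, ∑' h, v h * u (h⁻¹ * k) = F k) := by
  have : Nontrivial (L1 G D) := l1_nontrivial
  let A : CrossedData G D :=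
    trivData (0 : D →L[ℂ] ℂ) (fun _ _ => rfl) (fun _ => False) (fun _ _ h => h)
  have hA : ∀ g a, A.act g a = a := fun g a => rfl
  set ve : L1 G D := L1.mk E hEs with hve
  set vf : L1 G D := L1.mk F hFs with hvf
  have hclose : ‖theta A (MonoidHom.id G) vf - theta A (MonoidHom.id G) ve‖ *
      (2 * ‖theta A (MonoidHom.id G) ve‖ + 1) < 1 := by
    refine lt_of_le_of_lt ?_ h
    have h1 : ‖theta A (MonoidHom.id G) vf - theta A (MonoidHom.id G) ve‖ ≤
        ∑' g, ‖F g - E g‖ := by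
      rw [← map_sub]
      refine (theta_norm A _ _).trans ?_
      rw [L1.norm_eq]
      exact le_rfl
    have h2 : ‖theta A (MonoidHom.id G) ve‖ ≤ ∑' g, ‖E g‖ := by
      refine (theta_norm A _ _).trans ?_
      rw [L1.norm_eq]
      exact le_rfl
    refine mul_le_mul h1 (by linarith) (by (clear F hEc hFs hFc h hA hve vf hvf h1 h2; positivity)) (tsum_nonneg fun _ => norm_nonneg _)
  obtain ⟨U, hU, V, hV, hUV, hVU⟩ := sim_of_close (R := L1 G D →L[ℂ] L1 G D)
    (S := (A.clos : Set (L1 G D →L[ℂ] L1 G D))) A.clos_closed A.one_mem_clos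
    (fun a ha b hb => A.mul_mem_clos ha hb) (fun a ha b hb => A.clos.add_mem ha hb)
    (fun a ha => A.clos.neg_mem ha) (theta_mem A _ ve) (theta_mem A _ vf)
    (theta_idem A hA ve hEc) (theta_idem A hA vf hFc) hclose
  have key : ∀ {X Y : L1 G D →L[ℂ] L1 G D} (hX : X ∈ A.clos) (w : L1 G D)
      (hXY : X * Y = theta A (MonoidHom.id G) w) (k : G),
      ∑' h, (X CrossedData.del).co h * (Y CrossedData.del).co (h⁻¹ * k) = w.co k := by
    intro X Y hX w hXY k
    have h1 : theta A (MonoidHom.id G) (X CrossedData.del) = X := by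
      rw [← Psi_apply]
      exact Psi_id A hX
    rw [← theta_co A hA (X CrossedData.del) (Y CrossedData.del) k, h1]
    change ((X * Y) CrossedData.del).co k = w.co k
    rw [hXY, theta_del A hA]
  exact ⟨(U CrossedData.del).co, (V CrossedData.del).co, (U CrossedData.del).summable_norm,
    (V CrossedData.del).summable_norm, key hU ve hUV, key hV vf hVU⟩

/-- Every idempotent of `ℓ¹(G; D)` is arbitrarily close to one with exponential decay. -/
theorem exists_decay_near (L : G → ℝ) (hL0 : ∀ g, 0 ≤ L g)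
    (hL : ∀ g h, L (g * h) ≤ L g + L h) (E : G → D) (hEs : Summable fun g => ‖E g‖)
    (hEc : ∀ k, ∑' h, E h * E (h⁻¹ * k) = E k) {η : ℝ} (hη : 0 < η) :
    ∃ ε : ℝ, 0 < ε ∧ ∃ c : G → D, (Summable fun g => ‖c g‖ * Real.exp (ε * L g)) ∧
      (Summable fun g => ‖c g‖) ∧ (∀ k, ∑' h, c h * c (h⁻¹ * k) = c k) ∧
      ∑' g, ‖c g - E g‖ < η := by
  classical
  have hnt : Nontrivial (L1 G D) := l1_nontrivial
  set N := ∑' g, ‖E g‖ with hN
  have hN0 : 0 ≤ N := tsum_nonneg fun _ => norm_nonneg _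
  set m := min 1 η with hm
  have hm0 : 0 < m := lt_min one_pos hη
  have hm1 : m ≤ 1 := min_le_left _ _
  have hmη : m ≤ η := min_le_right _ _
  set K := (4 * N + 1) * (2 * N + 1) with hK
  have hK1 : 1 ≤ K := by rw [hK]; nlinarith only [hN0]
  set δ : ℝ := m / (64 * K) with hδ
  have hδ0 : 0 < δ := by (clear * - hη; (clear * - hη; positivity))
  have hδK : K * δ = m / 64 := by rw [hδ]; field_simp
  have hδ1 : (2 * N + 1) * δ ≤ m / 64 := by
    rw [← hδK]
    refine mul_le_mul_of_nonneg_right ?_ hδ0.le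
    rw [hK]; (by_contra nlg; linarith only [mul_nonneg (le_of_lt (sub_pos.2 hm0)) (sub_nonneg.2 hK1), mul_nonneg (sub_nonneg.2 hN0) (sub_nonneg.2 hm1), mul_nonneg (sub_nonneg.2 hN0) (sub_nonneg.2 hN0), mul_nonneg (le_of_lt (sub_pos.2 (not_le.1 nlg))) (sub_nonneg.2 hm1), mul_pos (sub_pos.2 (not_le.1 nlg)) (sub_pos.2 hm0)])
  have hδ2 : δ ≤ m / 64 := by
    rw [← hδK]; (by_contra nlg; linarith only [nlg, mul_nonneg (sub_nonneg.2 hK1) (le_of_lt (sub_pos.2 hδ0)), mul_nonneg (le_of_lt (sub_pos.2 (not_le.1 nlg))) (sub_nonneg.2 hm1), mul_pos (sub_pos.2 (not_le.1 nlg)) (sub_pos.2 hm0)])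
  obtain ⟨S0, aF, hoff, haFs, hnear, hnorm, hdef⟩ := exists_trunc E hEs hEc δ hδ0
  rw [← hN] at hnorm
  let S : Finset G := insert 1 (S0 ∪ (S0 ×ˢ S0).image (fun p => p.1 * p.2))
  have h1S : (1 : G) ∈ S := Finset.mem_insert_self _ _
  have hS0S : ∀ x ∈ S0, x ∈ S := fun x hx =>
    Finset.mem_insert_of_mem (Finset.mem_union_left _ hx)
  have hSS : ∀ x ∈ S0, ∀ y ∈ S0, x * y ∈ S := fun x hx y hy =>
    Finset.mem_insert_of_mem (Finset.mem_union_right _
      (Finset.mem_image.mpr ⟨(x, y), Finset.mem_product.mpr ⟨hx, hy⟩, rfl⟩))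
  set M := 1 + ∑ z ∈ S, L z with hM
  have hM0 : 0 < M := by
    have : 0 ≤ ∑ z ∈ S, L z := Finset.sum_nonneg fun z _ => hL0 z
    rw [hM]; linarith only [this]
  have hLM : ∀ z ∈ S, L z ≤ M := by
    intro z hz
    have h1 := Finset.single_le_sum (f := L) (fun z _ => hL0 z) hz
    rw [hM]; linarith only [h1]
  set ε := Real.log 2 / M with hε
  have hε0 : 0 < ε := div_pos (Real.log_pos (by norm_num)) hM0
  set u : G → ℝ := fun g => ε * L g with hu_def
  have hu : ∀ g h, u (g * h) ≤ u g + u h := by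
    intro g h
    simp only [hu_def]
    rw [← mul_add]
    exact mul_le_mul_of_nonneg_left (hL g h) hε0.le
  have hu0 : ∀ g, 0 ≤ u g := fun g => mul_nonneg hε0.le (hL0 g)
  have hu2 : ∀ z ∈ S, Real.exp (u z) ≤ 2 := by
    intro z hz
    have h1 : u z ≤ Real.log 2 := by
      simp only [hu_def]
      calc ε * L z ≤ ε * M := mul_le_mul_of_nonneg_left (hLM z hz) hε0.le
        _ = Real.log 2 := by rw [hε]; (clear * - hM0; field_simp)
    calc Real.exp (u z) ≤ Real.exp (Real.log 2) := Real.exp_le_exp.mpr h1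
      _ = 2 := Real.exp_log (by norm_num)
  set pt := ∑ x ∈ S0, pw u hu x (aF x) with hpt
  have hpt_mem : pt ∈ wclos u hu := Submodule.sum_mem _ fun x _ => pw_mem u hu _ _
  have hpt_norm : ‖pt‖ ≤ 2 * N := by
    refine (norm_sum_le _ _).trans ?_
    have h1 : ∑ x ∈ S0, ‖pw u hu x (aF x)‖ ≤ ∑ x ∈ S0, 2 * ‖aF x‖ := by
      refine Finset.sum_le_sum fun x hx => (pw_norm u hu x (aF x)).trans ?_
      exact mul_le_mul_of_nonneg_right (hu2 x (hS0S x hx)) (norm_nonneg _)
    refine h1.trans ?_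
    rw [← Finset.mul_sum]
    linarith only [hnorm]
  set dz : G → D := fun z =>
    (∑ x ∈ S0, aF x * aF (x⁻¹ * z)) - aF z with hdz
  have hpt_def : pt * pt - pt = ∑ z ∈ S, pw u hu z (dz z) := by
    have h1 : pt * pt = ∑ z ∈ S, pw u hu z (∑ x ∈ S0, aF x * aF (x⁻¹ * z)) := by
      have h2 : ∀ z, pw u hu z (∑ x ∈ S0, aF x * aF (x⁻¹ * z)) =
          ∑ x ∈ S0, pw u hu z (aF x * aF (x⁻¹ * z)) := fun z => by
        have := map_sum (pwL u hu z) (fun x => aF x * aF (x⁻¹ * z)) S0
        exact this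
      simp only [h2]
      rw [Finset.sum_comm, hpt, Finset.sum_mul]
      refine Finset.sum_congr rfl fun x hx => ?_
      rw [Finset.mul_sum]
      have h3 : ∑ y ∈ S0, pw u hu x (aF x) * pw u hu y (aF y) =
          ∑ y ∈ S0, pw u hu (x * y) (aF x * aF (x⁻¹ * (x * y))) := by
        refine Finset.sum_congr rfl fun y hy => ?_
        rw [pw_mul, inv_mul_cancel_left]
      rw [h3]
      have h4 : ∑ y ∈ S0, pw u hu (x * y) (aF x * aF (x⁻¹ * (x * y))) =
          ∑ z ∈ S0.image (fun y => x * y), pw u hu z (aF x * aF (x⁻¹ * z)) := by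
        rw [Finset.sum_image]
        intro y _ y' _ h
        exact mul_left_cancel h
      rw [h4]
      refine Finset.sum_subset ?_ ?_
      · intro z hz
        obtain ⟨y, hy, rfl⟩ := Finset.mem_image.mp hz
        exact hSS x hx y hy
      · intro z _ hz
        have h5 : x⁻¹ * z ∉ S0 := fun h => hz (Finset.mem_image.mpr ⟨x⁻¹ * z, h, by group⟩)
        rw [hoff _ h5, mul_zero]
        exact (pwL u hu z).map_zero
    have h7 : pt = ∑ z ∈ S, pw u hu z (aF z) := by
      rw [hpt]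
      refine Finset.sum_subset (fun x hx => hS0S x hx) ?_
      intro z _ hz
      rw [hoff _ hz]
      exact (pwL u hu z).map_zero
    rw [h1]
    conv_lhs => rw [h7]
    rw [← Finset.sum_sub_distrib]
    refine Finset.sum_congr rfl fun z _ => ?_
    exact ((pwL u hu z).map_sub _ _).symm
  have hpt_small : ‖pt * pt - pt‖ ≤ 2 * ((2 * N + 1) * δ) := by
    rw [hpt_def]
    refine (norm_sum_le _ _).trans ?_
    have h1 : ∑ z ∈ S, ‖pw u hu z (dz z)‖ ≤ ∑ z ∈ S, 2 * ‖dz z‖ := by
      refine Finset.sum_le_sum fun z hz => (pw_norm u hu z (dz z)).trans ?_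
      exact mul_le_mul_of_nonneg_right (hu2 z hz) (norm_nonneg _)
    refine h1.trans ?_
    rw [← Finset.mul_sum]
    have := hdef S
    linarith only [this]
  obtain ⟨ft, hft_mem, hft_idem, hft_near⟩ := exists_idempotent_near
    (R := L1 G D →L[ℂ] L1 G D)
    (S := ((wclos u hu : Submodule ℂ (L1 G D →L[ℂ] L1 G D)) : Set _)) (wclos_closed u hu)
    (fun a ha b hb => mul_mem_wclos u hu ha hb)
    (fun a ha b hb => Submodule.add_mem _ ha hb)
    (fun a ha => Submodule.neg_mem _ ha) pt hpt_mem (hpt_small.trans (by linarith only [hδ2, hδ1, hδ0, hm1]))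
  have hft_near' : ‖ft - pt‖ ≤ m / 8 := by
    refine hft_near.trans ?_
    have h1 : 0 ≤ ‖pt‖ := norm_nonneg _
    have h2 : 0 ≤ ‖pt * pt - pt‖ := norm_nonneg _
    calc 3 * (2 * ‖pt‖ + 1) * ‖pt * pt - pt‖
        ≤ 3 * (4 * N + 1) * (2 * ((2 * N + 1) * δ)) := by
          refine mul_le_mul ?_ hpt_small h2 (by (clear * -; (clear * -; positivity)))
          linarith only [hpt_norm]
      _ = 6 * (K * δ) := by rw [hK]; ring
      _ ≤ m / 8 := by rw [hδK]; linarith only [hδ0, hδ2]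
  set c : G → D := fun k => cf u ft k with hc
  have hcs1 : Summable fun k => ‖c k‖ * Real.exp (u k) := by
    have h1 : ∀ k, ‖c k‖ * Real.exp (u k) = Real.exp (u 1) * ‖(ft CrossedData.del).co k‖ :=
      fun k => cf_norm u ft k
    simp only [h1]
    exact (ft CrossedData.del).summable_norm.mul_left _
  have hexp1 : ∀ k, 1 ≤ Real.exp (u k) := fun k => Real.one_le_exp (hu0 k)
  have hcs : Summable fun k => ‖c k‖ := by
    refine Summable.of_nonneg_of_le (fun _ => norm_nonneg _) (fun k => ?_) hcs1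
    exact le_mul_of_one_le_right (norm_nonneg _) (hexp1 k)
  have hcc : ∀ k, ∑' h, c h * c (h⁻¹ * k) = c k := by
    intro k
    have := cf_mul u hu hft_mem ft k
    rw [hft_idem] at this
    exact this.symm
  have hcpt : ∀ k, cf u pt k = aF k := by
    intro k
    have h1 : ∀ T : Finset G, cf u (∑ x ∈ T, pw u hu x (aF x)) k =
        ∑ x ∈ T, if k = x then aF x else 0 := by
      intro T
      induction T using Finset.induction_on with
      | empty => rw [Finset.sum_empty, Finset.sum_empty, cf_zero]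
      | insert a T ha ih =>
        rw [Finset.sum_insert ha, Finset.sum_insert ha, cf_add, ih, cf_pw]
    rw [hpt, h1, Finset.sum_ite_eq]
    split_ifs with h2
    · rfl
    · exact (hoff k h2).symm
  have hsub : ∀ k, ‖c k - aF k‖ ≤ 2 * ‖((ft - pt) CrossedData.del).co k‖ := by
    intro k
    have h1 : c k - aF k = cf u (ft - pt) k := by
      rw [sub_eq_add_neg ft pt, cf_add]
      have h2 : -pt = (-1 : ℂ) • pt := by rw [neg_one_smul]
      rw [h2, cf_smul, hcpt, neg_one_smul, sub_eq_add_neg]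
    rw [h1]
    have h3 := cf_norm u (ft - pt) k
    have h4 : ‖cf u (ft - pt) k‖ ≤ ‖cf u (ft - pt) k‖ * Real.exp (u k) :=
      le_mul_of_one_le_right (norm_nonneg _) (hexp1 k)
    refine h4.trans (h3.le.trans ?_)
    exact mul_le_mul_of_nonneg_right (hu2 1 h1S) (norm_nonneg _)
  have hdel : ‖(CrossedData.del : L1 G D)‖ = 1 := by
    rw [L1.norm_eq, tsum_eq_single (1 : G)]
    · rw [CrossedData.del_one, norm_one]
    · intro k hk
      rw [CrossedData.del_ne hk, norm_zero]
  have hsum1 : Summable fun k => ‖c k - aF k‖ :=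
    Summable.of_nonneg_of_le (fun _ => norm_nonneg _) hsub
      (((ft - pt) CrossedData.del).summable_norm.mul_left 2)
  have hclose1 : ∑' k, ‖c k - aF k‖ ≤ m / 4 := by
    refine (hsum1.tsum_le_tsum hsub
      (((ft - pt) CrossedData.del).summable_norm.mul_left 2)).trans ?_
    rw [tsum_mul_left, ← L1.norm_eq]
    have := (ft - pt).le_opNorm (CrossedData.del : L1 G D)
    rw [hdel, mul_one] at this
    linarith only [hft_near', this]
  refine ⟨ε, hε0, c, hcs1, hcs, hcc, ?_⟩
  have hsum2 : Summable fun k => ‖aF k - E k‖ := by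
    refine Summable.of_nonneg_of_le (fun _ => norm_nonneg _) (fun k => norm_sub_le _ _) ?_
    exact haFs.add hEs
  have hsum3 : Summable fun k => ‖c k - E k‖ := by
    refine Summable.of_nonneg_of_le (fun _ => norm_nonneg _) (fun k => norm_sub_le _ _) ?_
    exact hcs.add hEs
  have h1 : ∑' k, ‖c k - E k‖ ≤ ∑' k, (‖c k - aF k‖ + ‖aF k - E k‖) := by
    refine hsum3.tsum_le_tsum (fun k => ?_) (hsum1.add hsum2)
    exact norm_sub_le_norm_sub_add_norm_sub _ _ _
  rw [hsum1.tsum_add hsum2] at h1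
  linarith only [hmη, hδ0, hδ2, hnear, hclose1, h1]

end Conv

section Mat

attribute [local instance] Matrix.linftyOpNormedRing Matrix.linftyOpNormedAlgebra

theorem entries_conv {G : Type*} [Group G] {q : ℕ} {U V W : G → Matrix (Fin q) (Fin q) ℂ}
    (hU : Summable fun g => ‖U g‖) (hV : Summable fun g => ‖V g‖)
    (h : ∀ k, ∑' h, U h * V (h⁻¹ * k) = W k) (i j : Fin q) (k : G) :
    ∑ l, ∑' h, U h i l * V (h⁻¹ * k) l j = W k i j := by
  have hUs : ∀ i j, Summable fun g => ‖U g i j‖ := fun i j =>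
    Summable.of_nonneg_of_le (fun _ => norm_nonneg _) (fun g => norm_entry_le (U g) i j) hU
  have hVs : ∀ i j, Summable fun g => ‖V g i j‖ := fun i j =>
    Summable.of_nonneg_of_le (fun _ => norm_nonneg _) (fun g => norm_entry_le (V g) i j) hV
  have hs : Summable fun h => U h * V (h⁻¹ * k) := by
    refine Summable.of_norm_bounded (hU.mul_right (∑' g, ‖V g‖)) fun h => ?_
    refine (norm_mul_le _ _).trans (mul_le_mul_of_nonneg_left ?_ (norm_nonneg _))
    exact hV.le_tsum _ fun _ _ => norm_nonneg _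
  have h2 : (∑' h, U h * V (h⁻¹ * k)) i j = W k i j := by rw [h k]
  rw [entry_tsum hs] at h2
  have h1 : ∀ h, (U h * V (h⁻¹ * k)) i j = ∑ l, U h i l * V (h⁻¹ * k) l j := by
    intro h
    rw [Matrix.mul_apply]
  rw [tsum_congr h1, Summable.tsum_finsetSum] at h2
  · exact h2
  · intro l _
    refine Summable.of_norm_bounded ((hUs i l).mul_right (∑' g, ‖V g l j‖)) fun h => ?_
    rw [norm_mul]
    refine mul_le_mul_of_nonneg_left ?_ (norm_nonneg _)
    exact (hVs l j).le_tsum _ fun _ _ => norm_nonneg _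

/-- Every idempotent matrix over `ℓ¹(G)` is equivalent to one with exponential decay. -/
theorem exists_decay_equiv {G : Type*} [Group G] (L : G → ℝ) (hL0 : ∀ g, 0 ≤ L g)
    (hL : ∀ g h, L (g * h) ≤ L g + L h) {q : ℕ} (e : Matrix (Fin q) (Fin q) (G → ℂ))
    (he : IsIdem e) :
    ∃ ε : ℝ, 0 < ε ∧ ∃ f u v : Matrix (Fin q) (Fin q) (G → ℂ), IsIdem f ∧
      (∀ i j, Summable fun g => ‖f i j g‖ * Real.exp (ε * L g)) ∧
      (∀ i j, Summable fun g => ‖u i j g‖) ∧ (∀ i j, Summable fun g => ‖v i j g‖) ∧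
      (∀ i j g, ∑ k, ∑' h, u i k h * v k j (h⁻¹ * g) = e i j g) ∧
      (∀ i j g, ∑ k, ∑' h, v i k h * u k j (h⁻¹ * g) = f i j g) := by
  classical
  rcases Nat.eq_zero_or_pos q with hq | hq
  · subst hq
    exact ⟨1, one_pos, e, e, e, he, fun i => i.elim0, fun i => i.elim0, fun i => i.elim0,
      fun i => i.elim0, fun i => i.elim0⟩
  have hne : Nonempty (Fin q) := ⟨⟨0, hq⟩⟩
  set N := ∑' g, ‖toFn e g‖ with hN
  have hN0 : 0 ≤ N := tsum_nonneg fun _ => norm_nonneg _
  have hη : 0 < 1 / (2 * (2 * N + 1)) := by (clear * -; positivity)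
  obtain ⟨ε, hε, c, hcw, hcs, hcc, hnear⟩ :=
    exists_decay_near L hL0 hL (toFn e) (toFn_summable he) (toFn_conv he) hη
  have hsmall : (∑' g, ‖c g - toFn e g‖) * (2 * (∑' g, ‖toFn e g‖) + 1) < 1 := by
    rw [← hN]
    have h1 : 0 < 2 * N + 1 := by linarith only [hN0]
    calc (∑' g, ‖c g - toFn e g‖) * (2 * N + 1)
        < 1 / (2 * (2 * N + 1)) * (2 * N + 1) := mul_lt_mul_of_pos_right hnear h1
      _ = 1 / 2 := by (clear * - hN0; field_simp)
      _ < 1 := by norm_num
  obtain ⟨U, V, hU, hV, hUV, hVU⟩ :=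
    sim_conv (toFn e) c (toFn_summable he) (toFn_conv he) hcs hcc hsmall
  refine ⟨ε, hε, Matrix.of fun i j => fun g => c g i j, Matrix.of fun i j => fun g => U g i j,
    Matrix.of fun i j => fun g => V g i j, isIdem_of_conv hcs hcc, fun i j => ?_, fun i j => ?_,
    fun i j => ?_, fun i j g => ?_, fun i j g => ?_⟩
  · refine Summable.of_nonneg_of_le (fun g => by (clear * -; positivity)) (fun g => ?_) hcw
    exact mul_le_mul_of_nonneg_right (norm_entry_le (c g) i j) (Real.exp_pos _).le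
  · exact Summable.of_nonneg_of_le (fun _ => norm_nonneg _) (fun g => norm_entry_le (U g) i j) hU
  · exact Summable.of_nonneg_of_le (fun _ => norm_nonneg _) (fun g => norm_entry_le (V g) i j) hV
  · exact entries_conv hU hV hUV i j g
  · exact entries_conv hV hU hVU i j g

end Mat

end Vale.Agent.P184

end
end

section

/-!
# The pairing with cyclic cocycles in inhomogeneous form
-/

noncomputable section

namespace Vale.Agent.P184

section Steps

variable {G : Type*} [Group G] (x : G)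

theorem stp_shf {m : ℕ} (p : Fin (m + 1) → G) (i : Fin (m + 1)) :
    stp x (shf x p) i = stp x p (finRotate (m + 1) i) := by
  refine Fin.lastCases ?_ (fun k => ?_) i
  · rw [stp_shf_last, finRotate_last]
  · rw [stp_shf_castSucc]
    congr 1
    apply Fin.ext
    rw [coe_finRotate_of_ne_last (Fin.castSucc_lt_last k).ne]
    simp

/-- deletion of a vertex other than the first one contracts two steps -/
theorem stp_del {m : ℕ} (p : Fin (m + 2) → G) (j : Fin (m + 1)) :
    stp x (fun i => p (j.succ.succAbove i)) = j.castSucc.contractNth (· * ·) (stp x p) := by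
  have h0 : p (j.succ.succAbove 0) = p 0 := by rw [Fin.succ_succAbove_zero]
  funext k
  rcases lt_trichotomy (k : ℕ) (j : ℕ) with h | h | h
  · rw [Fin.contractNth_apply_of_lt _ _ _ _ (by simpa using h)]
    have hk : k ≠ Fin.last m := by
      intro hk
      rw [hk] at h
      have := j.isLt
      simp at h
      omega
    obtain ⟨l, rfl⟩ := Fin.exists_castSucc_eq.2 hk
    rw [stp_castSucc, stp_castSucc, Fin.succAbove_of_castSucc_lt, Fin.succAbove_of_castSucc_lt]
    · rfl
    · simp only [Fin.val_castSucc, Fin.castSucc_succ, Fin.lt_def, Fin.val_succ, Order.lt_add_one_iff, Order.add_one_le_iff] at h ⊢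
      omega
    · simp [Fin.lt_def] at h ⊢
      omega
  · rw [Fin.contractNth_apply_of_eq _ _ _ _ (by simpa using h)]
    have hk : k = j := Fin.ext h
    subst hk
    have h1 : stp x p k.castSucc = (p k.castSucc)⁻¹ * p k.succ := stp_castSucc x p k
    rw [h1]
    refine Fin.lastCases ?_ (fun l => ?_) k
    · rw [stp_last, Fin.succ_last, stp_last]
      have h2 : (Fin.last (m + 1)).succAbove (Fin.last m) = (Fin.last m).castSucc :=
        Fin.succAbove_last_apply _
      have h3 : (Fin.last (m + 1)).succAbove (0 : Fin (m + 1)) = 0 := Fin.succAbove_last_apply _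
      rw [h2, h3]
      group
    · rw [stp_castSucc, Fin.succ_castSucc, stp_castSucc]
      rw [Fin.succAbove_of_castSucc_lt, Fin.succAbove_of_le_castSucc]
      · group
      · simp
      · simp [Fin.lt_def]
  · rw [Fin.contractNth_apply_of_gt _ _ _ _ (by simpa using h)]
    refine Fin.lastCases (motive := fun k => (j : ℕ) < k → stp x (fun i => p (j.succ.succAbove i)) k =
      stp x p k.succ) (fun h => ?_) (fun l h => ?_) k h
    · rw [stp_last, Fin.succ_last, stp_last, h0, Fin.succAbove_of_le_castSucc, Fin.succ_last]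
      simp only [Fin.val_last, Fin.le_def, Fin.val_succ, Fin.val_castSucc, Order.add_one_le_iff] at h ⊢
      omega
    · rw [stp_castSucc, Fin.succ_castSucc, stp_castSucc, Fin.succAbove_of_le_castSucc,
        Fin.succAbove_of_le_castSucc]
      · rfl
      · simp only [Fin.val_castSucc, Fin.castSucc_succ, Fin.le_def, Fin.val_succ, add_le_add_iff_right] at h ⊢
        omega
      · simp only [Fin.val_castSucc, Fin.le_def, Fin.val_succ, Order.add_one_le_iff] at h ⊢
        omega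

/-- deletion of the first vertex -/
theorem stp_del_zero {m : ℕ} (p : Fin (m + 2) → G) :
    stp x (fun i => p i.succ) = fun i => (Fin.cons (stp x p (Fin.last (m + 1)) * stp x p 0)
      (fun i : Fin m => stp x p i.castSucc.succ) : Fin (m + 1) → G) (finRotate (m + 1) i) := by
  funext k
  refine Fin.lastCases ?_ (fun l => ?_) k
  · rw [finRotate_last, Fin.cons_zero, stp_last, stp_last]
    have h1 : stp x p 0 = (p 0)⁻¹ * p 1 := by
      have := stp_castSucc x p 0
      simpa only [Fin.castSucc_zero, Fin.succ_zero_eq_one] using this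
    rw [h1, Fin.succ_last]
    have h2 : p (Fin.succ 0) = p 1 := rfl
    rw [h2]
    group
  · have h1 : finRotate (m + 1) l.castSucc = l.succ := by
      apply Fin.ext
      rw [coe_finRotate_of_ne_last (Fin.castSucc_lt_last l).ne]
      simp
    rw [h1, Fin.cons_succ, stp_castSucc, Fin.succ_castSucc, stp_castSucc]

end Steps

section Local

open Vale.Agent.P184.S (hob CyclicCocycle StrongAt)

variable {G : Type*} [Group G] {x : G}

theorem cob_cx {m : ℕ} {φ : (Fin (2 * m + 1) → G) → ℂ} (hφ : CyclicCocycle x m φ)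
    (p : Fin (2 * m + 2) → G) :
    ∑ j : Fin (2 * m + 2), (-1 : ℂ) ^ (j : ℕ) * φ (stp x fun i => p (j.succAbove i)) = 0 := by
  obtain ⟨_, h2, h3⟩ := hφ
  have h4 := h3 (stp x p)
  unfold hob at h4
  rw [Fin.sum_univ_succ]
  simp only [Fin.val_zero, pow_zero, one_mul, Fin.zero_succAbove, Fin.val_succ, stp_del,
    stp_del_zero, h2]
  have h5 : (-1 : ℂ) ^ (2 * m + 1) = -1 := by rw [pow_succ, pow_mul]; simp only [even_two, Even.neg_pow, one_pow, mul_neg, mul_one]
  rw [h5] at h4
  have h6 : ∑ j : Fin (2 * m + 1), (-1 : ℂ) ^ ((j : ℕ) + 1) *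
      φ (j.castSucc.contractNth (· * ·) (stp x p)) =
      - ∑ j : Fin (2 * m + 1), (-1 : ℂ) ^ (j : ℕ) *
        φ (j.castSucc.contractNth (· * ·) (stp x p)) := by
    rw [← Finset.sum_neg_distrib]
    refine Finset.sum_congr rfl fun j _ => ?_
    rw [pow_succ]
    ring
  rw [h6]
  linear_combination -h4

theorem neg_one_pow_mul_re (n : ℕ) (z : ℂ) : ((-1 : ℂ) ^ n * z).re = (-1 : ℝ) ^ n * z.re := by
  rcases Nat.even_or_odd n with h | h <;> simp [h.neg_one_pow]

theorem neg_one_pow_mul_im (n : ℕ) (z : ℂ) : ((-1 : ℂ) ^ n * z).im = (-1 : ℝ) ^ n * z.im := by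
  rcases Nat.even_or_odd n with h | h <;> simp [h.neg_one_pow]

theorem sum_stp_le {L : G → ℝ} (hL : IsLength L) {m : ℕ} (p : Fin (m + 1) → G) :
    ∑ i, L (stp x p i) ≤ (m + 1) * siz x L p := by
  have h1 : ∀ i j, L ((p i)⁻¹ * p j) + L ((p i)⁻¹ * x * p i) ≤ siz x L p := by
    intro i j
    have h2 : L ((p i)⁻¹ * p j) ≤ ∑ j, L ((p i)⁻¹ * p j) :=
      Finset.single_le_sum (f := fun j => L ((p i)⁻¹ * p j)) (fun _ _ => hL.nonneg _)
        (Finset.mem_univ j)
    have h3 : ∑ j, L ((p i)⁻¹ * p j) ≤ ∑ i, ∑ j, L ((p i)⁻¹ * p j) :=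
      Finset.single_le_sum (f := fun i => ∑ j, L ((p i)⁻¹ * p j))
        (fun _ _ => Finset.sum_nonneg fun _ _ => hL.nonneg _) (Finset.mem_univ i)
    have h4 : L ((p i)⁻¹ * x * p i) ≤ ∑ i, L ((p i)⁻¹ * x * p i) :=
      Finset.single_le_sum (f := fun i => L ((p i)⁻¹ * x * p i)) (fun _ _ => hL.nonneg _)
        (Finset.mem_univ i)
    unfold siz
    linarith only [h2, h3, h4]
  have h2 : ∀ i, L (stp x p i) ≤ siz x L p := by
    intro i
    refine Fin.lastCases ?_ (fun k => ?_) i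
    · rw [stp_last]
      have h3 : (p (Fin.last m))⁻¹ * (x * p 0) =
          ((p (Fin.last m))⁻¹ * x * p (Fin.last m)) * ((p (Fin.last m))⁻¹ * p 0) := by group
      rw [h3]
      refine (hL.2.2 _ _).trans ?_
      linarith only [h1 (Fin.last m) 0]
    · rw [stp_castSucc]
      have := hL.nonneg ((p k.castSucc)⁻¹ * x * p k.castSucc)
      linarith only [this, h1 k.castSucc k.succ]
  refine (Finset.sum_le_sum fun i _ => h2 i).trans (le_of_eq ?_)
  simp only [Finset.sum_const, Finset.card_univ, Fintype.card_fin, nsmul_eq_mul, Nat.cast_add, Nat.cast_one]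

/-- the homogeneous form of the real and imaginary parts -/
theorem good_part {D : Type*} [NormedRing D] [NormedAlgebra ℂ D] (A : DData G D) {m : ℕ}
    {φ : (Fin (m + 1) → G) → ℂ}
    (hφ : ∀ ε : ℝ, 0 < ε → ∃ C : ℝ, ∀ g, ‖φ g‖ ≤ C * Real.exp (ε * ∑ i, A.L (g i)))
    (r : ℂ → ℝ) (hr : ∀ z, |r z| ≤ ‖z‖) : A.Good fun p => r (φ (stp A.x p)) := by
  constructor
  · intro h hh p
    simp only
    have h1 : stp A.x (tra h p) = stp A.x p := funext fun i => stp_tra A.x hh p i
    rw [h1]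
  · intro ε hε
    have hk : (0 : ℝ) < m + 1 := by (clear * -; positivity)
    obtain ⟨C, hC⟩ := hφ (ε / (m + 1)) (div_pos hε hk)
    refine ⟨|C|, fun p => (hr _).trans ((hC _).trans ?_)⟩
    refine mul_le_mul (le_abs_self C) (Real.exp_le_exp.mpr ?_) (Real.exp_pos _).le (abs_nonneg C)
    calc ε / (m + 1) * ∑ i, A.L (stp A.x p i) ≤ ε / (m + 1) * ((m + 1) * siz A.x A.L p) :=
          mul_le_mul_of_nonneg_left (sum_stp_le A.hL p) (div_pos hε hk).le
      _ = ε * siz A.x A.L p := by (clear * - hε; field_simp)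

/-- every tuple with product conjugate to `x` is the tuple of steps of some orbit -/
theorem exists_stp {m : ℕ} (g : Fin (m + 1) → G) (h : IsConj x (List.ofFn g).prod) :
    ∃ p : Fin (m + 1) → G, stp x p = g := by
  obtain ⟨c, hc⟩ := isConj_iff.1 h
  -- partial products
  let P : ℕ → G := fun k => c⁻¹ * ((List.ofFn g).take k).prod
  have hP : ∀ k (hk : k < m + 1), P (k + 1) = P k * g ⟨k, hk⟩ := by
    intro k hk
    simp only [P]
    rw [List.prod_take_succ _ k (by simpa using hk), List.getElem_ofFn, mul_assoc]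
  refine ⟨fun i => P i, ?_⟩
  funext i
  refine Fin.lastCases ?_ (fun k => ?_) i
  · rw [stp_last]
    have h1 : P (m + 1) = P m * g (Fin.last m) := hP m (Nat.lt_succ_self m)
    have h2 : P (m + 1) = x * P 0 := by
      simp only [P]
      rw [List.take_of_length_le (by simp), List.take_zero, List.prod_nil, mul_one, ← hc]
      group
    simp only [Fin.val_last, Fin.val_zero]
    rw [← h2, h1]
    group
  · rw [stp_castSucc]
    simp only [Fin.val_castSucc, Fin.val_succ]
    rw [hP k (by omega)]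
    have h3 : (⟨(k : ℕ), by omega⟩ : Fin (m + 1)) = k.castSucc := rfl
    rw [h3]
    group

theorem exists_orb {m : ℕ} (g : Fin (m + 1) → G) (h : IsConj x (List.ofFn g).prod) :
    ∃ a : Orb x m, stp x (Orb.rep x a) = g := by
  obtain ⟨p, hp⟩ := exists_stp g h
  obtain ⟨c, hc, h1⟩ := rep_mk x p
  refine ⟨Quotient.mk (cset x m) p, ?_⟩
  rw [h1, ← hp]
  exact funext fun i => stp_tra x hc p i

/-- the pairing over the group in terms of the sum over the orbits -/
theorem hasSum_pair {D : Type*} [NormedRing D] [NormedAlgebra ℂ D] (A : DData G D) {m : ℕ}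
    {φ : (Fin (m + 1) → G) → ℂ} (hs : ∀ g, ¬ IsConj A.x (List.ofFn g).prod → φ g = 0)
    (hφ : ∀ ε : ℝ, 0 < ε → ∃ C : ℝ, ∀ g, ‖φ g‖ ≤ C * Real.exp (ε * ∑ i, A.L (g i))) :
    HasSum (fun g => φ g * A.tr (List.ofFn fun k => A.E (g k)).prod)
      (A.pr (fun p => (φ (stp A.x p)).re) + A.pr (fun p => (φ (stp A.x p)).im) * Complex.I) := by
  rw [← (stp_injective A.x).hasSum_iff]
  · have h1 := (good_part A hφ Complex.re Complex.abs_re_le_norm).summable.hasSum
    have h2 := (good_part A hφ Complex.im Complex.abs_im_le_norm).summable.hasSum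
    have h3 := h1.add (h2.mul_right Complex.I)
    refine (congrArg (fun f => HasSum f (A.pr (fun p => (φ (stp A.x p)).re) +
      A.pr (fun p => (φ (stp A.x p)).im) * Complex.I)) (funext fun a => ?_)).mpr h3
    simp only [Function.comp_apply]
    unfold wgt
    conv_lhs => rw [← Complex.re_add_im (φ (stp A.x (Orb.rep A.x a)))]
    ring
  · intro g hg
    rw [hs g, zero_mul]
    intro h
    obtain ⟨a, ha⟩ := exists_orb g h
    exact hg ⟨a, ha⟩

section Final

attribute [local instance] Matrix.linftyOpNormedRing Matrix.linftyOpNormedAlgebra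

omit [Group G] in
theorem toFn_decay {q : ℕ} {e : Matrix (Fin q) (Fin q) (G → ℂ)} {L : G → ℝ} {ε : ℝ}
    (he : ∀ i j, Summable fun g => ‖e i j g‖ * Real.exp (ε * L g)) :
    Summable fun g => ‖toFn e g‖ * Real.exp (ε * L g) := by
  refine Summable.of_nonneg_of_le (fun _ => by positivity) (fun g => ?_)
    (summable_sum fun i (_ : i ∈ Finset.univ) => summable_sum
      fun j (_ : j ∈ Finset.univ) => he i j)
  simp only [← Finset.sum_mul]
  exact mul_le_mul_of_nonneg_right (mat_norm_le (toFn e g)) (Real.exp_pos _).le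

/-- If a power of the periodicity operator annihilates the trace at `x`, then the cyclic cocycles
localised at `x` pair to zero with the idempotents. -/
theorem strongAt_of_cyc {L : G → ℝ} (hL : IsLength L) {n : ℕ} (hn : 0 < n)
    {ψ : (Fin (2 * n) → G) → ℝ} (hψ1 : CInv x ψ) (hψ2 : SubExp x L ψ) (hψ3 : CycAnti x ψ)
    (hψ4 : ∀ p, DData.cob ψ p = 1) : StrongAt L x := by
  intro m φ hφ hφg q e he hdec
  obtain ⟨ε, hε, hdec⟩ := hdec
  have he : IsIdem e := ⟨he.1, fun i j g => congrFun (congrFun (congrFun he.2 i) j) g⟩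
  let A : DData G (Matrix (Fin q) (Fin q) ℂ) :=
    { x := x
      tr := mtr q
      E := toFn e
      L := L
      eps := ε
      htr := mtr_comm q
      hE := toFn_conv he
      hL := hL
      heps := hε
      hdec := toFn_decay hdec }
  obtain ⟨k, rfl⟩ : ∃ k, n = k + 1 := ⟨n - 1, by omega⟩
  have hcyc := hφ.2.1
  have key : ∀ r : ℂ → ℝ, (∀ z, |r z| ≤ ‖z‖) → (∀ (n : ℕ) z, r ((-1 : ℂ) ^ n * z) =
      (-1 : ℝ) ^ n * r z) → (∀ z w, r (z + w) = r z + r w) →
      A.pr (fun p : Fin (2 * m + 1) → G => r (φ (stp x p))) = 0 := by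
    intro r hr1 hr2 hr3
    refine DData.pr_closed_zero (A := A) (k := k) (good_part A hφg r hr1) (fun p => ?_)
      (fun p => ?_) ⟨hψ1, hψ2⟩ (cycAnti_iff.1 hψ3) hψ4
    · have h1 : stp x (shf x p) = fun i => stp x p (finRotate (2 * m + 1) i) :=
        funext fun i => stp_shf x p i
      change r (φ (stp x (shf x p))) = r (φ (stp x p))
      rw [h1, hcyc]
    · have h1 := cob_cx hφ p
      unfold DData.cob
      have h2 : ∀ z w : ℂ, z = w → r z = r w := fun z w h => by rw [h]
      have h3 := h2 _ _ h1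
      have h0 : r 0 = 0 := by
        have := hr3 0 0
        rw [add_zero] at this
        linarith only [this]
      have h4 := map_sum (AddMonoidHom.mk' r hr3) (fun j : Fin (2 * m + 2) =>
        (-1 : ℂ) ^ (j : ℕ) * φ (stp x fun i => p (j.succAbove i))) Finset.univ
      simp only [AddMonoidHom.mk'_apply] at h4
      rw [h4, h0] at h3
      simp only [hr2] at h3
      exact h3
  have h1 := key Complex.re Complex.abs_re_le_norm neg_one_pow_mul_re Complex.add_re
  have h2 := key Complex.im Complex.abs_im_le_norm neg_one_pow_mul_im Complex.add_im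
  have h3 := hasSum_pair A hφ.1 hφg
  rw [h1, h2, zero_mul, add_zero] at h3
  exact h3

end Final

end Local

end Vale.Agent.P184

end
end
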